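import Crest.Agent.R186.HatA_827

/-!
Row 186 (helper515), FRAME of half (A): differential graded modules over `Hat827.DGA` (char two),
cells on both sides, tensor products with cells, acyclicity, quasi-isomorphisms.  Definitions.
-/

set_option autoImplicit false
set_option linter.style.haveILetI false
set_option linter.unusedSectionVars false
set_option linter.unusedSimpArgs false

open MulOpposite

namespace Crest.Agent.R186.Frame515

open Hat827 Hat827.DGA

variable {K : Type} [Field K]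

/-- graded complex: `d` lowers the degree by one; no directness, no boundedness -/
structure GC (K : Type) [Field K] where
  X : Type
  [grp : AddCommGroup X]
  [mod : Module K X]
  gr : ℤ → Submodule K X
  d : X →ₗ[K] X
  d_mem : ∀ {k : ℤ} {x : X}, x ∈ gr k → d x ∈ gr (k - 1)
  d_d : ∀ x : X, d (d x) = 0

attribute [instance] GC.grp GC.mod

/-- left dg module -/
structure LM (A : DGA K) extends GC K where
  [act : Module A.C X]
  [tower : IsScalarTower K A.C X]
  smul_mem : ∀ {k l : ℤ} {a : A.C} {x : X}, a ∈ A.G k → x ∈ gr l → a • x ∈ gr (k + l)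
  leib : ∀ (a : A.C) (x : X), d (a • x) = A.D a • x + a • d x

attribute [instance] LM.act LM.tower

/-- right dg module -/
structure RM (A : DGA K) extends GC K where
  [act : Module A.Cᵐᵒᵖ X]
  [tower : IsScalarTower K A.Cᵐᵒᵖ X]
  smul_mem : ∀ {k l : ℤ} {a : A.C} {x : X}, a ∈ A.G k → x ∈ gr l → op a • x ∈ gr (k + l)
  leib : ∀ (a : A.C) (x : X), d (op a • x) = op (A.D a) • x + op a • d x

attribute [instance] RM.act RM.tower

/-- dg bimodule: left over `A`, right over `B` -/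
structure BM (A B : DGA K) extends GC K where
  [actL : Module A.C X]
  [towerL : IsScalarTower K A.C X]
  [actR : Module B.Cᵐᵒᵖ X]
  [towerR : IsScalarTower K B.Cᵐᵒᵖ X]
  [comm : SMulCommClass A.C B.Cᵐᵒᵖ X]
  smul_mem : ∀ {k l : ℤ} {a : A.C} {x : X}, a ∈ A.G k → x ∈ gr l → a • x ∈ gr (k + l)
  leib : ∀ (a : A.C) (x : X), d (a • x) = A.D a • x + a • d x
  smul_memR : ∀ {k l : ℤ} {b : B.C} {x : X}, b ∈ B.G k → x ∈ gr l → op b • x ∈ gr (k + l)
  leibR : ∀ (b : B.C) (x : X), d (op b • x) = op (B.D b) • x + op b • d x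

attribute [instance] BM.actL BM.towerL BM.actR BM.towerR BM.comm

/-- underlying left module -/
abbrev BM.toLM {A B : DGA K} (P : BM A B) : LM A where
  toGC := P.toGC
  act := P.actL
  tower := P.towerL
  smul_mem := P.smul_mem
  leib := P.leib

/-- underlying right module -/
abbrev BM.toRM {A B : DGA K} (P : BM A B) : RM B where
  toGC := P.toGC
  act := P.actR
  tower := P.towerR
  smul_mem := P.smul_memR
  leib := P.leibR

/-- every homogeneous cycle is a boundary -/
def Ac (X : GC K) : Prop := ∀ (k : ℤ) (x : X.X), x ∈ X.gr k → X.d x = 0 → ∃ y ∈ X.gr (k + 1), X.d y = x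

/-- morphisms of graded complexes -/
structure GCHom (X Y : GC K) where
  f : X.X →ₗ[K] Y.X
  f_mem : ∀ {k : ℤ} {x : X.X}, x ∈ X.gr k → f x ∈ Y.gr k
  f_d : ∀ x : X.X, f (X.d x) = Y.d (f x)

/-- quasi-isomorphism, elementwise -/
structure QI {X Y : GC K} (φ : GCHom X Y) : Prop where
  surj : ∀ (k : ℤ) (y : Y.X), y ∈ Y.gr k → Y.d y = 0 →
    ∃ x ∈ X.gr k, X.d x = 0 ∧ ∃ z ∈ Y.gr (k + 1), y = φ.f x + Y.d z
  inj : ∀ (k : ℤ) (x : X.X), x ∈ X.gr k → X.d x = 0 → (∃ z ∈ Y.gr (k + 1), φ.f x = Y.d z) →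
    ∃ w ∈ X.gr (k + 1), x = X.d w

/-- a system of left cells -/
structure LCells (A : DGA K) where
  ι : Type
  s : ι → ℕ
  F : ℕ → Finset ι
  mem_F : ∀ m σ, σ ∈ F m ↔ s σ ≤ m
  e : ι → A.C
  e_mem : ∀ σ, e σ ∈ A.G 0
  e_idem : ∀ σ, e σ * e σ = e σ
  c : ι → ι → A.C
  c_mem : ∀ σ τ, c σ τ ∈ A.G ((s σ : ℤ) - s τ - 1)
  c_left : ∀ σ τ, e σ * c σ τ = c σ τ
  c_right : ∀ σ τ, c σ τ * e τ = c σ τ
  mc : ∀ σ τ, A.D (c σ τ) + ∑ ρ ∈ F (s σ), c σ ρ * c ρ τ = 0

/-- a system of right cells: `d (1_σ) = ∑ τ, 1_τ * c τ σ` -/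
structure RCells (A : DGA K) where
  ι : Type
  s : ι → ℕ
  F : ℕ → Finset ι
  mem_F : ∀ m σ, σ ∈ F m ↔ s σ ≤ m
  e : ι → A.C
  e_mem : ∀ σ, e σ ∈ A.G 0
  e_idem : ∀ σ, e σ * e σ = e σ
  c : ι → ι → A.C
  c_mem : ∀ τ σ, c τ σ ∈ A.G ((s σ : ℤ) - s τ - 1)
  c_left : ∀ τ σ, e τ * c τ σ = c τ σ
  c_right : ∀ τ σ, c τ σ * e σ = c τ σ
  mc : ∀ τ σ, A.D (c τ σ) + ∑ ρ ∈ F (s σ), c τ ρ * c ρ σ = 0

/-! ### twisted families over a complex -/

section fam

variable {ι X : Type} [AddCommGroup X] [Module K X]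

/-- `(m x) τ = ∑ σ, m σ τ (x σ)` for a matrix of endomorphisms with `m σ τ = 0` unless
`τ ∈ F (s σ)` -/
noncomputable def mat (s : ι → ℕ) (F : ℕ → Finset ι) (m : ι → ι → (X →ₗ[K] X)) :
    (ι →₀ X) →ₗ[K] (ι →₀ X) :=
  Finsupp.lsum K fun σ => ∑ τ ∈ F (s σ), (Finsupp.lsingle τ) ∘ₗ (m σ τ)

theorem mat_single (s : ι → ℕ) (F : ℕ → Finset ι) (m : ι → ι → (X →ₗ[K] X)) (σ : ι) (x : X) :
    mat s F m (Finsupp.single σ x) = ∑ τ ∈ F (s σ), Finsupp.single τ (m σ τ x) := by
  simp [mat, Finsupp.lsum_apply, LinearMap.sum_apply]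

theorem mat_apply (s : ι → ℕ) (F : ℕ → Finset ι) (m : ι → ι → (X →ₗ[K] X))
    (hm : ∀ σ τ, τ ∉ F (s σ) → m σ τ = 0) (x : ι →₀ X) (τ : ι) :
    mat s F m x τ = x.sum fun σ g => m σ τ g := by
  classical
  induction x using Finsupp.induction_linear with
  | zero => simp
  | add f g hf hg =>
    rw [map_add, Finsupp.add_apply, hf, hg, Finsupp.sum_add_index']
    · intro σ; exact map_zero _
    · intro σ a b; exact map_add _ _ _
  | single σ a =>
    rw [mat_single, Finsupp.sum_single_index (by simp), Finset.sum_apply']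
    simp only [Finsupp.single_apply]
    rw [Finset.sum_ite_eq']
    split_ifs with h
    · rfl
    · rw [hm σ τ h]; rfl


end fam

/-- twisting data over a graded complex `B`: index set, levels, idempotents `p`, matrix `m` -/
structure Tw (B : GC K) where
  ι : Type
  s : ι → ℕ
  F : ℕ → Finset ι
  mem_F : ∀ n σ, σ ∈ F n ↔ s σ ≤ n
  p : ι → (B.X →ₗ[K] B.X)
  m : ι → ι → (B.X →ₗ[K] B.X)
  p_mem : ∀ σ {k : ℤ} {x : B.X}, x ∈ B.gr k → p σ x ∈ B.gr k
  p_p : ∀ σ x, p σ (p σ x) = p σ x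
  p_d : ∀ σ x, p σ (B.d x) = B.d (p σ x)
  m_zero : ∀ σ τ, s σ ≤ s τ → m σ τ = 0
  m_mem : ∀ σ τ {k : ℤ} {x : B.X}, x ∈ B.gr k → m σ τ x ∈ B.gr (k + (s σ - s τ - 1))
  p_m : ∀ σ τ x, p τ (m σ τ x) = m σ τ x
  mc : ∀ σ τ x, B.d (m σ τ x) + m σ τ (B.d x) + ∑ ρ ∈ F (s σ), m ρ τ (m σ ρ x) = 0

namespace Tw

variable {B : GC K} (T : Tw B)

theorem notF {σ τ : T.ι} (h : τ ∉ T.F (T.s σ)) : T.m σ τ = 0 := by
  apply T.m_zero
  have := (not_congr (T.mem_F (T.s σ) τ)).1 h
  omega

/-- cellular part of the differential -/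
noncomputable def M : (T.ι →₀ B.X) →ₗ[K] (T.ι →₀ B.X) := mat T.s T.F T.m

/-- internal part of the differential -/
noncomputable def DI : (T.ι →₀ B.X) →ₗ[K] (T.ι →₀ B.X) := Finsupp.mapRange.linearMap B.d

/-- the differential -/
noncomputable def dd : (T.ι →₀ B.X) →ₗ[K] (T.ι →₀ B.X) := T.DI + T.M

theorem dd_apply (x : T.ι →₀ B.X) (τ : T.ι) :
    T.dd x τ = B.d (x τ) + x.sum fun σ g => T.m σ τ g := by
  rw [dd, LinearMap.add_apply, Finsupp.add_apply, M,
    mat_apply T.s T.F T.m (fun σ τ h => T.notF h)]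
  rfl

theorem dd_apply' (x : T.ι →₀ B.X) (S : Finset T.ι) (hS : x.support ⊆ S) (τ : T.ι) :
    T.dd x τ = B.d (x τ) + ∑ σ ∈ S, T.m σ τ (x σ) := by
  rw [dd_apply]
  congr 1
  exact Finsupp.sum_of_support_subset _ hS _ fun σ _ => map_zero _

theorem M_single (σ : T.ι) (x : B.X) :
    T.M (Finsupp.single σ x) = ∑ τ ∈ T.F (T.s σ), Finsupp.single τ (T.m σ τ x) :=
  mat_single _ _ _ _ _

theorem DI_single (σ : T.ι) (x : B.X) : T.DI (Finsupp.single σ x) = Finsupp.single σ (B.d x) := by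
  simp [DI]

theorem dd_single (σ : T.ι) (x : B.X) : T.dd (Finsupp.single σ x) =
    Finsupp.single σ (B.d x) + ∑ τ ∈ T.F (T.s σ), Finsupp.single τ (T.m σ τ x) := by
  rw [dd, LinearMap.add_apply, DI_single, M_single]

theorem dd_dd (x : T.ι →₀ B.X) : T.dd (T.dd x) = 0 := by
  classical
  suffices h : T.dd ∘ₗ T.dd = 0 from LinearMap.congr_fun h x
  refine Finsupp.lhom_ext fun σ x => ?_
  rw [LinearMap.comp_apply, LinearMap.zero_apply, dd_single, map_add, map_sum, dd_single, B.d_d,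
    Finsupp.single_zero, zero_add]
  simp only [dd_single]
  rw [Finset.sum_add_distrib, ← add_assoc]
  have h2 : ∑ ρ ∈ T.F (T.s σ), ∑ τ ∈ T.F (T.s ρ), Finsupp.single τ (T.m ρ τ (T.m σ ρ x)) =
      ∑ τ ∈ T.F (T.s σ), Finsupp.single τ (∑ ρ ∈ T.F (T.s σ), T.m ρ τ (T.m σ ρ x)) := by
    have h3 : ∀ ρ ∈ T.F (T.s σ), ∑ τ ∈ T.F (T.s ρ), Finsupp.single τ (T.m ρ τ (T.m σ ρ x)) =
        ∑ τ ∈ T.F (T.s σ), Finsupp.single τ (T.m ρ τ (T.m σ ρ x)) := by
      intro ρ hρ
      refine Finset.sum_subset (fun τ hτ => (T.mem_F _ _).2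
        (((T.mem_F _ _).1 hτ).trans ((T.mem_F _ _).1 hρ))) fun τ _ hτ => ?_
      rw [T.notF hτ, LinearMap.zero_apply, Finsupp.single_zero]
    rw [Finset.sum_congr rfl h3, Finset.sum_comm]
    refine Finset.sum_congr rfl fun τ _ => ?_
    exact (map_sum (Finsupp.singleAddHom τ) _ _).symm
  rw [h2, ← Finset.sum_add_distrib, ← Finset.sum_add_distrib]
  refine Finset.sum_eq_zero fun τ _ => ?_
  rw [← Finsupp.single_add, ← Finsupp.single_add]
  have := T.mc σ τ x
  rw [add_comm (B.d _)] at this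
  rw [this, Finsupp.single_zero]

/-- homogeneous families -/
def gr (k : ℤ) : Submodule K (T.ι →₀ B.X) where
  carrier := {x | ∀ σ, x σ ∈ B.gr (k - T.s σ) ∧ T.p σ (x σ) = x σ}
  zero_mem' := fun σ => ⟨Submodule.zero_mem _, by simp⟩
  add_mem' := by
    intro x y hx hy σ
    refine ⟨Submodule.add_mem _ (hx σ).1 (hy σ).1, ?_⟩
    rw [Finsupp.add_apply, map_add, (hx σ).2, (hy σ).2]
  smul_mem' := by
    intro r x hx σ
    refine ⟨Submodule.smul_mem _ r (hx σ).1, ?_⟩
    rw [Finsupp.smul_apply, map_smul, (hx σ).2]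

theorem mem_gr {k : ℤ} {x : T.ι →₀ B.X} :
    x ∈ T.gr k ↔ ∀ σ, x σ ∈ B.gr (k - T.s σ) ∧ T.p σ (x σ) = x σ := Iff.rfl

theorem dd_mem {k : ℤ} {x : T.ι →₀ B.X} (hx : x ∈ T.gr k) : T.dd x ∈ T.gr (k - 1) := by
  intro τ
  rw [T.dd_apply' x x.support (Finset.Subset.refl _)]
  constructor
  · refine Submodule.add_mem _ ?_ (Submodule.sum_mem _ fun σ _ => ?_)
    · have := B.d_mem (hx τ).1
      rwa [show k - (T.s τ : ℤ) - 1 = k - 1 - T.s τ by ring] at this
    · have := T.m_mem σ τ (hx σ).1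
      rwa [show k - (T.s σ : ℤ) + (T.s σ - T.s τ - 1) = k - 1 - T.s τ by ring] at this
  · rw [map_add, map_sum, T.p_d, (hx τ).2]
    congr 1
    exact Finset.sum_congr rfl fun σ _ => T.p_m σ τ _

/-- the twisted complex -/
noncomputable abbrev cx : GC K where
  X := T.ι →₀ B.X
  gr := T.gr
  d := T.dd
  d_mem := T.dd_mem
  d_d := T.dd_dd

/-- an acyclic complex tensored with cells is acyclic -/
theorem cx_ac (hB : Ac B) : Ac T.cx := by
  classical
  have key : ∀ (n : ℕ) (k : ℤ) (x : T.ι →₀ B.X), x ∈ T.gr k → T.dd x = 0 →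
      (∀ σ ∈ x.support, T.s σ < n) → ∃ y ∈ T.gr (k + 1), T.dd y = x := by
    intro n
    induction n with
    | zero =>
      intro k x _ _ hs
      have hx : x = 0 := by
        rw [← Finsupp.support_eq_empty]
        exact Finset.eq_empty_of_forall_notMem fun σ hσ => absurd (hs σ hσ) (by omega)
      exact ⟨0, Submodule.zero_mem _, by rw [hx, map_zero]⟩
    | succ n ih =>
      intro k x hx hd hs
      -- top components are cycles
      have htop : ∀ σ, T.s σ = n → B.d (x σ) = 0 := by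
        intro σ hσ
        have h := DFunLike.congr_fun hd σ
        rw [T.dd_apply' x x.support (Finset.Subset.refl _), Finset.sum_eq_zero, add_zero] at h
        · exact h
        · intro ρ hρ
          rw [T.m_zero ρ σ (by have := hs ρ hρ; omega), LinearMap.zero_apply]
      have hy : ∀ σ, T.s σ = n → ∃ y, y ∈ B.gr (k + 1 - T.s σ) ∧ T.p σ y = y ∧ B.d y = x σ := by
        intro σ hσ
        obtain ⟨y, hy1, hy2⟩ := hB _ (x σ) (hx σ).1 (htop σ hσ)
        refine ⟨T.p σ y, ?_, T.p_p σ y, ?_⟩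
        · have := T.p_mem σ hy1
          rwa [show k - (T.s σ : ℤ) + 1 = k + 1 - T.s σ by ring] at this
        · rw [← T.p_d, hy2, (hx σ).2]
      let S := x.support.filter fun σ => T.s σ = n
      let g : T.ι → B.X := fun σ => if h : σ ∈ S then
        Classical.choose (hy σ (Finset.mem_filter.1 h).2) else 0
      have hg : ∀ σ (h : σ ∈ S), g σ ∈ B.gr (k + 1 - T.s σ) ∧ T.p σ (g σ) = g σ ∧
          B.d (g σ) = x σ := by
        intro σ h
        have := Classical.choose_spec (hy σ (Finset.mem_filter.1 h).2)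
        simp only [g, dif_pos h]
        exact this
      have hg0 : ∀ σ, σ ∉ S → g σ = 0 := fun σ h => by simp only [g, dif_neg h]
      let z : T.ι →₀ B.X := Finsupp.onFinset S g fun σ h => by
        by_contra hc
        exact h (hg0 σ hc)
      have hz : ∀ σ, z σ = g σ := fun σ => rfl
      have hzg : z ∈ T.gr (k + 1) := by
        intro σ
        rw [hz]
        by_cases h : σ ∈ S
        · exact ⟨(hg σ h).1, (hg σ h).2.1⟩
        · rw [hg0 σ h]; exact ⟨Submodule.zero_mem _, map_zero _⟩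
      have hzs : z.support ⊆ S := Finsupp.support_onFinset_subset
      have hx' : x - T.dd z ∈ T.gr k := by
        have := T.dd_mem hzg
        rw [add_sub_cancel_right] at this
        exact Submodule.sub_mem _ hx this
      have hd' : T.dd (x - T.dd z) = 0 := by rw [map_sub, hd, T.dd_dd, sub_zero]
      have hs' : ∀ σ ∈ (x - T.dd z).support, T.s σ < n := by
        intro σ hσ
        by_contra hc
        rw [Finsupp.mem_support_iff] at hσ
        apply hσ
        rw [Finsupp.sub_apply, T.dd_apply' z S hzs]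
        have hsum : ∑ ρ ∈ S, T.m ρ σ (z ρ) = 0 := by
          refine Finset.sum_eq_zero fun ρ hρ => ?_
          rw [T.m_zero ρ σ (by have := (Finset.mem_filter.1 hρ).2; omega), LinearMap.zero_apply]
        rw [hsum, add_zero, hz]
        by_cases h : σ ∈ S
        · rw [(hg σ h).2.2, sub_self]
        · have hxσ : x σ = 0 := by
            by_contra hne
            have h1 := hs σ (Finsupp.mem_support_iff.2 hne)
            exact h (Finset.mem_filter.2 ⟨Finsupp.mem_support_iff.2 hne, by omega⟩)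
          rw [hg0 σ h, hxσ, map_zero, sub_zero]
      obtain ⟨y, hy1, hy2⟩ := ih k (x - T.dd z) hx' hd' hs'
      refine ⟨y + z, Submodule.add_mem _ hy1 hzg, ?_⟩
      rw [map_add, hy2, sub_add_cancel]
  intro k x hx hd
  exact key (x.support.sup T.s + 1) k x hx hd fun σ hσ =>
    Nat.lt_succ_of_le (Finset.le_sup (f := T.s) hσ)

end Tw

/-! ### left and right multiplication -/

section mul

variable {A : DGA K}

/-- right multiplication -/
def rmul (G : RM A) (a : A.C) : G.X →ₗ[K] G.X where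
  toFun x := op a • x
  map_add' := smul_add _
  map_smul' r x := by
    have h : ∀ y : G.X, r • y = (r • (1 : A.Cᵐᵒᵖ)) • y := fun y => by rw [smul_assoc, one_smul]
    simp only [RingHom.id_apply]
    rw [h x, h (op a • x), smul_smul, smul_smul]
    congr 1
    rw [mul_smul_comm, smul_mul_assoc, one_mul, mul_one]

theorem rmul_apply (G : RM A) (a : A.C) (x : G.X) : rmul G a x = op a • x := rfl

/-- left multiplication -/
def lmul (N : LM A) (a : A.C) : N.X →ₗ[K] N.X where
  toFun x := a • x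
  map_add' := smul_add _
  map_smul' r x := by
    have h : ∀ y : N.X, r • y = (r • (1 : A.C)) • y := fun y => by rw [smul_assoc, one_smul]
    simp only [RingHom.id_apply]
    rw [h x, h (a • x), smul_smul, smul_smul]
    congr 1
    rw [mul_smul_comm, smul_mul_assoc, one_mul, mul_one]

theorem lmul_apply (N : LM A) (a : A.C) (x : N.X) : lmul N a x = a • x := rfl

theorem LCells.c_zero {X : LCells A} {σ τ : X.ι} (h : X.s σ ≤ X.s τ) : X.c σ τ = 0 :=
  neg (X.c_mem σ τ) (by omega)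

theorem LCells.De {X : LCells A} (σ : X.ι) : A.D (X.e σ) = 0 := D_neg (X.e_mem σ) (by omega)

theorem RCells.c_zero {X : RCells A} {σ τ : X.ι} (h : X.s σ ≤ X.s τ) : X.c τ σ = 0 :=
  neg (X.c_mem τ σ) (by omega)

theorem RCells.De {X : RCells A} (σ : X.ι) : A.D (X.e σ) = 0 := D_neg (X.e_mem σ) (by omega)

/-- twisting data of `G ⊗ X` -/
noncomputable abbrev twG (G : RM A) (X : LCells A) : Tw G.toGC where
  ι := X.ι
  s := X.s
  F := X.F
  mem_F := X.mem_F
  p σ := rmul G (X.e σ)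
  m σ τ := rmul G (X.c σ τ)
  p_mem σ k x hx := by
    have := G.smul_mem (X.e_mem σ) hx
    rwa [zero_add] at this
  p_p σ x := by rw [rmul_apply, rmul_apply, smul_smul, ← op_mul, X.e_idem]
  p_d σ x := by rw [rmul_apply, rmul_apply, G.leib, LCells.De, op_zero, zero_smul, zero_add]
  m_zero σ τ h := by
    rw [LCells.c_zero h]
    ext x
    rw [rmul_apply, op_zero, zero_smul]; rfl
  m_mem σ τ k x hx := by
    have := G.smul_mem (X.c_mem σ τ) hx
    rwa [add_comm] at this
  p_m σ τ x := by rw [rmul_apply, rmul_apply, smul_smul, ← op_mul, X.c_right]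
  mc σ τ x := by
    simp only [rmul_apply]
    rw [G.leib, add_assoc (op (A.D (X.c σ τ)) • x), ← add_assoc, add_assoc (op (A.D (X.c σ τ)) • x)]
    have h2 : ∀ y : G.X, y + y = 0 := fun y => by
      have : y = op (1 : A.C) • y := by rw [op_one, one_smul]
      rw [this, ← add_smul, ← op_add, A.two, op_zero, zero_smul]
    rw [h2, add_zero]
    have h := X.mc σ τ
    have h3 := congrArg (fun a => op a • x) h
    have h4 : op (∑ ρ ∈ X.F (X.s σ), X.c σ ρ * X.c ρ τ) • x =
        ∑ ρ ∈ X.F (X.s σ), op (X.c ρ τ) • op (X.c σ ρ) • x := by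
      have := map_sum (opAddEquiv (α := A.C)) (fun ρ => X.c σ ρ * X.c ρ τ) (X.F (X.s σ))
      rw [show op (∑ ρ ∈ X.F (X.s σ), X.c σ ρ * X.c ρ τ) = _ from this, Finset.sum_smul]
      refine Finset.sum_congr rfl fun ρ _ => ?_
      rw [smul_smul, ← op_mul]
      rfl
    simp only [op_add, op_zero, zero_smul, add_smul] at h3
    rw [h4] at h3
    exact h3

/-- twisting data of `Y ⊗ N` -/
noncomputable abbrev twY (Y : RCells A) (N : LM A) : Tw N.toGC where
  ι := Y.ι
  s := Y.s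
  F := Y.F
  mem_F := Y.mem_F
  p σ := lmul N (Y.e σ)
  m σ τ := lmul N (Y.c τ σ)
  p_mem σ k x hx := by
    have := N.smul_mem (Y.e_mem σ) hx
    rwa [zero_add] at this
  p_p σ x := by rw [lmul_apply, lmul_apply, smul_smul, Y.e_idem]
  p_d σ x := by rw [lmul_apply, lmul_apply, N.leib, RCells.De, zero_smul, zero_add]
  m_zero σ τ h := by
    rw [RCells.c_zero h]
    ext x
    rw [lmul_apply, zero_smul]; rfl
  m_mem σ τ k x hx := by
    have := N.smul_mem (Y.c_mem τ σ) hx
    rwa [add_comm] at this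
  p_m σ τ x := by rw [lmul_apply, lmul_apply, smul_smul, Y.c_left]
  mc σ τ x := by
    simp only [lmul_apply]
    rw [N.leib, add_assoc (A.D (Y.c τ σ) • x), ← add_assoc, add_assoc (A.D (Y.c τ σ) • x)]
    have h2 : ∀ y : N.X, y + y = 0 := fun y => by
      have : y = (1 : A.C) • y := by rw [one_smul]
      rw [this, ← add_smul, A.two, zero_smul]
    rw [h2, add_zero]
    have h := Y.mc τ σ
    have h3 := congrArg (fun a => a • x) h
    simp only [zero_smul, add_smul, Finset.sum_smul] at h3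
    rw [← h3]
    congr 1
    refine Finset.sum_congr rfl fun ρ _ => ?_
    rw [smul_smul]

/-- `G ⊗ X` -/
noncomputable abbrev tG (G : RM A) (X : LCells A) : GC K := (twG G X).cx

/-- `Y ⊗ N` -/
noncomputable abbrev tY (Y : RCells A) (N : LM A) : GC K := (twY Y N).cx



end mul

end Crest.Agent.R186.Frame515
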