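import Crest.Agent.R186.SemiFree_515
import Crest.Agent.R186.Frame_515

-- ▼ part R186/PreDG_84
section

/-!
Row 186 (helper84): existence of semi-free cell resolutions for **every** bounded below, locally
finite dg module over a strict dg algebra (extension of helper515's `exists_pre`).
-/

set_option autoImplicit false
set_option linter.style.haveILetI false
set_option linter.unusedSectionVars false
set_option linter.unusedSimpArgs false

namespace Crest.Agent.R186.PreDG84

open Hat827 Hat827.DGA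

variable {K : Type} [Field K]

/-- a bounded below, locally finite left dg module -/
structure DGM (A : DGA K) (N : Type) [AddCommGroup N] [Module K N] [Module A.C N] where
  gr : ℤ → Submodule K N
  d : N →ₗ[K] N
  lo : ℤ
  lo_bot : ∀ k : ℤ, k < lo → gr k = ⊥
  fin : ∀ k : ℤ, Module.Finite K (gr k)
  smul_mem : ∀ {k l : ℤ} {a : A.C} {x : N}, a ∈ A.G k → x ∈ gr l → a • x ∈ gr (k + l)
  d_mem : ∀ {k : ℤ} {x : N}, x ∈ gr k → d x ∈ gr (k - 1)
  leib : ∀ (a : A.C) (x : N), d (a • x) = A.D a • x + a • d x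
  d_d : ∀ x : N, d (d x) = 0

/-- a semi-free resolution of a dg module by cells; the cell `σ` has degree `lo + s σ` -/
structure PreDG (A : DGA K) (N : Type) [AddCommGroup N] [Module K N] [Module A.C N]
    (M : DGM A N) where
  ι : Type
  s : ι → ℕ
  F : ℕ → Finset ι
  mem_F : ∀ m σ, σ ∈ F m ↔ s σ ≤ m
  c : ι → ι → A.C
  c_mem : ∀ σ τ, c σ τ ∈ A.G ((s σ : ℤ) - s τ - 1)
  mc : ∀ σ τ, A.D (c σ τ) + ∑ ρ ∈ F (s σ), c σ ρ * c ρ τ = 0
  v : ι → N
  v_mem : ∀ σ, v σ ∈ M.gr (M.lo + s σ)
  v_d : ∀ σ, M.d (v σ) = ∑ τ ∈ F (s σ), c σ τ • v τ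
  ex : ∀ (m : ℕ) (x : ι → A.C) (n : N), (∀ σ, x σ ∈ A.G ((m : ℤ) - 1 - s σ)) →
    n ∈ M.gr (M.lo + m) → (∀ τ, A.D (x τ) + ∑ σ ∈ F m, x σ * c σ τ = 0) →
    ∑ σ ∈ F m, x σ • v σ + M.d n = 0 →
    ∃ y : ι → A.C, (∀ σ, y σ ∈ A.G ((m : ℤ) - s σ)) ∧
      (∀ τ, x τ = A.D (y τ) + ∑ σ ∈ F m, y σ * c σ τ) ∧ n = ∑ σ ∈ F m, y σ • v σ

section constr

variable {A : DGA K} {N : Type} [AddCommGroup N] [Module K N] [Module A.C N]
  [IsScalarTower K A.C N] (M : DGM A N)

/-- number of cells of level smaller than `m` -/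
noncomputable def S : ℕ → ℕ
  | 0 => 0
  | m + 1 => S m + (S m * Module.finrank K A.C + Module.finrank K (M.gr (M.lo + (m : ℕ))))

/-- number of cells of level `m` -/
noncomputable def Nn (m : ℕ) : ℕ :=
  S M m * Module.finrank K A.C + Module.finrank K (M.gr (M.lo + (m : ℕ)))

/-- the cells -/
abbrev I : Type := Σ m : ℕ, Fin (Nn M m)

/-- cells of level smaller than `m` -/
noncomputable def FL (m : ℕ) : Finset (I M) := (Finset.range m).sigma fun _ => Finset.univ

variable {M}

theorem mem_FL (m : ℕ) (σ : I M) : σ ∈ FL M m ↔ σ.1 < m := by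
  simp [FL]

theorem S_eq (m : ℕ) : S M m = ∑ j ∈ Finset.range m, Nn M j := by
  induction m with
  | zero => simp [S]
  | succ m ih => rw [Finset.sum_range_succ, ← ih]; rfl

theorem card_FL (m : ℕ) : (FL M m).card = S M m := by
  rw [FL, Finset.card_sigma]
  simp only [Finset.card_univ, Fintype.card_fin]
  rw [S_eq]

variable (M)

/-- cycles of the cone of degree `lo + m` -/
noncomputable def Z (m : ℕ) (w : I M → (I M → A.C) × N) : Submodule K ((I M → A.C) × N) where
  carrier := {p | (∀ σ, p.1 σ ∈ A.G ((m : ℤ) - 1 - σ.1)) ∧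
    (∀ τ, A.D (p.1 τ) + ∑ σ ∈ FL M m, p.1 σ * (w σ).1 τ = 0) ∧
    p.2 ∈ M.gr (M.lo + m) ∧ ∑ σ ∈ FL M m, p.1 σ • (w σ).2 + M.d p.2 = 0}
  zero_mem' := by
    refine ⟨fun σ => Submodule.zero_mem _, fun τ => ?_, Submodule.zero_mem _, ?_⟩
    · simp
    · simp
  add_mem' := by
    rintro x y ⟨hx1, hx2, hx3, hx4⟩ ⟨hy1, hy2, hy3, hy4⟩
    refine ⟨fun σ => Submodule.add_mem _ (hx1 σ) (hy1 σ), fun τ => ?_,
      Submodule.add_mem _ hx3 hy3, ?_⟩
    · have := congrArg₂ (· + ·) (hx2 τ) (hy2 τ)
      simp only [add_zero] at this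
      rw [← this]
      simp only [Prod.fst_add, Pi.add_apply, map_add, add_mul, Finset.sum_add_distrib]
      abel
    · have := congrArg₂ (· + ·) hx4 hy4
      simp only [add_zero] at this
      rw [← this]
      simp only [Prod.fst_add, Prod.snd_add, Pi.add_apply, map_add, add_smul,
        Finset.sum_add_distrib]
      abel
  smul_mem' := by
    rintro a x ⟨hx1, hx2, hx3, hx4⟩
    refine ⟨fun σ => Submodule.smul_mem _ a (hx1 σ), fun τ => ?_,
      Submodule.smul_mem _ a hx3, ?_⟩
    · simp only [Prod.smul_fst, Pi.smul_apply, map_smul, smul_mul_assoc, ← Finset.smul_sum,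
        ← smul_add]
      rw [hx2 τ, smul_zero]
    · simp only [Prod.smul_fst, Prod.smul_snd, Pi.smul_apply, map_smul, smul_assoc,
        ← Finset.smul_sum, ← smul_add]
      rw [hx4, smul_zero]

variable {M}

theorem Z_zero {m : ℕ} {w : I M → (I M → A.C) × N} {x : (I M → A.C) × N} (hx : x ∈ Z M m w)
    {σ : I M} (hσ : m ≤ σ.1) : x.1 σ = 0 :=
  neg (hx.1 σ) (by omega)

/-- restriction to the cells of level smaller than `m` -/
noncomputable def res (m : ℕ) (w : I M → (I M → A.C) × N) :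
    Z M m w →ₗ[K] ((FL M m → A.C) × (M.gr (M.lo + (m : ℕ)))) where
  toFun x := (fun σ => x.1.1 σ.1, ⟨x.1.2, x.2.2.2.1⟩)
  map_add' _ _ := rfl
  map_smul' _ _ := rfl

theorem res_inj (m : ℕ) (w : I M → (I M → A.C) × N) : Function.Injective (res m w) := by
  intro x y hxy
  apply Subtype.ext
  apply Prod.ext
  · funext σ
    by_cases hσ : σ.1 < m
    · exact congrFun (congrArg Prod.fst hxy) ⟨σ, (mem_FL m σ).2 hσ⟩
    · rw [Z_zero x.2 (by omega), Z_zero y.2 (by omega)]
  · exact congrArg Subtype.val (congrArg Prod.snd hxy)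

theorem fin_Z (m : ℕ) (w : I M → (I M → A.C) × N) : Module.Finite K (Z M m w) := by
  haveI := M.fin (M.lo + (m : ℕ))
  exact Module.Finite.of_injective (res m w) (res_inj m w)

theorem finrank_Z (m : ℕ) (w : I M → (I M → A.C) × N) :
    Module.finrank K (Z M m w) ≤ Nn M m := by
  haveI := M.fin (M.lo + (m : ℕ))
  refine (LinearMap.finrank_le_finrank_of_injective (res_inj m w)).trans ?_
  rw [Module.finrank_prod, Module.finrank_pi_fintype]
  simp only [Finset.sum_const, Finset.card_univ, Fintype.card_coe, smul_eq_mul]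
  rw [card_FL]
  exact le_rfl

theorem exists_fam_Z (m : ℕ) (w : I M → (I M → A.C) × N) :
    ∃ f : Fin (Nn M m) → ((I M → A.C) × N), (∀ i, f i ∈ Z M m w) ∧
      ∀ x ∈ Z M m w, ∃ a : Fin (Nn M m) → K, x = ∑ i, a i • f i := by
  haveI := fin_Z m w
  obtain ⟨f, hf⟩ := SemiFree515.exists_fam (K := K) (finrank_Z m w)
  refine ⟨fun i => (f i).1, fun i => (f i).2, fun x hx => ?_⟩
  obtain ⟨a, ha⟩ := hf ⟨x, hx⟩
  refine ⟨a, ?_⟩
  have := congrArg Subtype.val ha
  simpa using this

variable (M)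

/-- the chosen spanning family of the cycles -/
noncomputable def fam (m : ℕ) (w : I M → (I M → A.C) × N) : Fin (Nn M m) → ((I M → A.C) × N) :=
  Classical.choose (exists_fam_Z m w)

variable {M}

theorem fam_mem (m : ℕ) (w : I M → (I M → A.C) × N) (i) : fam M m w i ∈ Z M m w :=
  (Classical.choose_spec (exists_fam_Z m w)).1 i

theorem fam_span (m : ℕ) (w : I M → (I M → A.C) × N) : ∀ x ∈ Z M m w,
    ∃ a : Fin (Nn M m) → K, x = ∑ i, a i • fam M m w i :=
  (Classical.choose_spec (exists_fam_Z m w)).2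

variable (M)

/-- the structure constants of the cells of level smaller than `m` -/
noncomputable def cc : ℕ → I M → (I M → A.C) × N
  | 0 => fun _ => 0
  | m + 1 => fun σ => if h : σ.1 = m then fam M m (cc m) (h ▸ σ.2) else cc m σ

variable {M}

theorem cc_self (m : ℕ) (i : Fin (Nn M m)) : cc M (m + 1) ⟨m, i⟩ = fam M m (cc M m) i := by
  simp [cc]

theorem cc_ne (m : ℕ) {σ : I M} (h : σ.1 ≠ m) : cc M (m + 1) σ = cc M m σ := by
  simp [cc, h]

theorem cc_stable {σ : I M} : ∀ m, σ.1 < m → cc M m σ = cc M (σ.1 + 1) σ := by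
  intro m
  induction m with
  | zero => intro h; omega
  | succ m ih =>
    intro h
    by_cases h' : σ.1 = m
    · rw [h']
    · rw [cc_ne m h', ih (by omega)]

variable (M)

/-- the structure constants -/
noncomputable def ct (σ : I M) : (I M → A.C) × N := cc M (σ.1 + 1) σ

variable {M}

theorem Z_congr (m : ℕ) : Z M m (cc M m) = Z M m (ct M) := by
  ext x
  have h : ∀ τ, ∑ σ ∈ FL M m, x.1 σ * (cc M m σ).1 τ = ∑ σ ∈ FL M m, x.1 σ * (ct M σ).1 τ := by
    intro τ
    refine Finset.sum_congr rfl fun σ hσ => ?_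
    rw [cc_stable m ((mem_FL m σ).1 hσ)]
    rfl
  have h' : ∑ σ ∈ FL M m, x.1 σ • (cc M m σ).2 = ∑ σ ∈ FL M m, x.1 σ • (ct M σ).2 := by
    refine Finset.sum_congr rfl fun σ hσ => ?_
    rw [cc_stable m ((mem_FL m σ).1 hσ)]
    rfl
  constructor
  · rintro ⟨h1, h2, h3, h4⟩
    exact ⟨h1, fun τ => by rw [← h τ]; exact h2 τ, h3, by rw [← h']; exact h4⟩
  · rintro ⟨h1, h2, h3, h4⟩
    exact ⟨h1, fun τ => by rw [h τ]; exact h2 τ, h3, by rw [h']; exact h4⟩

theorem ct_self (m : ℕ) (i : Fin (Nn M m)) : ct M ⟨m, i⟩ = fam M m (cc M m) i := cc_self m i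

theorem ct_row (m : ℕ) (i : Fin (Nn M m)) : ct M ⟨m, i⟩ ∈ Z M m (ct M) := by
  rw [ct_self, ← Z_congr]
  exact fam_mem _ _ _

theorem ct_row' (σ : I M) : ct M σ ∈ Z M σ.1 (ct M) := ct_row σ.1 σ.2

theorem ct_span (m : ℕ) {x : (I M → A.C) × N} (hx : x ∈ Z M m (ct M)) :
    ∃ a : Fin (Nn M m) → K, x = ∑ i, a i • ct M ⟨m, i⟩ := by
  rw [← Z_congr] at hx
  obtain ⟨a, ha⟩ := fam_span m _ x hx
  exact ⟨a, by simpa only [ct_self] using ha⟩

theorem ct_mem (σ τ : I M) : (ct M σ).1 τ ∈ A.G ((σ.1 : ℤ) - τ.1 - 1) := by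
  have := (ct_row' σ).1 τ
  rwa [show ((σ.1 : ℤ) - 1 - τ.1) = (σ.1 : ℤ) - τ.1 - 1 by ring] at this

theorem ct_small {σ τ : I M} (h : σ.1 ≤ τ.1) : (ct M σ).1 τ = 0 :=
  neg (ct_mem σ τ) (by omega)

/-- sums over the cells of level at most `m` of a family vanishing at level `≥ m` -/
theorem sum_FL {m : ℕ} {W : Type} [AddCommMonoid W] (f : I M → W)
    (hf : ∀ σ, m ≤ σ.1 → f σ = 0) : ∑ σ ∈ FL M (m + 1), f σ = ∑ σ ∈ FL M m, f σ := by
  symm
  refine Finset.sum_subset (fun σ hσ => (mem_FL _ _).2 (((mem_FL _ _).1 hσ).trans (by omega)))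
    fun ρ _ hρ => hf ρ ?_
  have := (not_congr (mem_FL m ρ)).1 hρ
  omega

/-- coefficients at the cells of level `n` -/
noncomputable def at_ (n : ℕ) (a : Fin (Nn M n) → K) : I M → A.C :=
  fun σ => if h : σ.1 = n then algebraMap K A.C (a (h ▸ σ.2)) else 0

theorem at_self (n : ℕ) (a : Fin (Nn M n) → K) (i : Fin (Nn M n)) :
    at_ (M := M) n a ⟨n, i⟩ = algebraMap K A.C (a i) := by simp [at_]

theorem at_ne {n : ℕ} (a : Fin (Nn M n) → K) {σ : I M} (h : σ.1 ≠ n) :
    at_ n a σ = 0 := by simp [at_, h]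

theorem sum_at (n : ℕ) {W : Type} [AddCommMonoid W] (f : I M → W)
    (hf : ∀ σ, σ.1 ≠ n → f σ = 0) : ∑ σ ∈ FL M (n + 1), f σ = ∑ i : Fin (Nn M n), f ⟨n, i⟩ := by
  rw [FL, Finset.sum_sigma]
  rw [Finset.sum_eq_single n]
  · intro j _ hj
    exact Finset.sum_eq_zero fun i _ => hf ⟨j, i⟩ hj
  · intro h
    exact absurd (Finset.mem_range.2 (by omega)) h

theorem at_mem (n : ℕ) (a : Fin (Nn M n) → K) (σ : I M) :
    at_ n a σ ∈ A.G ((n : ℤ) - σ.1) := by
  by_cases h : σ.1 = n
  · subst h
    have e : ((σ.1 : ℤ) - σ.1) = 0 := by ring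
    rw [e]
    obtain ⟨m, i⟩ := σ
    rw [at_self, Algebra.algebraMap_eq_smul_one]
    exact Submodule.smul_mem _ _ A.one_mem
  · rw [at_ne a h]; exact Submodule.zero_mem _

theorem D_at (n : ℕ) (a : Fin (Nn M n) → K) (σ : I M) : A.D (at_ n a σ) = 0 := by
  by_cases h : σ.1 = n
  · subst h
    obtain ⟨m, i⟩ := σ
    rw [at_self, Algebra.algebraMap_eq_smul_one, map_smul, D_one, smul_zero]
  · rw [at_ne a h, map_zero]

theorem two_N (A : DGA K) {N : Type} [AddCommGroup N] [Module A.C N] (x : N) : x + x = 0 := by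
  have h := congrArg (fun a : A.C => a • x) (A.two 1)
  simpa [add_smul] using h

variable (M)

/-- the abstract resolution -/
noncomputable def pre : PreDG A N M where
  ι := I M
  s := Sigma.fst
  F := fun m => FL M (m + 1)
  mem_F := fun m σ => by rw [mem_FL]; omega
  c := fun σ => (ct M σ).1
  c_mem := ct_mem
  mc := by
    intro σ τ
    have h := (ct_row' σ).2.1 τ
    rw [sum_FL]
    · exact h
    · intro ρ hρ
      rw [ct_small hρ, zero_mul]
  v := fun σ => (ct M σ).2
  v_mem := fun σ => (ct_row' σ).2.2.1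
  v_d := by
    intro σ
    have h := (ct_row' σ).2.2.2
    rw [sum_FL]
    · have h2 := two_N A (M.d (ct M σ).2)
      have := congrArg (· + M.d (ct M σ).2) h
      simp only [zero_add] at this
      rw [add_assoc, h2, add_zero] at this
      exact this.symm
    · intro ρ hρ
      rw [ct_small hρ, zero_smul]
  ex := by
    intro m x n h1 h2 h3 h4
    have h0 : ∀ σ : I M, m ≤ σ.1 → x σ = 0 := fun σ hσ => neg (h1 σ) (by omega)
    have hx : (x, n) ∈ Z M m (ct M) := by
      refine ⟨h1, fun τ => ?_, h2, ?_⟩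
      · have := h3 τ
        rwa [sum_FL _ (fun σ hσ => by rw [h0 σ hσ, zero_mul])] at this
      · rwa [sum_FL _ (fun σ hσ => by rw [h0 σ hσ, zero_smul])] at h4
    obtain ⟨a, ha⟩ := ct_span m hx
    refine ⟨at_ m a, at_mem m a, fun τ => ?_, ?_⟩
    · rw [D_at, zero_add, sum_at m]
      · have := congrFun (congrArg Prod.fst ha) τ
        simp only [Prod.fst_sum, Finset.sum_apply] at this
        rw [this]
        refine Finset.sum_congr rfl fun i _ => ?_
        rw [at_self]
        simp [Algebra.smul_def]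
      · intro σ hσ
        rw [at_ne a hσ, zero_mul]
    · rw [sum_at m]
      · have := congrArg Prod.snd ha
        simp only [Prod.snd_sum] at this
        rw [this]
        refine Finset.sum_congr rfl fun i _ => ?_
        rw [at_self, algebraMap_smul]
        rfl
      · intro σ hσ
        rw [at_ne a hσ, zero_smul]

end constr

theorem exists_preDG {A : DGA K} {N : Type} [AddCommGroup N] [Module K N] [Module A.C N]
    [IsScalarTower K A.C N] (M : DGM A N) : Nonempty (PreDG A N M) := ⟨pre M⟩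

end Crest.Agent.R186.PreDG84
private theorem rz_deb66be1ed : type_of% @_root_.Crest.Agent.R186.PreDG84.S.eq_def := @_root_.Crest.Agent.R186.PreDG84.S.eq_def -- L56
private theorem rz_84036fca8b : type_of% @_root_.Crest.Agent.R186.PreDG84.S.eq_1 := @_root_.Crest.Agent.R186.PreDG84.S.eq_1 -- L56
private theorem rz_9d58791a36 : type_of% @_root_.Crest.Agent.R186.PreDG84.cc.eq_def := @_root_.Crest.Agent.R186.PreDG84.cc.eq_def -- L187
private theorem rz_f22b63ae6a : type_of% @_root_.Crest.Agent.R186.PreDG84.cc.eq_1 := @_root_.Crest.Agent.R186.PreDG84.cc.eq_1 -- L187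
end

-- ▼ part R186/Res_255

/-!
Row 186 (A), helper255: change of rings on `Frame_515`, cell resolutions of dg modules.

* `Hm A B` : homomorphisms of strict dg algebras.
* `resL`, `resR`, `resBL`, `resBR` : restriction (same carrier, grading, differential).
* `LCells.push`, `RCells.push` : induction; `tG_push`, `tY_push` hold by `rfl`.
* `selfR A`, `selfL A`, `selfB A` : the algebra itself.
* `LRes X N`, `RRes Y G` : augmented cells with acyclic cone (elementwise).
-/

set_option autoImplicit false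
set_option linter.style.haveILetI false
set_option linter.unusedSectionVars false

open MulOpposite

namespace Crest.Agent.R186.Res255

open Hat827 Hat827.DGA Frame515

variable {K : Type} [Field K]

/-- homomorphism of strict dg algebras -/
structure Hm (A B : DGA K) where
  f : A.C →ₐ[K] B.C
  mem : ∀ {k : ℤ} {a : A.C}, a ∈ A.G k → f a ∈ B.G k
  D : ∀ a : A.C, f (A.D a) = B.D (f a)

namespace Hm

variable {A B C : DGA K}

/-- identity -/
def id (A : DGA K) : Hm A A := ⟨AlgHom.id K A.C, fun h => h, fun _ => rfl⟩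

/-- composition -/
def comp (g : Hm B C) (h : Hm A B) : Hm A C :=
  ⟨g.f.comp h.f, fun ha => g.mem (h.mem ha), fun a => by
    rw [AlgHom.comp_apply, AlgHom.comp_apply, h.D, g.D]⟩

@[simp] theorem id_f (a : A.C) : (Hm.id A).f a = a := rfl
@[simp] theorem comp_f (g : Hm B C) (h : Hm A B) (a : A.C) : (g.comp h).f a = g.f (h.f a) := rfl

end Hm

section res

variable {A B : DGA K}

/-- restriction of a left dg module -/
def resL (h : Hm A B) (N : LM B) : LM A :=
  letI i1 : Module A.C N.X := Module.compHom N.X h.f.toRingHom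
  { toGC := N.toGC
    act := i1
    tower := ⟨fun r a x => by
      change h.f (r • a) • x = r • (h.f a • x)
      rw [map_smul, smul_assoc]⟩
    smul_mem := fun ha hx => N.smul_mem (h.mem ha) hx
    leib := fun a x => by
      change N.d (h.f a • x) = h.f (A.D a) • x + h.f a • N.d x
      rw [N.leib, h.D] }

/-- restriction of a right dg module -/
def resR (h : Hm A B) (G : RM B) : RM A :=
  letI i1 : Module A.Cᵐᵒᵖ G.X := Module.compHom G.X (RingHom.op h.f.toRingHom)
  { toGC := G.toGC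
    act := i1
    tower := ⟨fun r a x => by
      change op (h.f (r • a).unop) • x = r • (op (h.f a.unop) • x)
      rw [unop_smul, map_smul, op_smul, smul_assoc]⟩
    smul_mem := fun ha hx => G.smul_mem (h.mem ha) hx
    leib := fun a x => by
      change G.d (op (h.f a) • x) = op (h.f (A.D a)) • x + op (h.f a) • G.d x
      rw [G.leib, h.D] }



end res

section resB

variable {A A' B B' : DGA K}

/-- restriction on the left of a bimodule -/
def resBL (h : Hm A' A) (P : BM A B) : BM A' B :=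
  letI i1 : Module A'.C P.X := Module.compHom P.X h.f.toRingHom
  { toGC := P.toGC
    actL := i1
    towerL := ⟨fun r a x => by
      change h.f (r • a) • x = r • (h.f a • x)
      rw [map_smul, smul_assoc]⟩
    actR := P.actR
    towerR := P.towerR
    comm := ⟨fun a b x => smul_comm (h.f a) b x⟩
    smul_mem := fun ha hx => P.smul_mem (h.mem ha) hx
    leib := fun a x => by
      change P.d (h.f a • x) = h.f (A'.D a) • x + h.f a • P.d x
      rw [P.leib, h.D]
    smul_memR := P.smul_memR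
    leibR := P.leibR }

/-- restriction on the right of a bimodule -/
def resBR (h : Hm B' B) (P : BM A B) : BM A B' :=
  letI i1 : Module B'.Cᵐᵒᵖ P.X := Module.compHom P.X (RingHom.op h.f.toRingHom)
  { toGC := P.toGC
    actL := P.actL
    towerL := P.towerL
    actR := i1
    towerR := ⟨fun r a x => by
      change op (h.f (r • a).unop) • x = r • (op (h.f a.unop) • x)
      rw [unop_smul, map_smul, op_smul, smul_assoc]⟩
    comm := ⟨fun a b x => smul_comm a (op (h.f b.unop)) x⟩
    smul_mem := P.smul_mem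
    leib := P.leib
    smul_memR := fun ha hx => P.smul_memR (h.mem ha) hx
    leibR := fun a x => by
      change P.d (op (h.f a) • x) = op (h.f (B'.D a)) • x + op (h.f a) • P.d x
      rw [P.leibR, h.D] }

end resB

/-! ### push-forward of cells -/

section push

variable {A B : DGA K}


/-- induction of right cells -/
def pushR (h : Hm A B) (Y : RCells A) : RCells B where
  ι := Y.ι
  s := Y.s
  F := Y.F
  mem_F := Y.mem_F
  e σ := h.f (Y.e σ)
  e_mem σ := h.mem (Y.e_mem σ)
  e_idem σ := by rw [← map_mul, Y.e_idem]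
  c σ τ := h.f (Y.c σ τ)
  c_mem σ τ := h.mem (Y.c_mem σ τ)
  c_left σ τ := by rw [← map_mul, Y.c_left]
  c_right σ τ := by rw [← map_mul, Y.c_right]
  mc σ τ := by
    simp only [← map_mul, ← h.D]
    rw [← map_sum, ← map_add, Y.mc, map_zero]



end push

/-! ### the algebra itself -/

section self

variable (A : DGA K)

/-- `A` as a dg bimodule over itself -/
def selfB : BM A A where
  X := A.C
  gr := A.G
  d := A.D
  d_mem := A.D_mem
  d_d := A.D_D
  smul_mem ha hx := A.mul_mem ha hx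
  leib a x := A.D_mul a x
  smul_memR := by
    intro k l b x hb hx
    change x * b ∈ _
    rw [add_comm]
    exact A.mul_mem hx hb
  leibR b x := by
    change A.D (x * b) = x * A.D b + A.D x * b
    rw [A.D_mul, add_comm]

/-- `A` as a left dg module -/
def selfL : LM A := (selfB A).toLM

/-- `A` as a right dg module -/
def selfR : RM A := (selfB A).toRM

variable {A}



end self

/-! ### augmented cells -/

section aug

variable {A : DGA K}

/-- the linear map `x ↦ ∑ x σ • v σ` -/
noncomputable def augL (X : LCells A) (N : LM A) (v : X.ι → N.X) : (X.ι →₀ A.C) →ₗ[K] N.X :=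
  Finsupp.lsum K fun σ =>
    { toFun := fun a => a • v σ
      map_add' := fun a b => add_smul a b (v σ)
      map_smul' := fun r a => smul_assoc r a (v σ) }

theorem augL_single (X : LCells A) (N : LM A) (v : X.ι → N.X) (σ : X.ι) (a : A.C) :
    augL X N v (Finsupp.single σ a) = a • v σ := by
  simp [augL]

theorem augL_apply (X : LCells A) (N : LM A) (v : X.ι → N.X) (x : X.ι →₀ A.C) :
    augL X N v x = x.sum fun σ a => a • v σ := by
  simp [augL, Finsupp.lsum_apply]

/-- the linear map `y ↦ ∑ v σ * y σ` -/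
noncomputable def augR (Y : RCells A) (G : RM A) (v : Y.ι → G.X) : (Y.ι →₀ A.C) →ₗ[K] G.X :=
  Finsupp.lsum K fun σ =>
    { toFun := fun a => op a • v σ
      map_add' := fun a b => by rw [op_add, add_smul]
      map_smul' := fun r a => by rw [op_smul, smul_assoc]; rfl }

theorem augR_single (Y : RCells A) (G : RM A) (v : Y.ι → G.X) (σ : Y.ι) (a : A.C) :
    augR Y G v (Finsupp.single σ a) = op a • v σ := by
  simp [augR]

/-- the left cells `X` with a chain map `X → N[lo]` -/
structure LAug (X : LCells A) (N : LM A) where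
  lo : ℤ
  v : X.ι → N.X
  v_mem : ∀ σ, v σ ∈ N.gr (lo + X.s σ)
  v_e : ∀ σ, X.e σ • v σ = v σ
  v_d : ∀ σ, N.d (v σ) = ∑ τ ∈ X.F (X.s σ), X.c σ τ • v τ

/-- the right cells `Y` with a chain map `Y → G[lo]` -/
structure RAug (Y : RCells A) (G : RM A) where
  lo : ℤ
  v : Y.ι → G.X
  v_mem : ∀ σ, v σ ∈ G.gr (lo + Y.s σ)
  v_e : ∀ σ, op (Y.e σ) • v σ = v σ
  v_d : ∀ σ, G.d (v σ) = ∑ τ ∈ Y.F (Y.s σ), op (Y.c τ σ) • v τ

/-- left cell resolution: the cone of `X → N` is acyclic -/
structure LRes (X : LCells A) (N : LM A) extends LAug X N where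
  ex : ∀ (k : ℤ) (x : X.ι →₀ A.C) (n : N.X), x ∈ (tG (selfR A) X).gr (k - 1) →
    (tG (selfR A) X).d x = 0 → n ∈ N.gr (lo + k) → augL X N v x + N.d n = 0 →
    ∃ y ∈ (tG (selfR A) X).gr k, ∃ n' ∈ N.gr (lo + k + 1),
      (tG (selfR A) X).d y = x ∧ n = augL X N v y + N.d n'

/-- right cell resolution: the cone of `Y → G` is acyclic -/
structure RRes (Y : RCells A) (G : RM A) extends RAug Y G where
  ex : ∀ (k : ℤ) (x : Y.ι →₀ A.C) (n : G.X), x ∈ (tY Y (selfL A)).gr (k - 1) →
    (tY Y (selfL A)).d x = 0 → n ∈ G.gr (lo + k) → augR Y G v x + G.d n = 0 →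
    ∃ y ∈ (tY Y (selfL A)).gr k, ∃ n' ∈ G.gr (lo + k + 1),
      (tY Y (selfL A)).d y = x ∧ n = augR Y G v y + G.d n'

end aug

end Crest.Agent.R186.Res255
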