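import Crest.Agent.R186.Frame2_515
import Crest.Agent.R186.Res_255

/-!
Row 186 (A), helper492: maps of twisting data of degree `lo`, cones of twisted sums, and the
comparison `G ⊗ X ← Y ⊗ X → Y ⊗ N`.
-/

set_option autoImplicit false
set_option linter.style.haveILetI false
set_option linter.unusedSectionVars false

open MulOpposite

namespace Crest.Agent.R186.AcIff492

open Hat827 Hat827.DGA Frame515 Res255

variable {K : Type} [Field K]

/-- exactness in degree `k` -/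
def Z (X : GC K) (k : ℤ) : Prop := ∀ x ∈ X.gr k, X.d x = 0 → ∃ y ∈ X.gr (k + 1), X.d y = x

/-- the cone of `f` (of degree `lo`) is exact in degree `k` -/
def CE (X Y : GC K) (lo k : ℤ) (f : X.X →ₗ[K] Y.X) : Prop :=
  ∀ (x : X.X) (n : Y.X), x ∈ X.gr (k - 1) → X.d x = 0 → n ∈ Y.gr (lo + k) → f x + Y.d n = 0 →
    ∃ y ∈ X.gr k, ∃ n' ∈ Y.gr (lo + k + 1), X.d y = x ∧ n = f y + Y.d n'

theorem CE.right {X Y : GC K} {lo k : ℤ} {f : X.X →ₗ[K] Y.X}
    (hm : ∀ {j : ℤ} {x : X.X}, x ∈ X.gr j → f x ∈ Y.gr (lo + j))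
    (hd : ∀ x, f (X.d x) = Y.d (f x)) (h : CE X Y lo k f) (hX : Z X k) : Z Y (lo + k) := by
  intro n hn e
  obtain ⟨y, hy, n', hn', e1, e2⟩ := h 0 n (Submodule.zero_mem _) (map_zero _) hn
    (by rw [map_zero, zero_add, e])
  obtain ⟨y', hy', e3⟩ := hX y hy e1
  refine ⟨f y' + n', Submodule.add_mem _ ?_ hn', by rw [map_add, ← hd, e3, ← e2]⟩
  have := hm hy'
  rwa [← add_assoc] at this

theorem CE.left {X Y : GC K} {lo k : ℤ} {f : X.X →ₗ[K] Y.X} (two : ∀ y : Y.X, y + y = 0)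
    (hm : ∀ {j : ℤ} {x : X.X}, x ∈ X.gr j → f x ∈ Y.gr (lo + j))
    (hd : ∀ x, f (X.d x) = Y.d (f x)) (h : CE X Y lo (k + 1) f) (hY : Z Y (lo + k)) : Z X k := by
  intro x hx e
  obtain ⟨n, hn, e1⟩ := hY (f x) (hm hx) (by rw [← hd, e, map_zero])
  obtain ⟨y, hy, _, _, e2, _⟩ := h x n (by rwa [show k + 1 - 1 = k by ring]) e
    (by rwa [← add_assoc]) (by rw [e1, two])
  exact ⟨y, hy, e2⟩

/-- a map of twisting data of degree `lo` -/
structure TwM {B B' : GC K} (lo : ℤ) (T : Tw B) (T' : Tw B') where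
  e : T.ι ≃ T'.ι
  s_e : ∀ σ, T'.s (e σ) = T.s σ
  f : B.X →ₗ[K] B'.X
  f_mem : ∀ {k : ℤ} {x : B.X}, x ∈ B.gr k → f x ∈ B'.gr (lo + k)
  f_d : ∀ x, f (B.d x) = B'.d (f x)
  f_p : ∀ σ x, f (T.p σ x) = T'.p (e σ) (f x)
  f_m : ∀ σ τ x, f (T.m σ τ x) = T'.m (e σ) (e τ) (f x)

namespace TwM

variable {B B' : GC K} {lo : ℤ} {T : Tw B} {T' : Tw B'} (φ : TwM lo T T')

/-- the induced map -/
noncomputable def F : (T.ι →₀ B.X) →ₗ[K] (T'.ι →₀ B'.X) :=
  (Finsupp.domLCongr (R := K) (M := B'.X) φ.e).toLinearMap ∘ₗ Finsupp.mapRange.linearMap φ.f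

theorem F_apply (x : T.ι →₀ B.X) (τ : T'.ι) : φ.F x τ = φ.f (x (φ.e.symm τ)) := rfl

theorem F_apply_e (x : T.ι →₀ B.X) (σ : T.ι) : φ.F x (φ.e σ) = φ.f (x σ) := by
  rw [F_apply, Equiv.symm_apply_apply]

theorem F_dd (x : T.ι →₀ B.X) : φ.F (T.dd x) = T'.dd (φ.F x) := by
  classical
  refine Finsupp.ext fun τ' => ?_
  obtain ⟨τ, rfl⟩ := φ.e.surjective τ'
  rw [F_apply_e, T.dd_apply' x x.support (Finset.Subset.refl _),
    T'.dd_apply' (φ.F x) (x.support.map φ.e.toEmbedding), F_apply_e, map_add, map_sum, φ.f_d,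
    Finset.sum_map]
  · congr 1
    refine Finset.sum_congr rfl fun σ _ => ?_
    rw [φ.f_m, Equiv.coe_toEmbedding, F_apply_e]
  · intro σ' hσ'
    obtain ⟨σ, rfl⟩ := φ.e.surjective σ'
    rw [Finsupp.mem_support_iff, F_apply_e] at hσ'
    refine Finset.mem_map.2 ⟨σ, Finsupp.mem_support_iff.2 fun h => hσ' ?_, rfl⟩
    rw [h, map_zero]

theorem F_mem {k : ℤ} {x : T.ι →₀ B.X} (hx : x ∈ T.gr k) : φ.F x ∈ T'.gr (lo + k) := by
  intro τ'
  obtain ⟨τ, rfl⟩ := φ.e.surjective τ'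
  rw [F_apply_e, φ.s_e]
  refine ⟨?_, by rw [← φ.f_p, (hx τ).2]⟩
  have := φ.f_mem (hx τ).1
  rwa [← add_sub_assoc] at this

theorem dd_top {n : ℕ} {x : T.ι →₀ B.X} (hx : ∀ σ, n < T.s σ → x σ = 0) {τ : T.ι}
    (h : n ≤ T.s τ) : T.dd x τ = B.d (x τ) := by
  rw [T.dd_apply' x x.support (Finset.Subset.refl _), Finset.sum_eq_zero, add_zero]
  intro σ _
  by_cases h' : n < T.s σ
  · rw [hx σ h', map_zero]
  · rw [T.m_zero _ _ (by omega), LinearMap.zero_apply]

/-- **cones of twisted sums** -/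
theorem ce (two : ∀ z : B'.X, z + z = 0) {K0 : ℤ} (h : ∀ k ≤ K0, CE B B' lo k φ.f) {k : ℤ}
    (hk : k ≤ K0) : CE T.cx T'.cx lo k φ.F := by
  classical
  have key : ∀ (n : ℕ) (x : T.ι →₀ B.X) (w : T'.ι →₀ B'.X), x ∈ T.gr (k - 1) → T.dd x = 0 →
      w ∈ T'.gr (lo + k) → φ.F x + T'.dd w = 0 → (∀ σ, n ≤ T.s σ → x σ = 0) →
      (∀ σ, n ≤ T.s σ → w (φ.e σ) = 0) →
      ∃ y ∈ T.gr k, ∃ z ∈ T'.gr (lo + k + 1), T.dd y = x ∧ w = φ.F y + T'.dd z := by
    intro n
    induction n with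
    | zero =>
      intro x w _ _ _ _ hx hw
      have hx0 : x = 0 := Finsupp.ext fun σ => hx σ (Nat.zero_le _)
      have hw0 : w = 0 := Finsupp.ext fun σ' => by
        obtain ⟨σ, rfl⟩ := φ.e.surjective σ'
        exact hw σ (Nat.zero_le _)
      exact ⟨0, Submodule.zero_mem _, 0, Submodule.zero_mem _, by rw [map_zero, hx0],
        by rw [map_zero, map_zero, hw0, add_zero]⟩
    | succ n ih =>
      intro x w hx hdx hw hxw hxs hws
      have t1 : ∀ σ, T.s σ = n → B.d (x σ) = 0 := by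
        intro σ hσ
        rw [← dd_top (T := T) (n := n) (fun τ hτ => hxs τ hτ) hσ.ge, hdx]
        rfl
      have hws' : ∀ σ', n < T'.s σ' → w σ' = 0 := by
        intro σ' h'
        obtain ⟨σ, rfl⟩ := φ.e.surjective σ'
        rw [φ.s_e] at h'
        exact hws σ h'
      have t2 : ∀ σ, T.s σ = n → φ.f (x σ) + B'.d (w (φ.e σ)) = 0 := by
        intro σ hσ
        have := DFunLike.congr_fun hxw (φ.e σ)
        rw [Finsupp.add_apply, F_apply_e, dd_top (T := T') hws' (by rw [φ.s_e, hσ])] at this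
        exact this
      have h2 : ∀ σ, ∃ (y : B.X) (z : B'.X), (y ∈ B.gr (k - T.s σ) ∧ T.p σ y = y) ∧
          (z ∈ B'.gr (lo + k + 1 - T.s σ) ∧ T'.p (φ.e σ) z = z) ∧
          (T.s σ = n → B.d y = x σ ∧ w (φ.e σ) = φ.f y + B'.d z) ∧
          (T.s σ ≠ n → y = 0 ∧ z = 0) ∧ (x σ = 0 ∧ w (φ.e σ) = 0 → y = 0 ∧ z = 0) := by
        intro σ
        by_cases hσ : T.s σ = n
        · by_cases h0 : x σ = 0 ∧ w (φ.e σ) = 0
          · exact ⟨0, 0, ⟨Submodule.zero_mem _, map_zero _⟩, ⟨Submodule.zero_mem _, map_zero _⟩,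
              fun _ => ⟨by rw [map_zero, h0.1], by rw [map_zero, map_zero, h0.2, add_zero]⟩,
              fun _ => ⟨rfl, rfl⟩, fun _ => ⟨rfl, rfl⟩⟩
          · have hx1 := (hx σ).1
            have hw1 := (hw (φ.e σ)).1
            rw [φ.s_e] at hw1
            obtain ⟨y, hy, z, hz, e1, e2⟩ := h (k - T.s σ) (by omega) (x σ) (w (φ.e σ))
              (by rwa [show k - (T.s σ : ℤ) - 1 = k - 1 - T.s σ by ring]) (t1 σ hσ)
              (by rwa [← add_sub_assoc]) (t2 σ hσ)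
            refine ⟨T.p σ y, T'.p (φ.e σ) z, ⟨T.p_mem σ hy, T.p_p σ y⟩, ⟨?_, T'.p_p _ z⟩,
              fun _ => ⟨?_, ?_⟩, fun h => absurd hσ h, fun h => absurd h h0⟩
            · have := T'.p_mem (φ.e σ) hz
              rwa [show lo + (k - (T.s σ : ℤ)) + 1 = lo + k + 1 - T.s σ by ring] at this
            · rw [← T.p_d, e1, (hx σ).2]
            · rw [φ.f_p, ← T'.p_d, ← map_add, ← e2, (hw (φ.e σ)).2]
        · exact ⟨0, 0, ⟨Submodule.zero_mem _, map_zero _⟩, ⟨Submodule.zero_mem _, map_zero _⟩,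
            fun h => absurd h hσ, fun _ => ⟨rfl, rfl⟩, fun _ => ⟨rfl, rfl⟩⟩
      choose y z hy hz hn hn' h0 using h2
      let S : Finset T.ι := x.support ∪ w.support.map φ.e.symm.toEmbedding
      have hS : ∀ σ, σ ∉ S → x σ = 0 ∧ w (φ.e σ) = 0 := by
        intro σ hσ
        rw [Finset.mem_union, not_or] at hσ
        refine ⟨Finsupp.notMem_support_iff.1 hσ.1, ?_⟩
        by_contra hc
        exact hσ.2 (Finset.mem_map.2 ⟨φ.e σ, Finsupp.mem_support_iff.2 hc, by simp⟩)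
      let yy : T.ι →₀ B.X := Finsupp.onFinset S y fun σ hσ => by
        by_contra hc
        exact hσ (h0 σ (hS σ hc)).1
      let zz : T'.ι →₀ B'.X := Finsupp.onFinset (S.map φ.e.toEmbedding)
        (fun σ' => z (φ.e.symm σ')) fun σ' hσ => by
          obtain ⟨σ, rfl⟩ := φ.e.surjective σ'
          rw [Equiv.symm_apply_apply] at hσ
          by_contra hc
          refine hσ (h0 σ (hS σ fun hc' => hc ?_)).2
          exact Finset.mem_map.2 ⟨σ, hc', rfl⟩
      have eyy : ∀ σ, yy σ = y σ := fun _ => rfl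
      have ezz : ∀ σ, zz (φ.e σ) = z σ := fun σ => by
        change z (φ.e.symm (φ.e σ)) = z σ
        rw [Equiv.symm_apply_apply]
      have hyy : yy ∈ T.gr k := fun σ => hy σ
      have hzz : zz ∈ T'.gr (lo + k + 1) := by
        intro σ'
        obtain ⟨σ, rfl⟩ := φ.e.surjective σ'
        rw [ezz, φ.s_e]
        exact hz σ
      have htwo : ∀ v : T'.ι →₀ B'.X, v + v = 0 := fun v => Finsupp.ext fun σ => two _
      obtain ⟨y', hy', z', hz', e1, e2⟩ := ih (x - T.dd yy) (w - (φ.F yy + T'.dd zz))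
        (Submodule.sub_mem _ hx (T.dd_mem hyy)) (by rw [map_sub, hdx, T.dd_dd, sub_zero])
        (Submodule.sub_mem _ hw (Submodule.add_mem _ (φ.F_mem hyy) (by
          have := T'.dd_mem hzz
          rwa [show lo + k + 1 - 1 = lo + k by ring] at this)))
        (by
          rw [map_sub, map_sub, map_add, T'.dd_dd, add_zero, F_dd]
          have h1 : T'.dd w = - φ.F x := by
            rw [eq_neg_iff_add_eq_zero, add_comm]; exact hxw
          rw [h1]
          have h3 := htwo (T'.dd (φ.F yy))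
          calc _ = -(T'.dd (φ.F yy) + T'.dd (φ.F yy)) := by abel
            _ = 0 := by rw [h3, neg_zero])
        (by
          intro σ hσ
          rw [Finsupp.sub_apply, dd_top (T := T) (n := n) (fun τ hτ => (hn' τ (by omega)).1) hσ,
            eyy]
          by_cases hs : T.s σ = n
          · rw [(hn σ hs).1, sub_self]
          · rw [(hn' σ hs).1, map_zero, hxs σ (by omega), sub_zero])
        (by
          intro σ hσ
          have hz0 : ∀ σ', n < T'.s σ' → zz σ' = 0 := by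
            intro σ' h'
            obtain ⟨τ, rfl⟩ := φ.e.surjective σ'
            rw [φ.s_e] at h'
            rw [ezz]
            exact (hn' τ (by omega)).2
          rw [Finsupp.sub_apply, Finsupp.add_apply, F_apply_e,
            dd_top (T := T') (n := n) hz0 (by rw [φ.s_e]; exact hσ), eyy, ezz]
          by_cases hs : T.s σ = n
          · rw [(hn σ hs).2, sub_self]
          · rw [(hn' σ hs).1, (hn' σ hs).2, map_zero, map_zero, hws σ (by omega), add_zero,
              sub_zero])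
      refine ⟨y' + yy, Submodule.add_mem _ hy' hyy, z' + zz, Submodule.add_mem _ hz' hzz, ?_, ?_⟩
      · rw [map_add, e1, sub_add_cancel]
      · rw [map_add, map_add]
        have := sub_eq_iff_eq_add.1 e2
        rw [this]; abel
  intro x w hx hdx hw hxw
  obtain ⟨n, hn⟩ : ∃ n : ℕ, ∀ σ, n ≤ T.s σ → (show T.ι →₀ B.X from x) σ = 0 ∧
      (show T'.ι →₀ B'.X from w) (φ.e σ) = 0 := by
    refine ⟨(Finsupp.support (show T.ι →₀ B.X from x)).sup T.s +
      (Finsupp.support (show T'.ι →₀ B'.X from w)).sup T'.s + 1, fun σ hσ => ⟨?_, ?_⟩⟩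
    · by_contra hc
      have := Finset.le_sup (f := T.s) (Finsupp.mem_support_iff.2 hc)
      exact absurd (hσ.trans this) (by simp only [not_le]; omega)
    · by_contra hc
      have := Finset.le_sup (f := T'.s) (Finsupp.mem_support_iff.2 hc)
      rw [φ.s_e] at this
      exact absurd (hσ.trans this) (by simp only [not_le]; omega)
  exact key n x w hx hdx hw hxw (fun σ h => (hn σ h).1) (fun σ h => (hn σ h).2)

end TwM

/-! ### characteristic two -/

section two

variable {A : DGA K}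

theorem two_L (N : LM A) (y : N.X) : y + y = 0 := by
  have : y = (1 : A.C) • y := by rw [one_smul]
  rw [this, ← add_smul, A.two, zero_smul]

theorem two_R (G : RM A) (y : G.X) : y + y = 0 := by
  have : y = op (1 : A.C) • y := by rw [op_one, one_smul]
  rw [this, ← add_smul, ← op_add, A.two, op_zero, zero_smul]

end two

/-! ### the augmentations as chain maps -/

section augm

variable {A : DGA K}

theorem augL_d {X : LCells A} {N : LM A} (R : LAug X N) (x : X.ι →₀ A.C) :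
    augL X N R.v ((tG (selfR A) X).d x) = N.d (augL X N R.v x) := by
  classical
  let dA : (X.ι →₀ A.C) →ₗ[K] (X.ι →₀ A.C) := (twG (selfR A) X).dd
  suffices h : augL X N R.v ∘ₗ dA = N.d ∘ₗ augL X N R.v from LinearMap.congr_fun h x
  refine Finsupp.lhom_ext fun σ a => ?_
  have e1 : dA (Finsupp.single σ a) = Finsupp.single σ (A.D a) +
      ∑ τ ∈ X.F (X.s σ), Finsupp.single τ (show A.C from a * X.c σ τ) :=
    (twG (selfR A) X).dd_single σ a
  rw [LinearMap.comp_apply, LinearMap.comp_apply, e1, map_add, map_sum, augL_single, augL_single,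
    N.leib, R.v_d, Finset.smul_sum]
  congr 1
  refine Finset.sum_congr rfl fun τ _ => ?_
  rw [augL_single, mul_smul]

theorem augL_mem {X : LCells A} {N : LM A} (R : LAug X N) {k : ℤ} {x : X.ι →₀ A.C}
    (hx : x ∈ (tG (selfR A) X).gr k) : augL X N R.v x ∈ N.gr (R.lo + k) := by
  rw [augL_apply]
  refine Submodule.sum_mem _ fun σ _ => ?_
  have h1 : x σ ∈ A.G (k - X.s σ) := (hx σ).1
  have := N.smul_mem h1 (R.v_mem σ)
  rwa [show k - (X.s σ : ℤ) + (R.lo + X.s σ) = R.lo + k by ring] at this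

theorem augL_smul {X : LCells A} {N : LM A} (R : LAug X N) (a : A.C) (x : X.ι →₀ A.C) :
    augL X N R.v (a • x) = a • augL X N R.v x := by
  induction x using Finsupp.induction_linear with
  | zero => rw [smul_zero, map_zero, smul_zero]
  | add x y hx hy => rw [smul_add, map_add, hx, hy, map_add, smul_add]
  | single σ b => rw [Finsupp.smul_single, augL_single, augL_single, smul_eq_mul, mul_smul]

theorem augR_apply (Y : RCells A) (G : RM A) (v : Y.ι → G.X) (x : Y.ι →₀ A.C) :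
    augR Y G v x = x.sum fun σ a => op a • v σ := by
  simp [augR, Finsupp.lsum_apply]

theorem augR_d {Y : RCells A} {G : RM A} (R : RAug Y G) (x : Y.ι →₀ A.C) :
    augR Y G R.v ((tY Y (selfL A)).d x) = G.d (augR Y G R.v x) := by
  classical
  let dA : (Y.ι →₀ A.C) →ₗ[K] (Y.ι →₀ A.C) := (twY Y (selfL A)).dd
  suffices h : augR Y G R.v ∘ₗ dA = G.d ∘ₗ augR Y G R.v from LinearMap.congr_fun h x
  refine Finsupp.lhom_ext fun σ a => ?_
  have e1 : dA (Finsupp.single σ a) = Finsupp.single σ (A.D a) +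
      ∑ τ ∈ Y.F (Y.s σ), Finsupp.single τ (show A.C from Y.c τ σ * a) :=
    (twY Y (selfL A)).dd_single σ a
  rw [LinearMap.comp_apply, LinearMap.comp_apply, e1, map_add, map_sum, augR_single, augR_single,
    G.leib, R.v_d, Finset.smul_sum]
  congr 1
  refine Finset.sum_congr rfl fun τ _ => ?_
  rw [augR_single, op_mul, mul_smul]

theorem augR_mem {Y : RCells A} {G : RM A} (R : RAug Y G) {k : ℤ} {x : Y.ι →₀ A.C}
    (hx : x ∈ (tY Y (selfL A)).gr k) : augR Y G R.v x ∈ G.gr (R.lo + k) := by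
  rw [augR_apply]
  refine Submodule.sum_mem _ fun σ _ => ?_
  have h1 : x σ ∈ A.G (k - Y.s σ) := (hx σ).1
  have := G.smul_mem h1 (R.v_mem σ)
  rwa [show k - (Y.s σ : ℤ) + (R.lo + Y.s σ) = R.lo + k by ring] at this

theorem augR_smul {Y : RCells A} {G : RM A} (R : RAug Y G) (a : A.C) (x : Y.ι →₀ A.C) :
    augR Y G R.v (Finsupp.mapRange.linearMap (LinearMap.mulRight K a) x) =
      op a • augR Y G R.v x := by
  induction x using Finsupp.induction_linear with
  | zero => rw [map_zero, map_zero, smul_zero]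
  | add x y hx hy => rw [map_add, map_add, hx, hy, map_add, smul_add]
  | single σ b =>
    rw [Finsupp.mapRange.linearMap_apply, Finsupp.mapRange_single, augR_single, augR_single,
      LinearMap.mulRight_apply, op_mul, mul_smul]

variable {Y : RCells A} {G : RM A} {X : LCells A} {N : LM A}

/-- `Y ⊗ X → G ⊗ X` -/
noncomputable def mG (R : RAug Y G) (X : LCells A) :
    TwM R.lo (twG (tQ Y (selfB A)) X) (twG G X) where
  e := Equiv.refl _
  s_e _ := rfl
  f := augR Y G R.v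
  f_mem hx := augR_mem R hx
  f_d x := augR_d R x
  f_p σ x := augR_smul R (X.e σ) x
  f_m σ τ x := augR_smul R (X.c σ τ) x

/-- `Y ⊗ X → Y ⊗ N` -/
noncomputable def mY (Y : RCells A) (R : LAug X N) :
    TwM R.lo (twY Y (tP (selfB A) X)) (twY Y N) where
  e := Equiv.refl _
  s_e _ := rfl
  f := augL X N R.v
  f_mem hx := augL_mem R hx
  f_d x := augL_d R x
  f_p σ x := augL_smul R (Y.e σ) x
  f_m σ τ x := augL_smul R (Y.c τ σ) x

/-- `Y ⊗ X → G ⊗ X` has acyclic cone -/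
theorem ceG (R : RRes Y G) (X : LCells A) (k : ℤ) :
    CE (tG (tQ Y (selfB A)) X) (tG G X) R.lo k (mG R.toRAug X).F :=
  (mG R.toRAug X).ce (two_R G) (K0 := k) (fun j _ x n h1 h2 h3 h4 => R.ex j x n h1 h2 h3 h4) le_rfl

/-- `Y ⊗ X → Y ⊗ N` has acyclic cone -/
theorem ceY (Y : RCells A) (R : LRes X N) (k : ℤ) :
    CE (tY Y (tP (selfB A) X)) (tY Y N) R.lo k (mY Y R.toLAug).F :=
  (mY Y R.toLAug).ce (two_L N) (K0 := k) (fun j _ x n h1 h2 h3 h4 => R.ex j x n h1 h2 h3 h4) le_rfl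

/-- Fubini, degreewise -/
theorem asc_z {A B : DGA K} (Y : RCells A) (P : BM A B) (X : LCells B) (k : ℤ) :
    Z (tG (tQ Y P) X) k ↔ Z (tY Y (tP P X)) k := by
  constructor
  · intro h x hx hd
    obtain ⟨x', rfl⟩ := (asc Y P X).surjective x
    rw [← asc_d] at hd
    obtain ⟨y, hy, e⟩ := h x' ((asc_gr Y P X k x').2 hx)
      ((asc Y P X).injective (by rw [hd, map_zero]))
    exact ⟨asc Y P X y, (asc_gr Y P X _ y).1 hy, by rw [← asc_d, e]⟩
  · intro h x hx hd
    obtain ⟨y, hy, e⟩ := h (asc Y P X x) ((asc_gr Y P X k x).1 hx) (by rw [← asc_d, hd, map_zero])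
    obtain ⟨y', rfl⟩ := (asc Y P X).surjective y
    refine ⟨y', (asc_gr Y P X _ y').2 hy, (asc Y P X).injective ?_⟩
    rw [asc_d, e]

/-- `Y ⊗ X` against `G ⊗ X` -/
theorem z_G (R : RRes Y G) (X : LCells A) (k : ℤ) :
    Z (tG (tQ Y (selfB A)) X) k ↔ Z (tG G X) (R.lo + k) := by
  have hm : ∀ {j : ℤ} {x : (tG (tQ Y (selfB A)) X).X}, x ∈ (tG (tQ Y (selfB A)) X).gr j →
      (mG R.toRAug X).F x ∈ (tG G X).gr (R.lo + j) := fun h => (mG R.toRAug X).F_mem h
  have hd := (mG R.toRAug X).F_dd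
  have htwo : ∀ y : (tG G X).X, y + y = 0 := fun y => Finsupp.ext fun σ => two_R G _
  exact ⟨CE.right hm hd (ceG R X k), CE.left htwo hm hd (ceG R X (k + 1))⟩

/-- `Y ⊗ X` against `Y ⊗ N` -/
theorem z_Y (Y : RCells A) (R : LRes X N) (k : ℤ) :
    Z (tY Y (tP (selfB A) X)) k ↔ Z (tY Y N) (R.lo + k) := by
  have hm : ∀ {j : ℤ} {x : (tY Y (tP (selfB A) X)).X}, x ∈ (tY Y (tP (selfB A) X)).gr j →
      (mY Y R.toLAug).F x ∈ (tY Y N).gr (R.lo + j) := fun h => (mY Y R.toLAug).F_mem h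
  have hd := (mY Y R.toLAug).F_dd
  have htwo : ∀ y : (tY Y N).X, y + y = 0 := fun y => Finsupp.ext fun σ => two_L N _
  exact ⟨CE.right hm hd (ceY Y R k), CE.left htwo hm hd (ceY Y R (k + 1))⟩

/-- **`G ⊗ X` and `Y ⊗ N` are exact in the same degrees** -/
theorem z_iff (R : RRes Y G) (S : LRes X N) (k : ℤ) :
    Z (tG G X) (R.lo + k) ↔ Z (tY Y N) (S.lo + k) :=
  (z_G R X k).symm.trans ((asc_z Y (selfB A) X k).trans (z_Y Y S k))


end augm

end Crest.Agent.R186.AcIff492
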