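import Crest.Agent.R186.Defs281_128

/-!
Row 186, S0281 (helper823): SHORTCUT INSTANCES for the concrete base of `Defs281_128`.
Without them Lean does not find `Ring (A g s)`, `HasDistribNeg (Op K)`,
`NegMemClass (Submodule K (Op K)) (Op K)`, `AddCommGroup (V g s n)`, ... (the `Zero K` inside
`(ℤ × ℤ) →₀ K` blocks the unification).  All of them are `inferInstance`, no diamonds.
-/

set_option autoImplicit false

namespace Crest.Agent.R186.B281

variable {K : Type} [Field K]

noncomputable instance iLau : AddCommGroup (Lau K) := inferInstance
noncomputable instance iOp : Ring (Op K) := inferInstance
noncomputable instance iMat : Ring (Mat K) := inferInstance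
noncomputable instance iDN : Ring (DualNumber (Mat K)) := inferInstance
noncomputable instance iA (g : K) (s : ℤ) : Ring (A g s) := inferInstance
noncomputable instance iAlg (g : K) (s : ℤ) : Algebra K (A g s) := inferInstance
noncomputable instance iBigA (g : K) (s : ℤ) : Module (A g s) (Big K) := inferInstance
noncomputable instance iBigT (g : K) (s : ℤ) : IsScalarTower K (A g s) (Big K) := inferInstance

section
variable (g : K) (s n : ℤ)

noncomputable instance iVg : AddCommGroup (V g s n) := inferInstance
noncomputable instance iVm : Module (A g s) (V g s n) := inferInstance
noncomputable instance (priority := 2000) iVs : SMul (A g s) (V g s n) :=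
  (iVm g s n).toDistribMulAction.toDistribSMul.toSMulZeroClass.toSMul
noncomputable instance iVk : Module K (V g s n) := inferInstance
noncomputable instance iVt : IsScalarTower K (A g s) (V g s n) := inferInstance
noncomputable instance iEg : AddCommGroup (E g s n) := inferInstance
noncomputable instance iEm : Module (A g s) (E g s n) := inferInstance
noncomputable instance (priority := 2000) iEs : SMul (A g s) (E g s n) :=
  (iEm g s n).toDistribMulAction.toDistribSMul.toSMulZeroClass.toSMul
noncomputable instance iEk : Module K (E g s n) := inferInstance
noncomputable instance iEt : IsScalarTower K (A g s) (E g s n) := inferInstance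
end

/-! tests -/


end Crest.Agent.R186.B281
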