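import Crest.Agent.R186.FDord_757
import Crest.Agent.R186.PBWD_633
import Crest.Agent.R186.Inst_823
import Crest.Agent.R186.B281W_128

-- ▼ part R186/LatK_693
section

/-!
Row 186, S0281, leaf B281.D4 (second, helper693): the lattices `K_j(k)_P`.

* `X1r`, `X2r`, `X3r` : right multiplications by `X 0, X 1` on `Fil`;
* left mirrors `X1l`, `X2l`, `X3l`;
* `LK_surj`, `LK_ker`, `LK_gen`.
-/

set_option autoImplicit false

namespace Crest.Agent.R186.B281.LK693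

open FD757 PBWD633

variable {K : Type} [Field K]

/-- the family `d^b x^a` -/
noncomputable def rf (g : K) (p : (ℕ × ℕ) × (ℕ × ℕ)) : Op K := rmon g p.1 p.2


/-- the shift -/
def sh (i : Fin 2) (p : (ℕ × ℕ) × (ℕ × ℕ)) : (ℕ × ℕ) × (ℕ × ℕ) := (p.1 + eN i, p.2)

theorem sh_inj (i : Fin 2) : Function.Injective (sh i) := by
  rintro ⟨a, b⟩ ⟨a', b'⟩ h
  simp only [sh, Prod.mk.injEq, add_left_inj] at h
  exact Prod.ext h.1 h.2

theorem sh_comm (i j : Fin 2) (p : (ℕ × ℕ) × (ℕ × ℕ)) : sh i (sh j p) = sh j (sh i p) := by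
  simp only [sh, add_right_comm]

theorem sh_range {p q : (ℕ × ℕ) × (ℕ × ℕ)} (h : sh 0 p = sh 1 q) : ∃ r, p = sh 1 r := by
  obtain ⟨⟨a0, a1⟩, b⟩ := p
  obtain ⟨⟨c0, c1⟩, d⟩ := q
  simp only [sh, eN, if_true, one_ne_zero, if_false, Prod.mk_add_mk, add_zero, Prod.mk.injEq] at h
  refine ⟨((a0, a1 - 1), b), ?_⟩
  simp only [sh, eN, one_ne_zero, if_false, Prod.mk_add_mk, add_zero, Prod.mk.injEq, and_true,
    true_and]
  omega

theorem sh_idx (i : Fin 2) (k P : ℤ) : sh i ⁻¹' idx k (P + 1) = idx k P := by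
  ext ⟨⟨a0, a1⟩, ⟨b0, b1⟩⟩
  fin_cases i <;> simp only [sh, eN, idx, Set.mem_preimage, Set.mem_ofPred_eq, Fin.zero_eta,
    Fin.mk_one, if_true, one_ne_zero, if_false, Prod.mk_add_mk, add_zero] <;> push_cast <;>
    constructor <;> rintro ⟨h1, h2⟩ <;> constructor <;> omega

theorem idx_cover {k P : ℤ} (hP : 0 ≤ P) (p : (ℕ × ℕ) × (ℕ × ℕ)) (hp : p ∈ idx k (P + 1)) :
    (∃ j ∈ idx k P, sh 0 j = p) ∨ ∃ j ∈ idx k P, sh 1 j = p := by
  obtain ⟨⟨a0, a1⟩, ⟨b0, b1⟩⟩ := p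
  obtain ⟨h1, h2⟩ := hp
  simp only at h1 h2
  rcases Nat.eq_zero_or_pos a0 with h0 | h0
  · right
    refine ⟨((a0, a1 - 1), (b0, b1)), ⟨by simpa using h1, ?_⟩, ?_⟩
    · simp only
      omega
    · simp only [sh, eN, one_ne_zero, if_false, Prod.mk_add_mk, add_zero, Prod.mk.injEq, and_true,
        true_and]
      omega
  · left
    refine ⟨((a0 - 1, a1), (b0, b1)), ⟨by simpa using h1, ?_⟩, ?_⟩
    · simp only
      omega
    · simp only [sh, eN, if_true, Prod.mk_add_mk, add_zero, Prod.mk.injEq, and_true]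
      omega

/-! ### abstract: a family with two shifts -/

section abs

variable {V : Type*} [AddCommGroup V] [Module K V] {f : (ℕ × ℕ) × (ℕ × ℕ) → V}
  {φ ψ : V →ₗ[K] V}

/-- the pieces -/
def Fi (f : (ℕ × ℕ) × (ℕ × ℕ) → V) (k P : ℤ) : Submodule K V := Submodule.span K (f '' idx k P)

theorem x1 (h : ∀ i, φ (f i) = f (sh 0 i)) (h' : ∀ i, ψ (f i) = f (sh 1 i)) {k P : ℤ}
    (hP : 0 ≤ P) {c : V} (hc : c ∈ Fi (K := K) f k (P + 1)) :
    ∃ a ∈ Fi (K := K) f k P, ∃ b ∈ Fi (K := K) f k P, c = φ a + ψ b := by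
  obtain ⟨a, ha, b, hb, e, he, hh⟩ := shift_surj (K := K) (B := idx k P) (C := idx k P) (E := ∅)
    h h' (fun i hi => (idx_cover hP i hi).elim Or.inl fun h => Or.inr (Or.inl h)) hc
  have : e = 0 := by simpa using he
  rw [this, add_zero] at hh
  exact ⟨a, ha, b, hb, hh⟩

theorem x2 (hf : LinearIndependent K f) (h : ∀ i, φ (f i) = f (sh 0 i))
    (h' : ∀ i, ψ (f i) = f (sh 1 i)) {k P : ℤ} {a b : V} (ha : a ∈ Fi (K := K) f k (P + 1))
    (hb : b ∈ Fi (K := K) f k (P + 1)) (h0 : φ a + ψ b = 0) :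
    ∃ e ∈ Fi (K := K) f k P, a = ψ e ∧ b = - φ e := by
  have hr : ∀ {x : V} {k P : ℤ}, x ∈ Fi (K := K) f k P → x ∈ Submodule.span K (Set.range f) :=
    fun hx => Submodule.span_mono (Set.image_subset_range _ _) hx
  obtain ⟨n, hn, h1, h2⟩ := shift_koszul (K := K) hf (sh_inj 0) (sh_inj 1)
    (fun i => sh_comm 0 1 i) (fun p q hpq => sh_range hpq) h h' (hr ha) (hr hb) h0
  refine ⟨n, ?_, h1, h2⟩
  have := shift_strict (K := K) hf (sh_inj 1) h' (A := idx k (P + 1)) hn (by rw [← h1]; exact ha)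
  rwa [sh_idx] at this

theorem x3 (hf : LinearIndependent K f) (h : ∀ i, φ (f i) = f (sh 0 i))
    (h' : ∀ i, ψ (f i) = f (sh 1 i)) {k l P : ℤ} {a b : V} (ha : a ∈ Fi (K := K) f k P)
    (hb : b ∈ Fi (K := K) f k P) (h0 : φ a + ψ b ∈ Fi (K := K) f l (P + 1)) :
    ∃ a2 ∈ Fi (K := K) f l P, ∃ b2 ∈ Fi (K := K) f l P, φ a2 + ψ b2 = φ a + ψ b := by
  obtain ⟨a2, ha2, b2, hb2, e, he, hh⟩ := shift_surj (K := K) (B := idx l P) (C := idx l P)
    (E := {i | i.1 = (0, 0)}) h h' (A := idx l (P + 1)) (by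
      rintro ⟨⟨a0, a1⟩, ⟨b0, b1⟩⟩ ⟨h1, h2⟩
      simp only at h1 h2
      rcases Nat.eq_zero_or_pos a0 with h3 | h3
      · rcases Nat.eq_zero_or_pos a1 with h4 | h4
        · right; right
          subst h3 h4
          rfl
        · right; left
          refine ⟨((a0, a1 - 1), (b0, b1)), ⟨by simpa using h1, ?_⟩, ?_⟩
          · simp only
            omega
          · simp only [sh, eN, one_ne_zero, if_false, Prod.mk_add_mk, add_zero, Prod.mk.injEq,
              and_true, true_and]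
            omega
      · left
        refine ⟨((a0 - 1, a1), (b0, b1)), ⟨by simpa using h1, ?_⟩, ?_⟩
        · simp only
          omega
        · simp only [sh, eN, if_true, Prod.mk_add_mk, add_zero, Prod.mk.injEq, and_true]
          omega) h0
  have h3 : ∀ {x : V} {k P : ℤ}, x ∈ Fi (K := K) f k P →
      φ x ∈ Submodule.span K (f '' {i | i.1 ≠ (0, 0)}) := by
    intro x k P hx
    refine Submodule.span_induction (p := fun x _ =>
      φ x ∈ Submodule.span K (f '' {i | i.1 ≠ (0, 0)})) ?_ ?_ ?_ ?_ hx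
    · rintro _ ⟨⟨⟨a0, a1⟩, b⟩, _, rfl⟩
      rw [h]
      refine Submodule.subset_span ⟨_, ?_, rfl⟩
      simp [sh, eN]
    · rw [map_zero]; exact zero_mem _
    · intro x y _ _ hx hy; rw [map_add]; exact add_mem hx hy
    · intro c x _ hx; rw [map_smul]; exact Submodule.smul_mem _ _ hx
  have h4 : ∀ {x : V} {k P : ℤ}, x ∈ Fi (K := K) f k P →
      ψ x ∈ Submodule.span K (f '' {i | i.1 ≠ (0, 0)}) := by
    intro x k P hx
    refine Submodule.span_induction (p := fun x _ =>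
      ψ x ∈ Submodule.span K (f '' {i | i.1 ≠ (0, 0)})) ?_ ?_ ?_ ?_ hx
    · rintro _ ⟨⟨⟨a0, a1⟩, b⟩, _, rfl⟩
      rw [h']
      refine Submodule.subset_span ⟨_, ?_, rfl⟩
      simp [sh, eN]
    · rw [map_zero]; exact zero_mem _
    · intro x y _ _ hx hy; rw [map_add]; exact add_mem hx hy
    · intro c x _ hx; rw [map_smul]; exact Submodule.smul_mem _ _ hx
  have h5 : e ∈ Submodule.span K (f '' {i | i.1 ≠ (0, 0)}) := by
    have : e = φ a + ψ b - (φ a2 + ψ b2) := by rw [hh]; abel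
    rw [this]
    exact sub_mem (add_mem (h3 ha) (h4 hb)) (add_mem (h3 ha2) (h4 hb2))
  have h6 : e = 0 := by
    have := (hf.disjoint_span_image (s := {i | i.1 = (0, 0)}) (t := {i | i.1 ≠ (0, 0)}) (by
      rw [Set.disjoint_left]
      intro i h7 h8
      exact h8 h7))
    exact (Submodule.disjoint_def.1 this) e he h5
  refine ⟨a2, ha2, b2, hb2, ?_⟩
  rw [hh, h6, add_zero]

end abs

/-! ### the literal statements -/

theorem Fil_rf {g : K} (hg : Gen g) (k P : ℤ) : Fil g k P = Fi (K := K) (rf g) k P :=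
  Fil_eq_span_rmon hg k P


theorem rf_X (g : K) (i : Fin 2) (p : (ℕ × ℕ) × (ℕ × ℕ)) :
    LinearMap.mulRight K (X i) (rf g p) = rf g (sh i p) := rmon_mul_X g i p.1 p.2


/-- (X1), right -/
theorem X1r {g : K} (hg : Gen g) {k P : ℤ} (hP : 1 ≤ P) {c : Op K} (hc : c ∈ Fil g k P) :
    ∃ a ∈ Fil g k (P - 1), ∃ b ∈ Fil g k (P - 1), c = a * X 0 + b * X 1 := by
  rw [show P = P - 1 + 1 by ring, Fil_rf hg] at hc
  obtain ⟨a, ha, b, hb, h⟩ := x1 (K := K) (rf_X g 0) (rf_X g 1) (by omega) hc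
  exact ⟨a, by rw [Fil_rf hg]; exact ha, b, by rw [Fil_rf hg]; exact hb, h⟩

/-- (X2), right -/
theorem X2r {g : K} (hg : Gen g) {k P : ℤ} {a b : Op K} (ha : a ∈ Fil g k P)
    (hb : b ∈ Fil g k P) (h : a * X 0 + b * X 1 = 0) :
    ∃ e ∈ Fil g k (P - 1), a = e * X 1 ∧ b = -(e * X 0) := by
  rw [show P = P - 1 + 1 by ring, Fil_rf hg] at ha hb
  obtain ⟨e, he, h1, h2⟩ := x2 (K := K) (rmon_indep hg) (rf_X g 0) (rf_X g 1) ha hb h
  exact ⟨e, by rw [Fil_rf hg]; exact he, h1, h2⟩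

/-- (X3), right: strictness -/
theorem X3r {g : K} (hg : Gen g) {k l P : ℤ} {a b : Op K} (ha : a ∈ Fil g k P)
    (hb : b ∈ Fil g k P) (h : a * X 0 + b * X 1 ∈ Fil g l (P + 1)) :
    ∃ a2 ∈ Fil g l P, ∃ b2 ∈ Fil g l P, a2 * X 0 + b2 * X 1 = a * X 0 + b * X 1 := by
  rw [Fil_rf hg] at ha hb h
  obtain ⟨a2, ha2, b2, hb2, h1⟩ := x3 (K := K) (rmon_indep hg) (rf_X g 0) (rf_X g 1) ha hb h
  exact ⟨a2, by rw [Fil_rf hg]; exact ha2, b2, by rw [Fil_rf hg]; exact hb2, h1⟩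




/-! ### the lattices of `K_j` -/


/-- generation: every row of `K_j` is a row of order `≤ k - j` plus `e (x_1, -x_0)` -/
theorem LK_gen {g : K} (hg : Gen g) {j k P : ℤ} (hj : 0 ≤ j) {a b : Op K} (ha : a ∈ Fil g k P)
    (hb : b ∈ Fil g k P) (h : a * X 0 + b * X 1 ∈ Fil g (k - j) (P + 1)) :
    ∃ a2 ∈ Fil g (k - j) P, ∃ b2 ∈ Fil g (k - j) P, ∃ e ∈ Fil g k (P - 1),
      a = a2 + e * X 1 ∧ b = b2 - e * X 0 := by
  obtain ⟨a2, ha2, b2, hb2, h1⟩ := X3r hg ha hb h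
  have h2 : (a - a2) * X 0 + (b - b2) * X 1 = 0 := by
    rw [sub_mul, sub_mul]
    have : a * X 0 - a2 * X 0 + (b * X 1 - b2 * X 1) =
      (a * X 0 + b * X 1) - (a2 * X 0 + b2 * X 1) := by abel
    rw [this, h1, sub_self]
  obtain ⟨e, he, h3, h4⟩ := X2r hg (sub_mem ha (Fil_mono g (by omega) ha2))
    (sub_mem hb (Fil_mono g (by omega) hb2)) h2
  refine ⟨a2, ha2, b2, hb2, e, he, ?_, ?_⟩
  · rw [← h3]; abel
  · rw [sub_eq_add_neg, ← h4]; abel


end Crest.Agent.R186.B281.LK693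
end

-- ▼ part R186/KGen_693

/-!
Row 186, S0281 (helper693): `kgen : Gen g → KGen g`, the only PBW input of `B281W_128`.
-/

set_option autoImplicit false

namespace Crest.Agent.R186.B281

variable {K : Type} [Field K]

theorem kgen {g : K} (hg : Gen g) : KGen g := fun j k P a b ha hb h =>
  LK693.LK_gen hg (j := (j : ℤ)) (Int.natCast_nonneg j) ha hb h

end Crest.Agent.R186.B281
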