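import Mathlib

/-!
Row 186 (S0281), helper538: the null chain lemma.

`ext_zero_all`, `null_of_chain'` : from short exact sequences `0 → V (n+1) → E n → V n → 0` and the
groups `Ext (E n) Y`, the vanishing of `Ext (V 0) Y` in all degrees.
`Res3` : a length three resolution and `Ext³` in terms of `Hom (K3, Y)`, functorially.
-/

set_option autoImplicit false

universe w v u

open CategoryTheory CategoryTheory.Abelian CategoryTheory.Limits

namespace Crest.Agent.R186.NullChain538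

section Abs

variable {C : Type u} [Category.{v} C] [Abelian C] [HasExt.{w} C]

/-- short exact sequences `0 → V (n+1) → E n → V n → 0` -/
structure Chain (V E : ℕ → C) where
  i : ∀ n, V (n + 1) ⟶ E n
  p : ∀ n, E n ⟶ V n
  zero : ∀ n, i n ≫ p n = 0
  se : ∀ n, (ShortComplex.mk (i n) (p n) (zero n)).ShortExact

/-- the composite `E (n+1) → V (n+1) → E n` -/
def Chain.a {V E : ℕ → C} (c : Chain V E) (n : ℕ) : E (n + 1) ⟶ E n := c.p (n + 1) ≫ c.i n

theorem ext_succ_zero {S : ShortComplex C} (hS : S.ShortExact) (Y : C) (q : ℕ)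
    (h1 : Subsingleton (Ext S.X₁ Y q)) (h2 : Subsingleton (Ext S.X₂ Y (q + 1))) :
    Subsingleton (Ext S.X₃ Y (q + 1)) := by
  refine subsingleton_of_forall_eq 0 fun x => ?_
  obtain ⟨x₁, hx₁⟩ := Ext.contravariant_sequence_exact₃ hS Y x (Subsingleton.elim _ _)
    (n₀ := q) (by omega)
  rw [← hx₁, Subsingleton.elim x₁ 0, Ext.comp_zero]

theorem ext_zero_zero {S : ShortComplex C} (hS : S.ShortExact) (Y : C)
    (h2 : Subsingleton (Ext S.X₂ Y 0)) :
    Subsingleton (Ext S.X₃ Y 0) := by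
  have := hS.epi_g
  refine subsingleton_of_forall_eq 0 fun x => ?_
  apply Ext.precomp_mk₀_injective_of_epi Y S.g
  exact Subsingleton.elim _ _

variable {V E : ℕ → C}

theorem ext_zero_all (c : Chain V E) (Y : C) (h : ∀ n q, Subsingleton (Ext (E n) Y q)) :
    ∀ q n, Subsingleton (Ext (V n) Y q) := by
  intro q
  induction q with
  | zero => exact fun n => ext_zero_zero (c.se n) Y (h n 0)
  | succ q ih => exact fun n => ext_succ_zero (c.se n) Y q (ih (n + 1)) (h n (q + 1))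

theorem null_of_chain' (c : Chain V E) (Y : C) (d : ℕ)
    (h : ∀ n q, q ≠ d → Subsingleton (Ext (E n) Y q))
    (h0 : ∀ x : Ext (E 0) Y d, (Ext.mk₀ (c.a 0)).comp x (zero_add d) = 0 → x = 0)
    (h1 : ∀ (n : ℕ) (x : Ext (E (n + 1)) Y d),
      (Ext.mk₀ (c.a (n + 1))).comp x (zero_add d) = 0 →
      ∃ y : Ext (E n) Y d, (Ext.mk₀ (c.a n)).comp y (zero_add d) = x) :
    ∀ q, Subsingleton (Ext (V 0) Y q) := by
  -- degrees below `d`
  have low : ∀ q, q < d → ∀ n, Subsingleton (Ext (V n) Y q) := by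
    intro q
    induction q with
    | zero => exact fun hq n => ext_zero_zero (c.se n) Y (h n 0 (by omega))
    | succ q ih =>
      exact fun hq n => ext_succ_zero (c.se n) Y q (ih (by omega) (n + 1)) (h n (q + 1) (by omega))
  -- injectivity in degree `d`
  have inj : ∀ (n : ℕ) (x : Ext (V n) Y d),
      (Ext.mk₀ (c.p n)).comp x (zero_add d) = 0 → x = 0 := by
    intro n x hx
    rcases Nat.eq_zero_or_pos d with rfl | hd
    · have : Epi (c.p n) := (c.se n).epi_g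
      apply Ext.precomp_mk₀_injective_of_epi Y (c.p n)
      simpa using hx
    · obtain ⟨x₁, hx₁⟩ := Ext.contravariant_sequence_exact₃ (c.se n) Y x hx
        (n₀ := d - 1) (by omega)
      have := low (d - 1) (by omega) (n + 1)
      rw [← hx₁, Subsingleton.elim x₁ 0, Ext.comp_zero]
  have comp_a : ∀ (n : ℕ) (z : Ext (E n) Y d), (Ext.mk₀ (c.a n)).comp z (zero_add d) =
      (Ext.mk₀ (c.p (n + 1))).comp ((Ext.mk₀ (c.i n)).comp z (zero_add d)) (zero_add d) := by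
    intro n z
    rw [Chain.a, Ext.mk₀_comp_mk₀_assoc]
  have mid : Subsingleton (Ext (V 0) Y d) := by
    refine subsingleton_of_forall_eq 0 fun x => inj 0 x (h0 _ ?_)
    rw [comp_a, Ext.mk₀_comp_mk₀_assoc]
    simp [c.zero]
  have up1 : ∀ n, Subsingleton (Ext (V n) Y (d + 1)) := by
    intro n
    refine subsingleton_of_forall_eq 0 fun x => ?_
    obtain ⟨x₁, hx₁⟩ := Ext.contravariant_sequence_exact₃ (c.se n) Y x
      (by have := h n (d + 1) (by omega); exact Subsingleton.elim _ _) (n₀ := d) (by omega)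
    obtain ⟨z, hz⟩ := h1 n ((Ext.mk₀ (c.p (n + 1))).comp x₁ (zero_add d)) (by
      rw [comp_a, Ext.mk₀_comp_mk₀_assoc]
      simp [c.zero])
    have e : x₁ = (Ext.mk₀ (c.i n)).comp z (zero_add d) := by
      rw [← sub_eq_zero]
      apply inj (n + 1)
      rw [comp_a] at hz
      rw [sub_eq_add_neg, Ext.comp_add, Ext.comp_neg, hz, add_neg_cancel]
    rw [← hx₁, e]
    exact (c.se n).extClass_comp_assoc z
  have up : ∀ k n, Subsingleton (Ext (V n) Y (d + 1 + k)) := by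
    intro k
    induction k with
    | zero => exact up1
    | succ k ih =>
      exact fun n => ext_succ_zero (c.se n) Y (d + 1 + k) (ih (n + 1)) (h n _ (by omega))
  intro q
  rcases lt_trichotomy q d with hq | rfl | hq
  · exact low q hq 0
  · exact mid
  · obtain ⟨k, rfl⟩ : ∃ k, q = d + 1 + k := ⟨q - (d + 1), by omega⟩
    exact up k 0

end Abs

section Resolution

variable {C : Type u} [Category.{v} C] [Abelian C] [HasExt.{w} C]

/-- a resolution `0 → K3 → K2 → K1 → K0 → E → 0` cut into short exact sequences; `K0, K1, K2, K3`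
projective -/
structure Res3 (E : C) where
  K0 : C
  K1 : C
  K2 : C
  K3 : C
  Z1 : C
  Z2 : C
  e : K0 ⟶ E
  j1 : Z1 ⟶ K0
  q1 : K1 ⟶ Z1
  j2 : Z2 ⟶ K1
  q2 : K2 ⟶ Z2
  d3 : K3 ⟶ K2
  w1 : j1 ≫ e = 0
  w2 : j2 ≫ q1 = 0
  w3 : d3 ≫ q2 = 0
  s1 : (ShortComplex.mk j1 e w1).ShortExact
  s2 : (ShortComplex.mk j2 q1 w2).ShortExact
  s3 : (ShortComplex.mk d3 q2 w3).ShortExact
  p0 : Projective K0
  p1 : Projective K1
  p2 : Projective K2
  p3 : Projective K3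

namespace Res3

variable {E : C} (R : Res3 E) {Y : C}

theorem shift {S : ShortComplex C} (hS : S.ShortExact) (hP : Projective S.X₂) {q : ℕ}
    (x : Ext S.X₃ Y (q + 1)) : ∃ x₁ : Ext S.X₁ Y q, hS.extClass.comp x₁ (by omega) = x :=
  Ext.contravariant_sequence_exact₃ hS Y x (Ext.eq_zero_of_projective _) (by omega)

theorem shift_zero {S : ShortComplex C} (hS : S.ShortExact) (hP : Projective S.X₂) {q : ℕ}
    (x : Ext S.X₁ Y (q + 1)) (n₁ : ℕ) (hn : 1 + (q + 1) = n₁)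
    (hx : hS.extClass.comp x hn = 0) : x = 0 := by
  obtain ⟨y, hy⟩ := Ext.contravariant_sequence_exact₁ hS Y x hn hx
  rw [← hy, Ext.eq_zero_of_projective y, Ext.comp_zero]

theorem shift_zero0 {S : ShortComplex C} (hS : S.ShortExact)
    (f : S.X₁ ⟶ Y) (hx : hS.extClass.comp (Ext.mk₀ f) (add_zero 1) = 0) :
    ∃ g : S.X₂ ⟶ Y, S.f ≫ g = f := by
  obtain ⟨y, hy⟩ := Ext.contravariant_sequence_exact₁ hS Y (Ext.mk₀ f) (add_zero 1) hx
  obtain ⟨g, rfl⟩ := (Ext.mk₀_bijective _ _).2 y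
  refine ⟨g, (Ext.mk₀_bijective _ _).1 ?_⟩
  rw [← hy, Ext.mk₀_comp_mk₀]

theorem shift_mk {S : ShortComplex C} (hS : S.ShortExact) (g : S.X₂ ⟶ Y) :
    hS.extClass.comp (Ext.mk₀ (S.f ≫ g)) (add_zero 1) = 0 := by
  rw [← Ext.mk₀_comp_mk₀]
  exact hS.extClass_comp_assoc _

include R in
theorem ext_ge4 (q : ℕ) : Subsingleton (Ext E Y (q + 4)) := by
  refine subsingleton_of_forall_eq 0 fun x => ?_
  obtain ⟨x1, h1⟩ := shift R.s1 R.p0 (q := q + 3) x
  obtain ⟨x2, h2⟩ := shift R.s2 R.p1 (q := q + 2) x1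
  obtain ⟨x3, h3⟩ := shift R.s3 R.p2 (q := q + 1) x2
  have := R.p3
  have h : x3 = 0 := Ext.eq_zero_of_projective x3
  rw [← h1, ← h2, ← h3, h, Ext.comp_zero, Ext.comp_zero, Ext.comp_zero]

/-- the class of the resolution -/
noncomputable def cls : Ext E R.K3 3 :=
  R.s1.extClass.comp (R.s2.extClass.comp R.s3.extClass (show 1 + 1 = 2 by rfl))
    (show 1 + 2 = 3 by rfl)

theorem cls_comp {T : C} (f : R.K3 ⟶ T) : R.cls.comp (Ext.mk₀ f) (add_zero 3) =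
    R.s1.extClass.comp (R.s2.extClass.comp (R.s3.extClass.comp (Ext.mk₀ f) (add_zero 1))
      (show 1 + 1 = 2 by rfl)) (show 1 + 2 = 3 by rfl) := by
  rw [cls, Ext.comp_assoc (a₂₃ := 2) _ _ _ (by omega) (by omega) (by omega),
    Ext.comp_assoc (a₂₃ := 1) _ _ _ (by omega) (by omega) (by omega)]

theorem exists_rep (x : Ext E Y 3) : ∃ f : R.K3 ⟶ Y, R.cls.comp (Ext.mk₀ f) (add_zero 3) = x := by
  obtain ⟨x1, h1⟩ := shift R.s1 R.p0 (q := 2) x
  obtain ⟨x2, h2⟩ := shift R.s2 R.p1 (q := 1) x1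
  obtain ⟨x3, h3⟩ := shift R.s3 R.p2 (q := 0) x2
  obtain ⟨f, rfl⟩ := (Ext.mk₀_bijective _ _).2 x3
  exact ⟨f, by rw [cls_comp, ← h1, ← h2, ← h3]⟩

theorem comp_eq_zero_iff (f : R.K3 ⟶ Y) :
    R.cls.comp (Ext.mk₀ f) (add_zero 3) = 0 ↔ ∃ h : R.K2 ⟶ Y, R.d3 ≫ h = f := by
  constructor
  · intro hx
    rw [cls_comp] at hx
    have h1 := shift_zero R.s1 R.p0 (q := 1) _ 3 _ hx
    have h2 := shift_zero R.s2 R.p1 (q := 0) _ 2 _ h1
    exact shift_zero0 R.s3 f h2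
  · rintro ⟨h, rfl⟩
    have h3 := shift_mk R.s3 h
    rw [cls_comp]
    erw [h3]
    rw [Ext.comp_zero, Ext.comp_zero]

theorem ext_two (H : ∀ f : R.K2 ⟶ Y, R.d3 ≫ f = 0 → ∃ g : R.K1 ⟶ Y, R.q2 ≫ R.j2 ≫ g = f) :
    Subsingleton (Ext E Y 2) := by
  refine subsingleton_of_forall_eq 0 fun x => ?_
  obtain ⟨x1, h1⟩ := shift R.s1 R.p0 (q := 1) x
  obtain ⟨x2, h2⟩ := shift R.s2 R.p1 (q := 0) x1
  obtain ⟨f, rfl⟩ := (Ext.mk₀_bijective _ _).2 x2
  obtain ⟨g, hg⟩ := H (R.q2 ≫ f) (by rw [← Category.assoc, R.w3, zero_comp])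
  have : Epi R.q2 := R.s3.epi_g
  have e : R.j2 ≫ g = f := by rw [← cancel_epi R.q2, hg]
  have h3 := shift_mk R.s2 g
  rw [← h1, ← h2, ← e]
  erw [h3]
  rw [Ext.comp_zero]

theorem ext_one (H : ∀ f : R.K1 ⟶ Y, R.q2 ≫ R.j2 ≫ f = 0 →
    ∃ g : R.K0 ⟶ Y, R.q1 ≫ R.j1 ≫ g = f) :
    Subsingleton (Ext E Y 1) := by
  refine subsingleton_of_forall_eq 0 fun x => ?_
  obtain ⟨x1, h1⟩ := shift R.s1 R.p0 (q := 0) x
  obtain ⟨f, rfl⟩ := (Ext.mk₀_bijective _ _).2 x1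
  obtain ⟨g, hg⟩ := H (R.q1 ≫ f) (by
    rw [← Category.assoc R.j2, R.w2, zero_comp, comp_zero])
  have : Epi R.q1 := R.s2.epi_g
  have e : R.j1 ≫ g = f := by rw [← cancel_epi R.q1, hg]
  have h3 := shift_mk R.s1 g
  rw [← h1, ← e]
  exact h3

theorem ext_zero (H : ∀ f : R.K0 ⟶ Y, R.q1 ≫ R.j1 ≫ f = 0 → f = 0) :
    Subsingleton (Ext E Y 0) := by
  refine subsingleton_of_forall_eq 0 fun x => ?_
  obtain ⟨f, rfl⟩ := (Ext.mk₀_bijective _ _).2 x
  have : Epi R.e := R.s1.epi_g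
  have h := H (R.e ≫ f) (by
    rw [← Category.assoc R.j1, R.w1, zero_comp, comp_zero])
  have : f = 0 := by rw [← cancel_epi R.e, h, comp_zero]
  rw [this, Ext.mk₀_zero]

theorem cls_naturality {E' : C} (R' : Res3 E') (α : E' ⟶ E) (φ0 : R'.K0 ⟶ R.K0)
    (φ1 : R'.K1 ⟶ R.K1) (φ2 : R'.K2 ⟶ R.K2) (φ3 : R'.K3 ⟶ R.K3)
    (c0 : R'.e ≫ α = φ0 ≫ R.e)
    (c1 : R'.q1 ≫ R'.j1 ≫ φ0 = φ1 ≫ R.q1 ≫ R.j1)
    (c2 : R'.q2 ≫ R'.j2 ≫ φ1 = φ2 ≫ R.q2 ≫ R.j2)
    (c3 : R'.d3 ≫ φ2 = φ3 ≫ R.d3) :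
    (Ext.mk₀ α).comp R.cls (zero_add 3) = R'.cls.comp (Ext.mk₀ φ3) (add_zero 3) := by
  have m1 : Mono R.j1 := R.s1.mono_f
  have m2 : Mono R.j2 := R.s2.mono_f
  have e1 : Epi R'.q1 := R'.s2.epi_g
  have e2 : Epi R'.q2 := R'.s3.epi_g
  obtain ⟨z1, hz1⟩ : ∃ z1 : R'.Z1 ⟶ R.Z1, z1 ≫ R.j1 = R'.j1 ≫ φ0 := by
    obtain ⟨l, hl⟩ := R.s1.exact.lift' (R'.j1 ≫ φ0) (by
      show (R'.j1 ≫ φ0) ≫ R.e = 0
      rw [Category.assoc, ← c0, ← Category.assoc, R'.w1, zero_comp])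
    exact ⟨l, hl⟩
  have hq1 : φ1 ≫ R.q1 = R'.q1 ≫ z1 := by
    rw [← cancel_mono R.j1, Category.assoc, Category.assoc, hz1, c1]
  obtain ⟨z2, hz2⟩ : ∃ z2 : R'.Z2 ⟶ R.Z2, z2 ≫ R.j2 = R'.j2 ≫ φ1 := by
    obtain ⟨l, hl⟩ := R.s2.exact.lift' (R'.j2 ≫ φ1) (by
      show (R'.j2 ≫ φ1) ≫ R.q1 = 0
      rw [Category.assoc, hq1, ← Category.assoc, R'.w2, zero_comp])
    exact ⟨l, hl⟩
  have hq2 : φ2 ≫ R.q2 = R'.q2 ≫ z2 := by
    rw [← cancel_mono R.j2, Category.assoc, Category.assoc, hz2, c2]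
  have n1 : R'.s1.extClass.comp (Ext.mk₀ z1) (add_zero 1) =
      (Ext.mk₀ α).comp R.s1.extClass (zero_add 1) :=
    ShortComplex.ShortExact.extClass_naturality R'.s1 R.s1
      { τ₁ := z1, τ₂ := φ0, τ₃ := α, comm₁₂ := hz1, comm₂₃ := c0.symm }
  have n2 : R'.s2.extClass.comp (Ext.mk₀ z2) (add_zero 1) =
      (Ext.mk₀ z1).comp R.s2.extClass (zero_add 1) :=
    ShortComplex.ShortExact.extClass_naturality R'.s2 R.s2
      { τ₁ := z2, τ₂ := φ1, τ₃ := z1, comm₁₂ := hz2, comm₂₃ := hq1 }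
  have n3 : R'.s3.extClass.comp (Ext.mk₀ φ3) (add_zero 1) =
      (Ext.mk₀ z2).comp R.s3.extClass (zero_add 1) :=
    ShortComplex.ShortExact.extClass_naturality R'.s3 R.s3
      { τ₁ := φ3, τ₂ := φ2, τ₃ := z2, comm₁₂ := c3.symm, comm₂₃ := hq2 }
  rw [cls_comp, n3, cls,
    ← Ext.comp_assoc (a₁₂ := 1) R'.s2.extClass (Ext.mk₀ z2) R.s3.extClass (by omega) (by omega)
      (by omega), n2,
    Ext.comp_assoc (a₂₃ := 2) (Ext.mk₀ z1) R.s2.extClass R.s3.extClass (by omega) (by omega)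
      (by omega),
    ← Ext.comp_assoc (a₁₂ := 1) R'.s1.extClass (Ext.mk₀ z1) _ (by omega) (by omega)
      (by omega), n1,
    Ext.comp_assoc (a₂₃ := 3) (Ext.mk₀ α) R.s1.extClass _ (by omega) (by omega)
      (by omega)]

end Res3


end Resolution

section Mod

variable (A : Type u) [Ring A]

/-- a projective resolution of length three of a module, given by linear maps -/
structure MRes (E : Type u) [AddCommGroup E] [Module A E] where
  K0 : Type u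
  K1 : Type u
  K2 : Type u
  K3 : Type u
  [g0 : AddCommGroup K0]
  [g1 : AddCommGroup K1]
  [g2 : AddCommGroup K2]
  [g3 : AddCommGroup K3]
  [m0 : Module A K0]
  [m1 : Module A K1]
  [m2 : Module A K2]
  [m3 : Module A K3]
  e : K0 →ₗ[A] E
  d1 : K1 →ₗ[A] K0
  d2 : K2 →ₗ[A] K1
  d3 : K3 →ₗ[A] K2
  surj : Function.Surjective e
  ex0 : Function.Exact d1 e
  ex1 : Function.Exact d2 d1
  ex2 : Function.Exact d3 d2
  inj : Function.Injective d3
  p0 : Module.Projective A K0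
  p1 : Module.Projective A K1
  p2 : Module.Projective A K2
  p3 : Module.Projective A K3

attribute [instance] MRes.g0 MRes.g1 MRes.g2 MRes.g3 MRes.m0 MRes.m1 MRes.m2 MRes.m3

variable {A}

namespace MRes

variable {E : Type u} [AddCommGroup E] [Module A E] (R : MRes A E)

/-- first syzygy -/
abbrev Z1 : Submodule A R.K0 := LinearMap.ker R.e
/-- second syzygy -/
abbrev Z2 : Submodule A R.K1 := LinearMap.ker R.d1

/-- `K1 → Z1` -/
def q1 : R.K1 →ₗ[A] R.Z1 := R.d1.codRestrict _ fun x => (R.ex0 (R.d1 x)).2 ⟨x, rfl⟩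
/-- `K2 → Z2` -/
def q2 : R.K2 →ₗ[A] R.Z2 := R.d2.codRestrict _ fun x => (R.ex1 (R.d2 x)).2 ⟨x, rfl⟩

theorem q1_surj : Function.Surjective R.q1 := by
  rintro ⟨y, hy⟩
  obtain ⟨x, hx⟩ := (R.ex0 y).1 hy
  exact ⟨x, Subtype.ext hx⟩

theorem q2_surj : Function.Surjective R.q2 := by
  rintro ⟨y, hy⟩
  obtain ⟨x, hx⟩ := (R.ex1 y).1 hy
  exact ⟨x, Subtype.ext hx⟩

theorem exact1 : Function.Exact R.Z1.subtype R.e := fun y => by
  constructor
  · exact fun h => ⟨⟨y, h⟩, rfl⟩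
  · rintro ⟨x, rfl⟩; exact x.2

theorem exact2 : Function.Exact R.Z2.subtype R.q1 := fun y => by
  constructor
  · exact fun h => ⟨⟨y, congrArg Subtype.val h⟩, rfl⟩
  · rintro ⟨x, rfl⟩; exact Subtype.ext x.2

theorem exact3 : Function.Exact R.d3 R.q2 := fun y => by
  constructor
  · exact fun h => (R.ex2 y).1 (congrArg Subtype.val h)
  · rintro ⟨x, rfl⟩; exact Subtype.ext ((R.ex2 _).2 ⟨x, rfl⟩)

/-- the categorical resolution -/
noncomputable def toRes3 : Res3 (ModuleCat.of A E) where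
  K0 := ModuleCat.of A R.K0
  K1 := ModuleCat.of A R.K1
  K2 := ModuleCat.of A R.K2
  K3 := ModuleCat.of A R.K3
  Z1 := ModuleCat.of A R.Z1
  Z2 := ModuleCat.of A R.Z2
  e := ModuleCat.ofHom R.e
  j1 := ModuleCat.ofHom R.Z1.subtype
  q1 := ModuleCat.ofHom R.q1
  j2 := ModuleCat.ofHom R.Z2.subtype
  q2 := ModuleCat.ofHom R.q2
  d3 := ModuleCat.ofHom R.d3
  w1 := by ext x; exact x.2
  w2 := by
    apply ModuleCat.hom_ext
    exact R.exact2.linearMap_comp_eq_zero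
  w3 := by
    apply ModuleCat.hom_ext
    exact R.exact3.linearMap_comp_eq_zero
  s1 := ModuleCat.shortComplex_shortExact (ModuleCat.shortComplexOfCompEqZero R.Z1.subtype R.e
    R.exact1.linearMap_comp_eq_zero) R.exact1 (Submodule.injective_subtype _) R.surj
  s2 := ModuleCat.shortComplex_shortExact (ModuleCat.shortComplexOfCompEqZero R.Z2.subtype R.q1
    R.exact2.linearMap_comp_eq_zero) R.exact2 (Submodule.injective_subtype _) R.q1_surj
  s3 := ModuleCat.shortComplex_shortExact (ModuleCat.shortComplexOfCompEqZero R.d3 R.q2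
    R.exact3.linearMap_comp_eq_zero) R.exact3 R.inj R.q2_surj
  p0 := by have := R.p0; exact (IsProjective.iff_projective (ModuleCat.of A R.K0)).1 inferInstance
  p1 := by have := R.p1; exact (IsProjective.iff_projective (ModuleCat.of A R.K1)).1 inferInstance
  p2 := by have := R.p2; exact (IsProjective.iff_projective (ModuleCat.of A R.K2)).1 inferInstance
  p3 := by have := R.p3; exact (IsProjective.iff_projective (ModuleCat.of A R.K3)).1 inferInstance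

variable (Y : Type u) [AddCommGroup Y] [Module A Y]

/-- `Hom (K, Y)` is exact in degree 0 -/
def H0 : Prop := ∀ f : R.K0 →ₗ[A] Y, f ∘ₗ R.d1 = 0 → f = 0
/-- `Hom (K, Y)` is exact in degree 1 -/
def H1 : Prop := ∀ f : R.K1 →ₗ[A] Y, f ∘ₗ R.d2 = 0 → ∃ g : R.K0 →ₗ[A] Y, g ∘ₗ R.d1 = f
/-- `Hom (K, Y)` is exact in degree 2 -/
def H2 : Prop := ∀ f : R.K2 →ₗ[A] Y, f ∘ₗ R.d3 = 0 → ∃ g : R.K1 →ₗ[A] Y, g ∘ₗ R.d2 = f
/-- `Hom (K, Y)` is exact in degree 3 -/
def H3 : Prop := ∀ f : R.K3 →ₗ[A] Y, ∃ g : R.K2 →ₗ[A] Y, g ∘ₗ R.d3 = f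

variable {Y} {R}

theorem H0.cat (h : R.H0 Y) (f : R.toRes3.K0 ⟶ ModuleCat.of A Y)
    (hf : R.toRes3.q1 ≫ R.toRes3.j1 ≫ f = 0) : f = 0 := by
  apply ModuleCat.hom_ext
  refine h f.hom ?_
  ext x
  exact congrArg (fun g => (ModuleCat.Hom.hom g) x) hf

theorem H1.cat (h : R.H1 Y) (f : R.toRes3.K1 ⟶ ModuleCat.of A Y)
    (hf : R.toRes3.q2 ≫ R.toRes3.j2 ≫ f = 0) :
    ∃ g : R.toRes3.K0 ⟶ ModuleCat.of A Y, R.toRes3.q1 ≫ R.toRes3.j1 ≫ g = f := by
  obtain ⟨g, hg⟩ := h f.hom (by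
    ext x
    exact congrArg (fun g => (ModuleCat.Hom.hom g) x) hf)
  refine ⟨ModuleCat.ofHom g, ?_⟩
  apply ModuleCat.hom_ext
  ext x
  exact congrArg (fun g => g x) hg

theorem H2.cat (h : R.H2 Y) (f : R.toRes3.K2 ⟶ ModuleCat.of A Y)
    (hf : R.toRes3.d3 ≫ f = 0) :
    ∃ g : R.toRes3.K1 ⟶ ModuleCat.of A Y, R.toRes3.q2 ≫ R.toRes3.j2 ≫ g = f := by
  obtain ⟨g, hg⟩ := h f.hom (by
    ext x
    exact congrArg (fun g => (ModuleCat.Hom.hom g) x) hf)
  refine ⟨ModuleCat.ofHom g, ?_⟩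
  apply ModuleCat.hom_ext
  ext x
  exact congrArg (fun g => g x) hg

theorem ext0 (h : R.H0 Y) : Subsingleton (Ext (ModuleCat.of A E) (ModuleCat.of A Y) 0) :=
  R.toRes3.ext_zero h.cat

theorem ext1 (h : R.H1 Y) : Subsingleton (Ext (ModuleCat.of A E) (ModuleCat.of A Y) 1) :=
  R.toRes3.ext_one h.cat

theorem ext2 (h : R.H2 Y) : Subsingleton (Ext (ModuleCat.of A E) (ModuleCat.of A Y) 2) :=
  R.toRes3.ext_two h.cat

theorem ext3 (h : R.H3 Y) : Subsingleton (Ext (ModuleCat.of A E) (ModuleCat.of A Y) 3) := by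
  refine subsingleton_of_forall_eq 0 fun x => ?_
  obtain ⟨f, rfl⟩ := R.toRes3.exists_rep x
  rw [Res3.comp_eq_zero_iff]
  obtain ⟨g, hg⟩ := h f.hom
  refine ⟨ModuleCat.ofHom g, ?_⟩
  apply ModuleCat.hom_ext
  ext x
  exact congrArg (fun g => g x) hg

variable (R Y) in
include R in
theorem ext_ge4 (q : ℕ) (hq : 4 ≤ q) :
    Subsingleton (Ext (ModuleCat.of A E) (ModuleCat.of A Y) q) := by
  obtain ⟨k, rfl⟩ : ∃ k, q = k + 4 := ⟨q - 4, by omega⟩
  exact Res3.ext_ge4 R.toRes3 k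

theorem ext_all (h0 : R.H0 Y) (h1 : R.H1 Y) (h2 : R.H2 Y) (h3 : R.H3 Y) (q : ℕ) :
    Subsingleton (Ext (ModuleCat.of A E) (ModuleCat.of A Y) q) := by
  match q with
  | 0 => exact ext0 h0
  | 1 => exact ext1 h1
  | 2 => exact ext2 h2
  | 3 => exact ext3 h3
  | q + 4 => exact ext_ge4 (R := R) (Y := Y) (q := q + 4) (by omega)

end MRes

variable {V E : ℕ → Type u} [∀ n, AddCommGroup (V n)] [∀ n, Module A (V n)]
  [∀ n, AddCommGroup (E n)] [∀ n, Module A (E n)]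

/-- the chain in `ModuleCat` -/
noncomputable def mchain (i : ∀ n, V (n + 1) →ₗ[A] E n) (p : ∀ n, E n →ₗ[A] V n)
    (hi : ∀ n, Function.Injective (i n)) (hp : ∀ n, Function.Surjective (p n))
    (hex : ∀ n, Function.Exact (i n) (p n)) :
    Chain (fun n => ModuleCat.of A (V n)) (fun n => ModuleCat.of A (E n)) where
  i n := ModuleCat.ofHom (i n)
  p n := ModuleCat.ofHom (p n)
  zero n := by ext x; exact (hex n _).2 ⟨x, rfl⟩
  se n := ModuleCat.shortComplex_shortExact (ModuleCat.shortComplexOfCompEqZero (i n) (p n)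
    (hex n).linearMap_comp_eq_zero) (hex n) (hi n) (hp n)

/-- all `Ext` of `E n` into `Y` vanish, hence all `Ext` of `V n` -/
theorem mext_zero_all (i : ∀ n, V (n + 1) →ₗ[A] E n) (p : ∀ n, E n →ₗ[A] V n)
    (hi : ∀ n, Function.Injective (i n)) (hp : ∀ n, Function.Surjective (p n))
    (hex : ∀ n, Function.Exact (i n) (p n)) (Y : Type u) [AddCommGroup Y] [Module A Y]
    (h : ∀ n q, Subsingleton (Ext (ModuleCat.of A (E n)) (ModuleCat.of A Y) q)) (q n : ℕ) :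
    Subsingleton (Ext (ModuleCat.of A (V n)) (ModuleCat.of A Y) q) :=
  ext_zero_all (mchain i p hi hp hex) (ModuleCat.of A Y) h q n


end Mod

section Eval

variable {A : Type u} [Ring A] {V E : ℕ → Type u} [∀ n, AddCommGroup (V n)] [∀ n, Module A (V n)]
  [∀ n, AddCommGroup (E n)] [∀ n, Module A (E n)]


end Eval

end Crest.Agent.R186.NullChain538
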