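import Crest.Agent.R186.Defs281_128

/-!
Row 186, S0281, base: the ring instance on `A g s` (the default search does not find it,
because `A g s` is a subalgebra with respect to `TrivSqZeroExt.semiring`).
-/

namespace Crest.Agent.R186.B281

variable {K : Type} [Field K]

/-- `A g s` is a ring; its semiring structure is (definitionally, with reducible transparency)
the one of the subalgebra. -/
noncomputable instance instRingA (g : K) (s : ℤ) : Ring (A g s) :=
  @Subalgebra.toRing K (DualNumber (Mat K)) _ _ (TrivSqZeroExt.algebra' K (Mat K) (Mat K)) (A g s)


end Crest.Agent.R186.B281
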