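import Mathlib
import Crest.Agent.R186.Inst_823
import Crest.Agent.R186.RingA_580
import Crest.Agent.R186.VE_755
import Crest.Agent.R186.ExtRes_700
import Crest.Agent.R186.NullChain_538
import Crest.Agent.R186.FDord_757

-- ▼ part R186/FinA_162
section

/-!
Row 186, S0281, leaf B281.A1 (helper162): the base algebra `A g s` is finite-dimensional, and its
five vertex idempotents.
-/

set_option autoImplicit false

open Matrix

namespace Crest.Agent.R186.B281

variable {K : Type} [Field K]

/-! ### finiteness of the pieces -/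

theorem Fil_set_finite (g : K) (k P : ℤ) :
    {T : Op K | ∃ a b : ℕ × ℕ, (b.1 : ℤ) + b.2 ≤ k ∧
      (a.1 : ℤ) + a.2 - (b.1 + b.2) = P ∧ T = mon g a b}.Finite := by
  let N : ℕ := (|k| + |P| + 1).toNat
  have hN : (N : ℤ) = |k| + |P| + 1 := Int.toNat_of_nonneg (by positivity)
  refine Set.Finite.subset
    ((((Finset.range N ×ˢ Finset.range N) ×ˢ (Finset.range N ×ˢ Finset.range N) :
      Finset ((ℕ × ℕ) × (ℕ × ℕ))).finite_toSet).image
      (fun p : (ℕ × ℕ) × (ℕ × ℕ) => mon g p.1 p.2)) ?_
  rintro T ⟨a, b, h1, h2, rfl⟩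
  have hk := le_abs_self k
  have hP := le_abs_self P
  refine ⟨(a, b), ?_, rfl⟩
  simp only [Finset.coe_product, Set.mem_prod, Finset.coe_range, Set.mem_Iio]
  have hk' := abs_nonneg k
  have hP' := abs_nonneg P
  refine ⟨⟨?_, ?_⟩, ?_, ?_⟩ <;> zify <;> rw [hN] <;> omega

instance Fil_fd (g : K) (k P : ℤ) : Module.Finite K (Fil g k P) :=
  Module.Finite.span_of_finite K (Fil_set_finite g k P)

/-- every entry of a row of the lattice lies in a common filtration piece -/
theorem Lat_entry {g : K} {s k P : ℤ} {v : Fin 7 → Op K} (hv : v ∈ Lat g s k P) (j : Fin 7) :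
    v j ∈ Fil g (|k| + |s|) P := by
  obtain ⟨v0, v1, v2, ⟨v3, v4, -⟩, v6, v7, -⟩ := hv
  have hk := le_abs_self k
  have hs := abs_nonneg s
  have hs' := neg_abs_le s
  fin_cases j
  exacts [Fil_mono g (by omega) v0, Fil_mono g (by omega) v1, Fil_mono g (by omega) v2,
    Fil_mono g (by omega) v3, Fil_mono g (by omega) v4, Fil_mono g (by omega) v6,
    Fil_mono g (by omega) v7]

instance Lat_fd (g : K) (s k P : ℤ) : Module.Finite K (Lat g s k P) := by
  let f : Lat g s k P →ₗ[K] (Fin 7 → Fil g (|k| + |s|) P) :=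
    LinearMap.pi fun j => ((LinearMap.proj j).comp (Lat g s k P).subtype).codRestrict _
      (fun v => Lat_entry v.2 j)
  refine Module.Finite.of_injective f ?_
  intro v w h
  apply Subtype.ext
  funext j
  exact congrArg Subtype.val (congrFun h j)

/-- the standard rows, with an explicit order -/
theorem std_mem' (g : K) (s : ℤ) (i : Fin 7) :
    (Pi.single i 1 : Fin 7 → Op K) ∈ Lat g s (s ⊔ 0 + 2) 0 := by
  have h1 : ∀ k : ℤ, 0 ≤ k → (1 : Op K) ∈ Fil g k 0 := fun k hk => one_mem_Fil g hk
  have h2 : ∀ (i : Fin 2) (k : ℤ), 0 ≤ k → (X i : Op K) ∈ Fil g k (0 + 1) :=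
    fun i k hk => X_mem_Fil g i hk
  have h3 : (0 : ℤ) ≤ s ⊔ 0 := le_max_right _ _
  have h4 : s ≤ s ⊔ 0 := le_max_left _ _
  have hv : ∀ j : Fin 7, (Pi.single i 1 : Fin 7 → Op K) j = if j = i then 1 else 0 := fun j => by
    rw [Pi.single_apply]
  have e1 : ∀ (j : Fin 7) (k : ℤ), 0 ≤ k → (Pi.single i 1 : Fin 7 → Op K) j ∈ Fil g k 0 := by
    intro j k hk
    rw [hv]
    split_ifs
    · exact h1 k hk
    · exact zero_mem _
  have e2 : ∀ (j : Fin 7) (l : Fin 2) (k : ℤ), 0 ≤ k →
      (Pi.single i 1 : Fin 7 → Op K) j * X l ∈ Fil g k (0 + 1) := by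
    intro j l k hk
    rw [hv]
    split_ifs
    · rw [one_mul]; exact h2 l k hk
    · rw [zero_mul]; exact zero_mem _
  exact ⟨e1 _ _ (by omega), e1 _ _ (by omega), e1 _ _ (by omega),
    ⟨e1 _ _ (by omega), e1 _ _ (by omega), add_mem (e2 _ _ _ (by omega)) (e2 _ _ _ (by omega))⟩,
    e1 _ _ (by omega), e1 _ _ (by omega), add_mem (e2 _ _ _ (by omega)) (e2 _ _ _ (by omega))⟩

/-- rows of a matrix preserving the lattices are rows of the lattices -/
theorem Pres.row_mem {g : K} {s e : ℤ} {M : Mat K} (hM : Pres g s e M) (i : Fin 7) :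
    (fun j => M i j) ∈ Lat g s (s ⊔ 0 + 2) e := by
  have h := hM _ 0 _ (std_mem' g s i)
  rwa [Matrix.single_one_vecMul, zero_add] at h

theorem Pres.entry_mem {g : K} {s e : ℤ} {M : Mat K} (hM : Pres g s e M) (i j : Fin 7) :
    M i j ∈ Fil g (|s ⊔ 0 + 2| + |s|) e := Lat_entry (hM.row_mem i) j

/-- the base algebra is finite-dimensional -/
instance A_fd (g : K) (s : ℤ) : Module.Finite K (A g s) := by
  let m : ℤ := |s ⊔ 0 + 2| + |s|
  let f : A g s →ₗ[K] ((Fin 7 → Fin 7 → Fil g m 0) × (Fin 7 → Fin 7 → Fil g m 1)) :=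
    { toFun := fun x => (fun i j => ⟨x.1.fst i j, x.2.1.entry_mem i j⟩,
        fun i j => ⟨x.1.snd i j, x.2.2.entry_mem i j⟩)
      map_add' := fun x y => rfl
      map_smul' := fun c x => rfl }
  refine Module.Finite.of_injective f ?_
  intro x y h
  apply Subtype.ext
  refine TrivSqZeroExt.ext ?_ ?_
  · ext1 i j
    exact congrArg Subtype.val (congrFun (congrFun (congrArg Prod.fst h) i) j)
  · ext1 i j
    exact congrArg Subtype.val (congrFun (congrFun (congrArg Prod.snd h) i) j)


instance A_noeth (g : K) (s : ℤ) : IsNoetherianRing (A g s) :=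
  isNoetherian_of_tower K (inferInstance : IsNoetherian K (A g s))

/-! ### the idempotents -/

/-- the vertex of a row position: `0,1,2 | 3,3 | 4,4` -/
def blk : Fin 7 → Fin 5 := ![0, 1, 2, 3, 3, 4, 4]

/-- the diagonal idempotent matrix of the vertex `v` -/
noncomputable def idp (K : Type) [Field K] (v : Fin 5) : Mat K :=
  Matrix.diagonal fun j => if blk j = v then 1 else 0

theorem vecMul_idp (v : Fin 5) (r : Fin 7 → Op K) :
    r ᵥ* idp K v = fun j => if blk j = v then r j else 0 := by
  funext j
  rw [idp, Matrix.vecMul_diagonal]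
  split_ifs <;> simp

theorem Pres_idp (g : K) (s : ℤ) (v : Fin 5) : Pres g s 0 (idp K v) := by
  intro k P r hr
  rw [vecMul_idp, add_zero]
  obtain ⟨v0, v1, v2, ⟨v3, v4, v5⟩, v6, v7, v8⟩ := hr
  fin_cases v <;> refine ⟨?_, ?_, ?_, ⟨?_, ?_, ?_⟩, ?_, ?_, ?_⟩ <;>
    simp [blk, v0, v1, v2, v3, v4, v5, v6, v7, v8]

theorem idp_mul (v w : Fin 5) : idp K v * idp K w = if v = w then idp K v else 0 := by
  rw [idp, idp, Matrix.diagonal_mul_diagonal]
  split_ifs with h
  · subst h
    congr 1
    funext j
    split_ifs <;> simp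
  · rw [← Matrix.diagonal_zero]
    congr 1
    funext j
    by_cases h1 : blk j = v
    · have h2 : blk j ≠ w := fun h2 => h (h1.symm.trans h2)
      rw [if_pos h1, if_neg h2, mul_zero]
    · rw [if_neg h1, zero_mul]

theorem sum_idp : ∑ v : Fin 5, idp K v = 1 := by
  ext1 i j
  rw [Matrix.sum_apply]
  by_cases hij : i = j
  · subst hij
    simp only [idp, Matrix.diagonal_apply_eq, Matrix.one_apply_eq]
    rw [Finset.sum_ite_eq]
    simp
  · rw [Matrix.one_apply_ne hij]
    exact Finset.sum_eq_zero fun v _ => Matrix.diagonal_apply_ne _ hij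

/-- the vertex idempotents of `A g s` -/
noncomputable def eps (g : K) (s : ℤ) (v : Fin 5) : A g s :=
  ⟨TrivSqZeroExt.inl (idp K v), Pres_idp g s v, Pres.zero g s 1⟩

@[simp] theorem eps_fst (g : K) (s : ℤ) (v : Fin 5) : (eps g s v).1.fst = idp K v := rfl

@[simp] theorem eps_snd (g : K) (s : ℤ) (v : Fin 5) : (eps g s v).1.snd = 0 := rfl

theorem eps_mul (g : K) (s : ℤ) (v w : Fin 5) :
    eps g s v * eps g s w = if v = w then eps g s v else 0 := by
  apply Subtype.ext
  show (TrivSqZeroExt.inl (idp K v) : DualNumber (Mat K)) * TrivSqZeroExt.inl (idp K w) = _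
  rw [← TrivSqZeroExt.inl_mul, idp_mul]
  split_ifs
  · rfl
  · exact TrivSqZeroExt.inl_zero _

theorem eps_idem (g : K) (s : ℤ) (v : Fin 5) : eps g s v * eps g s v = eps g s v := by
  rw [eps_mul, if_pos rfl]


theorem sum_eps (g : K) (s : ℤ) : ∑ v : Fin 5, eps g s v = 1 := by
  apply Subtype.ext
  rw [AddSubmonoidClass.coe_finsetSum]
  show ∑ v : Fin 5, (TrivSqZeroExt.inl (idp K v) : DualNumber (Mat K)) = 1
  rw [← TrivSqZeroExt.inl_one, ← sum_idp]
  exact (map_sum (TrivSqZeroExt.inlHom (Mat K) (Mat K)) _ _).symm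



end Crest.Agent.R186.B281
end

-- ▼ part R186/InstP_713
section

/-!
Row 186, S0281 (helper713): shortcut instances for the column modules `P : Submodule (A g s) (A g s)`
and their finite powers (all `inferInstance`, no diamonds), projectivity of finite powers.
-/

set_option autoImplicit false
namespace Crest.Agent.R186.B281


section gen
variable {R M : Type} [Ring R] [AddCommGroup M] [Module R M]

instance iProjPi (n : ℕ) [Module.Projective R M] : Module.Projective R (Fin n → M) := by
  classical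
  exact Module.Projective.of_equiv (DirectSum.linearEquivFunOnFintype R (Fin n) (fun _ => M))
end gen

variable {K : Type} [Field K] {g : K} {s : ℤ}
section
variable (P : Submodule (A g s) (A g s))
noncomputable instance iPg : AddCommGroup P := inferInstance
noncomputable instance iPm : Module (A g s) P := inferInstance
noncomputable instance iPk : Module K P := inferInstance
noncomputable instance iPs : SMul (A g s) P := (iPm P).toDistribMulAction.toDistribSMul.toSMulZeroClass.toSMul
noncomputable instance iPt : IsScalarTower K (A g s) P := inferInstance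
noncomputable instance iP2m (n : ℕ) : Module (A g s) (Fin n → P) := inferInstance
noncomputable instance iP2k (n : ℕ) : Module K (Fin n → P) := inferInstance
noncomputable instance iP2s (n : ℕ) : SMul (A g s) (Fin n → P) := (iP2m P n).toDistribMulAction.toDistribSMul.toSMulZeroClass.toSMul
noncomputable instance iP2t (n : ℕ) : IsScalarTower K (A g s) (Fin n → P) := inferInstance
noncomputable instance iP3m (n m : ℕ) : Module (A g s) (Fin n → Fin m → P) := inferInstance
noncomputable instance iP3k (n m : ℕ) : Module K (Fin n → Fin m → P) := inferInstance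
noncomputable instance iP3s (n m : ℕ) : SMul (A g s) (Fin n → Fin m → P) := (iP3m P n m).toDistribMulAction.toDistribSMul.toSMulZeroClass.toSMul
noncomputable instance iP3t (n m : ℕ) : IsScalarTower K (A g s) (Fin n → Fin m → P) := inferInstance

variable [Module.Finite (A g s) P] [Module.Projective (A g s) P]
end
end Crest.Agent.R186.B281
end

-- ▼ part R186/Dev_580
section

/-!
Row 186, S0281, base, leaf B281.F2 (helper580), abstract half: idempotents, projective modules
`R e_v`, `Hom_R (R e_v, Y) = e_v Y`, devissage.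
-/

set_option autoImplicit false
set_option linter.unusedSectionVars false
set_option linter.style.haveILetI false

universe u

namespace Crest.Agent.R186.Dev580

open ExtRes700

variable {R : Type u} [Ring R]

/-- `R e` for an idempotent `e` -/
def Pm (e : R) : Submodule R R where
  carrier := {x | x * e = x}
  zero_mem' := zero_mul _
  add_mem' := by
    intro x y hx hy
    change (x + y) * e = x + y
    rw [add_mul, hx, hy]
  smul_mem' := by
    intro a x hx
    change (a * x) * e = a * x
    rw [mul_assoc, hx]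

theorem mem_Pm {e : R} {x : R} : x ∈ Pm e ↔ x * e = x := Iff.rfl

section one

variable {e : R} (he : e * e = e)

/-- `R → R e` -/
def prm : R →ₗ[R] Pm e where
  toFun x := ⟨x * e, by rw [mem_Pm, mul_assoc, he]⟩
  map_add' x y := Subtype.ext (add_mul x y _)
  map_smul' a x := Subtype.ext (mul_assoc a x _)


theorem prm_sub : prm he ∘ₗ (Pm e).subtype = LinearMap.id :=
  LinearMap.ext fun x => Subtype.ext x.2

include he in
theorem projective_Pm : Module.Projective R (Pm e) :=
  Module.Projective.of_split (Pm e).subtype (prm he) (prm_sub he)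

include he in
theorem finite_Pm : Module.Finite R (Pm e) :=
  Module.Finite.of_surjective (prm he) fun x => ⟨x, Subtype.ext x.2⟩

/-- the generator -/
def gen : Pm e := ⟨e, he⟩

theorem smul_gen (x : Pm e) : (x : R) • gen he = x := Subtype.ext x.2

theorem gen_smul : e • gen he = gen he := Subtype.ext he

/-- maps out of `R e` are determined by the generator -/
theorem hom_ext {Y : Type u} [AddCommGroup Y] [Module R Y] {φ ψ : Pm e →ₗ[R] Y}
    (h : φ (gen he) = ψ (gen he)) : φ = ψ := by
  refine LinearMap.ext fun x => ?_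
  rw [← smul_gen he x, map_smul, map_smul, h]

/-- the map `R e → Y` with value `y` -/
def homOf {Y : Type u} [AddCommGroup Y] [Module R Y] (e : R) (y : Y) : Pm e →ₗ[R] Y :=
  (LinearMap.toSpanSingleton R Y y) ∘ₗ (Pm e).subtype



theorem e_smul_hom {Y : Type u} [AddCommGroup Y] [Module R Y] (φ : Pm e →ₗ[R] Y) :
    e • φ (gen he) = φ (gen he) := by
  rw [← map_smul, gen_smul]


/-- maps out of a finite family -/
theorem hom_pi_ext {ι : Type} [Finite ι] {Y : Type u} [AddCommGroup Y] [Module R Y]
    [DecidableEq ι] {φ ψ : (ι → Pm e) →ₗ[R] Y}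
    (h : ∀ k, φ (Pi.single k (gen he)) = ψ (Pi.single k (gen he))) : φ = ψ :=
  LinearMap.pi_ext' fun k => hom_ext he (h k)

/-- the map `(R e)^ι → Y` with values `y k` -/
def homPi {ι : Type} [Fintype ι] {Y : Type u} [AddCommGroup Y] [Module R Y] (e : R)
    (y : ι → Y) : (ι → Pm e) →ₗ[R] Y :=
  ∑ k, (homOf e (y k)) ∘ₗ (LinearMap.proj k)

theorem homPi_apply {ι : Type} [Fintype ι] {Y : Type u} [AddCommGroup Y] [Module R Y]
    (e : R) (y : ι → Y) (x : ι → Pm e) : homPi e y x = ∑ k, (x k : R) • y k := by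
  rw [homPi, LinearMap.sum_apply]
  rfl

theorem homPi_single {ι : Type} [Fintype ι] [DecidableEq ι] {Y : Type u} [AddCommGroup Y]
    [Module R Y] (y : ι → Y) (k : ι) : homPi e y (Pi.single k (gen he)) = e • y k := by
  rw [homPi_apply, Finset.sum_eq_single k]
  · rw [Pi.single_eq_same]
    rfl
  · intro b _ hb
    rw [Pi.single_eq_of_ne hb]
    exact zero_smul R (y b)
  · intro h
    exact absurd (Finset.mem_univ k) h

end one

/-- right multiplication by `m`, `e m = m = m f` -/
def rmul {e f : R} (m : R) (hm : m * f = m) : Pm e →ₗ[R] Pm f where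
  toFun x := ⟨x * m, by rw [mem_Pm, mul_assoc, hm]⟩
  map_add' x y := Subtype.ext (add_mul (x : R) y _)
  map_smul' a x := Subtype.ext (mul_assoc a (x : R) _)



/-- `R` is a retract of the product of the `R e_v` -/
theorem decomp (e : Fin 5 → R) (he : ∀ v, e v * e v = e v) (hs : ∑ v, e v = 1)
    {Y : Type u} [AddCommGroup Y] [Module R Y] (j : ℕ)
    (h : ∀ v, E0 R Y (Pm (e v)) j) : E0 R Y R j := by
  have h1 : E0 R Y (Pm (e 0) × Pm (e 1) × Pm (e 2) × Pm (e 3) × Pm (e 4)) j :=
    prod_right j (h 0) (prod_right j (h 1) (prod_right j (h 2) (prod_right j (h 3) (h 4))))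
  refine retract_right
    ((prm (he 0)).prod ((prm (he 1)).prod ((prm (he 2)).prod ((prm (he 3)).prod (prm (he 4))))))
    ((Pm (e 0)).subtype.coprod ((Pm (e 1)).subtype.coprod ((Pm (e 2)).subtype.coprod
      ((Pm (e 3)).subtype.coprod (Pm (e 4)).subtype)))) ?_ j h1
  refine LinearMap.ext fun x => ?_
  change x * e 0 + (x * e 1 + (x * e 2 + (x * e 3 + x * e 4))) = x
  rw [← mul_add, ← mul_add, ← mul_add, ← mul_add]
  rw [Fin.sum_univ_five] at hs
  rw [← add_assoc, ← add_assoc, ← add_assoc, hs, mul_one]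

/-! ### devissage -/

section dev

variable {P Q P' : Type u} [AddCommGroup P] [Module R P] [AddCommGroup Q] [Module R Q]
  [AddCommGroup P'] [Module R P']
  {X : Type u} [AddCommGroup X] [Module R X]

/-- step up: `0 → P → P' → Q → 0` -/
theorem up {f : P →ₗ[R] P'} {q : P' →ₗ[R] Q} (hf : Function.Injective f)
    (hq : Function.Surjective q) (hex : Function.Exact f q) (hP : ∀ j, E0 R X P j)
    (hQ : ∀ j, E0 R X Q j) (j : ℕ) : E0 R X P' j :=
  cmid f q hf hq hex j (hP j) (hQ j)

/-- step down: `0 → P → P' → Q → 0` -/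
theorem down {f : P →ₗ[R] P'} {q : P' →ₗ[R] Q} (hf : Function.Injective f)
    (hq : Function.Surjective q) (hex : Function.Exact f q) (hP : ∀ j, E0 R X P' j)
    (hQ : ∀ j, E0 R X Q j) (j : ℕ) : E0 R X P j := by
  rcases j with _ | j
  · exact cleft0 f hf (hP 0)
  · exact cleft f q hf hq hex j (hQ j) (hP (j + 1))



end dev

end Crest.Agent.R186.Dev580
end

-- ▼ part R186/PDef_580

/-!
Row 186, S0281, base, leaf B281.F2 (helper580): THE PROJECTIVES.

* `Pv g s v = A eps_v = {x | x * eps_v = x}`, `v : Fin 5` (`0 = O(0)`, `1 = O(-1)`, `2 = O(-2)`,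
  `3 = K₁(-s)`, `4 = K₂`), with all instances;
* `mem_Pv`, `mem_Pv'` : entrywise description;
* `mulR v m : Pv g s v →ₗ Pv g s w` : right multiplication by `m : Pv g s w`;
* `ofM`, `ofF`, `ofS` : elements of `A g s` from matrices.
-/

set_option autoImplicit false
set_option linter.unusedSectionVars false

open Matrix

namespace Crest.Agent.R186.B281

variable {K : Type} [Field K]

/-- the projective `A eps_v` -/
noncomputable abbrev Pv (g : K) (s : ℤ) (v : Fin 5) : Submodule (A g s) (A g s) := Dev580.Pm (eps g s v)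

section inst

variable (g : K) (s : ℤ) (v : Fin 5)

noncomputable instance iPv_grp : AddCommGroup (Pv g s v) := iPg _
noncomputable instance iPv_mod : Module (A g s) (Pv g s v) := iPm _
noncomputable instance iPv_modK : Module K (Pv g s v) := iPk _
noncomputable instance iPv_tow : IsScalarTower K (A g s) (Pv g s v) := iPt _
instance iPv_finK : Module.Finite K (Pv g s v) :=
  Module.Finite.of_injective ((Pv g s v).subtype.restrictScalars K) Subtype.val_injective
instance iPv_fin : Module.Finite (A g s) (Pv g s v) := Dev580.finite_Pm (eps_idem g s v)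
instance iPv_proj : Module.Projective (A g s) (Pv g s v) :=
  Dev580.projective_Pm (eps_idem g s v)

end inst

variable {g : K} {s : ℤ}



theorem mul_idp_apply (M : Mat K) (v : Fin 5) (i j : Fin 7) :
    (M * idp K v) i j = if blk j = v then M i j else 0 := by
  have := congrFun (vecMul_idp v (M i)) j
  exact this

theorem fst_mul_eps (x : A g s) (v : Fin 5) (i j : Fin 7) :
    (x * eps g s v).1.fst i j = if blk j = v then x.1.fst i j else 0 := by
  have h : (x * eps g s v).1.fst = x.1.fst * idp K v := rfl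
  rw [h, mul_idp_apply]

theorem snd_mul_eps (x : A g s) (v : Fin 5) (i j : Fin 7) :
    (x * eps g s v).1.snd i j = if blk j = v then x.1.snd i j else 0 := by
  have h : (x * eps g s v).1.snd = x.1.snd * idp K v := by
    change (x.1 * TrivSqZeroExt.inl (idp K v)).snd = _
    rw [TrivSqZeroExt.snd_mul, TrivSqZeroExt.snd_inl, TrivSqZeroExt.fst_inl, smul_zero, zero_add,
      MulOpposite.smul_eq_mul_unop, MulOpposite.unop_op]
  rw [h, mul_idp_apply]

theorem A_ext {x y : A g s} (h : ∀ i j, x.1.fst i j = y.1.fst i j)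
    (h' : ∀ i j, x.1.snd i j = y.1.snd i j) : x = y :=
  Subtype.ext (TrivSqZeroExt.ext (funext fun i => funext fun j => h i j)
    (funext fun i => funext fun j => h' i j))

/-- membership in `Pv` by entries -/
theorem mem_Pv {v : Fin 5} {x : A g s} : x ∈ Pv g s v ↔
    ∀ i j, blk j ≠ v → x.1.fst i j = 0 ∧ x.1.snd i j = 0 := by
  rw [Dev580.mem_Pm]
  constructor
  · intro h i j hj
    rw [← h, fst_mul_eps, snd_mul_eps, if_neg hj, if_neg hj]
    exact ⟨rfl, rfl⟩
  · intro h
    refine A_ext (fun i j => ?_) (fun i j => ?_)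
    · rw [fst_mul_eps]
      split_ifs with hj
      · rfl
      · exact (h i j hj).1.symm
    · rw [snd_mul_eps]
      split_ifs with hj
      · rfl
      · exact (h i j hj).2.symm

/-- right multiplication by `m ∈ A eps_w` -/
noncomputable def mulR (v : Fin 5) {w : Fin 5} (m : Pv g s w) : Pv g s v →ₗ[A g s] Pv g s w :=
  Dev580.rmul (m : A g s) m.2

theorem mulR_coe (v : Fin 5) {w : Fin 5} (m : Pv g s w) (x : Pv g s v) :
    (mulR v m x : A g s) = x * m := rfl

/-- the generator -/
noncomputable def Pgen (g : K) (s : ℤ) (v : Fin 5) : Pv g s v := Dev580.gen (eps_idem g s v)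

/-- element from a pair of matrices -/
def ofM (M N : Mat K) (hM : Pres g s 0 M) (hN : Pres g s 1 N) : A g s := ⟨(M, N), hM, hN⟩

theorem ofM_fst (M N : Mat K) (hM : Pres g s 0 M) (hN : Pres g s 1 N) :
    (ofM M N hM hN).1.fst = M := rfl

theorem ofM_snd (M N : Mat K) (hM : Pres g s 0 M) (hN : Pres g s 1 N) :
    (ofM M N hM hN).1.snd = N := rfl

theorem fst_mulA (x y : A g s) : (x * y).1.fst = x.1.fst * y.1.fst := rfl

theorem snd_mulA (x y : A g s) :
    (x * y).1.snd = x.1.fst * y.1.snd + x.1.snd * y.1.fst := by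
  change (x.1 * y.1).snd = _
  rw [TrivSqZeroExt.snd_mul, smul_eq_mul, MulOpposite.smul_eq_mul_unop, MulOpposite.unop_op]

end Crest.Agent.R186.B281
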