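import Crest.Agent.R186.B281W_128
import Crest.Agent.R186.Inst_823
import Crest.Agent.R186.FDord_757

/-!
Row 186, S0281 (helper128): vertexwise exactness, the families of the five vertices, and their
images under the functor `W` (the column modules `{x | x * e_v = x}` of `A g s`).
-/

set_option autoImplicit false
set_option linter.unusedSectionVars false

open Matrix

noncomputable section

namespace Crest.Agent.R186.B281

variable {K : Type} [Field K] {g : K}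

/-! ### exactness vertex by vertex -/

/-- exactness of `F → G → H` at the five vertices, in `P`-degree `e` -/
structure VEx {F G H : Fam g} (φ : F.Hom G) (ψ : G.Hom H) (s e : ℤ) : Prop where
  o0 : ExAt φ ψ 0 e
  o1 : ExAt φ ψ 1 e
  o2 : ExAt φ ψ 2 e
  k1 : ∀ z0 ∈ G.L (s + 1) e, ∀ z1 ∈ G.L (s + 1) e,
    (X 1 : Op K) • z0 - (X 0 : Op K) • z1 ∈ G.L s (e + 1) → ψ.f z0 = 0 → ψ.f z1 = 0 →
    ∃ y0 ∈ F.L (s + 1) e, ∃ y1 ∈ F.L (s + 1) e,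
      (X 1 : Op K) • y0 - (X 0 : Op K) • y1 ∈ F.L s (e + 1) ∧ φ.f y0 = z0 ∧ φ.f y1 = z1
  k2 : ∀ z0 ∈ G.L 2 e, ∀ z1 ∈ G.L 2 e,
    (X 1 : Op K) • z0 - (X 0 : Op K) • z1 ∈ G.L 0 (e + 1) → ψ.f z0 = 0 → ψ.f z1 = 0 →
    ∃ y0 ∈ F.L 2 e, ∃ y1 ∈ F.L 2 e,
      (X 1 : Op K) • y0 - (X 0 : Op K) • y1 ∈ F.L 0 (e + 1) ∧ φ.f y0 = z0 ∧ φ.f y1 = z1

/-- surjectivity of `F → G` at the five vertices, in `P`-degree `e` -/
structure VSur {F G : Fam g} (φ : F.Hom G) (s e : ℤ) : Prop where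
  o0 : SurAt φ 0 e
  o1 : SurAt φ 1 e
  o2 : SurAt φ 2 e
  k1 : ∀ z0 ∈ G.L (s + 1) e, ∀ z1 ∈ G.L (s + 1) e,
    (X 1 : Op K) • z0 - (X 0 : Op K) • z1 ∈ G.L s (e + 1) →
    ∃ y0 ∈ F.L (s + 1) e, ∃ y1 ∈ F.L (s + 1) e,
      (X 1 : Op K) • y0 - (X 0 : Op K) • y1 ∈ F.L s (e + 1) ∧ φ.f y0 = z0 ∧ φ.f y1 = z1
  k2 : ∀ z0 ∈ G.L 2 e, ∀ z1 ∈ G.L 2 e,
    (X 1 : Op K) • z0 - (X 0 : Op K) • z1 ∈ G.L 0 (e + 1) →
    ∃ y0 ∈ F.L 2 e, ∃ y1 ∈ F.L 2 e,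
      (X 1 : Op K) • y0 - (X 0 : Op K) • y1 ∈ F.L 0 (e + 1) ∧ φ.f y0 = z0 ∧ φ.f y1 = z1

/-- injectivity at the five vertices, in `P`-degree `e` -/
structure VInj {F G : Fam g} (φ : F.Hom G) (s e : ℤ) : Prop where
  o0 : InjAt φ 0 e
  o1 : InjAt φ 1 e
  o2 : InjAt φ 2 e
  k1 : InjAt φ (s + 1) e







/-! ### functoriality -/

/-- the identity -/
def Fam.Hom.id (F : Fam g) : F.Hom F where
  f := LinearMap.id
  map h := h

/-- composition -/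
def Fam.Hom.comp {F G H : Fam g} (ψ : G.Hom H) (φ : F.Hom G) : F.Hom H where
  f := ψ.f ∘ₗ φ.f
  map h := ψ.map (φ.map h)



/-- an isomorphism of families -/
def Fam.Hom.equiv {F G : Fam g} (φ : F.Hom G) (ψ : G.Hom F) (s : ℤ)
    (h1 : ∀ n, ψ.f (φ.f n) = n) (h2 : ∀ n, φ.f (ψ.f n) = n) : F.W s ≃ₗ[A g s] G.W s where
  toFun := φ.W s
  map_add' := map_add (φ.W s)
  map_smul' := (φ.W s).map_smul
  invFun := ψ.W s
  left_inv p := Subtype.ext (Col.ext' (fun i => h1 _) (fun i => h1 _))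
  right_inv p := Subtype.ext (Col.ext' (fun i => h2 _) (fun i => h2 _))

end Crest.Agent.R186.B281
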