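import Crest.Agent.R186.VQ_735

/-!
# Row 186, half (A), leaf C3 (helper735), part 2: homogeneous basis of `Q`, coefficient maps

`bq π : Basis (Bt π) K (Q π)`, `ln q` word length, `qd q` degree; `coef q q'` matrix coefficients of
endomorphisms of `Q`; `cA q q' : R π ⊗ End Q → R π`; product formulas; grading `G2 P A C`.
-/

set_option autoImplicit false

namespace Crest.Agent.R186.VQ735

open Crest.Agent.R186.VOp220 Crest.Agent.R186.DefsQ830 Crest.Agent.R186.Vmod220
open Crest.Agent.R186.Cells221 Crest.Agent.R186.Der580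
open Crest.Agent.R186.PBW128 (E)
open Crest.Agent.R186.Loc261 (Lt li sc Q_ind wt Qc Qg prj)
open TensorProduct

variable {K : Type} [Field K] (π : Par K)

/-! ### the decomposition of `Q` by content -/

theorem Qc_indep : iSupIndep (fun m : Multiset Lt => Qc (lp π) m) := by
  intro m
  rw [Submodule.disjoint_def]
  intro x hx hx'
  have h1 : (⨆ j, ⨆ (_ : j ≠ m), Qc (lp π) j) ≤ LinearMap.ker (prj (lp π) m) := by
    refine iSup_le fun j => iSup_le fun hj => ?_
    intro u hu
    exact Loc261.prj_ne (lp π) hj hu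
  have h2 : prj (lp π) m x = 0 := h1 hx'
  rw [Loc261.prj_id (lp π) hx] at h2
  exact h2

theorem Qc_top : (⨆ m : Multiset Lt, Qc (lp π) m) = ⊤ := by
  rw [eq_top_iff]
  intro u _
  have h := Loc261.span_wp (lp π) u
  refine (Submodule.span_le.2 ?_) h
  rintro _ ⟨w, rfl⟩
  exact Submodule.mem_iSup_of_mem (w : Multiset Lt) (Loc261.wp_mem (lp π) w)

theorem Qc_int : DirectSum.IsInternal (fun m : Multiset Lt => Qc (lp π) m) :=
  DirectSum.isInternal_submodule_of_iSupIndep_of_iSup_eq_top (Qc_indep π) (Qc_top π)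

/-- index type of the homogeneous basis -/
abbrev Bt : Type := Σ m : Multiset Lt, Fin (Module.finrank K (Qc (lp π) m))

/-- homogeneous basis of `Q` -/
noncomputable def bq : Module.Basis (Bt π) K (Q π) :=
  (Qc_int π).collectedBasis (fun m => Module.finBasis K (Qc (lp π) m))

theorem bq_mem (q : Bt π) : bq π q ∈ Qc (lp π) q.1 :=
  (Qc_int π).collectedBasis_mem _ _

theorem repr_ne {m : Multiset Lt} {u : Q π} (hu : u ∈ Qc (lp π) m) {q : Bt π} (h : q.1 ≠ m) :
    (bq π).repr u q = 0 := by
  obtain ⟨n, i⟩ := q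
  exact (Qc_int π).collectedBasis_repr_of_mem_ne _ (Ne.symm h) hu

/-- degree of a letter -/
def dg : Lt → ℕ
  | .x => 1 | .a => 2 | .x' => 2 | .b => 3

/-- degree of a content -/
def md (m : Multiset Lt) : ℕ := (m.map dg).sum

theorem md_cons (g : Lt) (m : Multiset Lt) : md (g ::ₘ m) = dg g + md m := by simp [md]

variable {π} in
/-- degree of a basis element -/
def qd (q : Bt π) : ℕ := md q.1

variable {π} in
/-- word length -/
def ln (q : Bt π) : ℕ := q.1.card

theorem dg_pos (g : Lt) : 1 ≤ dg g := by cases g <;> simp [dg]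

theorem card_le_md (m : Multiset Lt) : m.card ≤ md m := by
  induction m using Multiset.induction_on with
  | empty => simp [md]
  | cons g m ih => rw [md_cons, Multiset.card_cons]; have := dg_pos g; omega


theorem finite_md (n : ℕ) : {m : Multiset Lt | md m ≤ n}.Finite := by
  have h1 : {m : Multiset Lt | md m ≤ n} ⊆
      ⋃ k ∈ Finset.range (n + 1), (fun w : List Lt => (w : Multiset Lt)) '' {w : List Lt | w.length = k} := by
    intro m hm
    simp only [Set.mem_iUnion, Finset.mem_range]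
    refine ⟨m.card, ?_, m.toList, ?_, ?_⟩
    · have := card_le_md m
      have h2 : md m ≤ n := hm
      omega
    · simp
    · simp
  refine Set.Finite.subset ?_ h1
  refine Set.Finite.biUnion (Finset.finite_toSet _) ?_
  intro k _
  exact (List.finite_length_eq Lt k).image _

theorem finite_qd (n : ℕ) : {q : Bt π | qd q ≤ n}.Finite := by
  have : {q : Bt π | qd q ≤ n} = ⋃ m ∈ {m : Multiset Lt | md m ≤ n},
      (fun i => (⟨m, i⟩ : Bt π)) '' Set.univ := by
    ext ⟨m, i⟩
    simp only [Set.mem_ofPred_eq, Set.mem_iUnion, Set.image_univ, Set.mem_range]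
    constructor
    · intro h
      exact ⟨m, h, i, rfl⟩
    · rintro ⟨m', h, i', h'⟩
      cases h'
      exact h
  rw [this]
  exact Set.Finite.biUnion (finite_md n) (fun m _ => Set.finite_univ.image _)

/-- the basis elements of degree `≤ n` -/
noncomputable def Bq (n : ℕ) : Finset (Bt π) := (finite_qd π n).toFinset

theorem mem_Bq {n : ℕ} {q : Bt π} : q ∈ Bq π n ↔ qd q ≤ n := by simp [Bq]

/-! ### matrix coefficients -/

noncomputable instance : DecidableEq (Bt π) := Classical.decEq _

/-- matrix coefficient of an endomorphism of `Q` -/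
noncomputable def coef (q q' : Bt π) : Module.End K (Q π) →ₗ[K] K :=
  ((bq π).coord q).comp (LinearMap.applyₗ (bq π q'))

theorem coef_apply (q q' : Bt π) (T : Module.End K (Q π)) :
    coef π q q' T = (bq π).repr (T (bq π q')) q := rfl

theorem coef_mul (q q'' : Bt π) (S : Finset (Bt π)) (T T' : Module.End K (Q π))
    (h : ∀ q', q' ∉ S → coef π q q' T = 0 ∨ coef π q' q'' T' = 0) :
    coef π q q'' (T * T') = ∑ q' ∈ S, coef π q q' T * coef π q' q'' T' := by
  have h1 : T' (bq π q'') = ∑ q' ∈ (((bq π).repr (T' (bq π q''))).support ∪ S),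
      (bq π).repr (T' (bq π q'')) q' • bq π q' := by
    conv_lhs => rw [← (bq π).linearCombination_repr (T' (bq π q''))]
    rw [Finsupp.linearCombination_apply, Finsupp.sum]
    refine Finset.sum_subset Finset.subset_union_left ?_
    intro q' _ hq'
    rw [Finsupp.notMem_support_iff.1 hq', zero_smul]
  rw [coef_apply, Module.End.mul_apply, h1, map_sum, map_sum, Finsupp.finsetSum_apply]
  symm
  rw [← Finset.sum_subset (Finset.subset_union_right (s₁ := ((bq π).repr (T' (bq π q''))).support))]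
  · refine Finset.sum_congr rfl fun q' _ => ?_
    rw [map_smul, map_smul, Finsupp.smul_apply, smul_eq_mul, mul_comm, ← coef_apply, ← coef_apply]
  · intro q' _ hq'
    rw [map_smul, map_smul, Finsupp.smul_apply, smul_eq_mul, mul_comm, ← coef_apply, ← coef_apply]
    rcases h q' hq' with h0 | h0 <;> rw [h0] <;> simp


/-- value of a character on a content -/
noncomputable def pw (s : Lt → K) (m : Multiset Lt) : K := (m.map s).prod

theorem SC_bq (s : Lt → K) (q : Bt π) : SC π s (bq π q) = pw s q.1 • bq π q := by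
  exact Loc261.sc_Qc (lp π) s (bq_mem π q)

theorem sc_mem (s : Lt → K) {m : Multiset Lt} {u : Q π} (hu : u ∈ Qc (lp π) m) :
    sc (lp π) s u ∈ Qc (lp π) m := by
  rw [Loc261.sc_Qc (lp π) s hu]
  exact Submodule.smul_mem _ _ hu

theorem coef_SC (s : Lt → K) (q q' : Bt π) :
    coef π q q' (SC π s) = if q = q' then pw s q.1 else 0 := by
  rw [coef_apply, SC_bq, map_smul, Module.Basis.repr_self, Finsupp.smul_apply, Finsupp.single_apply,
    smul_eq_mul]
  by_cases h : q = q'
  · subst h; simp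
  · rw [if_neg h, if_neg (Ne.symm h), mul_zero]

theorem coef_MQ_ne (g : Lt) {q q' : Bt π} (h : q.1 ≠ g ::ₘ q'.1) : coef π q q' (MQ π g) = 0 := by
  rw [coef_apply]
  refine repr_ne π ?_ h
  rw [MQ_apply]
  exact Loc261.li_mul_mem _ _ (sc_mem π _ (bq_mem π q'))

theorem coef_EQ_ne (g : Lt) {q q' : Bt π} (h : q'.1 ≠ g ::ₘ q.1) : coef π q q' (EQ π g) = 0 := by
  rw [coef_apply, EQ_apply, map_smul, Finsupp.smul_apply]
  have h1 := Loc261.D_mem (lp π) g
    (sc_mem π (fun l => ((lp π).chi g l)⁻¹) (bq_mem π q'))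
  unfold Qg at h1
  split_ifs at h1 with hg
  · rw [repr_ne π h1, smul_zero]
    intro h2
    apply h
    rw [h2, Multiset.cons_erase hg]
  · have h2 : Loc261.D (lp π) g (sc (lp π) (fun l => ((lp π).chi g l)⁻¹) (bq π q')) = 0 := h1
    rw [h2, map_zero, Finsupp.zero_apply, smul_zero]

/-- coefficient maps on `R'' ⊗ End Q` -/
noncomputable def cA (q q' : Bt π) : A2 π →ₗ[K] R π :=
  TensorProduct.lift ((LinearMap.lsmul K (R π)).flip.compr₂ LinearMap.id |>.compl₂ (coef π q q'))

@[simp] theorem cA_tmul (q q' : Bt π) (r : R π) (T : Module.End K (Q π)) :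
    cA π q q' (r ⊗ₜ T) = coef π q q' T • r := rfl

/-- left-controlled elements -/
noncomputable def LC (q : Bt π) (S : Finset (Bt π)) : Submodule K (A2 π) :=
  Submodule.span K {t | ∃ (r : R π) (T : Module.End K (Q π)), t = r ⊗ₜ T ∧
    (∀ q', q' ∉ S → r = 0 ∨ coef π q q' T = 0)}

theorem cA_mul_left (q q'' : Bt π) (S : Finset (Bt π)) {a : A2 π} (ha : a ∈ LC π q S) (b : A2 π) :
    cA π q q'' (a * b) = ∑ q' ∈ S, cA π q q' a * cA π q' q'' b := by
  induction ha using Submodule.span_induction with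
  | mem a h =>
    obtain ⟨r, T, rfl, h⟩ := h
    induction b using TensorProduct.induction_on with
    | zero => simp
    | add b b' hb hb' => simp only [mul_add, map_add, hb, hb', Finset.sum_add_distrib]
    | tmul r' T' =>
      rw [Algebra.TensorProduct.tmul_mul_tmul, cA_tmul]
      by_cases hr : r = 0
      · subst hr; simp
      · rw [coef_mul π q q'' S T T' (fun q' hq' => Or.inl ((h q' hq').resolve_left hr)),
          Finset.sum_smul]
        refine Finset.sum_congr rfl fun q' _ => ?_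
        rw [cA_tmul, cA_tmul, smul_mul_smul_comm]
  | zero => simp
  | add a a' _ _ ha ha' => simp only [add_mul, map_add, ha, ha', Finset.sum_add_distrib]
  | smul c a _ ha => simp only [smul_mul_assoc, map_smul, ha, Finset.smul_sum]

theorem cA_mul_right (q'' : Bt π) (b : A2 π) : ∃ S0 : Finset (Bt π), ∀ S, S0 ⊆ S → ∀ (a : A2 π) (q : Bt π),
    cA π q q'' (a * b) = ∑ q' ∈ S, cA π q q' a * cA π q' q'' b := by
  induction b using TensorProduct.induction_on with
  | zero => exact ⟨∅, fun S _ a q => by simp⟩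
  | add b b' hb hb' =>
    obtain ⟨S1, h1⟩ := hb
    obtain ⟨S2, h2⟩ := hb'
    refine ⟨S1 ∪ S2, fun S hS a q => ?_⟩
    rw [mul_add, map_add, h1 S (Finset.subset_union_left.trans hS),
      h2 S (Finset.subset_union_right.trans hS), ← Finset.sum_add_distrib]
    refine Finset.sum_congr rfl fun q' _ => ?_
    rw [map_add, mul_add]
  | tmul r' T' =>
    refine ⟨((bq π).repr (T' (bq π q''))).support, fun S hS a q => ?_⟩
    induction a using TensorProduct.induction_on with
    | zero => simp
    | add a a' ha ha' => simp only [add_mul, map_add, ha, ha', Finset.sum_add_distrib]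
    | tmul r T =>
      rw [Algebra.TensorProduct.tmul_mul_tmul, cA_tmul,
        coef_mul π q q'' S T T' (fun q' hq' => Or.inr ?_), Finset.sum_smul]
      · refine Finset.sum_congr rfl fun q' _ => ?_
        rw [cA_tmul, cA_tmul, smul_mul_smul_comm]
      · rw [coef_apply]
        exact Finsupp.notMem_support_iff.1 (fun h => hq' (hS h))

theorem cA_DA (q q' : Bt π) (a : A2 π) : cA π q q' (DA π a) = Der580.D π (cA π q q' a) := by
  induction a using TensorProduct.induction_on with
  | zero => simp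
  | add a a' ha ha' => simp only [map_add, ha, ha']
  | tmul r T => rw [DA_tmul, cA_tmul, cA_tmul, map_smul]


/-! ### gradings -/

/-- pieces of `R''` with integer degrees -/
def pz (P A C : ℤ) : Submodule K (R π) :=
  Submodule.span K {r | ∃ w : List Gen, wP w = P ∧ (wA w : ℤ) = A ∧ (wC w : ℤ) = C ∧ r = wd π w}

theorem pz_wd (w : List Gen) : wd π w ∈ pz π (wP w) (wA w) (wC w) :=
  Submodule.subset_span ⟨w, rfl, rfl, rfl, rfl⟩

theorem pz_neg {P A C : ℤ} (h : C < 0) : pz π P A C = ⊥ := by
  rw [pz, Submodule.span_eq_bot]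
  rintro r ⟨w, _, _, h3, _⟩
  exfalso; omega

theorem pz_negA {P A C : ℤ} (h : A < 0) : pz π P A C = ⊥ := by
  rw [pz, Submodule.span_eq_bot]
  rintro r ⟨w, _, h2, _, _⟩
  exfalso; omega

theorem pz_eq_pc (P : ℤ) (A C : ℕ) : pz π P A C = pc π P A C := by
  rw [pz, pc]
  congr 1
  ext r
  simp only [Set.mem_ofPred_eq, Nat.cast_inj]

theorem pz_mul {P P' A A' C C' : ℤ} {a b : R π} (ha : a ∈ pz π P A C) (hb : b ∈ pz π P' A' C') :
    a * b ∈ pz π (P + P') (A + A') (C + C') := by
  induction ha using Submodule.span_induction with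
  | mem a h =>
    obtain ⟨w, h1, h2, h3, rfl⟩ := h
    induction hb using Submodule.span_induction with
    | mem b h =>
      obtain ⟨w', h1', h2', h3', rfl⟩ := h
      rw [← wd_append]
      refine Submodule.subset_span ⟨w ++ w', ?_, ?_, ?_, rfl⟩
      · rw [← h1, ← h1']; simp [wP]
      · rw [← h2, ← h2']; simp [wA]
      · rw [← h3, ← h3']; simp [wC]
    | zero => rw [mul_zero]; exact Submodule.zero_mem _
    | add x y _ _ hx hy => rw [mul_add]; exact Submodule.add_mem _ hx hy
    | smul c x _ hx => rw [mul_smul_comm]; exact Submodule.smul_mem _ _ hx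
  | zero => rw [zero_mul]; exact Submodule.zero_mem _
  | add x y _ _ hx hy => rw [add_mul]; exact Submodule.add_mem _ hx hy
  | smul c x _ hx => rw [smul_mul_assoc]; exact Submodule.smul_mem _ _ hx

theorem pz_cast {P P' A A' C C' : ℤ} {a : R π} (ha : a ∈ pz π P A C) (h1 : P = P') (h2 : A = A')
    (h3 : C = C') : a ∈ pz π P' A' C' := by
  subst h1 h2 h3; exact ha

theorem X_pz (a : Gen) : X π a ∈ pz π a.dP a.dA a.dC := by
  rw [pz_eq_pc]; exact X_mem_pc π a

theorem one_pz : (1 : R π) ∈ pz π 0 0 0 := pz_wd π []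

theorem D_pz {P A C : ℤ} {a : R π} (ha : a ∈ pz π P A C) : Der580.D π a ∈ pz π P A (C - 1) := by
  induction ha using Submodule.span_induction with
  | mem a h =>
    obtain ⟨w, h1, h2, h3, rfl⟩ := h
    have h := D_wd_mem π w
    rw [← h1, ← h2, ← h3]
    generalize wC w = n at h
    cases n with
    | zero =>
      have h0 : Der580.D π (wd π w) = 0 := h
      rw [h0]; exact Submodule.zero_mem _
    | succ n =>
      have h0 : Der580.D π (wd π w) ∈ pc π (wP w) (wA w) n := h
      rw [← pz_eq_pc] at h0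
      exact pz_cast π h0 rfl rfl (by push_cast; ring)
  | zero => rw [map_zero]; exact Submodule.zero_mem _
  | add x y _ _ hx hy => rw [map_add]; exact Submodule.add_mem _ hx hy
  | smul c x _ hx => rw [map_smul]; exact Submodule.smul_mem _ _ hx

/-- endomorphisms of `Q` of degree `k` -/
noncomputable def HT (k : ℤ) : Submodule K (Module.End K (Q π)) where
  carrier := {T | ∀ q q' : Bt π, (qd q : ℤ) ≠ qd q' + k → coef π q q' T = 0}
  add_mem' ha hb q q' h := by rw [map_add, ha q q' h, hb q q' h, add_zero]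
  zero_mem' q q' _ := map_zero _
  smul_mem' c _ ha q q' h := by rw [map_smul, ha q q' h, smul_zero]

theorem HT_mul {k k' : ℤ} {T T' : Module.End K (Q π)} (h : T ∈ HT π k) (h' : T' ∈ HT π k') :
    T * T' ∈ HT π (k + k') := by
  intro q q'' hq
  rw [coef_mul π q q'' ∅ T T', Finset.sum_empty]
  intro q' _
  by_cases h1 : (qd q : ℤ) = qd q' + k
  · refine Or.inr (h' q' q'' ?_)
    intro h2
    apply hq
    rw [h1, h2]; ring
  · exact Or.inl (h q q' h1)

theorem HT_SC (s : Lt → K) : SC π s ∈ HT π 0 := by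
  intro q q' h
  rw [coef_SC, if_neg]
  rintro rfl
  exact h (by simp)

theorem HT_one : (1 : Module.End K (Q π)) ∈ HT π 0 := by
  rw [← SC_one]; exact HT_SC π _

theorem HT_MQ (g : Lt) : MQ π g ∈ HT π (dg g) := by
  intro q q' h
  apply coef_MQ_ne
  intro h1
  apply h
  have : qd q = dg g + qd q' := by unfold qd; rw [h1, md_cons]
  rw [this]; push_cast; ring

theorem HT_EQ (g : Lt) : EQ π g ∈ HT π (-(dg g : ℤ)) := by
  intro q q' h
  apply coef_EQ_ne
  intro h1
  apply h
  have : qd q' = dg g + qd q := by unfold qd; rw [h1, md_cons]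
  rw [this]; push_cast; ring

/-- homogeneous elements of `R'' ⊗ End Q` -/
noncomputable def G2 (P A C : ℤ) : Submodule K (A2 π) :=
  Submodule.span K {t | ∃ (k : ℤ) (r : R π) (T : Module.End K (Q π)), t = r ⊗ₜ T ∧ T ∈ HT π k ∧
    r ∈ pz π P A (C + k)}

theorem tmul_G2 {P A C C' k : ℤ} {r : R π} {T : Module.End K (Q π)} (hr : r ∈ pz π P A C')
    (hT : T ∈ HT π k) (h : C' = C + k) : r ⊗ₜ T ∈ G2 π P A C :=
  Submodule.subset_span ⟨k, r, T, rfl, hT, h ▸ hr⟩

theorem G2_mul {P P' A A' C C' : ℤ} {a b : A2 π} (ha : a ∈ G2 π P A C) (hb : b ∈ G2 π P' A' C') :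
    a * b ∈ G2 π (P + P') (A + A') (C + C') := by
  induction ha using Submodule.span_induction with
  | mem a h =>
    obtain ⟨k, r, T, rfl, hT, hr⟩ := h
    induction hb using Submodule.span_induction with
    | mem b h =>
      obtain ⟨k', r', T', rfl, hT', hr'⟩ := h
      rw [Algebra.TensorProduct.tmul_mul_tmul]
      exact tmul_G2 π (pz_mul π hr hr') (HT_mul π hT hT') (by ring)
    | zero => rw [mul_zero]; exact Submodule.zero_mem _
    | add x y _ _ hx hy => rw [mul_add]; exact Submodule.add_mem _ hx hy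
    | smul c x _ hx => rw [mul_smul_comm]; exact Submodule.smul_mem _ _ hx
  | zero => rw [zero_mul]; exact Submodule.zero_mem _
  | add x y _ _ hx hy => rw [add_mul]; exact Submodule.add_mem _ hx hy
  | smul c x _ hx => rw [smul_mul_assoc]; exact Submodule.smul_mem _ _ hx

theorem G2_cast {P P' A A' C C' : ℤ} {a : A2 π} (ha : a ∈ G2 π P A C) (h1 : P = P') (h2 : A = A')
    (h3 : C = C') : a ∈ G2 π P' A' C' := by
  subst h1 h2 h3; exact ha

theorem hR_pz (s : Fin 2) : hR π s ∈ pz π 0 ((1 + s.val : ℕ) : ℤ) 0 := by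
  have := hR_mem π s
  rw [← pz_eq_pc] at this
  exact_mod_cast this

theorem tR_pz : tR π ∈ pz π 0 1 0 := by
  have := tR_mem π
  rw [← pz_eq_pc] at this
  exact_mod_cast this

theorem dl_G2 (a : Gen) : dl π a ∈ G2 π a.dP a.dA a.dC := by
  cases a with
  | x i => exact tmul_G2 π (X_pz π (.x i)) (HT_SC π _) (by ring)
  | h => exact tmul_G2 π (X_pz π .h) (HT_one π) (by ring)
  | d j => exact tmul_G2 π (X_pz π (.d j)) (HT_SC π _) (by ring)
  | f => exact tmul_G2 π (X_pz π .f) (HT_one π) (by ring)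
  | z j => exact tmul_G2 π (X_pz π (.z j)) (HT_SC π _) (by ring)
  | zc => exact tmul_G2 π (X_pz π .zc) (HT_one π) (by ring)
  | u s =>
    refine Submodule.add_mem _ (tmul_G2 π (X_pz π (.u s)) (HT_SC π _) (by ring)) ?_
    refine tmul_G2 π (hR_pz π s) (HT_EQ π _) ?_
    rcases f2 s with rfl | rfl <;> simp [Gen.dC, lu, dg]
  | e j => exact tmul_G2 π (X_pz π (.e j)) (HT_SC π _) (by ring)
  | gj j => exact tmul_G2 π (X_pz π (.gj j)) (HT_SC π _) (by ring)
  | gc => exact tmul_G2 π (X_pz π .gc) (HT_one π) (by ring)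
  | v s =>
    refine Submodule.add_mem _ (tmul_G2 π (X_pz π (.v s)) (HT_SC π _) (by ring)) ?_
    refine tmul_G2 π (pz_cast π (pz_mul π (hR_pz π s) (tR_pz π)) ?_ ?_ rfl) (HT_EQ π _) ?_
    · rfl
    · simp only [Gen.dA]; push_cast; ring
    · rcases f2 s with rfl | rfl <;> simp [Gen.dC, lv, dg]
  | y s => exact Submodule.zero_mem _
  | yb s => exact Submodule.zero_mem _

theorem one_G2 : (1 : A2 π) ∈ G2 π 0 0 0 :=
  tmul_G2 π (one_pz π) (HT_one π) (by ring)

theorem Dl_G2 {P A C : ℤ} {r : R π} (hr : r ∈ pz π P A C) : Dl π r ∈ G2 π P A C := by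
  induction hr using Submodule.span_induction with
  | mem r h =>
    obtain ⟨w, h1, h2, h3, rfl⟩ := h
    rw [← h1, ← h2, ← h3]
    clear h1 h2 h3
    induction w with
    | nil => rw [wd_nil, map_one]; exact one_G2 π
    | cons a w ih =>
      rw [wd_cons, map_mul, Dl_X]
      refine G2_cast π (G2_mul π (dl_G2 π a) ih) ?_ ?_ ?_
      · simp [wP]
      · simp [wA]
      · simp [wC]
  | zero => rw [map_zero]; exact Submodule.zero_mem _
  | add x y _ _ hx hy => rw [map_add]; exact Submodule.add_mem _ hx hy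
  | smul c x _ hx => rw [map_smul]; exact Submodule.smul_mem _ _ hx

theorem yl_pz (g : Lt) : yl π g ∈ pz π 0 0 (dg g - 1) := by
  cases g
  · exact X_pz π (.y 0)
  · exact X_pz π (.yb 0)
  · exact X_pz π (.y 1)
  · exact X_pz π (.yb 1)

theorem th_G2 : th π ∈ G2 π 0 0 (-1) := by
  refine Submodule.sum_mem _ fun g _ => ?_
  exact tmul_G2 π (yl_pz π g) (HT_MQ π g) (by ring)

/-- Adams degree of a cell -/
def cAd : Cell → ℕ
  | none => 0
  | some l => l.toGen.dA

theorem cP_some (l : E) : cP (some l) = l.toGen.dP := by cases l <;> rfl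
theorem cdeg_some (l : E) : cdeg (some l) = l.toGen.dC + 1 := by
  cases l <;> simp [cdeg, E.toGen, Gen.dC] <;> omega

theorem Cm_G2 (c c' : Cell) : Cm π c c' ∈ G2 π (cP c - cP c') (cAd c - cAd c')
    (cdeg c - cdeg c' - 1) := by
  rcases c with _ | l
  · rcases c' with _ | l'
    · exact G2_cast π (th_G2 π) (by simp) (by simp) (by simp)
    · exact Submodule.zero_mem _
  · rcases c' with _ | l'
    · refine G2_cast π (Dl_G2 π (X_pz π l.toGen)) ?_ ?_ ?_
      · rw [cP_some]; simp [cP]
      · simp [cAd]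
      · rw [cdeg_some]; simp [cdeg]
    · refine Submodule.add_mem _ ?_ ?_
      · rcases cf_mem π l l' with h | ⟨A, C, hA, hC, h⟩
        · rw [h, map_zero]; exact Submodule.zero_mem _
        · rw [← pz_eq_pc] at h
          refine G2_cast π (Dl_G2 π h) ?_ ?_ ?_
          · rw [cP_some, cP_some]
          · simp only [cAd]; rw [hA]; push_cast; ring
          · rw [cdeg_some, cdeg_some, hC]; push_cast; ring
      · split_ifs with h
        · subst h
          exact G2_cast π (th_G2 π) (by simp) (by simp) (by simp)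
        · exact Submodule.zero_mem _

theorem cA_pz {P A C : ℤ} {a : A2 π} (ha : a ∈ G2 π P A C) (q q' : Bt π) :
    cA π q q' a ∈ pz π P A (C + qd q - qd q') := by
  induction ha using Submodule.span_induction with
  | mem a h =>
    obtain ⟨k, r, T, rfl, hT, hr⟩ := h
    rw [cA_tmul]
    by_cases h : (qd q : ℤ) = qd q' + k
    · refine Submodule.smul_mem _ _ (pz_cast π hr rfl rfl ?_)
      rw [h]; ring
    · rw [hT q q' h, zero_smul]; exact Submodule.zero_mem _
  | zero => rw [map_zero]; exact Submodule.zero_mem _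
  | add x y _ _ hx hy => rw [map_add]; exact Submodule.add_mem _ hx hy
  | smul c x _ hx => rw [map_smul]; exact Submodule.smul_mem _ _ hx

theorem G2_LC {P A C : ℤ} {a : A2 π} (ha : a ∈ G2 π P A C) (q : Bt π) (S : Finset (Bt π))
    (hS : ∀ q' : Bt π, (qd q' : ℤ) ≤ qd q + C → q' ∈ S) : a ∈ LC π q S := by
  have : G2 π P A C ≤ LC π q S := by
    rw [G2, Submodule.span_le]
    rintro t ⟨k, r, T, rfl, hT, hr⟩
    refine Submodule.subset_span ⟨r, T, rfl, fun q' hq' => ?_⟩
    by_cases h : (qd q : ℤ) = qd q' + k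
    · left
      have h1 : ¬ ((qd q' : ℤ) ≤ qd q + C) := fun h2 => hq' (hS q' h2)
      rw [pz_neg π (by omega)] at hr
      exact hr
    · exact Or.inr (hT q q' h)
  exact this ha

/-! ### the cells of `X''` -/

/-- the cells -/
abbrev Io : Type := Cell × Bt π

variable {π} in
/-- degree of a cell -/
def sI (σ : Io π) : ℕ := cdeg σ.1 + qd σ.2

/-- the attaching elements -/
noncomputable def cI (σ τ : Io π) : R π := cA π σ.2 τ.2 (Cm π σ.1 τ.1)

theorem cI_pz (σ τ : Io π) : cI π σ τ ∈ pz π (cP σ.1 - cP τ.1) (cAd σ.1 - cAd τ.1)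
    ((sI σ : ℤ) - sI τ - 1) := by
  refine pz_cast π (cA_pz π (Cm_G2 π σ.1 τ.1) σ.2 τ.2) rfl rfl ?_
  simp only [sI]; push_cast; ring

theorem cI_zero {σ τ : Io π} (h : sI σ ≤ sI τ) : cI π σ τ = 0 := by
  have h1 := cI_pz π σ τ
  rw [pz_neg π (by omega)] at h1
  exact h1

noncomputable instance : DecidableEq (Io π) := Classical.decEq _

/-- the cells of degree `≤ m` -/
noncomputable def FI (m : ℕ) : Finset (Io π) :=
  (Finset.univ ×ˢ Bq π m).filter (fun σ => sI σ ≤ m)

theorem mem_FI {m : ℕ} {σ : Io π} : σ ∈ FI π m ↔ sI σ ≤ m := by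
  simp only [FI, Finset.mem_filter, Finset.mem_product, Finset.mem_univ, true_and, mem_Bq,
    and_iff_right_iff_imp]
  intro h
  unfold sI at h
  omega

/-- a sum over cells of degree `≤ n` as a double sum -/
theorem sum_FI {M : Type*} [AddCommMonoid M] (σ : Io π) (f : Io π → M)
    (hf : ∀ τ, sI σ ≤ sI τ → f τ = 0) :
    ∑ τ ∈ FI π (sI σ), f τ = ∑ c', ∑ q' ∈ Bq π (sI σ), f (c', q') := by
  rw [← Finset.sum_product', FI, Finset.sum_filter_of_ne]
  intro τ _ h
  by_contra h1
  exact h (hf τ (by omega))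

/-- **Maurer-Cartan for the cells of `X''`** -/
theorem cI_mc (σ τ : Io π) : Der580.D π (cI π σ τ) + ∑ ρ ∈ FI π (sI σ), cI π σ ρ * cI π ρ τ = 0 := by
  rw [sum_FI π σ _ (fun ρ h => by rw [cI_zero π h, zero_mul])]
  have h := congrArg (cA π σ.2 τ.2) (Cm_mc π σ.1 τ.1)
  rw [map_add, map_zero, map_sum, cA_DA] at h
  rw [← h]
  congr 1
  refine Finset.sum_congr rfl fun c' _ => ?_
  symm
  apply cA_mul_left
  refine G2_LC π (Cm_G2 π σ.1 c') _ _ (fun q' hq' => ?_)
  rw [mem_Bq]
  simp only [sI]
  omega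

end Crest.Agent.R186.VQ735
private theorem rz_fd69773a81 : type_of% @_root_.Crest.Agent.R186.VQ735.cAd.eq_1 := @_root_.Crest.Agent.R186.VQ735.cAd.eq_1 -- L475
private theorem rz_7c0dd21647 : type_of% @_root_.Crest.Agent.R186.VQ735.dg.eq_1 := @_root_.Crest.Agent.R186.VQ735.dg.eq_1 -- L63
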