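import Crest.Agent.R186.PBWD_633

/-!
# Row 186, S0281, base (helper633): Koszul facts of the `q`-Weyl algebra, right and left

For `W : QW g R` with `h : W.PBW`, `hg : g ≠ 0`; `F = W.F k P`.
-/

set_option autoImplicit false
set_option linter.unusedVariables false

namespace Crest.Agent.R186.PBWD633

section coord

variable {K : Type*} [Field K] {ι V : Type*} [AddCommGroup V] [Module K V]

lemma span_inter {f : ι → V} (hf : LinearIndependent K f) {A B : Set ι} {m : V}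
    (hA : m ∈ Submodule.span K (f '' A)) (hB : m ∈ Submodule.span K (f '' B)) :
    m ∈ Submodule.span K (f '' (A ∩ B)) := by
  obtain ⟨u, hu, rfl⟩ := (Finsupp.mem_span_image_iff_linearCombination K).1 hA
  rw [lc_mem hf] at hB ⊢
  exact fun i hi => ⟨hu hi, hB hi⟩

lemma shift_map {f : ι → V} {φ : V →ₗ[K] V} {s : ι → ι} (h : ∀ i, φ (f i) = f (s i))
    {A : Set ι} {m : V} (hm : m ∈ Submodule.span K (f '' A)) :
    φ m ∈ Submodule.span K (f '' (s '' A)) := by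
  have h1 : φ m ∈ (Submodule.span K (f '' A)).map φ := ⟨m, hm, rfl⟩
  rw [Submodule.map_span] at h1
  refine Submodule.span_mono ?_ h1
  rintro _ ⟨_, ⟨i, hi, rfl⟩, rfl⟩
  exact ⟨s i, ⟨i, hi, rfl⟩, (h i).symm⟩

lemma mem_range_of {f : ι → V} {A : Set ι} {m : V} (hm : m ∈ Submodule.span K (f '' A)) :
    m ∈ Submodule.span K (Set.range f) := Submodule.span_mono (Set.image_subset_range _ _) hm

theorem koszul_mem {f : ι → V} (hf : LinearIndependent K f) {φ ψ : V →ₗ[K] V} {s t : ι → ι}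
    (hs : Function.Injective s) (ht : Function.Injective t) (hst : ∀ i, s (t i) = t (s i))
    (hp : ∀ p q, s p = t q → ∃ r, p = t r)
    (h : ∀ i, φ (f i) = f (s i)) (h' : ∀ i, ψ (f i) = f (t i)) {A A' : Set ι} {m m' : V}
    (hm : m ∈ Submodule.span K (f '' A)) (hm' : m' ∈ Submodule.span K (f '' A'))
    (h0 : φ m + ψ m' = 0) :
    ∃ n ∈ Submodule.span K (f '' (t ⁻¹' A)), m = ψ n ∧ m' = - φ n := by
  obtain ⟨n, hn, h1, h2⟩ := shift_koszul hf hs ht hst hp h h' (mem_range_of hm)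
    (mem_range_of hm') h0
  exact ⟨n, shift_strict hf ht h' hn (by rwa [← h1]), h1, h2⟩

/-- strictness of the sum map -/
theorem sum_strict {f : ι → V} (hf : LinearIndependent K f) {φ ψ : V →ₗ[K] V} {s t : ι → ι}
    (h : ∀ i, φ (f i) = f (s i)) (h' : ∀ i, ψ (f i) = f (t i)) {A A' B : Set ι} {m m' : V}
    (hm : m ∈ Submodule.span K (f '' A)) (hm' : m' ∈ Submodule.span K (f '' A'))
    (h0 : φ m + ψ m' ∈ Submodule.span K (f '' B)) :
    ∃ n ∈ Submodule.span K (f '' (s ⁻¹' B)), ∃ n' ∈ Submodule.span K (f '' (t ⁻¹' B)),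
      φ m + ψ m' = φ n + ψ n' := by
  have h1 : φ m + ψ m' ∈ Submodule.span K (f '' (s '' A ∪ t '' A')) := by
    rw [Set.image_union, Submodule.span_union]
    exact Submodule.add_mem_sup (shift_map h hm) (shift_map h' hm')
  have h2 := span_inter hf h1 h0
  obtain ⟨m0, hm0, m1, hm1, e, he, heq⟩ := shift_surj (φ := φ) (ψ := ψ) (s := s) (t := t) h h'
    (B := s ⁻¹' B) (C := t ⁻¹' B) (E := ∅) (A := (s '' A ∪ t '' A') ∩ B) (by
      rintro i ⟨⟨j, hj, rfl⟩ | ⟨j, hj, rfl⟩, hi⟩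
      · exact Or.inl ⟨j, hi, rfl⟩
      · exact Or.inr (Or.inl ⟨j, hi, rfl⟩)) h2
  have he0 : e = 0 := by simpa using he
  exact ⟨m0, hm0, m1, hm1, by rw [heq, he0, add_zero]⟩

end coord

/-! ### the shifts of indices -/

namespace QW

lemma sa0_inj : Function.Injective sa0 := by
  rintro ⟨a, b, c, d⟩ ⟨a', b', c', d'⟩ h
  simp only [sa0, Prod.mk.injEq] at h ⊢; omega
lemma sa1_inj : Function.Injective sa1 := by
  rintro ⟨a, b, c, d⟩ ⟨a', b', c', d'⟩ h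
  simp only [sa1, Prod.mk.injEq] at h ⊢; omega
lemma sb0_inj : Function.Injective sb0 := by
  rintro ⟨a, b, c, d⟩ ⟨a', b', c', d'⟩ h
  simp only [sb0, Prod.mk.injEq] at h ⊢; omega
lemma sb1_inj : Function.Injective sb1 := by
  rintro ⟨a, b, c, d⟩ ⟨a', b', c', d'⟩ h
  simp only [sb1, Prod.mk.injEq] at h ⊢; omega

lemma sa_pull (p q : Ix) (h : sa0 p = sa1 q) : ∃ r, p = sa1 r := by
  obtain ⟨a, b, c, d⟩ := p
  obtain ⟨a', b', c', d'⟩ := q
  simp only [sa0, sa1, Prod.mk.injEq] at h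
  refine ⟨(a, b - 1, c, d), ?_⟩
  show (a, b, c, d) = (a, b - 1 + 1, c, d)
  rw [Nat.sub_add_cancel (by omega)]
lemma sb_pull (p q : Ix) (h : sb0 p = sb1 q) : ∃ r, p = sb1 r := by
  obtain ⟨a, b, c, d⟩ := p
  obtain ⟨a', b', c', d'⟩ := q
  simp only [sb0, sb1, Prod.mk.injEq] at h
  refine ⟨(a, b, c, d - 1), ?_⟩
  show (a, b, c, d) = (a, b, c, d - 1 + 1)
  rw [Nat.sub_add_cancel (by omega)]

lemma sa0_S (k P : ℤ) : sa0 ⁻¹' S k P = S k (P - 1) := by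
  ext ⟨a, b, c, d⟩
  simp only [S, od, dg, sa0, Set.mem_preimage, Set.mem_ofPred_eq]; push_cast; omega
lemma sa1_S (k P : ℤ) : sa1 ⁻¹' S k P = S k (P - 1) := by
  ext ⟨a, b, c, d⟩
  simp only [S, od, dg, sa1, Set.mem_preimage, Set.mem_ofPred_eq]; push_cast; omega
lemma sb0_S (k P : ℤ) : sb0 ⁻¹' S k P = S (k - 1) (P + 1) := by
  ext ⟨a, b, c, d⟩
  simp only [S, od, dg, sb0, Set.mem_preimage, Set.mem_ofPred_eq]; push_cast; omega
lemma sb1_S (k P : ℤ) : sb1 ⁻¹' S k P = S (k - 1) (P + 1) := by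
  ext ⟨a, b, c, d⟩
  simp only [S, od, dg, sb1, Set.mem_preimage, Set.mem_ofPred_eq]; push_cast; omega

variable {K : Type*} [Field K] {g : K} {R : Type*} [Ring R] [Algebra K R] {W : QW g R}

lemma mem_F {k P : ℤ} {a : R} : a ∈ W.F k P ↔ a ∈ Submodule.span K (W.M '' S k P) := Iff.rfl

lemma mem_FN (hg : g ≠ 0) {k P : ℤ} {a : R} :
    a ∈ W.F k P ↔ a ∈ Submodule.span K (W.N '' S k P) := by
  rw [F_eq_FN _ hg]; rfl

lemma rx0 (q : Ix) : LinearMap.mulRight K W.x0 (W.N q) = W.N (sa0 q) := W.N_x0 q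
lemma rx1 (q : Ix) : LinearMap.mulRight K W.x1 (W.N q) = W.N (sa1 q) := W.N_x1 q
lemma rd0 (q : Ix) : LinearMap.mulRight K W.d0 (W.M q) = W.M (sb0 q) := W.M_d0 q
lemma rd1 (q : Ix) : LinearMap.mulRight K W.d1 (W.M q) = W.M (sb1 q) := W.M_d1 q
lemma lx0 (q : Ix) : LinearMap.mulLeft K W.x0 (W.M q) = W.M (sa0 q) := W.x0_M q
lemma lx1 (q : Ix) : LinearMap.mulLeft K W.x1 (W.M q) = W.M (sa1 q) := W.x1_M q
lemma ld0 (q : Ix) : LinearMap.mulLeft K W.d0 (W.N q) = W.N (sb0 q) := W.d0_N q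
lemma ld1 (q : Ix) : LinearMap.mulLeft K W.d1 (W.N q) = W.N (sb1 q) := W.d1_N q

theorem strict_x0R (h : W.PBW) (hg : g ≠ 0) {k P l Q : ℤ} {a : R} (ha : a ∈ W.F k P)
    (h1 : a * W.x0 ∈ W.F l Q) : a ∈ W.F l (Q - 1) := by
  rw [mem_FN hg] at ha h1 ⊢
  rw [← sa0_S]
  exact shift_strict (h.N hg) sa0_inj rx0 (mem_range_of ha) h1


theorem strict_x1R (h : W.PBW) (hg : g ≠ 0) {k P l Q : ℤ} {a : R} (ha : a ∈ W.F k P)
    (h1 : a * W.x1 ∈ W.F l Q) : a ∈ W.F l (Q - 1) := by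
  rw [mem_FN hg] at ha h1 ⊢
  rw [← sa1_S]
  exact shift_strict (h.N hg) sa1_inj rx1 (mem_range_of ha) h1


theorem strict_d0R (h : W.PBW) (hg : g ≠ 0) {k P l Q : ℤ} {a : R} (ha : a ∈ W.F k P)
    (h1 : a * W.d0 ∈ W.F l Q) : a ∈ W.F (l - 1) (Q + 1) := by
  rw [mem_F] at ha h1 ⊢
  rw [← sb0_S]
  exact shift_strict h sb0_inj rd0 (mem_range_of ha) h1

theorem inj_d0R (h : W.PBW) (hg : g ≠ 0) {k P : ℤ} {a : R} (ha : a ∈ W.F k P)
    (h1 : a * W.d0 = 0) : a = 0 := by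
  have h2 := strict_d0R h hg (l := -1) (Q := 0) ha (by rw [h1]; exact Submodule.zero_mem _)
  rw [W.F_neg (by norm_num)] at h2
  simpa using h2

theorem strict_d1R (h : W.PBW) (hg : g ≠ 0) {k P l Q : ℤ} {a : R} (ha : a ∈ W.F k P)
    (h1 : a * W.d1 ∈ W.F l Q) : a ∈ W.F (l - 1) (Q + 1) := by
  rw [mem_F] at ha h1 ⊢
  rw [← sb1_S]
  exact shift_strict h sb1_inj rd1 (mem_range_of ha) h1

theorem inj_d1R (h : W.PBW) (hg : g ≠ 0) {k P : ℤ} {a : R} (ha : a ∈ W.F k P)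
    (h1 : a * W.d1 = 0) : a = 0 := by
  have h2 := strict_d1R h hg (l := -1) (Q := 0) ha (by rw [h1]; exact Submodule.zero_mem _)
  rw [W.F_neg (by norm_num)] at h2
  simpa using h2

theorem strict_x0L (h : W.PBW) (hg : g ≠ 0) {k P l Q : ℤ} {a : R} (ha : a ∈ W.F k P)
    (h1 : W.x0 * a ∈ W.F l Q) : a ∈ W.F l (Q - 1) := by
  rw [mem_F] at ha h1 ⊢
  rw [← sa0_S]
  exact shift_strict h sa0_inj lx0 (mem_range_of ha) h1




theorem strict_d0L (h : W.PBW) (hg : g ≠ 0) {k P l Q : ℤ} {a : R} (ha : a ∈ W.F k P)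
    (h1 : W.d0 * a ∈ W.F l Q) : a ∈ W.F (l - 1) (Q + 1) := by
  rw [mem_FN hg] at ha h1 ⊢
  rw [← sb0_S]
  exact shift_strict (h.N hg) sb0_inj ld0 (mem_range_of ha) h1




/-- Koszul exactness in the middle -/
theorem X2R (h : W.PBW) (hg : g ≠ 0) {k P k' P' : ℤ} {a b : R} (ha : a ∈ W.F k P)
    (hb : b ∈ W.F k' P') (h0 : a * W.x0 + b * W.x1 = 0) :
    ∃ e ∈ W.F k (P - 1), a = e * W.x1 ∧ b = -(e * W.x0) := by
  rw [mem_FN hg] at ha hb
  obtain ⟨e, he, h1, h2⟩ := koszul_mem (h.N hg) sa0_inj sa1_inj (fun _ => rfl) sa_pull rx0 rx1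
    ha hb h0
  rw [sa1_S, ← mem_FN hg] at he
  exact ⟨e, he, h1, h2⟩

/-- strictness of the last Koszul map -/
theorem X3R (h : W.PBW) (hg : g ≠ 0) {k P k' P' l Q : ℤ} {a b : R} (ha : a ∈ W.F k P)
    (hb : b ∈ W.F k' P') (h0 : a * W.x0 + b * W.x1 ∈ W.F l Q) :
    ∃ a' ∈ W.F l (Q - 1), ∃ b' ∈ W.F l (Q - 1),
      a * W.x0 + b * W.x1 = a' * W.x0 + b' * W.x1 := by
  rw [mem_FN hg] at ha hb h0
  obtain ⟨n, hn, n', hn', h1⟩ := sum_strict (h.N hg) rx0 rx1 ha hb h0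
  rw [sa0_S, ← mem_FN hg] at hn
  rw [sa1_S, ← mem_FN hg] at hn'
  exact ⟨n, hn, n', hn', h1⟩

/-- surjectivity -/
theorem X1R (hg : g ≠ 0) {k P : ℤ} (hP : 1 ≤ P) {c : R} (hc : c ∈ W.F k P) :
    ∃ a ∈ W.F k (P - 1), ∃ b ∈ W.F k (P - 1), c = a * W.x0 + b * W.x1 := by
  rw [mem_FN hg] at hc
  obtain ⟨a, ha, b, hb, e, he, h1⟩ := shift_surj (φ := _) (ψ := _) rx0 rx1 (B := S k (P - 1))
    (C := S k (P - 1)) (E := ∅) (A := S k P) (by
      rintro ⟨a0, a1, b0, b1⟩ ⟨h1, h2⟩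
      simp only [od, dg] at h1 h2
      rcases Nat.eq_zero_or_pos a0 with h3 | h3
      · refine Or.inr (Or.inl ⟨(a0, a1 - 1, b0, b1), ⟨?_, ?_⟩, ?_⟩)
        · simp only [od]; omega
        · simp only [dg]; omega
        · show (a0, a1 - 1 + 1, b0, b1) = (a0, a1, b0, b1)
          rw [Nat.sub_add_cancel (by omega)]
      · refine Or.inl ⟨(a0 - 1, a1, b0, b1), ⟨?_, ?_⟩, ?_⟩
        · simp only [od]; omega
        · simp only [dg]; omega
        · show (a0 - 1 + 1, a1, b0, b1) = (a0, a1, b0, b1)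
          rw [Nat.sub_add_cancel (by omega)]) hc
  have he0 : e = 0 := by simpa using he
  rw [← mem_FN hg] at ha hb
  refine ⟨a, ha, b, hb, ?_⟩
  rw [h1, he0, add_zero]
  rfl

/-- Koszul exactness in the middle -/
theorem D2R (h : W.PBW) (hg : g ≠ 0) {k P k' P' : ℤ} {a b : R} (ha : a ∈ W.F k P)
    (hb : b ∈ W.F k' P') (h0 : a * W.d0 + b * W.d1 = 0) :
    ∃ e ∈ W.F (k - 1) (P + 1), a = e * W.d1 ∧ b = -(e * W.d0) := by
  rw [mem_F] at ha hb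
  obtain ⟨e, he, h1, h2⟩ := koszul_mem (h) sb0_inj sb1_inj (fun _ => rfl) sb_pull rd0 rd1
    ha hb h0
  rw [sb1_S, ← mem_F] at he
  exact ⟨e, he, h1, h2⟩


/-- surjectivity up to polynomials -/
theorem D1R (hg : g ≠ 0) {k P : ℤ} {c : R} (hc : c ∈ W.F k P) :
    ∃ a ∈ W.F (k - 1) (P + 1), ∃ b ∈ W.F (k - 1) (P + 1), ∃ p ∈ W.F 0 P,
      c = a * W.d0 + b * W.d1 + p := by
  rw [mem_F] at hc
  obtain ⟨a, ha, b, hb, e, he, h1⟩ := shift_surj (φ := _) (ψ := _) rd0 rd1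
    (B := S (k - 1) (P + 1)) (C := S (k - 1) (P + 1)) (E := S 0 P) (A := S k P) (by
      rintro ⟨a0, a1, b0, b1⟩ ⟨h1, h2⟩
      simp only [od, dg] at h1 h2
      rcases Nat.eq_zero_or_pos b0 with h3 | h3
      · rcases Nat.eq_zero_or_pos b1 with h4 | h4
        · refine Or.inr (Or.inr ⟨?_, ?_⟩)
          · simp only [od]; omega
          · simp only [dg]; omega
        · refine Or.inr (Or.inl ⟨(a0, a1, b0, b1 - 1), ⟨?_, ?_⟩, ?_⟩)
          · simp only [od]; omega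
          · simp only [dg]; omega
          · show (a0, a1, b0, b1 - 1 + 1) = (a0, a1, b0, b1)
            rw [Nat.sub_add_cancel (by omega)]
      · refine Or.inl ⟨(a0, a1, b0 - 1, b1), ⟨?_, ?_⟩, ?_⟩
        · simp only [od]; omega
        · simp only [dg]; omega
        · show (a0, a1, b0 - 1 + 1, b1) = (a0, a1, b0, b1)
          rw [Nat.sub_add_cancel (by omega)]) hc
  rw [← mem_F] at ha hb he
  exact ⟨a, ha, b, hb, e, he, h1⟩


/-- Koszul exactness in the middle -/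
theorem X2L (h : W.PBW) (hg : g ≠ 0) {k P k' P' : ℤ} {a b : R} (ha : a ∈ W.F k P)
    (hb : b ∈ W.F k' P') (h0 : W.x0 * a + W.x1 * b = 0) :
    ∃ e ∈ W.F k (P - 1), a = W.x1 * e ∧ b = -(W.x0 * e) := by
  rw [mem_F] at ha hb
  obtain ⟨e, he, h1, h2⟩ := koszul_mem (h) sa0_inj sa1_inj (fun _ => rfl) sa_pull lx0 lx1
    ha hb h0
  rw [sa1_S, ← mem_F] at he
  exact ⟨e, he, h1, h2⟩

/-- strictness of the last Koszul map -/
theorem X3L (h : W.PBW) (hg : g ≠ 0) {k P k' P' l Q : ℤ} {a b : R} (ha : a ∈ W.F k P)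
    (hb : b ∈ W.F k' P') (h0 : W.x0 * a + W.x1 * b ∈ W.F l Q) :
    ∃ a' ∈ W.F l (Q - 1), ∃ b' ∈ W.F l (Q - 1),
      W.x0 * a + W.x1 * b = W.x0 * a' + W.x1 * b' := by
  rw [mem_F] at ha hb h0
  obtain ⟨n, hn, n', hn', h1⟩ := sum_strict (h) lx0 lx1 ha hb h0
  rw [sa0_S, ← mem_F] at hn
  rw [sa1_S, ← mem_F] at hn'
  exact ⟨n, hn, n', hn', h1⟩

/-- surjectivity -/
theorem X1L (hg : g ≠ 0) {k P : ℤ} (hP : 1 ≤ P) {c : R} (hc : c ∈ W.F k P) :
    ∃ a ∈ W.F k (P - 1), ∃ b ∈ W.F k (P - 1), c = W.x0 * a + W.x1 * b := by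
  rw [mem_F] at hc
  obtain ⟨a, ha, b, hb, e, he, h1⟩ := shift_surj (φ := _) (ψ := _) lx0 lx1 (B := S k (P - 1))
    (C := S k (P - 1)) (E := ∅) (A := S k P) (by
      rintro ⟨a0, a1, b0, b1⟩ ⟨h1, h2⟩
      simp only [od, dg] at h1 h2
      rcases Nat.eq_zero_or_pos a0 with h3 | h3
      · refine Or.inr (Or.inl ⟨(a0, a1 - 1, b0, b1), ⟨?_, ?_⟩, ?_⟩)
        · simp only [od]; omega
        · simp only [dg]; omega
        · show (a0, a1 - 1 + 1, b0, b1) = (a0, a1, b0, b1)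
          rw [Nat.sub_add_cancel (by omega)]
      · refine Or.inl ⟨(a0 - 1, a1, b0, b1), ⟨?_, ?_⟩, ?_⟩
        · simp only [od]; omega
        · simp only [dg]; omega
        · show (a0 - 1 + 1, a1, b0, b1) = (a0, a1, b0, b1)
          rw [Nat.sub_add_cancel (by omega)]) hc
  have he0 : e = 0 := by simpa using he
  rw [← mem_F] at ha hb
  refine ⟨a, ha, b, hb, ?_⟩
  rw [h1, he0, add_zero]
  rfl

/-- Koszul exactness in the middle -/
theorem D2L (h : W.PBW) (hg : g ≠ 0) {k P k' P' : ℤ} {a b : R} (ha : a ∈ W.F k P)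
    (hb : b ∈ W.F k' P') (h0 : W.d0 * a + W.d1 * b = 0) :
    ∃ e ∈ W.F (k - 1) (P + 1), a = W.d1 * e ∧ b = -(W.d0 * e) := by
  rw [mem_FN hg] at ha hb
  obtain ⟨e, he, h1, h2⟩ := koszul_mem (h.N hg) sb0_inj sb1_inj (fun _ => rfl) sb_pull ld0 ld1
    ha hb h0
  rw [sb1_S, ← mem_FN hg] at he
  exact ⟨e, he, h1, h2⟩

/-- strictness of the last Koszul map -/
theorem D3L (h : W.PBW) (hg : g ≠ 0) {k P k' P' l Q : ℤ} {a b : R} (ha : a ∈ W.F k P)
    (hb : b ∈ W.F k' P') (h0 : W.d0 * a + W.d1 * b ∈ W.F l Q) :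
    ∃ a' ∈ W.F (l - 1) (Q + 1), ∃ b' ∈ W.F (l - 1) (Q + 1),
      W.d0 * a + W.d1 * b = W.d0 * a' + W.d1 * b' := by
  rw [mem_FN hg] at ha hb h0
  obtain ⟨n, hn, n', hn', h1⟩ := sum_strict (h.N hg) ld0 ld1 ha hb h0
  rw [sb0_S, ← mem_FN hg] at hn
  rw [sb1_S, ← mem_FN hg] at hn'
  exact ⟨n, hn, n', hn', h1⟩

/-- surjectivity up to polynomials -/
theorem D1L (hg : g ≠ 0) {k P : ℤ} {c : R} (hc : c ∈ W.F k P) :
    ∃ a ∈ W.F (k - 1) (P + 1), ∃ b ∈ W.F (k - 1) (P + 1), ∃ p ∈ W.F 0 P,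
      c = W.d0 * a + W.d1 * b + p := by
  rw [mem_FN hg] at hc
  obtain ⟨a, ha, b, hb, e, he, h1⟩ := shift_surj (φ := _) (ψ := _) ld0 ld1
    (B := S (k - 1) (P + 1)) (C := S (k - 1) (P + 1)) (E := S 0 P) (A := S k P) (by
      rintro ⟨a0, a1, b0, b1⟩ ⟨h1, h2⟩
      simp only [od, dg] at h1 h2
      rcases Nat.eq_zero_or_pos b0 with h3 | h3
      · rcases Nat.eq_zero_or_pos b1 with h4 | h4
        · refine Or.inr (Or.inr ⟨?_, ?_⟩)
          · simp only [od]; omega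
          · simp only [dg]; omega
        · refine Or.inr (Or.inl ⟨(a0, a1, b0, b1 - 1), ⟨?_, ?_⟩, ?_⟩)
          · simp only [od]; omega
          · simp only [dg]; omega
          · show (a0, a1, b0, b1 - 1 + 1) = (a0, a1, b0, b1)
            rw [Nat.sub_add_cancel (by omega)]
      · refine Or.inl ⟨(a0, a1, b0 - 1, b1), ⟨?_, ?_⟩, ?_⟩
        · simp only [od]; omega
        · simp only [dg]; omega
        · show (a0, a1, b0 - 1 + 1, b1) = (a0, a1, b0, b1)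
          rw [Nat.sub_add_cancel (by omega)]) hc
  rw [← mem_FN hg] at ha hb he
  exact ⟨a, ha, b, hb, e, he, h1⟩


end QW

end Crest.Agent.R186.PBWD633
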