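import Crest.Agent.R186.WRes_322
import Crest.Agent.R186.PBWK_633
import Crest.Agent.R186.FDord_757

-- ▼ part R186/WResV_322
section

/-!
# Row 186, S0281 base: the `W`-resolution at the `K_j`-vertices (helper322)

The vertex `K_j` of the family `F` in `P`-degree `e`: pairs `m` with `m 0, m 1 ∈ F e a` and
`x1 m 0 - x0 m 1 ∈ F (e+1) b` (left multiplications `L i`); `(a, b) = (2, 0)` for `K2`, `(1+s, s)` for
`K1(-s)`.  The `W`-complex is exact at these vertices for `e = 0, 1` (for `e = 1` the class of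
`F 0 b` modulo `D 0, D 1` at `P = 2` is used).
-/

set_option autoImplicit false

namespace Crest.Agent.R186.WRes322

variable {K M : Type*} [Field K] [AddCommGroup M] [Module K M] {g : K} {X D : Fin 2 → M →ₗ[K] M}
  {F : ℤ → ℤ → Submodule K M}

/-- bimodule version of `Fil`: `L i` = left multiplication by `x_i`, `C` = the constants. -/
structure Bi (g : K) (X D L : Fin 2 → M →ₗ[K] M) (F : ℤ → ℤ → Submodule K M) (C : Submodule K M) : Prop
    extends Fil g X D F where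
  LX : ∀ i j m, L i (X j m) = X j (L i m)
  LD : ∀ i j m, L i (D j m) = D j (L i m)
  LL : ∀ m, L 0 (L 1 m) = L 1 (L 0 m)
  Lm : ∀ i P A m, m ∈ F P A → L i m ∈ F (P + 1) A
  L1 : ∀ P A m, 1 ≤ P → m ∈ F P A → ∃ p ∈ F (P - 1) A, ∃ q ∈ F (P - 1) A, m = L 0 p + L 1 q
  Lc : ∀ A m, m ∈ F 0 A → ∃ k ∈ C, ∃ p ∈ F (-1) A, ∃ q ∈ F (-1) A, m = k + L 0 p + L 1 q
  Dc : ∀ A m, m ∈ F 0 A → ∃ k ∈ C, ∃ p ∈ F 1 (A - 1), ∃ q ∈ F 1 (A - 1), m = k + D 0 p + D 1 q
  CL : ∀ k ∈ C, ∀ i, L i k = X i k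
  CF : ∀ k ∈ C, k ∈ F 0 0
  C0 : ∀ k ∈ C, ∀ p q, k = D 0 p + D 1 q → k = 0
  Dinj : ∀ P A m, m ∈ F P A → D 1 m = 0 → m = 0

/-- `x1 u0 - x0 u1`, applied to a pair of elements of `C1` or `C2` -/
def Lw (L : Fin 2 → M →ₗ[K] M) (u : Fin 2 → Fin 2 → Fin 2 → M) : Fin 2 → Fin 2 → M :=
  fun k i => L 1 (u 0 k i) - L 0 (u 1 k i)

/-- `x1 m0 - x0 m1` -/
def Lv (L : Fin 2 → M →ₗ[K] M) (m : Fin 2 → M) : M := L 1 (m 0) - L 0 (m 1)

variable {L : Fin 2 → M →ₗ[K] M} {C : Submodule K M} (h : Bi g X D L F C)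

lemma Row.add {P A B : ℤ} {u v : Fin 2 → Fin 2 → M} (hu : Row X F P A B u) (hv : Row X F P A B v) :
    Row X F P A B (u + v) :=
  ⟨fun k i => Submodule.add_mem _ (hu.1 k i) (hv.1 k i), fun k => by
    have := Submodule.add_mem _ (hu.2 k) (hv.2 k)
    convert this using 1
    simp only [cc, Pi.add_apply, map_add]; abel⟩

lemma Row.sub {P A B : ℤ} {u v : Fin 2 → Fin 2 → M} (hu : Row X F P A B u) (hv : Row X F P A B v) :
    Row X F P A B (u - v) :=
  ⟨fun k i => Submodule.sub_mem _ (hu.1 k i) (hv.1 k i), fun k => by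
    have := Submodule.sub_mem _ (hu.2 k) (hv.2 k)
    convert this using 1
    simp only [cc, Pi.sub_apply, map_sub]; abel⟩

lemma Row.smul {P A B : ℤ} {u : Fin 2 → Fin 2 → M} (c : K) (hu : Row X F P A B u) :
    Row X F P A B (c • u) :=
  ⟨fun k i => Submodule.smul_mem _ _ (hu.1 k i), fun k => by
    have := Submodule.smul_mem _ c (hu.2 k)
    convert this using 1
    simp only [cc, Pi.smul_apply, map_smul, smul_add]⟩

include h

lemma Row.mono {P A A' B B' : ℤ} {u : Fin 2 → Fin 2 → M} (hu : Row X F P A B u) (hA : A ≤ A')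
    (hB : B ≤ B') : Row X F P A' B' u :=
  ⟨fun k i => h.toFil.mono' hA (hu.1 k i), fun k => h.toFil.mono' hB (hu.2 k)⟩


lemma Lw_row {P A B : ℤ} {u : Fin 2 → Fin 2 → Fin 2 → M} (hu : ∀ i, Row X F P A B (u i)) :
    Row X F (P + 1) A B (Lw L u) := by
  refine ⟨fun k i => Submodule.sub_mem _ (h.Lm _ _ _ _ ((hu 0).1 k i)) (h.Lm _ _ _ _ ((hu 1).1 k i)),
    fun k => ?_⟩
  have e : cc X (Lw L u k) = L 1 (cc X (u 0 k)) - L 0 (cc X (u 1 k)) := by
    simp only [cc, Lw, map_sub, map_add, h.LX]; abel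
  rw [e]
  exact Submodule.sub_mem _ (h.Lm _ _ _ _ ((hu 0).2 k)) (h.Lm _ _ _ _ ((hu 1).2 k))

lemma d2_Lw (u : Fin 2 → Fin 2 → Fin 2 → M) :
    d2 g X D (Lw L u) = Lw L (fun i => d2 g X D (u i)) := by
  funext k i
  fin_cases k <;> fin_cases i <;>
    simp only [d2, Lw, syz, Fin.zero_eta, Fin.mk_one, Matrix.cons_val_zero, Matrix.cons_val_one, Pi.add_apply,
      Pi.sub_apply, Pi.smul_apply, map_sub, map_add, map_smul, map_neg, h.LX, h.LD, smul_sub, smul_neg] <;> abel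

lemma d1_Lw (u : Fin 2 → Fin 2 → Fin 2 → M) :
    d1 X D (Lw L u) = Lv L (fun i => d1 X D (u i)) := by
  simp only [d1, Lw, Lv, cc, map_sub, map_add, h.LX, h.LD]; abel

lemma d3_Lv (w : Fin 2 → M) : d3 X D (Lv L w) = Lw L (fun i => d3 X D (w i)) := by
  funext k i
  fin_cases k <;> fin_cases i <;>
    simp only [d3, Lv, Lw, syz, Fin.zero_eta, Fin.mk_one, Matrix.cons_val_zero, Matrix.cons_val_one, Pi.neg_apply,
      map_sub, map_neg, h.LX, h.LD] <;> abel


/-- exactness at `C2` -/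
theorem vert2 (hg : g ≠ 0) {e a b B B' : ℤ} {u : Fin 2 → Fin 2 → Fin 2 → M}
    (hu : ∀ i, Row X F e (a - 1) B (u i)) (hu' : Row X F (e + 1) (b - 1) B' (Lw L u))
    (h0 : ∀ i, d2 g X D (u i) = 0) :
    ∃ y : Fin 2 → M, (∀ i, y i ∈ F e (a - 2)) ∧ Lv L y ∈ F (e + 1) (b - 2) ∧ ∀ i, d3 X D (y i) = u i := by
  choose y hy hyu using fun i => ex2 h.toFil hg (hu i) (h0 i)
  have h1 : d2 g X D (Lw L u) = 0 := by
    rw [d2_Lw h]
    funext k i
    simp [Lw, h0]
  obtain ⟨r, hr, hru⟩ := ex2 h.toFil hg hu' h1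
  have h2 : d3 X D (Lv L y - r) = 0 := by
    have e1 : d3 X D (Lv L y - r) = d3 X D (Lv L y) - d3 X D r := by
      funext k i
      fin_cases k <;> fin_cases i <;> simp [d3, syz] <;> abel
    rw [e1, d3_Lv h, hru, funext hyu, sub_self]
  have hm : Lv L y - r ∈ F (e + 1) (max (a - 2) (b - 2)) :=
    Submodule.sub_mem _ (h.toFil.mono' (le_max_left _ _)
      (Submodule.sub_mem _ (h.Lm _ _ _ _ (hy 0)) (h.Lm _ _ _ _ (hy 1))))
      (h.toFil.mono' (le_max_right _ _) hr)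
  have h3 : Lv L y = r := sub_eq_zero.1 (ex3 h.toFil h.Dinj hm h2)
  exact ⟨y, hy, by rw [h3]; exact hr, hyu⟩

omit h in
lemma kap_add (c c' : M) : kap X (c + c') = kap X c + kap X c' := by
  funext k i
  fin_cases i <;> simp [kap, syz] <;> abel

/-- `kap` of a combination of `D 0, D 1` is a boundary -/
lemma kap_D (hg : g ≠ 0) {P A B : ℤ} {p q : M} (hp : p ∈ F (P - 1) A) (hq : q ∈ F (P - 1) A) :
    ∃ v, Row X F P A B v ∧ d2 g X D v = kap X (D 0 p + D 1 q) := by
  refine ⟨ef X ![-(g⁻¹ • p), -(g⁻¹ • q)], ef_mem h.toFil fun k => ?_, ?_⟩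
  · fin_cases k
    · exact Submodule.neg_mem _ (Submodule.smul_mem _ _ hp)
    · exact Submodule.neg_mem _ (Submodule.smul_mem _ _ hq)
  · rw [d2_ef h.toFil]
    congr 1
    simp only [Matrix.cons_val_zero, Matrix.cons_val_one, map_neg, map_smul, smul_add, smul_neg, neg_smul,
      neg_neg, smul_smul, neg_mul, mul_inv_cancel₀ hg, one_smul]

lemma kap_inj {c : M} (h0 : kap X c = 0) : c = 0 := by
  have := congrFun (congrFun h0 0) 0
  simp only [kap, syz_zero, Pi.zero_apply] at this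
  exact h.inj _ _ (h.inj _ _ this)

/-- boundaries that are defined at the level `b` are boundaries at the level `b` -/
lemma bdry (hg : g ≠ 0) {P a b B B' : ℤ} (hP : 0 ≤ P) (hP2 : P ≤ 2) (hab : b ≤ a) (hB' : B' ≤ b - 1)
    {z t : Fin 2 → Fin 2 → M} (hz : Row X F P b B' z) (ht : Row X F P (a - 1) B t)
    (hzt : d2 g X D t = z) : ∃ r, Row X F P (b - 1) B' r ∧ d2 g X D r = z := by
  have hd : d1 X D z = 0 := by rw [← hzt, d1_d2 h.toFil]
  obtain ⟨v, hv, c, hc, hzc⟩ := cyc1 h.toFil hP hB' hz hd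
  have hcc : c ∈ F (P - 2) b → ∃ p ∈ F (P - 1) (b - 1), ∃ q ∈ F (P - 1) (b - 1), c = D 0 p + D 1 q := by
    intro hc
    rcases lt_or_ge P 2 with h2 | h2
    · obtain ⟨p, hp, q, hq, e⟩ := h.D1 _ _ _ (by omega) hc
      rw [show P - 2 + 1 = P - 1 by ring] at hp hq
      exact ⟨p, hp, q, hq, e⟩
    · obtain rfl : P = 2 := le_antisymm hP2 h2
      obtain ⟨k, hk, p, hp, q, hq, e⟩ := h.Dc b c (by simpa using hc)
      -- `k = 0`
      have e1 : d2 g X D (t - v) = kap X c := by rw [d2_sub, hzt, hzc]; abel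
      have htv : ∀ j i, (t - v) j i ∈ F 2 (a - 1) := fun j i =>
        Submodule.sub_mem _ (ht.1 j i) (h.toFil.mono' (by omega) (hv.1 j i))
      have key : ∀ j, ∃ y, (t - v) j = syz X y := fun j => by
        have e2 : cc X ((t - v) j) = 0 := by
          rw [← cc_d2 h.toFil, e1]
          exact cc_syz h.toFil _
        obtain ⟨y, _, y1, y2⟩ := h.X2 2 (a - 1) _ _ (htv j 0) (htv j 1) e2
        refine ⟨y, ?_⟩
        funext i
        fin_cases i
        · exact y1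
        · exact y2
      choose y hy using key
      have e3 : t - v = ef X y := funext hy
      rw [e3, d2_ef h.toFil] at e1
      have e4 : - g • (D 0 (y 0) + D 1 (y 1)) = c := by
        have : kap X (- g • (D 0 (y 0) + D 1 (y 1)) - c) = 0 := by
          have e5 := kap_add (X := X) (- g • (D 0 (y 0) + D 1 (y 1)) - c) c
          rw [sub_add_cancel, e1] at e5
          simpa using e5.symm
        exact sub_eq_zero.1 (kap_inj h this)
      have e6 : k = D 0 (- g • y 0 - p) + D 1 (- g • y 1 - q) := by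
        have : k = c - D 0 p - D 1 q := by rw [e]; abel
        rw [this, ← e4]
        simp only [map_sub, map_smul, smul_add]; abel
      have e7 := h.C0 k hk _ _ e6
      rw [e7, zero_add] at e
      exact ⟨p, by simpa using hp, q, by simpa using hq, e⟩
  obtain ⟨p, hp, q, hq, e⟩ := hcc hc
  obtain ⟨v', hv', e'⟩ := kap_D h hg (B := B') hp hq
  exact ⟨v + v', hv.add hv', by rw [d2_add, e', ← e, ← hzc]⟩

/-- exactness at `C1` -/
theorem vert1 (hg : g ≠ 0) {e a b B B' : ℤ} (he : 0 ≤ e) (he1 : e ≤ 1) (hab : b ≤ a) (hB : B ≤ a - 1)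
    (hB' : B' ≤ b - 1) (hBB : B' ≤ B) {u : Fin 2 → Fin 2 → Fin 2 → M}
    (hu : ∀ i, Row X F e a B (u i)) (hu' : Row X F (e + 1) b B' (Lw L u))
    (h0 : ∀ i, d1 X D (u i) = 0) :
    ∃ v : Fin 2 → Fin 2 → Fin 2 → M, (∀ i, Row X F e (a - 1) B (v i)) ∧
      Row X F (e + 1) (b - 1) B' (Lw L v) ∧ ∀ i, d2 g X D (v i) = u i := by
  choose y hy hyu using fun i => ex1 h.toFil hg he he1 hB (hu i) (h0 i)
  have e1 : d2 g X D (Lw L y) = Lw L u := by rw [d2_Lw h, funext hyu]
  obtain ⟨r, hr, hru⟩ := bdry h hg (by omega : 0 ≤ e + 1) (by omega) hab hB' hu' (Lw_row h hy) e1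
  have hrow : Row X F (e + 1) (a - 1) B (Lw L y - r) :=
    (Lw_row h hy).sub (Row.mono h hr (by omega) hBB)
  have e2 : d2 g X D (Lw L y - r) = 0 := by rw [d2_sub, e1, hru, sub_self]
  obtain ⟨w, hw, hwe⟩ := ex2 h.toFil hg hrow e2
  obtain ⟨p, hp, q, hq, hpq⟩ := h.L1 (e + 1) (a - 2) w (by omega) hw
  rw [add_sub_cancel_right] at hp hq
  have hm : ∀ i, (![q, -p] : Fin 2 → M) i ∈ F e (a - 2) := fun i => by
    fin_cases i
    · exact hq
    · exact Submodule.neg_mem _ hp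
  have hwl : Lv L ![q, -p] = w := by
    rw [hpq]
    simp only [Lv, Matrix.cons_val_zero, Matrix.cons_val_one, map_neg, sub_neg_eq_add]
    rw [add_comm]
  refine ⟨fun i => y i - d3 X D ((![q, -p] : Fin 2 → M) i), fun i => (hy i).sub (d3_mem h.toFil (hm i)), ?_,
    fun i => ?_⟩
  · have : Lw L (fun i => y i - d3 X D ((![q, -p] : Fin 2 → M) i)) = r := by
      have e3 : Lw L (fun i => y i - d3 X D ((![q, -p] : Fin 2 → M) i)) =
          Lw L y - Lw L (fun i => d3 X D ((![q, -p] : Fin 2 → M) i)) := by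
        funext k i
        simp only [Lw, Pi.sub_apply, map_sub]; abel
      rw [e3, ← d3_Lv h, hwl, hwe]; abel
    rw [this]; exact hr
  · rw [d2_sub, d2_d3 h.toFil, sub_zero, hyu]

/-- left generation of the rows -/
lemma rowgen {P A B : ℤ} (hP : 1 ≤ P) (hB0 : 0 ≤ B) (hBA : B ≤ A) {u : Fin 2 → Fin 2 → M}
    (hu : Row X F P A B u) : ∃ v : Fin 2 → Fin 2 → Fin 2 → M, (∀ i, Row X F (P - 1) A B (v i)) ∧ Lw L v = u := by
  have key : ∀ k, ∃ v : Fin 2 → Fin 2 → M, (∀ i j, v i j ∈ F (P - 1) A) ∧ (∀ i, cc X (v i) ∈ F (P - 1 + 1) B) ∧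
      ∀ j, u k j = L 1 (v 0 j) - L 0 (v 1 j) := by
    intro k
    obtain ⟨p, hp, q, hq, e⟩ := h.X1 (P + 1) B _ (by omega) (hu.2 k)
    rw [add_sub_cancel_right] at hp hq
    have hp' := h.toFil.mono' hBA hp
    have hq' := h.toFil.mono' hBA hq
    have e1 : X 0 (u k 0 - p) + X 1 (u k 1 - q) = 0 := by
      have : X 0 (u k 0 - p) + X 1 (u k 1 - q) = cc X (u k) - (X 0 p + X 1 q) := by
        simp only [cc, map_sub]; abel
      rw [this, e, sub_self]
    obtain ⟨y, hy, y1, y2⟩ := h.X2 P A _ _ (Submodule.sub_mem _ (hu.1 k 0) hp')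
      (Submodule.sub_mem _ (hu.1 k 1) hq') e1
    obtain ⟨p0, hp0, p1, hp1, ep⟩ := h.L1 P B p hP hp
    obtain ⟨q0, hq0, q1, hq1, eq⟩ := h.L1 P B q hP hq
    have hyy : ∃ c ∈ C, (c ≠ 0 → P = 1) ∧ ∃ y0 ∈ F (P - 1 - 1) A, ∃ y1 ∈ F (P - 1 - 1) A,
        y = c + L 0 y0 + L 1 y1 := by
      rcases lt_or_ge P 2 with h2 | h2
      · obtain rfl : P = 1 := by omega
        obtain ⟨c, hc, y0, hy0, y1, hy1, e⟩ := h.Lc A y (by simpa using hy)
        exact ⟨c, hc, fun _ => rfl, y0, by simpa using hy0, y1, by simpa using hy1, e⟩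
      · obtain ⟨y0, hy0, y1, hy1, e⟩ := h.L1 (P - 1) A y (by omega) hy
        exact ⟨0, C.zero_mem, fun h => absurd rfl h, y0, hy0, y1, hy1, by rw [zero_add, e]⟩
    obtain ⟨c, hc, hcP, z0, hz0, z1, hz1, ez⟩ := hyy
    have hcF : c ∈ F (P - 1) B := by
      by_cases hc0 : c = 0
      · rw [hc0]; exact Submodule.zero_mem _
      · rw [hcP hc0]
        exact h.toFil.mono' hB0 (by simpa using h.CF c hc)
    have hp0' := h.toFil.mono' hBA hp0
    have hp1' := h.toFil.mono' hBA hp1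
    have hq0' := h.toFil.mono' hBA hq0
    have hq1' := h.toFil.mono' hBA hq1
    have hcF' := h.toFil.mono' hBA hcF
    have s0 := syz_mem h.toFil hz0
    have s1 := syz_mem h.toFil hz1
    refine ⟨![![p1 + X 1 z1 + c, q1 - X 0 z1], ![-(p0 + X 1 z0), -(q0 - X 0 z0) + c]], ?_, ?_, ?_⟩
    · intro i j
      fin_cases i <;> fin_cases j
      · exact Submodule.add_mem _ (Submodule.add_mem _ hp1' (s1 0)) hcF'
      · have := Submodule.add_mem _ hq1' (s1 1)
        rwa [syz_one, ← sub_eq_add_neg] at this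
      · exact Submodule.neg_mem _ (Submodule.add_mem _ hp0' (s0 0))
      · change -(q0 - X 0 z0) + c ∈ _
        refine Submodule.add_mem _ (Submodule.neg_mem _ ?_) hcF'
        have := Submodule.add_mem _ hq0' (s0 1)
        rwa [syz_one, ← sub_eq_add_neg] at this
    · intro i
      fin_cases i
      · have : cc X ![p1 + X 1 z1 + c, q1 - X 0 z1] = X 0 p1 + X 1 q1 + X 0 c := by
          simp only [cc, Matrix.cons_val_zero, Matrix.cons_val_one, map_add, map_sub, h.xx]; abel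
        change cc X ![p1 + X 1 z1 + c, q1 - X 0 z1] ∈ _
        rw [this]
        exact Submodule.add_mem _ (Submodule.add_mem _ (h.Xm _ _ _ _ hp1) (h.Xm _ _ _ _ hq1))
          (h.Xm _ _ _ _ hcF)
      · have : cc X ![-(p0 + X 1 z0), -(q0 - X 0 z0) + c] = -(X 0 p0 + X 1 q0) + X 1 c := by
          simp only [cc, Matrix.cons_val_zero, Matrix.cons_val_one, map_add, map_sub, map_neg, h.xx]; abel
        change cc X ![-(p0 + X 1 z0), -(q0 - X 0 z0) + c] ∈ _
        rw [this]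
        exact Submodule.add_mem _ (Submodule.neg_mem _ (Submodule.add_mem _ (h.Xm _ _ _ _ hp0)
          (h.Xm _ _ _ _ hq0))) (h.Xm _ _ _ _ hcF)
    · intro j
      fin_cases j
      · change u k 0 = L 1 (p1 + X 1 z1 + c) - L 0 (-(p0 + X 1 z0))
        have : u k 0 = p + X 1 y := by rw [← y1]; abel
        rw [this, ep, ez]
        simp only [map_add, map_neg, h.LX, h.CL c hc]; abel
      · change u k 1 = L 1 (q1 - X 0 z1) - L 0 (-(q0 - X 0 z0) + c)
        have : u k 1 = q - X 0 y := by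
          have : u k 1 = q + (u k 1 - q) := by abel
          rw [this, y2]; abel
        rw [this, eq, ez]
        simp only [map_add, map_sub, map_neg, h.LX, h.CL c hc]; abel
  choose v hv1 hv2 hv3 using key
  refine ⟨fun i k => v k i, fun i => ⟨fun k j => hv1 k i j, fun k => hv2 k i⟩, ?_⟩
  funext k j
  exact (hv3 k j).symm

/-- exactness at `C0` -/
theorem vert0 (hg : g ≠ 0) {e a b B B' : ℤ} (he : 0 ≤ e) (he1 : e ≤ 1) (hab : b ≤ a) (hb : 0 ≤ b)
    (hB0 : 0 ≤ B) (hB : B ≤ a - 1) (hBB : B' ≤ B) {m : Fin 2 → M}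
    (hm : ∀ i, ∃ y, Row X F e a B y ∧ d1 X D y = m i) (hm' : Lv L m ∈ F (e + 1) b) :
    ∃ y : Fin 2 → Fin 2 → Fin 2 → M, (∀ i, Row X F e a B (y i)) ∧ Row X F (e + 1) b B' (Lw L y) ∧
      ∀ i, d1 X D (y i) = m i := by
  choose y hy hym using hm
  obtain ⟨r, hr, hrz⟩ := ex0_pos h.toFil (B := B') (by omega : 1 ≤ e + 1) hm'
  have e1 : d1 X D (Lw L y) = Lv L m := by rw [d1_Lw h, funext hym]
  have hrow : Row X F (e + 1) a B (Lw L y - r) := (Lw_row h hy).sub (Row.mono h hr hab hBB)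
  have e2 : d1 X D (Lw L y - r) = 0 := by rw [d1_sub, e1, hrz, sub_self]
  -- `Lw y - r = d2 w + kap k`
  obtain ⟨w, hw, k, hk, hkP, hwk⟩ : ∃ w, Row X F (e + 1) (a - 1) B w ∧ ∃ k ∈ C, (k ≠ 0 → e = 1) ∧
      Lw L y - r = d2 g X D w + kap X k := by
    obtain ⟨v, hv, c, hc, hvc⟩ := cyc1 h.toFil (by omega : 0 ≤ e + 1) hB hrow e2
    rcases lt_or_ge e 1 with h2 | h2
    · obtain rfl : e = 0 := by omega
      obtain ⟨p, hp, q, hq, e⟩ := h.D1 _ _ _ (by omega) hc
      obtain ⟨v', hv', e'⟩ := kap_D h hg (P := 0 + 1) (A := a - 1) (B := B) (p := p) (q := q) (by simpa using hp)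
        (by simpa using hq)
      refine ⟨v + v', hv.add hv', 0, C.zero_mem, fun h => absurd rfl h, ?_⟩
      rw [hvc, d2_add, e', ← e]
      have : kap X (0 : M) = 0 := by funext k i; fin_cases i <;> simp [kap, syz]
      rw [this, add_zero]
    · obtain rfl : e = 1 := le_antisymm he1 h2
      obtain ⟨k, hk, p, hp, q, hq, e⟩ := h.Dc a c (by simpa using hc)
      obtain ⟨v', hv', e'⟩ := kap_D h hg (P := 1 + 1) (A := a - 1) (B := B) (p := p) (q := q) (by simpa using hp)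
        (by simpa using hq)
      refine ⟨v + v', hv.add hv', k, hk, fun _ => rfl, ?_⟩
      rw [hvc, d2_add, e', e, add_assoc, kap_add]
      abel
  have hkap : Row X F (e + 1) b B' (kap X k) := by
    by_cases hk0 : k = 0
    · have : kap X k = 0 := by rw [hk0]; funext k i; fin_cases i <;> simp [kap, syz]
      rw [this]
      exact ⟨fun k i => Submodule.zero_mem _, fun k => by simp [cc]⟩
    · obtain rfl := hkP hk0
      have hk1 : ∀ j, X j k ∈ F (1 + 1 - 1) b := fun j => h.toFil.mono' hb (by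
        simpa using h.Xm j _ _ _ (h.CF k hk))
      refine ⟨fun j i => syz_mem h.toFil (hk1 j) i, fun j => ?_⟩
      have : cc X (kap X k j) = 0 := cc_syz h.toFil _
      rw [this]; exact Submodule.zero_mem _
  have hd1k : d1 X D (kap X k) = 0 := by
    have h1 : ∀ j, cc X (kap X k j) = 0 := fun j => cc_syz h.toFil _
    simp only [d1, h1, map_zero]
    simp [kap, syz, h.xx]
  obtain ⟨v, hv, hvw⟩ := rowgen h (by omega : 1 ≤ e + 1) hB0 (by omega : B ≤ a - 1) hw
  simp only [add_sub_cancel_right] at hv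
  refine ⟨fun i => y i - d2 g X D (v i), fun i => (hy i).sub (d2_mem h.toFil (hv i)), ?_, fun i => ?_⟩
  · have : Lw L (fun i => y i - d2 g X D (v i)) = r + kap X k := by
      have e3 : Lw L (fun i => y i - d2 g X D (v i)) = Lw L y - Lw L (fun i => d2 g X D (v i)) := by
        funext k i
        simp only [Lw, Pi.sub_apply, map_sub]; abel
      rw [e3, ← d2_Lw h, hvw]
      have : Lw L y = r + (d2 g X D w + kap X k) := by rw [← hwk]; abel
      rw [this]; abel
    rw [this]; exact hr.add hkap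
  · rw [d1_sub, d1_d2 h.toFil, sub_zero, hym]

end Crest.Agent.R186.WRes322
end

-- ▼ part R186/BiI_322

/-!
# Row 186, S0281 base: 128's `Fil` is an instance of `WRes322.Bi` (helper322)

On `M = Op K`: `X i`, `D i` = right multiplications by `X i`, `D g i`, `L i` = left multiplication by
`X i`, `F P A = Fil g A P`, constants `K · 1`.
-/

set_option autoImplicit false

namespace Crest.Agent.R186.BiI322

open B281 PBWD633

variable {K : Type} [Field K] {g : K}

/-- the `q`-Weyl data of 128's operators -/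
noncomputable def wq (hg : Gen g) : QW g (Op K) where
  x0 := X 0
  x1 := X 1
  d0 := D g 0
  d1 := D g 1
  hx := X_comm 0 1
  hd := D_comm g 0 1
  h01 := X_D g (by decide)
  h10 := X_D g (by decide)
  h00 := X_D_self hg 0
  h11 := X_D_self hg 1

theorem wq_M (hg : Gen g) (q : Ix) : (wq hg).M q = mon g (q.1, q.2.1) (q.2.2.1, q.2.2.2) := by
  simp [QW.M, mon, wq, mul_assoc]

theorem wq_PBW (hg : Gen g) : (wq hg).PBW := by
  have h1 := FD757.mon_indep hg
  have h2 := h1.comp (fun q : Ix => ((q.1, q.2.1), (q.2.2.1, q.2.2.2))) (by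
    rintro ⟨a, b, c, d⟩ ⟨a', b', c', d'⟩ h
    simp only [Prod.mk.injEq] at h ⊢
    omega)
  have h3 : (wq hg).M = (fun p : (ℕ × ℕ) × (ℕ × ℕ) => mon g p.1 p.2) ∘
      (fun q : Ix => ((q.1, q.2.1), (q.2.2.1, q.2.2.2))) := funext fun q => wq_M hg q
  rw [QW.PBW, h3]
  exact h2

theorem Fil_eq (hg : Gen g) (k P : ℤ) : Fil g k P = (wq hg).F k P := by
  unfold Fil QW.F
  congr 1
  ext T
  constructor
  · rintro ⟨a, b, h1, h2, rfl⟩
    exact ⟨(a.1, a.2, b.1, b.2), ⟨h1, h2⟩, wq_M hg _⟩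
  · rintro ⟨q, ⟨h1, h2⟩, rfl⟩
    exact ⟨(q.1, q.2.1), (q.2.2.1, q.2.2.2), h1, h2, wq_M hg q⟩

theorem X1r (hg : Gen g) {k P : ℤ} (hP : 1 ≤ P) {c : Op K} (hc : c ∈ Fil g k P) :
    ∃ a ∈ Fil g k (P - 1), ∃ b ∈ Fil g k (P - 1), c = a * X 0 + b * X 1 := by
  simp only [Fil_eq hg] at hc ⊢
  exact QW.X1R hg.1 hP hc

theorem X1l (hg : Gen g) {k P : ℤ} (hP : 1 ≤ P) {c : Op K} (hc : c ∈ Fil g k P) :
    ∃ a ∈ Fil g k (P - 1), ∃ b ∈ Fil g k (P - 1), c = X 0 * a + X 1 * b := by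
  simp only [Fil_eq hg] at hc ⊢
  exact QW.X1L hg.1 hP hc

theorem X2r (hg : Gen g) {k P k' P' : ℤ} {a b : Op K} (ha : a ∈ Fil g k P) (hb : b ∈ Fil g k' P')
    (h0 : a * X 0 + b * X 1 = 0) : ∃ e ∈ Fil g k (P - 1), a = e * X 1 ∧ b = -(e * X 0) := by
  simp only [Fil_eq hg] at ha hb ⊢
  exact QW.X2R (wq_PBW hg) hg.1 ha hb h0


theorem D2r (hg : Gen g) {k P k' P' : ℤ} {a b : Op K} (ha : a ∈ Fil g k P) (hb : b ∈ Fil g k' P')
    (h0 : a * D g 0 + b * D g 1 = 0) :
    ∃ e ∈ Fil g (k - 1) (P + 1), a = e * D g 1 ∧ b = -(e * D g 0) := by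
  simp only [Fil_eq hg] at ha hb ⊢
  exact QW.D2R (wq_PBW hg) hg.1 ha hb h0


theorem Fil_zero_neg (g : K) {P : ℤ} (hP : P ≤ -1) : Fil g 0 P = ⊥ := by
  refine Submodule.span_eq_bot.2 ?_
  rintro T ⟨a, b, h1, h2, rfl⟩
  omega


theorem Fil_zero_zero (g : K) : Fil g 0 0 = Submodule.span K {(1 : Op K)} := by
  refine le_antisymm (Submodule.span_le.2 ?_) (Submodule.span_le.2 ?_)
  · rintro T ⟨⟨a, b⟩, ⟨c, d⟩, h1, h2, rfl⟩
    simp only at h1 h2
    obtain rfl : a = 0 := by omega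
    obtain rfl : b = 0 := by omega
    obtain rfl : c = 0 := by omega
    obtain rfl : d = 0 := by omega
    refine Submodule.subset_span ?_
    simp [mon]
  · rintro _ rfl
    exact Submodule.subset_span ⟨(0, 0), (0, 0), by simp, by simp, by simp [mon]⟩

/-- `D1r` in negative `P`-degree -/
theorem D1r (hg : Gen g) {k P : ℤ} (hP : P ≤ -1) {c : Op K} (hc : c ∈ Fil g k P) :
    ∃ a ∈ Fil g (k - 1) (P + 1), ∃ b ∈ Fil g (k - 1) (P + 1), c = a * D g 0 + b * D g 1 := by
  rw [Fil_eq hg] at hc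
  obtain ⟨a, ha, b, hb, p, hp, e⟩ := QW.D1R hg.1 hc
  rw [← Fil_eq hg] at ha hb hp
  rw [Fil_zero_neg g hP, Submodule.mem_bot] at hp
  exact ⟨a, ha, b, hb, by rw [e, hp, add_zero]; rfl⟩


/-- `P = 0`: modulo the constants -/
theorem D1r0 (hg : Gen g) {k : ℤ} {c : Op K} (hc : c ∈ Fil g k 0) :
    ∃ t : K, ∃ a ∈ Fil g (k - 1) 1, ∃ b ∈ Fil g (k - 1) 1, c = t • (1 : Op K) + a * D g 0 + b * D g 1 := by
  rw [Fil_eq hg] at hc
  obtain ⟨a, ha, b, hb, p, hp, e⟩ := QW.D1R hg.1 hc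
  rw [← Fil_eq hg] at ha hb hp
  rw [Fil_zero_zero, Submodule.mem_span_singleton] at hp
  obtain ⟨t, rfl⟩ := hp
  refine ⟨t, a, by simpa using ha, b, by simpa using hb, ?_⟩
  rw [e, add_comm, ← add_assoc]; rfl


theorem X1l0 (hg : Gen g) {k : ℤ} {c : Op K} (hc : c ∈ Fil g k 0) :
    ∃ t : K, ∃ a ∈ Fil g k (-1), ∃ b ∈ Fil g k (-1), c = t • (1 : Op K) + X 0 * a + X 1 * b := by
  rw [Fil_eq hg] at hc
  obtain ⟨a, ha, b, hb, p, hp, e⟩ := shift_surj (f := (wq hg).M) (φ := LinearMap.mulLeft K (wq hg).x0)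
    (ψ := LinearMap.mulLeft K (wq hg).x1) QW.lx0 QW.lx1 (B := S k (-1))
    (C := S k (-1)) (E := {(0, 0, 0, 0)}) (A := S k 0) (by
      rintro ⟨a0, a1, b0, b1⟩ ⟨h1, h2⟩
      simp only [od, dg] at h1 h2
      rcases Nat.eq_zero_or_pos a0 with h3 | h3
      · rcases Nat.eq_zero_or_pos a1 with h4 | h4
        · refine Or.inr (Or.inr ?_)
          obtain rfl : b0 = 0 := by omega
          obtain rfl : b1 = 0 := by omega
          rw [h3, h4]; rfl
        · refine Or.inr (Or.inl ⟨(a0, a1 - 1, b0, b1), ⟨?_, ?_⟩, ?_⟩)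
          · simp only [od]; omega
          · simp only [dg]; omega
          · show (a0, a1 - 1 + 1, b0, b1) = (a0, a1, b0, b1)
            rw [Nat.sub_add_cancel (by omega)]
      · refine Or.inl ⟨(a0 - 1, a1, b0, b1), ⟨?_, ?_⟩, ?_⟩
        · simp only [od]; omega
        · simp only [dg]; omega
        · show (a0 - 1 + 1, a1, b0, b1) = (a0, a1, b0, b1)
          rw [Nat.sub_add_cancel (by omega)]) hc
  rw [Set.image_singleton, Submodule.mem_span_singleton] at hp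
  obtain ⟨t, rfl⟩ := hp
  have h1 : (wq hg).M (0, 0, 0, 0) = 1 := by simp [QW.M]
  refine ⟨t, a, by rw [Fil_eq hg]; exact ha, b, by rw [Fil_eq hg]; exact hb, ?_⟩
  rw [e, h1, add_comm, ← add_assoc]; rfl

theorem X1r0 (hg : Gen g) {k : ℤ} {c : Op K} (hc : c ∈ Fil g k 0) :
    ∃ t : K, ∃ a ∈ Fil g k (-1), ∃ b ∈ Fil g k (-1), c = t • (1 : Op K) + a * X 0 + b * X 1 := by
  rw [Fil_eq hg, QW.mem_FN hg.1] at hc
  obtain ⟨a, ha, b, hb, p, hp, e⟩ := shift_surj (f := (wq hg).N) (φ := LinearMap.mulRight K (wq hg).x0)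
    (ψ := LinearMap.mulRight K (wq hg).x1) QW.rx0 QW.rx1 (B := S k (-1))
    (C := S k (-1)) (E := {(0, 0, 0, 0)}) (A := S k 0) (by
      rintro ⟨a0, a1, b0, b1⟩ ⟨h1, h2⟩
      simp only [od, dg] at h1 h2
      rcases Nat.eq_zero_or_pos a0 with h3 | h3
      · rcases Nat.eq_zero_or_pos a1 with h4 | h4
        · refine Or.inr (Or.inr ?_)
          obtain rfl : b0 = 0 := by omega
          obtain rfl : b1 = 0 := by omega
          rw [h3, h4]; rfl
        · refine Or.inr (Or.inl ⟨(a0, a1 - 1, b0, b1), ⟨?_, ?_⟩, ?_⟩)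
          · simp only [od]; omega
          · simp only [dg]; omega
          · show (a0, a1 - 1 + 1, b0, b1) = (a0, a1, b0, b1)
            rw [Nat.sub_add_cancel (by omega)]
      · refine Or.inl ⟨(a0 - 1, a1, b0, b1), ⟨?_, ?_⟩, ?_⟩
        · simp only [od]; omega
        · simp only [dg]; omega
        · show (a0 - 1 + 1, a1, b0, b1) = (a0, a1, b0, b1)
          rw [Nat.sub_add_cancel (by omega)]) hc
  rw [Set.image_singleton, Submodule.mem_span_singleton] at hp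
  obtain ⟨t, rfl⟩ := hp
  have h1 : (wq hg).N (0, 0, 0, 0) = 1 := by simp [QW.N]
  rw [← QW.mem_FN hg.1, ← Fil_eq hg] at ha hb
  refine ⟨t, a, ha, b, hb, ?_⟩
  rw [e, h1, add_comm, ← add_assoc]; rfl

theorem D1inj (hg : Gen g) {k P : ℤ} {c : Op K} (hc : c ∈ Fil g k P) (h0 : c * D g 1 = 0) : c = 0 := by
  rw [Fil_eq hg] at hc
  exact QW.inj_d1R (wq_PBW hg) hg.1 hc h0


/-- right multiplication by `x_i` is injective on all operators -/
theorem mulX_inj (i : Fin 2) {c : Op K} (h0 : c * X i = 0) : c = 0 := by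
  apply op_ext
  intro m
  have := LinearMap.congr_fun h0 (Finsupp.single (m - ev i) 1)
  rw [Module.End.mul_apply, X_single, sub_add_cancel] at this
  rw [this]; rfl


/-- a constant is not in the right span of `d_0`, `d_1` (all operators) -/
theorem const_zero {t : K} {p q : Op K} (h : t • (1 : Op K) = p * D g 0 + q * D g 1) : t = 0 := by
  have h1 := LinearMap.congr_fun h (Finsupp.single 0 1)
  have h2 : ∀ i : Fin 2, D g i (Finsupp.single (0 : ℤ × ℤ) (1 : K)) = 0 := fun i => by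
    rw [D_single]
    have : co i (0 : ℤ × ℤ) = 0 := by fin_cases i <;> rfl
    rw [this, cq_zero, zero_mul, Finsupp.single_zero]
  rw [LinearMap.add_apply, Module.End.mul_apply, Module.End.mul_apply, h2, h2, map_zero, map_zero,
    add_zero, LinearMap.smul_apply, Module.End.one_apply, Finsupp.smul_single, smul_eq_mul, mul_one,
    Finsupp.single_eq_zero] at h1
  exact h1

theorem Fil_mono' (g : K) {k l P : ℤ} (h : k ≤ l) : Fil g k P ≤ Fil g l P := by
  refine Submodule.span_mono ?_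
  rintro T ⟨a, b, h1, h2, rfl⟩
  exact ⟨a, b, h1.trans h, h2, rfl⟩

/-- **the instance** -/
theorem fil (hg : Gen g) : WRes322.Fil (K := K) (M := Op K) g (fun i => LinearMap.mulRight K (X i : Op K))
    (fun i => LinearMap.mulRight K (D g i)) (fun P A => Fil g A P) where
  xx m := by
    simp only [LinearMap.mulRight_apply, mul_assoc]
    rw [X_comm]
  dd m := by
    simp only [LinearMap.mulRight_apply, mul_assoc]
    rw [D_comm]
  dx0 m := by
    simp only [LinearMap.mulRight_apply, mul_assoc]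
    rw [X_D_self hg, mul_add, mul_one, mul_smul_comm]
  dx1 m := by
    simp only [LinearMap.mulRight_apply, mul_assoc]
    rw [X_D_self hg, mul_add, mul_one, mul_smul_comm]
  d0x1 m := by
    simp only [LinearMap.mulRight_apply, mul_assoc]
    rw [X_D g (by decide)]
  d1x0 m := by
    simp only [LinearMap.mulRight_apply, mul_assoc]
    rw [X_D g (by decide)]
  mono P A m hm := Fil_mono' g (by omega) hm
  Xm i P A m hm := FD757.mul_X_mem hg i hm
  Dm i P A m hm := FD757.mul_D_mem i hm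
  inj i m h := mulX_inj i h
  X1 P A m hP hm := X1r hg hP hm
  X2 P A u v hu hv h := X2r hg hu hv h
  D1 P A m hP hm := D1r hg hP hm
  D2 P A u v hu hv h := D2r hg hu hv h

/-- **the bimodule instance** -/
theorem bi (hg : Gen g) : WRes322.Bi (K := K) (M := Op K) g (fun i => LinearMap.mulRight K (X i : Op K))
    (fun i => LinearMap.mulRight K (D g i)) (fun i => LinearMap.mulLeft K (X i : Op K))
    (fun P A => Fil g A P) (Submodule.span K {(1 : Op K)}) where
  toFil := fil hg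
  LX i j m := by simp only [LinearMap.mulRight_apply, LinearMap.mulLeft_apply, mul_assoc]
  LD i j m := by simp only [LinearMap.mulRight_apply, LinearMap.mulLeft_apply, mul_assoc]
  LL m := by
    simp only [LinearMap.mulLeft_apply, ← mul_assoc]
    rw [X_comm]
  Lm i P A m hm := FD757.X_mul_mem i hm
  L1 P A m hP hm := X1l hg hP hm
  Lc A m hm := by
    obtain ⟨t, p, hp, q, hq, e⟩ := X1l0 hg hm
    exact ⟨t • 1, Submodule.smul_mem _ _ (Submodule.mem_span_singleton_self _), p, hp, q, hq, e⟩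
  Dc A m hm := by
    obtain ⟨t, p, hp, q, hq, e⟩ := D1r0 hg hm
    exact ⟨t • 1, Submodule.smul_mem _ _ (Submodule.mem_span_singleton_self _), p, hp, q, hq, e⟩
  CL k hk i := by
    obtain ⟨t, rfl⟩ := Submodule.mem_span_singleton.1 hk
    simp only [LinearMap.mulRight_apply, LinearMap.mulLeft_apply, mul_smul_comm, smul_mul_assoc,
      mul_one, one_mul]
  CF k hk := by
    show k ∈ Fil g 0 0
    rw [Fil_zero_zero]; exact hk
  C0 k hk p q h := by
    obtain ⟨t, rfl⟩ := Submodule.mem_span_singleton.1 hk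
    rw [const_zero (g := g) h, zero_smul]
  Dinj P A m hm h := D1inj hg hm h

end Crest.Agent.R186.BiI322
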