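import Crest.Agent.R186.KOSZ_296

/-!
Row 186, half (A) (helper296), for helper306's road: the LEFT `W`-normal form
`R'' = ⊕_q wq q * R'`, `R' = range kill`, and the `W`-filtration by right ideals.
-/

set_option autoImplicit false

noncomputable section

namespace Crest.Agent.R186.WLF296

open Crest.Agent.R186.DefsQ830 Crest.Agent.R186.PBW128
open Crest.Agent.R186.C2b362 (pz J NZ mem_NZ mem_pz mem_pz_nat mem_J pz_neg)
open Crest.Agent.R186.C2b44 (kill kill_mem kill_x kill_h kill_kill kill_nf kill_D)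
open Crest.Agent.R186.KOS296 (kill_pz mem_J_iff_kill c_ne xY x_wq cw)
open Crest.Agent.R186.Cells221 (tR)

variable {K : Type} [Field K] (π : Par K)

/-- the scalar of `wq q * nf (.., one)` -/
def sg' (q : Wb) (i j : ℕ) (w : List E) : K :=
  match q with
  | .one => 1
  | .y s => sc π (.y s) i j w
  | .yb s => sc π (.yb s) i j w
  | .pi => sc π (.y 1) i j w * sc π (.y 0) i j w

theorem sc_ne (a : Y) (i j : ℕ) (w : List E) : sc π a i j w ≠ 0 := by
  have h : (w.map (chi π a)).prod ≠ 0 := by
    apply List.prod_ne_zero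
    intro h0
    obtain ⟨l, -, hl⟩ := List.mem_map.1 h0
    exact chi_ne π a l hl
  simp only [sc]
  refine mul_ne_zero (mul_ne_zero ?_ ?_) h
  · exact pow_ne_zero _ (inv_ne_zero (c_ne π 0))
  · exact pow_ne_zero _ (inv_ne_zero (c_ne π 1))

theorem sg'_ne (q : Wb) (i j : ℕ) (w : List E) : sg' π q i j w ≠ 0 := by
  cases q with
  | one => exact one_ne_zero
  | y s => exact sc_ne π _ i j w
  | yb s => exact sc_ne π _ i j w
  | pi => exact mul_ne_zero (sc_ne π _ i j w) (sc_ne π _ i j w)

theorem wq_nf (q : Wb) (i j k : ℕ) (w : List E) :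
    wq π q * nf π (i, j, k, w, .one) = sg' π q i j w • nf π (i, j, k, w, q) := by
  cases q with
  | one => rw [wq_one, one_mul]; simp [sg']
  | y s =>
    rw [wq_y]
    have := Ynf π (.y s) i j k w .one
    simpa [wk, wt, sg', Y.toGen] using this
  | yb s =>
    rw [wq_yb]
    have := Ynf π (.yb s) i j k w .one
    simpa [wk, wt, sg', Y.toGen] using this
  | pi =>
    rw [wq_pi, mul_assoc]
    have h1 := Ynf π (.y 1) i j k w .one
    have h0 := Ynf π (.y 0) i j k w (.y 1)
    have e1 : X π (.y 1) * nf π (i, j, k, w, .one) = sc π (.y 1) i j w • nf π (i, j, k, w, .y 1) := by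
      simpa [wk, wt, Y.toGen] using h1
    have e0 : X π (.y 0) * nf π (i, j, k, w, .y 1) = sc π (.y 0) i j w • nf π (i, j, k, w, .pi) := by
      simpa [wk, wt, Y.toGen] using h0
    rw [e1, mul_smul_comm, e0, smul_smul]
    rfl

/-- coordinate form of the `q`-component -/
def lN (q : Wb) : N K →ₗ[K] N K :=
  Finsupp.linearCombination K (fun ν : Ix =>
    if ν.2.2.2.2 = q then (sg' π q ν.1 ν.2.1 ν.2.2.2.1)⁻¹ • bv K ν.1 ν.2.1 ν.2.2.1 ν.2.2.2.1 .one
    else 0)

theorem lN_bv (q : Wb) (i j k : ℕ) (w : List E) (q' : Wb) : lN π q (bv K i j k w q') =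
    if q' = q then (sg' π q i j w)⁻¹ • bv K i j k w .one else 0 := by
  simp [lN, bv]

/-- the `q`-component in the left `W`-normal form -/
def lq (q : Wb) : R π →ₗ[K] R π := Psi π ∘ₗ lN π q ∘ₗ ev π

theorem lq_nf (q : Wb) (i j k : ℕ) (w : List E) (q' : Wb) : lq π q (nf π (i, j, k, w, q')) =
    if q' = q then (sg' π q i j w)⁻¹ • nf π (i, j, k, w, .one) else 0 := by
  show Psi π (lN π q (ev π _)) = _
  rw [ev_nf, lN_bv]
  split_ifs
  · rw [map_smul, Psi_bv]
  · rw [map_zero]

/-- linear maps on `R''` agree if they agree on normal elements -/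
theorem ext_nf {M : Type*} [AddCommMonoid M] [Module K M] {φ ψ : R π →ₗ[K] M}
    (h : ∀ i j k w q, φ (nf π (i, j, k, w, q)) = ψ (nf π (i, j, k, w, q))) (r : R π) :
    φ r = ψ r := by
  have : φ ∘ₗ Psi π = ψ ∘ₗ Psi π := by
    apply ext_bv
    intro i j k w q
    rw [LinearMap.comp_apply, LinearMap.comp_apply, Psi_bv]
    exact h i j k w q
  have h2 := LinearMap.congr_fun this (ev π r)
  rwa [LinearMap.comp_apply, LinearMap.comp_apply, Psi_ev] at h2

theorem kill_nf' (i j k : ℕ) (w : List E) (q : Wb) :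
    kill π (nf π (i, j, k, w, q)) = if q = .one then nf π (i, j, k, w, q) else 0 :=
  kill_nf π (i, j, k, w, q)

theorem kill_lq (q : Wb) (r : R π) : kill π (lq π q r) = lq π q r := by
  refine ext_nf π (φ := (kill π).toLinearMap ∘ₗ lq π q) (ψ := lq π q) ?_ r
  intro i j k w q'
  rw [LinearMap.comp_apply, lq_nf]
  split_ifs
  · rw [map_smul]
    show _ • kill π _ = _
    rw [kill_nf', if_pos rfl]
  · rw [map_zero]

theorem lq_one (r : R π) : lq π .one r = kill π r := by
  refine ext_nf π (φ := lq π .one) (ψ := (kill π).toLinearMap) ?_ r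
  intro i j k w q'
  show _ = kill π _
  rw [lq_nf, kill_nf']
  split_ifs with h
  · subst h; simp [sg']
  · rfl

/-- **left `W`-normal form** -/
theorem sum_lq (r : R π) : r = ∑ q, wq π q * lq π q r := by
  have h := ext_nf π (φ := LinearMap.id)
    (ψ := ∑ q, (LinearMap.mulLeft K (wq π q)) ∘ₗ lq π q) ?_ r
  · rw [LinearMap.id_apply, LinearMap.sum_apply] at h
    exact h
  · intro i j k w q'
    rw [LinearMap.id_apply, LinearMap.sum_apply, Finset.sum_eq_single q']
    · rw [LinearMap.comp_apply, lq_nf, if_pos rfl, map_smul, LinearMap.mulLeft_apply, wq_nf,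
        smul_smul, inv_mul_cancel₀ (sg'_ne π q' i j w), one_smul]
    · intro q _ hq
      rw [LinearMap.comp_apply, lq_nf, if_neg (Ne.symm hq), map_zero]
    · intro h; exact absurd (Finset.mem_univ _) h

theorem lq_wq_kill (q q' : Wb) (r : R π) :
    lq π q' (wq π q * kill π r) = if q' = q then kill π r else 0 := by
  by_cases hq : q' = q
  · subst hq
    rw [if_pos rfl]
    refine ext_nf π (φ := lq π q' ∘ₗ LinearMap.mulLeft K (wq π q') ∘ₗ (kill π).toLinearMap)
      (ψ := (kill π).toLinearMap) ?_ r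
    intro i j k w q0
    show lq π q' (wq π q' * kill π _) = kill π _
    rw [kill_nf']
    split_ifs with h
    · subst h
      rw [wq_nf, map_smul, lq_nf, if_pos rfl, smul_smul, mul_inv_cancel₀ (sg'_ne π q' i j w), one_smul]
    · rw [mul_zero, map_zero]
  · rw [if_neg hq]
    refine ext_nf π (φ := lq π q' ∘ₗ LinearMap.mulLeft K (wq π q) ∘ₗ (kill π).toLinearMap)
      (ψ := (0 : R π →ₗ[K] R π)) ?_ r
    intro i j k w q0
    show lq π q' (wq π q * kill π _) = 0
    rw [kill_nf']
    split_ifs with h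
    · subst h
      rw [wq_nf, map_smul, lq_nf, if_neg (Ne.symm hq), smul_zero]
    · rw [mul_zero, map_zero]

theorem lq_wq (q q' : Wb) {s : R π} (hs : kill π s = s) :
    lq π q' (wq π q * s) = if q' = q then s else 0 := by
  have := lq_wq_kill π q q' s
  rwa [hs] at this

/-- uniqueness of the left normal form -/
theorem lq_sum (s : Wb → R π) (hs : ∀ q, kill π (s q) = s q) (q' : Wb) :
    lq π q' (∑ q, wq π q * s q) = s q' := by
  rw [map_sum, Finset.sum_eq_single q']
  · rw [lq_wq π q' q' (hs q'), if_pos rfl]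
  · intro q _ hq
    rw [lq_wq π q q' (hs q), if_neg (Ne.symm hq)]
  · intro h; exact absurd (Finset.mem_univ _) h

theorem eq_zero_of_lq {r : R π} (h : ∀ q, lq π q r = 0) : r = 0 := by
  rw [sum_lq π r]
  exact Finset.sum_eq_zero fun q _ => by rw [h q, mul_zero]

/-- degrees -/
theorem lq_mem {P A C : ℤ} {r : R π} (hr : r ∈ pz π P A C) (q : Wb) :
    lq π q r ∈ pz π P A (C - wC q.word) := by
  have h2 : NZ K P A C ≤ (pz π P A (C - wC q.word)).comap (Psi π ∘ₗ lN π q) := by
    rw [NZ, Finsupp.supported_eq_span_single, Submodule.span_le]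
    rintro _ ⟨⟨i, j, k, w, q'⟩, ⟨h1, h2, h3⟩, rfl⟩
    show Psi π (lN π q (bv K i j k w q')) ∈ pz π P A (C - wC q.word)
    rw [lN_bv]
    split_ifs with h
    · subst h
      rw [map_smul, Psi_bv]
      refine Submodule.smul_mem _ _ ?_
      rw [mem_pz]
      intro ν hν
      rw [ev_nf, bv_apply] at hν
      have hν' : ((i, j, k, w, Wb.one) : Ix) = ν := by
        by_contra h0; exact hν (if_neg h0)
      subst hν'
      refine ⟨h1, h2, ?_⟩
      rw [← h3]
      simp only [dCx]
      have : wC Wb.one.word = 0 := rfl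
      rw [this]
      push_cast
      ring
    · rw [map_zero]; exact Submodule.zero_mem _
  exact h2 hr

/-! ### left multiplication by elements of `R'` -/

/-- left multiplication by an element of `R'` commuting with `W` -/
theorem lq_left {s : R π} (hs : kill π s = s) (hc : ∀ q, s * wq π q = wq π q * s) (q : Wb) (r : R π) :
    lq π q (s * r) = s * lq π q r := by
  have e : s * r = ∑ q, wq π q * (s * lq π q r) := by
    conv_lhs => rw [sum_lq π r]
    rw [Finset.mul_sum]
    refine Finset.sum_congr rfl fun q _ => ?_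
    rw [← mul_assoc, hc, mul_assoc]
  rw [e, lq_sum π _ (fun q => by rw [map_mul, hs, kill_lq])]

theorem h_wq (q : Wb) : X π .h * wq π q = wq π q * X π .h := (comm_h_wd π q.word).eq

theorem lq_h (q : Wb) (r : R π) : lq π q (X π .h * r) = X π .h * lq π q r :=
  lq_left π (kill_h π) (h_wq π) q r

theorem t_Y (a : Y) : tR π * X π a.toGen = X π a.toGen * tR π := by
  have hd : ∀ j : Fin 2, X π (.d j) * X π (.x j) * X π a.toGen
      = X π a.toGen * (X π (.d j) * X π (.x j)) := by
    intro j
    have h1 : X π a.toGen * X π (.d j) = π.c j • (X π (.d j) * X π a.toGen) := rYE π a (.d j)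
    rw [mul_assoc, xY, mul_smul_comm, ← mul_assoc, ← mul_assoc (X π a.toGen), h1, smul_mul_assoc]
  simp only [tR, add_mul, mul_add, smul_mul_assoc, mul_smul_comm, hd]
  rw [(comm_h π a.toGen).eq]

theorem t_wq (q : Wb) : tR π * wq π q = wq π q * tR π := by
  cases q with
  | one => rw [wq_one, mul_one, one_mul]
  | y s => rw [wq_y]; exact t_Y π (.y s)
  | yb s => rw [wq_yb]; exact t_Y π (.yb s)
  | pi =>
    have h0 : tR π * X π (.y 0) = X π (.y 0) * tR π := t_Y π (.y 0)
    have h1 : tR π * X π (.y 1) = X π (.y 1) * tR π := t_Y π (.y 1)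
    rw [wq_pi, ← mul_assoc, h0, mul_assoc, h1, mul_assoc]


/-- left multiplication by `x_c` -/
theorem lq_x (c : Fin 2) (q : Wb) (r : R π) :
    lq π q (X π (.x c) * r) = cw π c q • (X π (.x c) * lq π q r) := by
  have e : X π (.x c) * r = ∑ q, wq π q * (cw π c q • (X π (.x c) * lq π q r)) := by
    conv_lhs => rw [sum_lq π r]
    rw [Finset.mul_sum]
    refine Finset.sum_congr rfl fun q _ => ?_
    rw [← mul_assoc, x_wq, smul_mul_assoc, mul_assoc, mul_smul_comm]
  rw [e, lq_sum π _ (fun q => by rw [map_smul, map_mul, kill_x, kill_lq])]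

/-! ### right multiplication and the differential on the `W`-filtration -/

/-- `W`-degree -/
def lev : Wb → ℕ
  | .one => 0
  | .y _ => 1
  | .yb _ => 1
  | .pi => 2

theorem wq_mul (q q' : Wb) : ∃ (c : K) (q'' : Wb), wq π q * wq π q' = c • wq π q'' ∧
    (c = 0 ∨ lev q'' = lev q + lev q') := by
  cases q' with
  | one => exact ⟨1, q, by rw [wq_one, mul_one, one_smul], Or.inr rfl⟩
  | y s =>
    refine ⟨wkr π q (.y s), wtr q (.y s), ?_, ?_⟩
    · rw [wq_y]; exact wq_mul_Y π q (.y s)
    · cases q with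
      | one => right; rfl
      | y t => right; rfl
      | yb t => left; rfl
      | pi => left; rfl
  | yb s =>
    refine ⟨wkr π q (.yb s), wtr q (.yb s), ?_, ?_⟩
    · rw [wq_yb]; exact wq_mul_Y π q (.yb s)
    · cases q with
      | one => right; rfl
      | y t => left; fin_cases t <;> rfl
      | yb t => left; rfl
      | pi => left; rfl
  | pi =>
    cases q with
    | one => exact ⟨1, .pi, by rw [wq_one, one_mul, one_smul], Or.inr rfl⟩
    | _ =>
      refine ⟨0, .pi, ?_, Or.inl rfl⟩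
      rw [zero_smul, wq_pi, ← mul_assoc]
      first
      | (rename_i t; rw [wq_y]; fin_cases t
         · simp [ryy]
         · show X π (.y 1) * X π (.y 0) * X π (.y 1) = 0
           rw [ry10, smul_mul_assoc, mul_assoc, ryy, mul_zero, smul_zero])
      | (rename_i t; rw [wq_yb]; simp [ryby])
      | (have h10 : X π (.y 1) * X π (.y 0) = π.p • (X π (.y 0) * X π (.y 1)) := ry10 π
         rw [mul_assoc (X π (.y 0)), h10, mul_smul_comm, ← mul_assoc, ryy, zero_mul, smul_zero,
           zero_mul])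

/-- leading part: components of level `≤ lev q` of `wq q * u` -/
theorem lq_wq_mul (q q' : Wb) (u : R π) (h : lev q' ≤ lev q) :
    lq π q' (wq π q * u) = if q' = q then kill π u else 0 := by
  have e : wq π q * u = ∑ q₁, wq π q * (wq π q₁ * lq π q₁ u) := by
    conv_lhs => rw [sum_lq π u]
    rw [Finset.mul_sum]
  rw [e, map_sum, Finset.sum_eq_single .one]
  · rw [wq_one, one_mul, lq_one, lq_wq_kill]
  · intro q₁ _ h1
    obtain ⟨c, q₂, e2, h2⟩ := wq_mul π q q₁
    rw [← mul_assoc, e2, smul_mul_assoc, map_smul, lq_wq π q₂ q' (kill_lq π q₁ u)]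
    rcases h2 with h2 | h2
    · rw [h2, zero_smul]
    · have h3 : 1 ≤ lev q₁ := by
        cases q₁ with
        | one => exact absurd rfl h1
        | _ => simp [lev]
      have : q' ≠ q₂ := by
        rintro rfl
        omega
      rw [if_neg this, smul_zero]
  · intro h; exact absurd (Finset.mem_univ _) h

/-- the `W`-filtration -/
def Fl (n : ℕ) : Submodule K (R π) where
  carrier := {r | ∀ q, lev q < n → lq π q r = 0}
  add_mem' ha hb q hq := by rw [map_add, ha q hq, hb q hq, add_zero]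
  zero_mem' q _ := map_zero _
  smul_mem' c r hr q hq := by rw [map_smul, hr q hq, smul_zero]

variable {π}



theorem mem_Fl_one {r : R π} : r ∈ Fl π 1 ↔ r ∈ J π := by
  rw [mem_J_iff_kill, ← lq_one]
  constructor
  · intro h; exact h .one (by simp [lev])
  · intro h q hq
    cases q with
    | one => exact h
    | _ => simp [lev] at hq

theorem Fl_three {r : R π} (h : r ∈ Fl π 3) : r = 0 := by
  apply eq_zero_of_lq π
  intro q
  apply h q
  cases q <;> simp [lev]

/-- components of `r * s`, for `r` in the filtration -/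
theorem lq_mul_of_mem {n : ℕ} {r : R π} (hr : r ∈ Fl π n) (s : R π) (q : Wb) (hq : lev q ≤ n) :
    lq π q (r * s) = lq π q r * kill π s := by
  have e : r * s = ∑ q₁, wq π q₁ * (lq π q₁ r * s) := by
    conv_lhs => rw [sum_lq π r]
    rw [Finset.sum_mul]
    exact Finset.sum_congr rfl fun q₁ _ => mul_assoc _ _ _
  rw [e, map_sum, Finset.sum_eq_single q]
  · rw [lq_wq_mul π q q _ le_rfl, if_pos rfl, map_mul, kill_lq]
  · intro q₁ _ h1
    by_cases h2 : lev q₁ < n
    · rw [hr q₁ h2, zero_mul, mul_zero, map_zero]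
    · rw [lq_wq_mul π q₁ q _ (by omega), if_neg (Ne.symm h1)]
  · intro h; exact absurd (Finset.mem_univ _) h

theorem D_wq (q : Wb) : Der580.D π (wq π q) = 0 := by
  have hy : ∀ s, Der580.D π (X π (.y s)) = 0 := fun s => C2b362.D_Y (.y s)
  have hb : ∀ s, Der580.D π (X π (.yb s)) = 0 := fun s => C2b362.D_Y (.yb s)
  cases q with
  | one =>
    rw [wq_one]
    have := Der580.D_mul π 1 1
    rw [mul_one, mul_one, one_mul] at this
    have h2 := Der580.add_self π (Der580.D π 1)
    rw [this]; exact h2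
  | y s => rw [wq_y]; exact hy s
  | yb s => rw [wq_yb]; exact hb s
  | pi => rw [wq_pi, Der580.D_mul, hy, hy, zero_mul, mul_zero, add_zero]

/-- components of `D r`, for `r` in the filtration -/
theorem lq_D_of_mem {n : ℕ} {r : R π} (hr : r ∈ Fl π n) (q : Wb) (hq : lev q ≤ n) :
    lq π q (Der580.D π r) = kill π (Der580.D π (lq π q r)) := by
  have e : Der580.D π r = ∑ q₁, wq π q₁ * Der580.D π (lq π q₁ r) := by
    conv_lhs => rw [sum_lq π r]
    rw [map_sum]
    refine Finset.sum_congr rfl fun q₁ _ => ?_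
    rw [Der580.D_mul, D_wq, zero_mul, zero_add]
  rw [e, map_sum, Finset.sum_eq_single q]
  · rw [lq_wq_mul π q q _ le_rfl, if_pos rfl]
  · intro q₁ _ h1
    by_cases h2 : lev q₁ < n
    · rw [hr q₁ h2, map_zero, mul_zero, map_zero]
    · rw [lq_wq_mul π q₁ q _ (by omega), if_neg (Ne.symm h1)]
  · intro h; exact absurd (Finset.mem_univ _) h

theorem Fl_mul {n : ℕ} {r : R π} (hr : r ∈ Fl π n) (s : R π) : r * s ∈ Fl π n := by
  intro q hq
  rw [lq_mul_of_mem hr s q hq.le, hr q hq, zero_mul]

theorem Fl_D {n : ℕ} {r : R π} (hr : r ∈ Fl π n) : Der580.D π r ∈ Fl π n := by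
  intro q hq
  rw [lq_D_of_mem hr q hq.le, hr q hq, map_zero, map_zero]

theorem Fl_h {n : ℕ} {r : R π} (hr : r ∈ Fl π n) : X π .h * r ∈ Fl π n := by
  intro q hq
  rw [lq_h, hr q hq, mul_zero]


theorem Fl_anti {m n : ℕ} (h : m ≤ n) {r : R π} (hr : r ∈ Fl π n) : r ∈ Fl π m :=
  fun q hq => hr q (lt_of_lt_of_le hq h)

theorem wq_mem_Fl (q : Wb) (u : R π) : wq π q * u ∈ Fl π (lev q) := by
  intro q' hq'
  rw [lq_wq_mul π q q' u hq'.le, if_neg]
  rintro rfl
  exact lt_irrefl _ hq'

end Crest.Agent.R186.WLF296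
end
private theorem rz_2b462e20ee : type_of% @_root_.Crest.Agent.R186.WLF296.lev.eq_1 := @_root_.Crest.Agent.R186.WLF296.lev.eq_1 -- L264
private theorem rz_1d62116cb3 : type_of% @_root_.Crest.Agent.R186.WLF296.sg'.eq_1 := @_root_.Crest.Agent.R186.WLF296.sg'.eq_1 -- L23
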