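import Crest.Agent.R186.SM_890
import Crest.Agent.R186.WLF_296

/-!
Row 186, half (A) (helper296): left coordinates `cM q : M → R'` of 890's bimodule
`M = ⊕_q R' o_q` (`m = Σ_q (cM q m) · o_q`), degrees, left and right multiplication, and the RIGHT
Koszul columns of `x` on `M` in the pieces `pcM`.
-/

set_option autoImplicit false

noncomputable section

namespace Crest.Agent.R186.KOSM296

open Crest.Agent.R186.DefsQ830 Crest.Agent.R186.PBW128
open Crest.Agent.R186.C2b362 (pz J NZ mem_NZ mem_pz mem_pz_nat mem_J pz_neg)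
open Crest.Agent.R186.C2b44 (kill kill_mem kill_x kill_h kill_kill kill_nf kill_D)
open Crest.Agent.R186.KOS296 (kill_pz mem_J_iff_kill pcZ_eq_pz K0 xr_kerZ' xr_surZ mem_of_mul_xZ kr_sur)
open Crest.Agent.R186.WLF296 (ext_nf kill_nf')
open Crest.Agent.R186.SM890 (MM oM pcM nf1 repM repM_nf1 repM_nf cW tW Tq tw tw_ne tau tau_X
  op_smul_oM smul_oM pcM_ind mem_pcM dMM dMM_oM MM_two oo)

variable {K : Type} [Field K] (π : Par K)

/-- the `q`-th left coordinate, on `N K` -/
def cN (q : Wb) : N K →ₗ[K] R π :=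
  Finsupp.linearCombination K (fun ν : Ix =>
    if ν.2.2.2.2 = q then nf π (ν.1, ν.2.1, ν.2.2.1, ν.2.2.2.1, .one) else 0)

theorem cN_bv (q : Wb) (i j k : ℕ) (w : List E) (q' : Wb) : cN π q (bv K i j k w q') =
    if q' = q then nf π (i, j, k, w, .one) else 0 := by
  simp [cN, bv]

/-- **the `q`-th left coordinate** -/
def cM (q : Wb) : MM π →ₗ[K] R π := cN π q

theorem oM_nf (q q1 : Wb) (i j k : ℕ) (w : List E) :
    oM π q (nf π (i, j, k, w, q1)) = cW π q1 q • (bv K i j k w (tW q1 q) : N K) := by
  show repM π (nf π (i, j, k, w, q1)) (oo K q) = _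
  rw [SM890.nf_eq]
  exact repM_nf π i j k w q1 q

theorem oM_nf1 (q : Wb) (i j k : ℕ) (w : List E) :
    oM π q (nf π (i, j, k, w, .one)) = (bv K i j k w q : N K) := repM_nf1 π i j k w q

theorem cM_oM_nf (q q' : Wb) (i j k : ℕ) (w : List E) :
    cM π q (oM π q' (nf π (i, j, k, w, .one))) = if q' = q then nf π (i, j, k, w, .one) else 0 := by
  rw [oM_nf1]
  exact cN_bv π q i j k w q'

theorem cM_oM_kill (q q' : Wb) (r : R π) :
    cM π q (oM π q' (kill π r)) = if q' = q then kill π r else 0 := by
  refine (ext_nf π (φ := cM π q ∘ₗ oM π q' ∘ₗ (kill π).toLinearMap)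
    (ψ := if q' = q then (kill π).toLinearMap else 0) ?_ r).trans ?_
  · intro i j k w q1
    rw [LinearMap.comp_apply, LinearMap.comp_apply]
    show cM π q (oM π q' (kill π _)) = _
    rw [kill_nf']
    by_cases h1 : q1 = .one
    · subst h1
      rw [if_pos rfl, cM_oM_nf]
      by_cases h2 : q' = q
      · rw [if_pos h2, if_pos h2]
        show _ = kill π _
        rw [kill_nf', if_pos rfl]
      · rw [if_neg h2, if_neg h2]; rfl
    · rw [if_neg h1, map_zero, map_zero]
      by_cases h2 : q' = q
      · rw [if_pos h2]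
        show _ = kill π _
        rw [kill_nf', if_neg h1]
      · rw [if_neg h2]; rfl
  · by_cases h2 : q' = q
    · rw [if_pos h2, if_pos h2]; rfl
    · rw [if_neg h2, if_neg h2]; rfl

theorem cM_oM (q q' : Wb) {s : R π} (hs : kill π s = s) :
    cM π q (oM π q' s) = if q' = q then s else 0 := by
  have := cM_oM_kill π q q' s
  rwa [hs] at this







theorem wC_tW (q1 q : Wb) (h : cW π q1 q ≠ 0) :
    (wC q.word : ℤ) = wC q1.word + wC (tW q1 q).word := by
  revert h
  have h10 : (1 : Fin 2) ≠ 0 := by decide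
  have h01 : (0 : Fin 2) ≠ 1 := by decide
  rcases q1 with _ | s | s | _ <;> rcases q with _ | s' | s' | _ <;>
    (try rcases fin2 s with rfl | rfl) <;> (try rcases fin2 s' with rfl | rfl) <;>
    simp [SM890.cW, SM890.dk, SM890.dt, SM890.tW, wC, Wb.word, Gen.dC, h10, h01]

/-- degrees -/
theorem cM_mem (s : ℕ) {P A C : ℤ} {m : MM π} (hm : m ∈ pcM π s P A C) (q : Wb) :
    cM π q m ∈ pz π (P + 1) A (C - s + wC q.word) := by
  have h : pcM π s P A C ≤ (pz π (P + 1) A (C - s + wC q.word)).comap (cM π q) := by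
    apply pcM_ind
    intro q' t ht
    show cM π q (oM π q' t) ∈ pz π (P + 1) A (C - s + wC q.word)
    rw [pcZ_eq_pz] at ht
    have h2 : NZ K (P + 1) A (C - s + wC q'.word) ≤
        (pz π (P + 1) A (C - s + wC q.word)).comap (cM π q ∘ₗ oM π q' ∘ₗ Psi π) := by
      rw [NZ, Finsupp.supported_eq_span_single, Submodule.span_le]
      rintro _ ⟨⟨i, j, k, w, q1⟩, ⟨h1, h2, h3⟩, rfl⟩
      show cM π q (oM π q' (Psi π (bv K i j k w q1))) ∈ pz π (P + 1) A (C - s + wC q.word)
      rw [Psi_bv, oM_nf]
      show cN π q (cW π q1 q' • (bv K i j k w (tW q1 q') : N K)) ∈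
        pz π (P + 1) A (C - s + wC q.word)
      rw [map_smul]
      by_cases hc : cW π q1 q' = 0
      · rw [hc, zero_smul]; exact Submodule.zero_mem _
      · refine Submodule.smul_mem _ _ ?_
        show cN π q _ ∈ pz π (P + 1) A (C - s + wC q.word)
        rw [cN_bv]
        split_ifs with h
        · rw [mem_pz]
          intro ν hν
          rw [ev_nf, bv_apply] at hν
          have hν' : ((i, j, k, w, Wb.one) : Ix) = ν := by
            by_contra h0; exact hν (if_neg h0)
          subst hν'
          refine ⟨h1, h2, ?_⟩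
          have hw := wC_tW π q1 q' hc
          rw [h] at hw
          simp only [dCx] at h3 ⊢
          have : wC Wb.one.word = 0 := rfl
          rw [this]
          push_cast at h3 ⊢
          linarith
        · exact Submodule.zero_mem _
    have h3 := h2 (show ev π t ∈ NZ K (P + 1) A (C - s + wC q'.word) from ht)
    have h4 : Psi π (ev π t) = t := Psi_ev π t
    rw [Submodule.mem_comap, LinearMap.comp_apply, LinearMap.comp_apply, h4] at h3
    exact h3
  exact h hm


/-! ### multiplications and the differential -/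




/-! ### right Koszul on `M` -/






end Crest.Agent.R186.KOSM296
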