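import Crest.Agent.R186.Vmod_220
import Crest.Agent.R186.PBWr_128

/-!
# Row 186, leaf C1 (helper221): the sixteen cells

`Cell = Option E` (`none` = the cell `1`, `some l` = the cell of the letter `l`).
`D0 π` = the Hom complex of the 16-cell resolution with values in the modules `V_m`:
`D0 φ l = l φ(1) + Σ r_{l,l'} φ(l')` where `d l = Σ r_{l,l'} l'` (last letter split off).
`exact_pos`: exact on `V_m`, `m ≥ 0`; `exact_neg`: the cohomology on `V_{-1}` is carried by the six
cells `1, u, u', v, v', g_c`.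
-/

set_option autoImplicit false

namespace Crest.Agent.R186.Cells221

open Crest.Agent.R186.VOp220 Crest.Agent.R186.DefsQ830 Crest.Agent.R186.Vmod220
open Crest.Agent.R186.PBW128 (E)

variable {K : Type} [Field K] (π : Par K)

/-- the sixteen cells -/
abbrev Cell : Type := Option E

/-- cohomological degree of (the dual of) a cell -/
def cdeg : Cell → ℕ
  | none => 0
  | some (.d _) => 1
  | some .f => 2
  | some (.z _) => 2
  | some .zc => 3
  | some (.u s) => 2 + s.val
  | some (.e _) => 3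
  | some (.gj _) => 4
  | some .gc => 5
  | some (.v s) => 3 + s.val

/-- P-degree of a cell -/
def cP : Cell → ℤ
  | some (.d _) => -1
  | some (.z _) => -1
  | some (.e _) => -1
  | some (.gj _) => -1
  | _ => 0

/-- multiplication by `x_i` -/
noncomputable def XX (K : Type) [Field K] (i : Fin 2) : Pol K →ₗ[K] Pol K := if i = 0 then X0 else X1
/-- the operator of `d_j` -/
noncomputable def EE (g : K) (j : Fin 2) : Pol K →ₗ[K] Pol K := if j = 0 then E0 g else E1 g
/-- the operator of `t` -/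
noncomputable def TT (g : K) : Pol K →ₗ[K] Pol K :=
  LinearMap.id + (g - 1) • (E0 g ∘ₗ X0 + E1 g ∘ₗ X1)

/-- evaluation at a cell -/
noncomputable def pj (K : Type) [Field K] (c : Cell) : (Cell → Pol K) →ₗ[K] Pol K := LinearMap.proj c

/-- the components of the differential -/
noncomputable def D0c : Cell → ((Cell → Pol K) →ₗ[K] Pol K)
  | none => 0
  | some (.d j) => EE π.g j ∘ₗ pj K none
  | some .f => 0
  | some (.z j) => XX K j ∘ₗ (E1 π.g ∘ₗ pj K (some (.d 0)) + π.g • (E0 π.g ∘ₗ pj K (some (.d 1))))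
  | some .zc => X0 ∘ₗ pj K (some (.z 1)) + X1 ∘ₗ pj K (some (.z 0)) + pj K (some .f)
  | some (.u _) => 0
  | some (.e j) => π.c j • (EE π.g j ∘ₗ pj K (some .f))
  | some (.gj j) => (π.c j)⁻¹ • (XX K j ∘ₗ
      (π.g • (E1 π.g ∘ₗ pj K (some (.e 0))) + π.g ^ 3 • (E0 π.g ∘ₗ pj K (some (.e 1)))))
  | some .gc => (π.c 0)⁻¹ • (X0 ∘ₗ pj K (some (.gj 1))) + (π.c 1)⁻¹ • (X1 ∘ₗ pj K (some (.gj 0)))
  | some (.v s) => (TT π.g + (π.g ^ 2)⁻¹ • LinearMap.id) ∘ₗ pj K (some (.u s))

/-- the differential of the Hom complex -/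
noncomputable def D0 : (Cell → Pol K) →ₗ[K] (Cell → Pol K) := LinearMap.pi (D0c π)

section formulas

variable (φ : Cell → Pol K)

@[simp] lemma D0_none : D0 π φ none = 0 := rfl
@[simp] lemma D0_d0 : D0 π φ (some (.d 0)) = E0 π.g (φ none) := rfl
@[simp] lemma D0_d1 : D0 π φ (some (.d 1)) = E1 π.g (φ none) := rfl
@[simp] lemma D0_f : D0 π φ (some .f) = 0 := rfl
@[simp] lemma D0_z0 : D0 π φ (some (.z 0)) =
    X0 (E1 π.g (φ (some (.d 0))) + π.g • E0 π.g (φ (some (.d 1)))) := rfl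
@[simp] lemma D0_z1 : D0 π φ (some (.z 1)) =
    X1 (E1 π.g (φ (some (.d 0))) + π.g • E0 π.g (φ (some (.d 1)))) := rfl
@[simp] lemma D0_zc : D0 π φ (some .zc) =
    X0 (φ (some (.z 1))) + X1 (φ (some (.z 0))) + φ (some .f) := rfl
@[simp] lemma D0_u (s : Fin 2) : D0 π φ (some (.u s)) = 0 := rfl
@[simp] lemma D0_e0 : D0 π φ (some (.e 0)) = π.c 0 • E0 π.g (φ (some .f)) := rfl
@[simp] lemma D0_e1 : D0 π φ (some (.e 1)) = π.c 1 • E1 π.g (φ (some .f)) := rfl
@[simp] lemma D0_gj0 : D0 π φ (some (.gj 0)) = (π.c 0)⁻¹ •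
    X0 (π.g • E1 π.g (φ (some (.e 0))) + π.g ^ 3 • E0 π.g (φ (some (.e 1)))) := rfl
@[simp] lemma D0_gj1 : D0 π φ (some (.gj 1)) = (π.c 1)⁻¹ •
    X1 (π.g • E1 π.g (φ (some (.e 0))) + π.g ^ 3 • E0 π.g (φ (some (.e 1)))) := rfl
@[simp] lemma D0_gc : D0 π φ (some .gc) =
    (π.c 0)⁻¹ • X0 (φ (some (.gj 1))) + (π.c 1)⁻¹ • X1 (φ (some (.gj 0))) := rfl
@[simp] lemma D0_v (s : Fin 2) : D0 π φ (some (.v s)) =
    TT π.g (φ (some (.u s))) + (π.g ^ 2)⁻¹ • φ (some (.u s)) := rfl

end formulas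

/-- the cochains with values in `V_m` (generator of the resolution at `i = 1`) -/
def CV (K : Type) [Field K] (m : ℤ) : Submodule K (Cell → Pol K) where
  carrier := {φ | ∀ c, φ c ∈ hom K (m + 1 + cP c)}
  add_mem' ha hb c := Submodule.add_mem _ (ha c) (hb c)
  zero_mem' _ := Submodule.zero_mem _
  smul_mem' r _ ha c := Submodule.smul_mem _ r (ha c)


lemma f2 (j : Fin 2) : j = 0 ∨ j = 1 := by fin_cases j <;> simp

include π in
lemma add_self' (v : Pol K) : v + v = 0 := by
  rw [← two_smul K, π.two, zero_smul]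

include π in
lemma eq_of_add {a b : Pol K} (h : a + b = 0) : a = b := by
  have h2 := add_self' π b
  calc a = a + b + b := by rw [add_assoc, h2, add_zero]
    _ = b := by rw [h, zero_add]

lemma c0 : π.c 0 = π.g ^ 2 := by simp [Par.c]
lemma c1 : π.c 1 = π.g := by simp [Par.c]

lemma TT_hom {m : ℕ} {v : Pol K} (hv : v ∈ hom K (m : ℤ)) :
    TT π.g v = (π.g⁻¹) ^ (m + 2) • v := by
  have := t_hom π.g0 hv
  simpa [TT] using this



/-! ### degrees -/

/-- projection to cell degree `n` -/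
noncomputable def pr (K : Type) [Field K] (n : ℕ) : (Cell → Pol K) →ₗ[K] (Cell → Pol K) :=
  LinearMap.pi fun c => if cdeg c = n then pj K c else 0

lemma pr_apply (n : ℕ) (φ : Cell → Pol K) (c : Cell) : pr K n φ c = if cdeg c = n then φ c else 0 := by
  show (if cdeg c = n then pj K c else 0 : (Cell → Pol K) →ₗ[K] Pol K) φ = _
  split_ifs <;> rfl

lemma pr_mem (n : ℕ) {m : ℤ} {φ : Cell → Pol K} (h : φ ∈ CV K m) : pr K n φ ∈ CV K m := by
  intro c
  rw [pr_apply]
  split_ifs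
  · exact h c
  · exact Submodule.zero_mem _








/-! ### exactness -/

section exact

variable {π}







/-! ### `m = -1` -/


lemma hom_m1 {v : Pol K} (hv : v ∈ hom K (-1 : ℤ)) : v = 0 := by
  rw [hom_neg (by norm_num)] at hv
  simpa using hv



end exact

end Crest.Agent.R186.Cells221
private theorem rz_979c50a1be : type_of% @_root_.Crest.Agent.R186.Cells221.D0c.eq_1 := @_root_.Crest.Agent.R186.Cells221.D0c.eq_1 -- L59
private theorem rz_bf42066c50 : type_of% @_root_.Crest.Agent.R186.Cells221.cP.eq_1 := @_root_.Crest.Agent.R186.Cells221.cP.eq_1 -- L40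
private theorem rz_4f2b004aba : type_of% @_root_.Crest.Agent.R186.Cells221.cdeg.eq_1 := @_root_.Crest.Agent.R186.Cells221.cdeg.eq_1 -- L27
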