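import Crest.Agent.R186.MW_890
import Crest.Agent.R186.WL_221
import Crest.Agent.R186.KOSM_296

/-!
Row 186, half (A) (helper890): THE tL SIDE.

* `spL π : SP (WL π)`, `grL : GrP (WL π).dga`;
* `tLT π s : WBM163.TB (WL π) (WL π)` (pieces `pcL π (P + 1) A (C - s)`), `tLW π s := winS (tLT π s)`;
* `DtL π s := FinV988.DR (tLW π s).toLM`, bounds, finiteness, right cells;
* `prHm π : Hm (WR π).dga (WL π).dga`;
* `socW : (tLW π s).X → (MW π s hs).X`, `z ↦ z · o_1`, its graded retraction `retW`, and the
  restriction `qD : D(M) → D(tL)`.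
-/

set_option autoImplicit false
set_option linter.style.haveILetI false
set_option linter.unusedSectionVars false

noncomputable section

open MulOpposite

namespace Crest.Agent.R186.SM890

open Hat827 Win810 Win810.WD Frame515 WBM163 FinV988 Core890 SExt44 DefsQ830 WL221 GrP44 C2b44

variable {K : Type} [Field K]

/-! ### projections of `R'` -/

/-- projections of the pieces of `R'` -/
def spL (π : Par K) : SP (WL π) where
  pr P A C := (prL π).toLinearMap ∘ₗ prR π P A C ∘ₗ (RL π).val.toLinearMap
  mem P A C s := prL_mem (prR_mem π P A C _)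
  same P A C s hs := by
    have h : prR π P A C (show RL π from s).1 = (show RL π from s).1 := prR_same π P A C _ hs
    exact (congrArg (prL π) h).trans (prL_inL _)
  ne P A C C' s hC hs := by
    have h : prR π P A C (show RL π from s).1 = 0 := prR_ne π P A C C' _ hC hs
    exact (congrArg (prL π) h).trans (map_zero _)

/-- **the grading of the window algebra of `R'` is direct** -/
def grL (π : Par K) : GrP (WL π).dga := (spL π).win

/-- the projection `L'' → L` -/
def prHm (π : Par K) : Res255.Hm (WR π).dga (WL π).dga where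
  f := prW π
  mem h := prW_mem h
  D a := prW_D a

/-! ### the bimodule `tL` -/

/-- `R'` with the degrees of `R' · o_1` -/
def tLT (π : Par K) (s : ℕ) : TB (WL π) (WL π) where
  B := (WL π).S
  l := Algebra.lsmul K K (WL π).S
  r := Algebra.lsmul K K (WL π).S
  comm a b x := by
    change a • (b • x) = b • (a • x)
    rw [smul_comm]
  p P A C := (WL π).pc (P + 1) A (C - s)
  lm {P A C P' A' C' a x} ha hx := by
    have h := (WL π).mul_mem ha hx
    change a * x ∈ (WL π).pc (P + P' + 1) (A + A') (C + C' - s)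
    rwa [show P + (P' + 1) = P + P' + 1 by ring, show C + (C' - s) = C + C' - s by ring] at h
  rm {P A C P' A' C' x b} hx hb := by
    have h := (WL π).mul_mem hx hb
    change x * b ∈ (WL π).pc (P + P' + 1) (A + A') (C + C' - s)
    rwa [show P + 1 + P' = P + P' + 1 by ring, show C - s + C' = C + C' - s by ring] at h
  d := (WL π).D
  d_mem {P A C x} hx := by
    have h := (WL π).D_mem hx
    rwa [show C - (s : ℤ) - 1 = C - 1 - s by ring] at h
  d_d := (WL π).D_D
  leibl a x := (WL π).D_mul a x
  leibr b x := by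
    change (WL π).D (x * b) = x * (WL π).D b + (WL π).D x * b
    rw [(WL π).D_mul, add_comm]
  p0 := 0
  a0 := 0


theorem q_tLT (π : Par K) (s : ℕ) (i j : Ob) (k : ℤ) :
    (tLT π s).q i j k = (WL π).pc ((WL π).P i - (WL π).P j + 1) ((WL π).A i - (WL π).A j) (k - s) := by
  change (WL π).pc ((WL π).P i - (WL π).P j + 0 + 1) ((WL π).A i - (WL π).A j + 0) (k - s) = _
  rw [add_zero, add_zero]

/-- **the window of `tL`** -/
abbrev tLW (π : Par K) (s : ℕ) : BM (WL π).dga (WL π).dga := winS (tLT π s)

theorem mem_grtL {π : Par K} {s : ℕ} {k : ℤ} {z : (tLW π s).X} : z ∈ (tLW π s).gr k ↔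
    ∀ i j, z.1 i j ∈ (WL π).pc ((WL π).P i - (WL π).P j + 1) ((WL π).A i - (WL π).A j) (k - s) := by
  constructor
  · intro h i j
    exact (le_of_eq (q_tLT π s i j k)) (h i j)
  · intro h i j
    exact (le_of_eq (q_tLT π s i j k).symm) (h i j)

/-- projections of `tL` -/
def pbtL (π : Par K) (s : ℕ) : PB (tLT π s) where
  pr P A C := (spL π).pr (P + 1) A (C - s)
  mem P A C x := (spL π).mem _ _ _ x
  same P A C x hx := (spL π).same _ _ _ x hx
  ne P A C C' x hC hx := (spL π).ne _ _ _ (C' - s) x (by omega) hx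
  lo := s
  hi := 8 + s
  low i j k hk := by
    refine (q_tLT π s i j k).trans ?_
    exact pcL_neg (Or.inr (by omega))
  high i j k hk := by
    refine (q_tLT π s i j k).trans ?_
    have hi := i.2.2
    have hj := j.2.2
    have e : (WL π).A i - (WL π).A j = (i.2.val : ℤ) - (j.2.val : ℤ) := rfl
    rw [e]
    by_cases h : 0 ≤ (i.2.val : ℤ) - (j.2.val : ℤ)
    · exact pcL_big _ (by omega) h
    · exact pcL_neg (Or.inl (by omega))

/-- bounded projections of the left module `tL` -/
def prLtL (π : Par K) (s : ℕ) : PrL (tLW π s).toLM := (pbtL π s).prL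


/-- **the dual `D(tL)`** -/
abbrev DtL (π : Par K) (s : ℕ) : RM (WL π).dga := DR (tLW π s).toLM




/-! ### the socle `tL → M` -/

theorem soc_mem (π : Par K) (s : ℕ) {P A C : ℤ} {t : R π} (ht : t ∈ pcZ π (P + 1) A (C - s)) :
    soc π t ∈ pcM π s P A C :=
  mem_pcM π s .one ht (by simp [PBW128.Wb.word, DefsQ830.wC])

/-- `z ↦ z · o_1` on entries -/
def socE (π : Par K) : RL π →ₗ[K] MM π := soc π ∘ₗ (RL π).val.toLinearMap

theorem socE_apply (π : Par K) (z : RL π) : socE π z = soc π z.1 := rfl

theorem socE_prL (π : Par K) (r : R π) : socE π (prL π r) = soc π r := by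
  rw [socE_apply, prL_val, soc_kill]

theorem socE_l (π : Par K) (r : R π) (z : RL π) : socE π (prL π r * z) = repM π r (socE π z) := by
  have h : prL π r * z = prL π (r * z.1) := by rw [map_mul, prL_inL]
  rw [h, socE_prL, socE_apply]
  exact (soc_left π r z.1).symm


theorem socE_d (π : Par K) (z : RL π) : socE π (WL221.DL π z) = dMM π (socE π z) := by
  rw [DL_apply, socE_prL, socE_apply, soc_D]

/-- the retraction on entries -/
def retE (π : Par K) : MM π →ₗ[K] RL π :=
  (prL π).toLinearMap ∘ₗ KOSM296.cM π .one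

theorem retE_socE (π : Par K) (z : RL π) : retE π (socE π z) = z := by
  change prL π (KOSM296.cM π .one (oM π .one z.1)) = z
  rw [KOSM296.cM_oM π .one .one z.2, if_pos rfl, prL_inL]

section W

variable (π : Par K) (s : ℕ) (hs : 2 ≤ s)

theorem socE_E {i j : Ob} {z : RL π} (hz : z ∈ E (tLT π s) i j) :
    socE π z ∈ E (tbOf (bdM π s hs)) i j := by
  have h : E (tLT π s) i j ≤ (E (tbOf (bdM π s hs)) i j).comap (socE π) := by
    refine iSup_le fun k x hx => ?_
    refine q_le_E (tbOf (bdM π s hs)) i j k ?_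
    exact (le_of_eq (q_tbOf (bdM π s hs) i j k).symm) (soc_mem π s ((le_of_eq (q_tLT π s i j k)) hx))
  exact h hz

theorem retE_mem {P A C : ℤ} {m : MM π} (hm : m ∈ pcM π s P A C) :
    retE π m ∈ pcL π (P + 1) A (C - s) := by
  have h := KOSM296.cM_mem π s hm .one
  refine prL_mem ?_
  rw [KOS296.pcZ_eq_pz]
  simpa [PBW128.Wb.word, DefsQ830.wC] using h

theorem retE_E {i j : Ob} {m : MM π} (hm : m ∈ E (tbOf (bdM π s hs)) i j) :
    retE π m ∈ E (tLT π s) i j := by
  have h : E (tbOf (bdM π s hs)) i j ≤ (E (tLT π s) i j).comap (retE π) := by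
    refine iSup_le fun k x hx => ?_
    refine q_le_E (tLT π s) i j k ?_
    exact (le_of_eq (q_tLT π s i j k).symm) (retE_mem π s ((le_of_eq (q_tbOf (bdM π s hs) i j k)) hx))
  exact h hm

/-- **`tL → M`, `z ↦ z · o_1`** -/
def socW : (tLW π s).X →ₗ[K] (MW π s hs).X where
  toFun z := (⟨fun i j => socE π (z.1 i j), fun i j => socE_E π s hs (z.2 i j)⟩ :
    Xs (tbOf (bdM π s hs)))
  map_add' z z' := by
    apply Subtype.ext
    funext i j
    exact map_add (socE π) _ _
  map_smul' c z := by
    apply Subtype.ext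
    funext i j
    exact map_smul (socE π) _ _

/-- the graded `K`-linear retraction -/
def retW : (MW π s hs).X →ₗ[K] (tLW π s).X where
  toFun m := (⟨fun i j => retE π (m.1 i j), fun i j => retE_E π s hs (m.2 i j)⟩ : Xs (tLT π s))
  map_add' z z' := by
    apply Subtype.ext
    funext i j
    exact map_add (retE π) _ _
  map_smul' c z := by
    apply Subtype.ext
    funext i j
    exact map_smul (retE π) _ _


theorem retW_socW (z : (tLW π s).X) : retW π s hs (socW π s hs z) = z := by
  apply Subtype.ext
  funext i j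
  exact retE_socE π _


variable {π s hs}

theorem socW_mem {k : ℤ} {z : (tLW π s).X} (hz : z ∈ (tLW π s).gr k) :
    socW π s hs z ∈ (MW π s hs).gr k :=
  (mem_grM (bdM π s hs)).2 fun i j => soc_mem π s (mem_grtL.1 hz i j)

theorem retW_mem {k : ℤ} {m : (MW π s hs).X} (hm : m ∈ (MW π s hs).gr k) :
    retW π s hs m ∈ (tLW π s).gr k :=
  mem_grtL.2 fun i j => retE_mem π s ((mem_grM (bdM π s hs)).1 hm i j)


theorem socW_d (z : (tLW π s).X) : socW π s hs ((tLW π s).d z) = (MW π s hs).d (socW π s hs z) := by
  apply Subtype.ext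
  funext i j
  exact socE_d π _

/-- left linearity over `L''` -/
theorem socW_l (a : (WR π).dga.C) (z : (tLW π s).X) :
    socW π s hs ((prHm π).f a • z) = a • socW π s hs z := by
  apply Subtype.ext
  funext i j
  refine (map_sum (socE π) (fun l : Ob => prL π ((show (WR π).Win from a).1 i l) *
    (show RL π from z.1 l j)) Finset.univ).trans ?_
  exact Finset.sum_congr rfl fun l _ => socE_l π _ _


variable (π s hs)


variable {π s hs}






end W

end Crest.Agent.R186.SM890
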