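import Crest.Agent.R186.FinV_988
import Crest.Agent.R186.AcIff_492
import Crest.Agent.R186.C1x_134
import Crest.Agent.R186.TLW_890
import Crest.Agent.R186.FinD_988

-- ▼ part R186/C1P_611
section

/-!
Row 186 (A), leaf A.C1, (helper611): adapters between 134's dual-free form `Pa.Ex` and 492's cone form
`CE` with 988's dual `DR`, and transport of `Pa.ExAt` along maps which are bijective on every
homogeneous piece.
-/

set_option autoImplicit false
set_option linter.unusedSectionVars false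

open MulOpposite

namespace Crest.Agent.R186.C1P611

open Hat827 Frame515 Res255 C1x134 FinV988

variable {K : Type} [Field K] {A : DGA K}

/-! ### transport along maps bijective on the pieces -/

/-- a map of complexes bijective on every piece (nothing outside the pieces) -/
structure Iso (S' S : GC K) where
  v : S'.X →ₗ[K] S.X
  mem : ∀ {k : ℤ} {s : S'.X}, s ∈ S'.gr k → v s ∈ S.gr k
  inj : ∀ {k : ℤ} {s : S'.X}, s ∈ S'.gr k → v s = 0 → s = 0
  sur : ∀ {k : ℤ} {s : S.X}, s ∈ S.gr k → ∃ s' ∈ S'.gr k, v s' = s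
  d : ∀ {k : ℤ} {s : S'.X}, s ∈ S'.gr k → v (S'.d s) = S.d (v s)

/-- extension of a functional from a piece -/
theorem Iso.ext {S' S : GC K} (I : Iso S' S) (m : ℤ) (g : Module.Dual K S'.X) :
    ∃ ĝ : Module.Dual K S.X, ∀ s ∈ S'.gr m, ĝ (I.v s) = g s := by
  have hinj : LinearMap.ker (I.v.domRestrict (S'.gr m)) = ⊥ := by
    rw [LinearMap.ker_eq_bot']
    intro s hs
    exact Subtype.ext (I.inj s.2 hs)
  obtain ⟨r, hr⟩ := LinearMap.exists_leftInverse_of_injective _ hinj
  refine ⟨(g.domRestrict (S'.gr m)) ∘ₗ r, fun s hs => ?_⟩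
  have h := LinearMap.congr_fun hr ⟨s, hs⟩
  change g (r (I.v s)).1 = g s
  have h' : r (I.v s) = ⟨s, hs⟩ := h
  rw [h']

/-- the same for left modules -/
structure IsoL (N' N : LM A) extends Iso N'.toGC N.toGC where
  smul : ∀ {k l : ℤ} {a : A.C} {n : N'.X}, a ∈ A.G l → n ∈ N'.gr k → v (a • n) = a • v n

section transport

variable {Y : RCells A} {N' N : LM A} {S' S : GC K} (U : IsoL N' N) (V : Iso S' S)

/-- the map on `Y ⊗ -` -/
noncomputable def IsoL.F (Y : RCells A) : (Y.ι →₀ N'.X) →ₗ[K] (Y.ι →₀ N.X) :=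
  Finsupp.mapRange.linearMap U.v







variable (P : Pa Y N S) (P' : Pa Y N' S') (hlo : P.lo = P'.lo)
  (hf : ∀ (σ : Y.ι) {k l : ℤ} {n : N'.X} {s : S'.X}, n ∈ N'.gr k → s ∈ S'.gr l →
    P.f σ (U.v n) (V.v s) = P'.f σ n s)




end transport

/-! ### `Ex` and `CE` -/

section ce

variable {Y : RCells A} {N : LM A} {B : DGA K} {Z : LM B}

/-- the pairing vanishes off the diagonal -/
def Off (P : Pa Y N Z.toGC) : Prop := ∀ (σ : Y.ι) {k l : ℤ} {n : N.X} {z : Z.X}, n ∈ N.gr k →
  z ∈ Z.gr l → k + l + P.lo + Y.s σ ≠ 0 → P.f σ n z = 0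

theorem Off.ev {P : Pa Y N Z.toGC} (h : Off P) {k l : ℤ} {x : Y.ι →₀ N.X} {z : Z.X}
    (hx : x ∈ (tY Y N).gr k) (hz : z ∈ Z.gr l) (hne : k + l + P.lo ≠ 0) : P.ev x z = 0 := by
  rw [P.ev_apply' x z x.support (Finset.Subset.refl _)]
  refine Finset.sum_eq_zero fun σ _ => ?_
  have h1 : x σ ∈ N.gr (k - Y.s σ) := (hx σ).1
  refine h σ h1 hz ?_
  intro h0
  apply hne
  omega

/-- the evaluation as a map to the dual -/
noncomputable def evD (P : Pa Y N Z.toGC) : (Y.ι →₀ N.X) →ₗ[K] (DR Z).X where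
  toFun x := (P.ev x : Z.X →ₗ[K] K)
  map_add' x y := map_add P.ev x y
  map_smul' r x := map_smul P.ev r x

theorem dev_evD (P : Pa Y N Z.toGC) (x : Y.ι →₀ N.X) (z : Z.X) : dev Z z (evD P x) = P.ev x z := rfl

/-- equality of functionals is tested on the pieces -/
theorem ext_pr (Q : PrL Z) {f g : (DR Z).X} (h : ∀ k z, z ∈ Z.gr k → dev Z z f = dev Z z g) :
    f = g := by
  refine DR_ext fun z => ?_
  have e : ∀ f : (DR Z).X, dev Z z f = ∑ k ∈ Finset.Icc Q.lo Q.hi, dev Z (Q.pr k z) f := by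
    intro f
    conv_lhs => rw [← Q.pr_sum z]
    exact map_sum (show Z.X →ₗ[K] K from f) _ _
  rw [e f, e g]
  exact Finset.sum_congr rfl fun k _ => h k _ (Q.pr_mem k z)

/-- a functional cut down to one piece -/
noncomputable def cut (Q : PrL Z) (m : ℤ) (g : Module.Dual K Z.X) : (DR Z).X :=
  (g ∘ₗ Q.pr m : Z.X →ₗ[K] K)

theorem dev_cut (Q : PrL Z) (m : ℤ) (g : Module.Dual K Z.X) (z : Z.X) :
    dev Z z (cut Q m g) = g (Q.pr m z) := rfl

theorem dev_cut_same (Q : PrL Z) {m : ℤ} (g : Module.Dual K Z.X) {z : Z.X} (hz : z ∈ Z.gr m) :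
    dev Z z (cut Q m g) = g z := by rw [dev_cut, Q.pr_same hz]

theorem dev_cut_ne (Q : PrL Z) {m l : ℤ} (g : Module.Dual K Z.X) {z : Z.X} (hz : z ∈ Z.gr l)
    (h : m ≠ l) : dev Z z (cut Q m g) = 0 := by rw [dev_cut, Q.pr_ne hz h, map_zero]

theorem cut_mem (Q : PrL Z) {m k : ℤ} (h : m = -k) (g : Module.Dual K Z.X) :
    cut Q m g ∈ (DR Z).gr k := by
  intro l z hz hl
  exact dev_cut_ne Q g hz (by omega)

theorem dev_mem {k l : ℤ} {f : (DR Z).X} {z : Z.X} (hf : f ∈ (DR Z).gr k) (hz : z ∈ Z.gr l)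
    (h : l ≠ -k) : dev Z z f = 0 := hf l z hz h

/-- **`Ex` gives the cone form** -/
theorem ce_of_ex (P : Pa Y N Z.toGC) (hP : Off P) (Q : PrL Z) {k : ℤ} (h : P.ExAt k) :
    AcIff492.CE (tY Y N) (DR Z).toGC P.lo k (evD P) := by
  intro x n hx hd hn e
  have ez : ∀ z, P.ev x z + dev Z (Z.d z) n = 0 := fun z => by
    have := congrArg (dev Z z) e
    rw [map_add, map_zero, dev_evD, dev_d] at this
    exact this
  obtain ⟨y, hy, g', e1, e2⟩ := h x (show Z.X →ₗ[K] K from n) hx hd (fun z _ => ez z)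
  refine ⟨y, hy, cut Q (-P.lo - k - 1) g', cut_mem Q (by ring) g', e1, ?_⟩
  refine ext_pr Q fun l z hz => ?_
  rw [map_add, dev_evD, dev_d]
  by_cases hl : l = -P.lo - k
  · subst hl
    rw [dev_cut_same Q g' (Z.d_mem hz)]
    exact e2 z hz
  · rw [dev_mem hn hz (by omega), hP.ev hy hz (by omega), dev_cut_ne Q g' (Z.d_mem hz) (by omega),
      add_zero]

/-- **the cone form gives `Ex`** -/
theorem ex_of_ce (P : Pa Y N Z.toGC) (hP : Off P) (Q : PrL Z) {k : ℤ}
    (h : AcIff492.CE (tY Y N) (DR Z).toGC P.lo k (evD P)) : P.ExAt k := by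
  intro x g hx hd hg
  obtain ⟨y, hy, n', hn', e1, e2⟩ := h x (cut Q (-P.lo - k) g) hx hd (cut_mem Q (by ring) g) (by
    refine ext_pr Q fun l z hz => ?_
    rw [map_add, map_zero, dev_evD, dev_d]
    by_cases hl : l = 1 - P.lo - k
    · subst hl
      have hdz := Z.d_mem hz
      rw [show 1 - P.lo - k - 1 = -P.lo - k by ring] at hdz
      rw [dev_cut_same Q g hdz]
      exact hg z hz
    · rw [hP.ev hx hz (by omega), dev_cut_ne Q g (Z.d_mem hz) (by omega), add_zero])
  refine ⟨y, hy, (show Z.X →ₗ[K] K from n'), e1, fun z hz => ?_⟩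
  have := congrArg (dev Z z) e2
  rw [dev_cut_same Q g hz, map_add, dev_evD, dev_d] at this
  exact this

theorem ex_iff_ce (P : Pa Y N Z.toGC) (hP : Off P) (Q : PrL Z) :
    P.Ex ↔ ∀ k, AcIff492.CE (tY Y N) (DR Z).toGC P.lo k (evD P) :=
  ⟨fun h k => ce_of_ex P hP Q (h k), fun h k => ex_of_ce P hP Q (h k)⟩

end ce

end Crest.Agent.R186.C1P611
end

-- ▼ part R186/C1Q_611

/-!
Row 186 (A), leaf A.C1 (helper611): the pairings `Pa` of right cells `Y → D(M)` for a bimodule `M`,
the push-forward, and (c1) from (beta) through a layer structure.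
-/

set_option autoImplicit false
set_option linter.unusedSectionVars false

open MulOpposite

namespace Crest.Agent.R186.C1Q611

open Hat827 Frame515 Res255 C1x134 FinV988 C1P611

variable {K : Type} [Field K] {A B : DGA K}

/-! ### the pairing of an augmentation `Y → D(M)` -/

section pa

variable {Y : RCells A} (M : BM A B) (R : RAug Y (DR M.toLM))

/-- right multiplication as a bilinear map -/
def rb : M.X →ₗ[K] B.C →ₗ[K] M.X where
  toFun m :=
    { toFun := fun b => op b • m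
      map_add' := fun a b => by rw [op_add, add_smul]
      map_smul' := fun r a => by rw [op_smul, smul_assoc]; rfl }
  map_add' m m' := LinearMap.ext fun b => smul_add _ _ _
  map_smul' r m := LinearMap.ext fun b => rmul_smul r m b
where
  rmul_smul (r : K) (m : M.X) (b : B.C) : op b • (r • m) = r • (op b • m) :=
    (rmul M.toRM b).map_smul r m


/-- the functionals -/
def vf (σ : Y.ι) : M.X →ₗ[K] K := R.v σ

/-- **the pairing** `(m, b) ↦ v_σ (m b)` -/
def paOf : Pa Y M.toLM (selfL B).toGC where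
  lo := R.lo
  f σ := (rb M).compr₂ (vf M R σ)
  f_d := by
    intro σ k l n s _ _
    have h := congrArg (dev M.toLM (op (show B.C from s) • n)) (R.v_d σ)
    rw [dev_d, map_sum] at h
    have e1 : M.d (op (show B.C from s) • n) =
        op (B.D s) • n + op (show B.C from s) • M.d n := M.leibR s n
    have e2 : dev M.toLM (M.toLM.d (op (show B.C from s) • n)) (R.v σ) =
        dev M.toLM (op (B.D s) • n) (R.v σ) +
          dev M.toLM (op (show B.C from s) • M.d n) (R.v σ) := by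
      change vf M R σ (M.d (op (show B.C from s) • n)) = _
      rw [e1]
      exact map_add (vf M R σ) _ _
    rw [e2] at h
    change dev M.toLM (op (show B.C from s) • M.d n) (R.v σ) + dev M.toLM (op (B.D s) • n) (R.v σ) =
      ∑ τ ∈ Y.F (Y.s σ), dev M.toLM (op (show B.C from s) • (Y.c τ σ • n)) (R.v τ)
    rw [add_comm, h]
    refine Finset.sum_congr rfl fun τ _ => ?_
    change dev M.toLM (Y.c τ σ • (op (show B.C from s) • n)) (R.v τ) = _
    rw [smul_comm]


theorem paOf_off : Off (Z := selfL B) (paOf M R) := by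
  intro σ k l n z hn hz hne
  have h := M.smul_memR hz hn
  exact R.v_mem σ _ _ h (by
    intro h0
    apply hne
    change k + l + R.lo + Y.s σ = 0
    omega)

theorem evD_single (σ : Y.ι) (m : M.X) (b : B.C) :
    dev (selfL B) b (evD (Z := selfL B) (paOf M R) (Finsupp.single σ m)) =
      dev M.toLM (op b • m) (R.v σ) :=
  (paOf M R).ev_single σ m (show (selfL B).X from b)

end pa

/-! ### push-forward of the cells -/

section push

variable {A' : DGA K} (h : Hm A A') {Y : RCells A} {N : LM A'} {S : GC K}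

/-- the same pairing over `A` -/
def paPush (P : Pa (pushR h Y) N S) : Pa Y (resL h N) S := ⟨P.lo, P.f, P.f_d⟩


theorem ex_push (P : Pa (pushR h Y) N S) : (paPush h P).Ex ↔ P.Ex := Iff.rfl

end push

/-! ### (c1) from (beta) -/

section main

variable {A' B' : DGA K} (h : Hm A A') {Y : RCells A} (M : BM A B) (T : BM A' B')
  (R : RAug Y (DR M.toLM)) (R' : RAug (pushR h Y) (DR T.toLM))

/-- (beta) in 134's form -/
theorem ex_beta (Q : PrL (selfL B'))
    (hb : ∀ k, AcIff492.CE (tY (pushR h Y) T.toLM) (DR (selfL B')).toGC R'.lo k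
      (evD (Z := selfL B') (paOf T R'))) : (paPush h (paOf T R')).Ex :=
  (ex_push h _).2 ((ex_iff_ce (Z := selfL B') (paOf T R') (paOf_off T R') Q).2 hb)

/-- **(c1) from (beta)** -/
theorem c1_of (h2 : (2 : K) = 0) (Q : PrL (selfL B)) (Q' : PrL (selfL B'))
    (L : Lay Y M.toLM (resL h T.toLM) (selfL B).toGC (selfL B').toGC)
    (hP : L.P = paOf M R) (hP0 : L.P0 = paPush h (paOf T R'))
    (hb : ∀ k, AcIff492.CE (tY (pushR h Y) T.toLM) (DR (selfL B')).toGC R'.lo k
      (evD (Z := selfL B') (paOf T R'))) :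
    ∀ k, AcIff492.CE (tY Y M.toLM) (DR (selfL B)).toGC R.lo k (evD (Z := selfL B) (paOf M R)) := by
  have h1 : L.P0.Ex := by
    rw [hP0]
    exact ex_beta h T R' Q' hb
  have h3 : L.P.Ex := L.ex h2 h1
  rw [hP] at h3
  exact (ex_iff_ce (Z := selfL B) (paOf M R) (paOf_off M R) Q).1 h3

end main

/-! ### the concrete objects -/

section conc

open DefsQ830 Win810 SM890 WL221

variable (π : Par K) (s : ℕ) (hs : 2 ≤ s) {Y : RCells (WR π).dga}

/-- the pairing `(m, a) ↦ v_σ (m a)` on `M` and `L''` -/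
noncomputable def P (R : RRes Y (DM π s hs)) : Pa Y (MW π s hs).toLM (selfL (WR π).dga).toGC :=
  paOf (MW π s hs) R.toRAug

/-- the pairing `(z, l) ↦ v_σ (z l)` on `tL` and `L` -/
noncomputable def P0 (R' : RRes (pushR (prHm π) Y) (DtL π s)) :
    Pa Y (resL (prHm π) (tLW π s).toLM) (selfL (WL π).dga).toGC :=
  paPush (prHm π) (paOf (tLW π s) R'.toRAug)

/-- the statement (beta), 605's form -/
def Beta (R' : RRes (pushR (prHm π) Y) (DtL π s)) : Prop :=
  ∀ k, AcIff492.CE (tY (pushR (prHm π) Y) (tLW π s).toLM) (DR (selfL (WL π).dga)).toGC R'.lo k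
    (evD (Z := selfL (WL π).dga) (paOf (tLW π s) R'.toRAug))

/-- the statement (c1), 124's and 161's form -/
def C1 (R : RRes Y (DM π s hs)) : Prop :=
  ∀ k, AcIff492.CE (tY Y (MW π s hs).toLM) (DR (selfL (WR π).dga)).toGC R.lo k
    (evD (Z := selfL (WR π).dga) (paOf (MW π s hs) R.toRAug))

/-- **(c1)** from (beta) and the layers -/
theorem c1 (R : RRes Y (DM π s hs)) (R' : RRes (pushR (prHm π) Y) (DtL π s))
    (L : Lay Y (MW π s hs).toLM (resL (prHm π) (tLW π s).toLM) (selfL (WR π).dga).toGC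
      (selfL (WL π).dga).toGC) (hP : L.P = P π s hs R) (hP0 : L.P0 = P0 π s R')
    (hb : Beta π s R') : C1 π s hs R :=
  c1_of (prHm π) (MW π s hs) (tLW π s) R.toRAug R'.toRAug π.two
    (FinD988.prlSelf (GrP44.grR π)) (FinD988.prlSelf (grL π)) L hP hP0 hb


end conc

end Crest.Agent.R186.C1Q611
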