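import Crest.Agent.R186.Cells1_221

/-!
Row 186 (A), leaf C2b (helper362): the sixteen cells resolve `V_{-1}` over `R''/(R'' W_+)`.

`J π = R'' W_+` (two-sided, `D`-stable), `pz π P A C` = pieces with integer degrees,
`cc` = the table of the sixteen cells, `dX` = the differential, `exR_mod`, `exR0_mod`, `gen_mod`.
-/

set_option autoImplicit false

noncomputable section

namespace Crest.Agent.R186.C2b362

open Crest.Agent.R186.DefsQ830 Crest.Agent.R186.Cells221
open Crest.Agent.R186.PBW128 (E Y Wb N Ix bv ev Psi nf opR divR divN chiq wtr wkr nf_mul_Y Psi_ev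
  ev_Psi Psi_bv dPx dAx dCx ext_bv mem_pc_iff chiq_ne)
open Crest.Agent.R186.Der580 (D D_mul D_X D_D D_pc D_pc0 pc_mul R_ind add_self)

variable {K : Type} [Field K] (π : Par K)

/-! ### pieces with integer degrees -/

/-- coordinates of degree `(P, A, C)` -/
def NZ (K : Type) [Field K] (P A C : ℤ) : Submodule K (N K) :=
  Finsupp.supported K K {ν : Ix | dPx ν = P ∧ (dAx ν : ℤ) = A ∧ (dCx ν : ℤ) = C}

/-- pieces with integer degrees (zero for `A < 0` or `C < 0`) -/
def pz (P A C : ℤ) : Submodule K (R π) := (NZ K P A C).comap (ev π)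

variable {π}

theorem mem_NZ {P A C : ℤ} {n : N K} :
    n ∈ NZ K P A C ↔ ∀ ν, n ν ≠ 0 → dPx ν = P ∧ (dAx ν : ℤ) = A ∧ (dCx ν : ℤ) = C := by
  rw [NZ, Finsupp.mem_supported]
  constructor
  · intro h ν hν
    exact h (Finsupp.mem_support_iff.mpr hν)
  · intro h ν hν
    exact h ν (Finsupp.mem_support_iff.mp hν)

theorem mem_pz {P A C : ℤ} {r : R π} :
    r ∈ pz π P A C ↔ ∀ ν, ev π r ν ≠ 0 → dPx ν = P ∧ (dAx ν : ℤ) = A ∧ (dCx ν : ℤ) = C :=
  mem_NZ

theorem mem_pz_nat {P : ℤ} {A C : ℕ} {r : R π} : r ∈ pz π P A C ↔ r ∈ pc π P A C := by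
  rw [mem_pz, mem_pc_iff, PBW128.mem_NS_iff]
  constructor
  · intro h ν hν
    obtain ⟨h1, h2, h3⟩ := h ν hν
    exact ⟨h1, by exact_mod_cast h2, by exact_mod_cast h3⟩
  · intro h ν hν
    obtain ⟨h1, h2, h3⟩ := h ν hν
    exact ⟨h1, by exact_mod_cast h2, by exact_mod_cast h3⟩

theorem pz_neg {P A C : ℤ} (h : A < 0 ∨ C < 0) {r : R π} (hr : r ∈ pz π P A C) : r = 0 := by
  have : ev π r = 0 := by
    ext ν
    by_contra hν
    obtain ⟨-, h2, h3⟩ := mem_pz.mp hr ν hν
    omega
  rw [← Psi_ev π r, this, map_zero]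

/-- `pz` in terms of the pieces of `DefsQ_830` -/
theorem pz_eq (P A C : ℤ) : pz π P A C = if 0 ≤ A ∧ 0 ≤ C then pc π P A.toNat C.toNat else ⊥ := by
  split_ifs with h
  · obtain ⟨a, rfl⟩ := Int.eq_ofNat_of_zero_le h.1
    obtain ⟨c, rfl⟩ := Int.eq_ofNat_of_zero_le h.2
    ext r
    exact mem_pz_nat
  · rw [eq_bot_iff]
    intro r hr
    exact pz_neg (by omega) hr

theorem D_pz {P A C : ℤ} {r : R π} (hr : r ∈ pz π P A C) : D π r ∈ pz π P A (C - 1) := by
  by_cases hA : A < 0
  · rw [pz_neg (Or.inl hA) hr, map_zero]; exact Submodule.zero_mem _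
  by_cases hC : C < 0
  · rw [pz_neg (Or.inr hC) hr, map_zero]; exact Submodule.zero_mem _
  obtain ⟨a, rfl⟩ := Int.eq_ofNat_of_zero_le (not_lt.mp hA)
  obtain ⟨c, rfl⟩ := Int.eq_ofNat_of_zero_le (not_lt.mp hC)
  rw [mem_pz_nat] at hr
  cases c with
  | zero => rw [D_pc0 π hr]; exact Submodule.zero_mem _
  | succ c =>
    have := D_pc π hr
    rw [show ((c + 1 : ℕ) : ℤ) - 1 = (c : ℤ) by push_cast; ring]
    exact mem_pz_nat.mpr this

theorem mul_pz {P A C P' A' C' : ℤ} {r s : R π} (hr : r ∈ pz π P A C) (hs : s ∈ pz π P' A' C') :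
    r * s ∈ pz π (P + P') (A + A') (C + C') := by
  by_cases h1 : A < 0 ∨ C < 0
  · rw [pz_neg h1 hr, zero_mul]; exact Submodule.zero_mem _
  by_cases h2 : A' < 0 ∨ C' < 0
  · rw [pz_neg h2 hs, mul_zero]; exact Submodule.zero_mem _
  push Not at h1 h2
  obtain ⟨a, rfl⟩ := Int.eq_ofNat_of_zero_le h1.1
  obtain ⟨c, rfl⟩ := Int.eq_ofNat_of_zero_le h1.2
  obtain ⟨a', rfl⟩ := Int.eq_ofNat_of_zero_le h2.1
  obtain ⟨c', rfl⟩ := Int.eq_ofNat_of_zero_le h2.2
  rw [mem_pz_nat] at hr hs
  have := pc_mul π hr hs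
  rw [show ((a : ℤ) + a') = ((a + a' : ℕ) : ℤ) by push_cast; ring,
    show ((c : ℤ) + c') = ((c + c' : ℕ) : ℤ) by push_cast; ring]
  exact mem_pz_nat.mpr this

theorem pz_cast {P A C P' A' C' : ℤ} {r : R π} (hr : r ∈ pz π P A C) (h1 : P = P') (h2 : A = A')
    (h3 : C = C') : r ∈ pz π P' A' C' := by
  subst h1 h2 h3; exact hr

/-! ### the ideal `J = R'' W_+` -/

/-- coordinates with nontrivial `W`-part -/
def NJ (K : Type) [Field K] : Submodule K (N K) :=
  Finsupp.supported K K {ν : Ix | ν.2.2.2.2 ≠ Wb.one}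

variable (π) in
/-- the ideal generated by the `W`-letters -/
def J : Submodule K (R π) := (NJ K).comap (ev π)

theorem mem_J {r : R π} : r ∈ J π ↔ ∀ ν : Ix, ν.2.2.2.2 = Wb.one → ev π r ν = 0 := by
  show ev π r ∈ NJ K ↔ _
  rw [NJ, Finsupp.mem_supported]
  constructor
  · intro h ν hν
    by_contra h2
    exact h (Finsupp.mem_support_iff.mpr h2) hν
  · intro h ν hν h2
    exact (Finsupp.mem_support_iff.mp hν) (h ν h2)

theorem mul_Y_mem_J (r : R π) (a : Y) : r * X π a.toGen ∈ J π := by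
  rw [← Psi_ev π r]
  induction ev π r using Finsupp.induction_linear with
  | zero => rw [map_zero, zero_mul]; exact Submodule.zero_mem _
  | add n m hn hm => rw [map_add, add_mul]; exact Submodule.add_mem _ hn hm
  | single ν c =>
    obtain ⟨i, j, k, w, q⟩ := ν
    have e : (Finsupp.single (i, j, k, w, q) c : N K) = c • bv K i j k w q := by simp [bv]
    rw [e, map_smul, Psi_bv, smul_mul_assoc, nf_mul_Y]
    refine Submodule.smul_mem _ _ (Submodule.smul_mem _ _ ?_)
    have hq : wtr q a ≠ Wb.one := by cases q <;> cases a <;> simp [wtr]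
    show ev π (nf π (i, j, k, w, wtr q a)) ∈ NJ K
    rw [← Psi_bv, ev_Psi]
    exact Finsupp.single_mem_supported K _ hq

theorem mem_J_iff {r : R π} : r ∈ J π ↔ ∃ a b : Fin 2 → R π,
    r = ∑ s, a s * X π (.y s) + ∑ s, b s * X π (.yb s) := by
  constructor
  · intro hr
    have key : NJ K ≤ Submodule.map (LinearMap.id) (Submodule.comap (Psi π) (
        { carrier := {r | ∃ a b : Fin 2 → R π, r = ∑ s, a s * X π (.y s) + ∑ s, b s * X π (.yb s)}
          zero_mem' := ⟨0, 0, by simp⟩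
          add_mem' := by
            rintro _ _ ⟨a, b, rfl⟩ ⟨a', b', rfl⟩
            refine ⟨a + a', b + b', ?_⟩
            simp only [Pi.add_apply, add_mul, Finset.sum_add_distrib]
            abel
          smul_mem' := by
            rintro c _ ⟨a, b, rfl⟩
            refine ⟨c • a, c • b, ?_⟩
            simp only [Pi.smul_apply, smul_mul_assoc, smul_add, Finset.smul_sum] } :
          Submodule K (R π))) := by
      rw [NJ, Finsupp.supported_eq_span_single, Submodule.span_le]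
      rintro _ ⟨⟨i, j, k, w, q⟩, hq, rfl⟩
      rw [Submodule.map_id]
      show ∃ a b : Fin 2 → R π, Psi π (bv K i j k w q) = _
      rw [Psi_bv]
      cases q with
      | one => exact absurd rfl hq
      | y s =>
        refine ⟨fun s' => if s' = s then nf π (i, j, k, w, .one) else 0, 0, ?_⟩
        simp [nf, PBW128.wq_y, PBW128.wq_one]
      | yb s =>
        refine ⟨0, fun s' => if s' = s then nf π (i, j, k, w, .one) else 0, ?_⟩
        simp [nf, PBW128.wq_yb, PBW128.wq_one]
      | pi =>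
        refine ⟨fun s' => if s' = 1 then nf π (i, j, k, w, .y 0) else 0, 0, ?_⟩
        simp [nf, PBW128.wq_y, PBW128.wq_pi, mul_assoc]
    have h := key hr
    rw [Submodule.map_id] at h
    have h2 : ∃ a b : Fin 2 → R π, Psi π (ev π r) = ∑ s, a s * X π (.y s) + ∑ s, b s * X π (.yb s) := h
    rwa [Psi_ev] at h2
  · rintro ⟨a, b, rfl⟩
    exact Submodule.add_mem _ (Submodule.sum_mem _ fun s _ => mul_Y_mem_J (a s) (.y s))
      (Submodule.sum_mem _ fun s _ => mul_Y_mem_J (b s) (.yb s))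

theorem left_J (r : R π) {s : R π} (hs : s ∈ J π) : r * s ∈ J π := by
  rw [mem_J_iff] at hs ⊢
  obtain ⟨a, b, rfl⟩ := hs
  refine ⟨fun s => r * a s, fun s => r * b s, ?_⟩
  simp only [mul_add, Finset.mul_sum, mul_assoc]

theorem Y_mul_gen (r : R π) (a : Y) (g : Gen) : r * X π a.toGen * X π g ∈ J π := by
  have hE : ∀ l : E, r * X π a.toGen * X π l.toGen ∈ J π := by
    intro l
    rw [mul_assoc, PBW128.rYE, mul_smul_comm, ← mul_assoc]
    exact Submodule.smul_mem _ _ (mul_Y_mem_J _ a)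
  cases g with
  | x i =>
    rw [mul_assoc, PBW128.rY, mul_smul_comm, ← mul_assoc]
    exact Submodule.smul_mem _ _ (mul_Y_mem_J _ a)
  | h =>
    rw [mul_assoc, ← PBW128.rh, ← mul_assoc]
    exact mul_Y_mem_J _ a
  | d j => exact hE (.d j)
  | f => exact hE .f
  | z j => exact hE (.z j)
  | zc => exact hE .zc
  | u s => exact hE (.u s)
  | e j => exact hE (.e j)
  | gj j => exact hE (.gj j)
  | gc => exact hE .gc
  | v s => exact hE (.v s)
  | y s => exact mul_Y_mem_J _ (.y s)
  | yb s => exact mul_Y_mem_J _ (.yb s)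

theorem right_J_gen {s : R π} (hs : s ∈ J π) (g : Gen) : s * X π g ∈ J π := by
  rw [mem_J_iff] at hs
  obtain ⟨a, b, rfl⟩ := hs
  rw [add_mul, Finset.sum_mul, Finset.sum_mul]
  exact Submodule.add_mem _ (Submodule.sum_mem _ fun s _ => Y_mul_gen (a s) (.y s) g)
    (Submodule.sum_mem _ fun s _ => Y_mul_gen (b s) (.yb s) g)

theorem right_J {s : R π} (hs : s ∈ J π) (r : R π) : s * r ∈ J π := by
  have : ∀ s ∈ J π, s * r ∈ J π := by
    apply R_ind π (P := fun r => ∀ s ∈ J π, s * r ∈ J π)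
    · intro c s hs
      rw [← Algebra.commutes, ← Algebra.smul_def]
      exact Submodule.smul_mem _ _ hs
    · intro g s hs
      exact right_J_gen hs g
    · intro a b ha hb s hs
      rw [← mul_assoc]
      exact hb _ (ha _ hs)
    · intro a b ha hb s hs
      rw [mul_add]
      exact Submodule.add_mem _ (ha _ hs) (hb _ hs)
  exact this s hs

theorem D_Y (a : Y) : D π (X π a.toGen) = 0 := by
  rw [D_X]
  cases a <;> simp [Y.toGen, dGen]

theorem D_J {s : R π} (hs : s ∈ J π) : D π s ∈ J π := by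
  rw [mem_J_iff] at hs
  obtain ⟨a, b, rfl⟩ := hs
  rw [map_add, map_sum, map_sum]
  refine Submodule.add_mem _ (Submodule.sum_mem _ fun s _ => ?_) (Submodule.sum_mem _ fun s _ => ?_)
  · rw [D_mul, show D π (X π (.y s)) = 0 from D_Y (.y s), mul_zero, add_zero]
    exact mul_Y_mem_J _ (.y s)
  · rw [D_mul, show D π (X π (.yb s)) = 0 from D_Y (.yb s), mul_zero, add_zero]
    exact mul_Y_mem_J _ (.yb s)

/-! ### the table of the sixteen cells -/

variable (π) in
/-- the table: `d e_l = X l · e_none + Σ cf l l' e_l'` -/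
def cc : Cell → Cell → R π
  | none, _ => 0
  | some l, none => X π l.toGen
  | some l, some l' => cf π l l'


theorem yp_mem_J (l : E) : yp π l ∈ J π := by
  cases l with
  | u s => exact mul_Y_mem_J _ (.y s)
  | v s => exact mul_Y_mem_J _ (.yb s)
  | _ => exact Submodule.zero_mem _







/-! ### the last letter -/




variable (π) in
/-- the part without letters -/
def s0 (r : R π) : R π := Psi π (divN K (ev π r))







/-! ### exactness -/

/-- Adams degree of a cell -/
def cA : Cell → ℤ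
  | none => 0
  | some l => l.toGen.dA

theorem cdeg_some (l : E) : (cdeg (some l) : ℤ) = l.toGen.dC + 1 := by
  cases l <;> simp [cdeg, E.toGen, Gen.dC] <;> ring

theorem cP_some (l : E) : cP (some l) = l.toGen.dP := by
  cases l <;> rfl



/-! ### the augmentation `R'' → V`, `r ↦ r · 1` -/

open Crest.Agent.R186.VOp220 (Pol mon X0 X1 hom)















end Crest.Agent.R186.C2b362
end
private theorem rz_e9219419aa : type_of% @_root_.Crest.Agent.R186.C2b362.cA.eq_1 := @_root_.Crest.Agent.R186.C2b362.cA.eq_1 -- L449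
private theorem rz_1102a863cf : type_of% @_root_.Crest.Agent.R186.C2b362.cc.eq_1 := @_root_.Crest.Agent.R186.C2b362.cc.eq_1 -- L259
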