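import Mathlib
import Crest.Agent.R186.PBWr_128
import Crest.Agent.R186.C2b_362

-- ▼ part R186/KosL_374
section

/-!
Row 186 (A), leaf KOS, coordinate level (helper374): the two exponent shifts `opX0`, `opX1` on
`N K = (i, j, k, w, q) →₀ K` form a Koszul pair.  `G : Ix → Prop`-supported versions.
-/

set_option autoImplicit false

noncomputable section

namespace Crest.Agent.R186.Kos374

open Crest.Agent.R186.DefsQ830 Crest.Agent.R186.PBW128

variable {K : Type} [Field K]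

/-- shift up in the first exponent, evaluated -/
theorem opX0_apply_succ (n : N K) (i j k : ℕ) (w : List E) (q : Wb) :
    opX0 K n (i + 1, j, k, w, q) = n (i, j, k, w, q) := by
  have hinj : Function.Injective
      (fun ν : Ix => ((ν.1 + 1, ν.2.1, ν.2.2.1, ν.2.2.2.1, ν.2.2.2.2) : Ix)) := by
    rintro ⟨a, b, c, d, e⟩ ⟨a', b', c', d', e'⟩ h
    simp only [Prod.mk.injEq, add_left_inj] at h
    obtain ⟨rfl, rfl, rfl, rfl, rfl⟩ := h
    rfl
  exact Finsupp.mapDomain_apply hinj n (i, j, k, w, q)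

theorem opX0_apply_zero (n : N K) (j k : ℕ) (w : List E) (q : Wb) :
    opX0 K n (0, j, k, w, q) = 0 := by
  refine Finsupp.mapDomain_of_notMem_range n _ ?_
  rintro ⟨⟨a, b, c, d, e⟩, h⟩
  simp at h

theorem opX1_apply_succ (n : N K) (i j k : ℕ) (w : List E) (q : Wb) :
    opX1 K n (i, j + 1, k, w, q) = n (i, j, k, w, q) := by
  have hinj : Function.Injective
      (fun ν : Ix => ((ν.1, ν.2.1 + 1, ν.2.2.1, ν.2.2.2.1, ν.2.2.2.2) : Ix)) := by
    rintro ⟨a, b, c, d, e⟩ ⟨a', b', c', d', e'⟩ h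
    simp only [Prod.mk.injEq, add_left_inj] at h
    obtain ⟨rfl, rfl, rfl, rfl, rfl⟩ := h
    rfl
  exact Finsupp.mapDomain_apply hinj n (i, j, k, w, q)

theorem opX1_apply_zero (n : N K) (i k : ℕ) (w : List E) (q : Wb) :
    opX1 K n (i, 0, k, w, q) = 0 := by
  refine Finsupp.mapDomain_of_notMem_range n _ ?_
  rintro ⟨⟨a, b, c, d, e⟩, h⟩
  simp at h

theorem opX0_inj {n : N K} (h : opX0 K n = 0) : n = 0 := by
  ext ⟨i, j, k, w, q⟩
  rw [← opX0_apply_succ, h]; rfl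

theorem opX1_inj {n : N K} (h : opX1 K n = 0) : n = 0 := by
  ext ⟨i, j, k, w, q⟩
  rw [← opX1_apply_succ, h]; rfl

/-- division by the first exponent: forgets the part with exponent `0` -/
def dv0 (n : N K) : N K :=
  Finsupp.comapDomain (fun ν : Ix => ((ν.1 + 1, ν.2.1, ν.2.2.1, ν.2.2.2.1, ν.2.2.2.2) : Ix)) n
    (by
      rintro ⟨a, b, c, d, e⟩ _ ⟨a', b', c', d', e'⟩ _ h
      simp only [Prod.mk.injEq, add_left_inj] at h
      obtain ⟨rfl, rfl, rfl, rfl, rfl⟩ := h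
      rfl)

@[simp] theorem dv0_apply (n : N K) (i j k : ℕ) (w : List E) (q : Wb) :
    dv0 n (i, j, k, w, q) = n (i + 1, j, k, w, q) := rfl

/-- division by the second exponent -/
def dv1 (n : N K) : N K :=
  Finsupp.comapDomain (fun ν : Ix => ((ν.1, ν.2.1 + 1, ν.2.2.1, ν.2.2.2.1, ν.2.2.2.2) : Ix)) n
    (by
      rintro ⟨a, b, c, d, e⟩ _ ⟨a', b', c', d', e'⟩ _ h
      simp only [Prod.mk.injEq, add_left_inj] at h
      obtain ⟨rfl, rfl, rfl, rfl, rfl⟩ := h
      rfl)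

@[simp] theorem dv1_apply (n : N K) (i j k : ℕ) (w : List E) (q : Wb) :
    dv1 n (i, j, k, w, q) = n (i, j + 1, k, w, q) := rfl

/-- **kernel of `(a, b) ↦ x_1 a - x_0 b`** in coordinates, with the witness `dv0 a` -/
theorem ker_N {a b : N K} (h : opX1 K a = opX0 K b) :
    a = opX0 K (dv0 a) ∧ b = opX1 K (dv0 a) := by
  have ha : a = opX0 K (dv0 a) := by
    ext ⟨i, j, k, w, q⟩
    cases i with
    | zero => rw [opX0_apply_zero, ← opX1_apply_succ, h, opX0_apply_zero]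
    | succ i => rw [opX0_apply_succ, dv0_apply]
  refine ⟨ha, ?_⟩
  have h1 : opX0 K (b - opX1 K (dv0 a)) = 0 := by
    rw [map_sub, X0X1, ← ha, h, sub_self]
  exact sub_eq_zero.1 (opX0_inj h1)

/-- the part of `n` with first exponent `0` -/
def part0 (n : N K) : N K := n.filter (fun ν : Ix => ν.1 = 0)

theorem part0_zero (n : N K) (j k : ℕ) (w : List E) (q : Wb) :
    part0 n (0, j, k, w, q) = n (0, j, k, w, q) := Finsupp.filter_apply_pos _ _ rfl

theorem part0_succ (n : N K) (i j k : ℕ) (w : List E) (q : Wb) :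
    part0 n (i + 1, j, k, w, q) = 0 := Finsupp.filter_apply_neg _ _ (Nat.succ_ne_zero i)

/-- **`(x_0, x_1)` generate everything without the exponents `(0, 0)`** -/
theorem sur_N {n : N K} (h : ∀ k w q, n (0, 0, k, w, q) = 0) :
    n = opX0 K (dv0 n) + opX1 K (dv1 (part0 n)) := by
  ext ⟨i, j, k, w, q⟩
  rw [Finsupp.add_apply]
  cases i with
  | zero =>
    rw [opX0_apply_zero, zero_add]
    cases j with
    | zero => rw [opX1_apply_zero, h]
    | succ j => rw [opX1_apply_succ, dv1_apply, part0_zero]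
  | succ i =>
    rw [opX0_apply_succ, dv0_apply]
    cases j with
    | zero => rw [opX1_apply_zero, add_zero]
    | succ j => rw [opX1_apply_succ, dv1_apply, part0_succ, add_zero]

/-! ### degrees -/

theorem dPx_succ0 (i j k : ℕ) (w : List E) (q : Wb) :
    dPx (i + 1, j, k, w, q) = dPx (i, j, k, w, q) + 1 := by
  simp only [dPx]; push_cast; ring

theorem dPx_succ1 (i j k : ℕ) (w : List E) (q : Wb) :
    dPx (i, j + 1, k, w, q) = dPx (i, j, k, w, q) + 1 := by
  simp only [dPx]; push_cast; ring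




theorem dP_le (l : E) : l.toGen.dP ≤ 0 := by
  cases l <;> simp [E.toGen, Gen.dP]

theorem sumP_le (w : List E) : (w.map (fun l => l.toGen.dP)).sum ≤ 0 := by
  induction w with
  | nil => simp
  | cons l w ih =>
    have := dP_le l
    simp only [List.map_cons, List.sum_cons]
    omega

theorem dPx_zero_le (k : ℕ) (w : List E) (q : Wb) : dPx (0, 0, k, w, q) ≤ 0 := by
  have := sumP_le w
  simp only [dPx]
  push_cast
  omega






/-! ### the left statements in `R''` -/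

variable (π : Par K)

/-- transfer: `ev` of a left multiple -/
theorem ev_x0 (r : R π) : ev π (X π (.x 0) * r) = opX0 K (ev π r) := by
  rw [ev_mul, rep_x0]

theorem ev_x1 (r : R π) : ev π (X π (.x 1) * r) = opX1 K (ev π r) := by
  rw [ev_mul, rep_x1]

theorem ev_eq_zero {r : R π} (h : ev π r = 0) : r = 0 := by
  rw [← Psi_ev π r, h, map_zero]


theorem xl_inj (i : Fin 2) {r : R π} (h : X π (.x i) * r = 0) : r = 0 := by
  apply ev_eq_zero
  rcases fin2 i with rfl | rfl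
  · apply opX0_inj; rw [← ev_x0, h, map_zero]
  · apply opX1_inj; rw [← ev_x1, h, map_zero]





end Crest.Agent.R186.Kos374
end
end

-- ▼ part R186/KosJ_374

/-!
Row 186 (A), leaf KOS (helper374): left Koszul rows of `x` on `R''`, integer pieces `pz`, and
modulo `J = R'' W_+` (that is, on `R' = R''/J`).
-/

set_option autoImplicit false

noncomputable section

namespace Crest.Agent.R186.Kos374

open Crest.Agent.R186.DefsQ830 Crest.Agent.R186.PBW128
open Crest.Agent.R186.C2b362 (pz J NZ mem_NZ mem_pz mem_pz_nat mem_J)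

variable {K : Type} [Field K]

theorem dv0_NZ {n : N K} {P A C : ℤ} (hn : n ∈ NZ K P A C) : dv0 n ∈ NZ K (P - 1) A C := by
  rw [mem_NZ] at hn ⊢
  rintro ⟨i, j, k, w, q⟩ h
  obtain ⟨h1, h2, h3⟩ := hn (i + 1, j, k, w, q) h
  refine ⟨?_, h2, h3⟩
  rw [dPx_succ0] at h1
  linarith

theorem dv1_NZ {n : N K} {P A C : ℤ} (hn : n ∈ NZ K P A C) : dv1 n ∈ NZ K (P - 1) A C := by
  rw [mem_NZ] at hn ⊢
  rintro ⟨i, j, k, w, q⟩ h
  obtain ⟨h1, h2, h3⟩ := hn (i, j + 1, k, w, q) h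
  refine ⟨?_, h2, h3⟩
  rw [dPx_succ1] at h1
  linarith

theorem part0_NZ {n : N K} {P A C : ℤ} (hn : n ∈ NZ K P A C) : part0 n ∈ NZ K P A C := by
  rw [mem_NZ] at hn ⊢
  intro ν h
  apply hn
  intro h0
  apply h
  unfold part0
  by_cases hp : ν.1 = 0
  · rw [Finsupp.filter_apply_pos (fun ν : Ix => ν.1 = 0) n hp, h0]
  · exact Finsupp.filter_apply_neg (fun ν : Ix => ν.1 = 0) n hp

theorem zero_of_posZ {n : N K} {P A C : ℤ} (hP : 1 ≤ P) (hn : n ∈ NZ K P A C)
    (k : ℕ) (w : List E) (q : Wb) : n (0, 0, k, w, q) = 0 := by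
  by_contra h
  have h1 := ((mem_NZ.1 hn) _ h).1
  have h2 := dPx_zero_le k w q
  omega

variable (π : Par K)

/-- left Koszul, kernel, integer pieces -/
theorem xl_kerZ {P A C : ℤ} {a b : R π} (ha : a ∈ pz π P A C)
    (h : X π (.x 1) * a = X π (.x 0) * b) :
    ∃ c ∈ pz π (P - 1) A C, a = X π (.x 0) * c ∧ b = X π (.x 1) * c := by
  have h1 : opX1 K (ev π a) = opX0 K (ev π b) := by rw [← ev_x1, h, ev_x0]
  obtain ⟨h2, h3⟩ := ker_N h1
  refine ⟨Psi π (dv0 (ev π a)), ?_, ?_, ?_⟩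
  · show ev π _ ∈ NZ K _ _ _
    rw [ev_Psi]
    exact dv0_NZ ha
  · rw [← Psi_X0, ← h2, Psi_ev]
  · rw [← Psi_X1, ← h3, Psi_ev]

/-- left Koszul, generation, integer pieces -/
theorem xl_surZ {P A C : ℤ} (hP : 1 ≤ P) {r : R π} (hr : r ∈ pz π P A C) :
    ∃ a ∈ pz π (P - 1) A C, ∃ b ∈ pz π (P - 1) A C, r = X π (.x 0) * a + X π (.x 1) * b := by
  refine ⟨Psi π (dv0 (ev π r)), ?_, Psi π (dv1 (part0 (ev π r))), ?_, ?_⟩
  · show ev π _ ∈ NZ K _ _ _
    rw [ev_Psi]; exact dv0_NZ hr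
  · show ev π _ ∈ NZ K _ _ _
    rw [ev_Psi]; exact dv1_NZ (part0_NZ hr)
  · rw [← Psi_X0, ← Psi_X1, ← map_add, ← sur_N (zero_of_posZ hP hr), Psi_ev]

/-! ### modulo `J`: the part with trivial `W`-component -/

/-- part with `W`-component `one` -/
def prW (n : N K) : N K := n.filter (fun ν : Ix => ν.2.2.2.2 = Wb.one)

theorem prW_one (n : N K) (i j k : ℕ) (w : List E) :
    prW n (i, j, k, w, Wb.one) = n (i, j, k, w, Wb.one) := Finsupp.filter_apply_pos _ _ rfl

theorem prW_ne (n : N K) {ν : Ix} (h : ν.2.2.2.2 ≠ Wb.one) : prW n ν = 0 :=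
  Finsupp.filter_apply_neg (fun ν : Ix => ν.2.2.2.2 = Wb.one) n h

theorem prW_X0 (n : N K) : prW (opX0 K n) = opX0 K (prW n) := by
  ext ⟨i, j, k, w, q⟩
  by_cases hq : q = Wb.one
  · subst hq
    rw [prW_one]
    cases i with
    | zero => rw [opX0_apply_zero, opX0_apply_zero]
    | succ i => rw [opX0_apply_succ, opX0_apply_succ, prW_one]
  · rw [prW_ne _ hq]
    cases i with
    | zero => rw [opX0_apply_zero]
    | succ i => rw [opX0_apply_succ, prW_ne _ hq]

theorem prW_X1 (n : N K) : prW (opX1 K n) = opX1 K (prW n) := by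
  ext ⟨i, j, k, w, q⟩
  by_cases hq : q = Wb.one
  · subst hq
    rw [prW_one]
    cases j with
    | zero => rw [opX1_apply_zero, opX1_apply_zero]
    | succ j => rw [opX1_apply_succ, opX1_apply_succ, prW_one]
  · rw [prW_ne _ hq]
    cases j with
    | zero => rw [opX1_apply_zero]
    | succ j => rw [opX1_apply_succ, prW_ne _ hq]

theorem prW_NZ {n : N K} {P A C : ℤ} (hn : n ∈ NZ K P A C) : prW n ∈ NZ K P A C := by
  rw [mem_NZ] at hn ⊢
  intro ν h
  apply hn
  intro h0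
  apply h
  unfold prW
  by_cases hp : ν.2.2.2.2 = Wb.one
  · rw [Finsupp.filter_apply_pos (fun ν : Ix => ν.2.2.2.2 = Wb.one) n hp, h0]
  · exact Finsupp.filter_apply_neg (fun ν : Ix => ν.2.2.2.2 = Wb.one) n hp

theorem mem_J_iff_prW {r : R π} : r ∈ J π ↔ prW (ev π r) = 0 := by
  rw [mem_J]
  constructor
  · intro h
    ext ν
    by_cases hq : ν.2.2.2.2 = Wb.one
    · unfold prW
      rw [Finsupp.filter_apply_pos (fun ν : Ix => ν.2.2.2.2 = Wb.one) _ hq, h ν hq]; rfl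
    · rw [prW_ne _ hq]; rfl
  · intro h ν hν
    have := DFunLike.congr_fun h ν
    unfold prW at this
    rwa [Finsupp.filter_apply_pos (fun ν : Ix => ν.2.2.2.2 = Wb.one) _ hν] at this

theorem jl_inj (i : Fin 2) {r : R π} (h : X π (.x i) * r ∈ J π) : r ∈ J π := by
  rw [mem_J_iff_prW] at h ⊢
  rcases fin2 i with rfl | rfl
  · rw [ev_x0, prW_X0] at h; exact opX0_inj h
  · rw [ev_x1, prW_X1] at h; exact opX1_inj h

/-- **left Koszul modulo `J`** -/
theorem jl_ker {P A C : ℤ} {a b : R π} (ha : a ∈ pz π P A C)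
    (h : X π (.x 1) * a - X π (.x 0) * b ∈ J π) :
    ∃ c ∈ pz π (P - 1) A C, a - X π (.x 0) * c ∈ J π ∧ b - X π (.x 1) * c ∈ J π := by
  have h1 : opX1 K (prW (ev π a)) = opX0 K (prW (ev π b)) := by
    rw [mem_J_iff_prW, map_sub, ev_x1, ev_x0] at h
    rw [← prW_X1, ← prW_X0, ← sub_eq_zero, ← h]
    ext ν
    by_cases hq : ν.2.2.2.2 = Wb.one
    · simp only [prW, Finsupp.sub_apply]
      rw [Finsupp.filter_apply_pos (fun ν : Ix => ν.2.2.2.2 = Wb.one) _ hq,
        Finsupp.filter_apply_pos (fun ν : Ix => ν.2.2.2.2 = Wb.one) _ hq,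
        Finsupp.filter_apply_pos (fun ν : Ix => ν.2.2.2.2 = Wb.one) _ hq, Finsupp.sub_apply]
    · rw [Finsupp.sub_apply, prW_ne _ hq, prW_ne _ hq, prW_ne _ hq, sub_zero]
  obtain ⟨h2, h3⟩ := ker_N h1
  have sub_prW : ∀ m n : N K, prW (m - n) = prW m - prW n := by
    intro m n
    ext ν
    by_cases hq : ν.2.2.2.2 = Wb.one
    · simp only [prW, Finsupp.sub_apply]
      rw [Finsupp.filter_apply_pos (fun ν : Ix => ν.2.2.2.2 = Wb.one) _ hq,
        Finsupp.filter_apply_pos (fun ν : Ix => ν.2.2.2.2 = Wb.one) _ hq,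
        Finsupp.filter_apply_pos (fun ν : Ix => ν.2.2.2.2 = Wb.one) _ hq, Finsupp.sub_apply]
    · rw [Finsupp.sub_apply, prW_ne _ hq, prW_ne _ hq, prW_ne _ hq, sub_zero]
  have hc : prW (dv0 (prW (ev π a))) = dv0 (prW (ev π a)) := by
    ext ⟨i, j, k, w, q⟩
    by_cases hq : q = Wb.one
    · subst hq; rw [prW_one]
    · rw [prW_ne _ hq, dv0_apply, prW_ne _ hq]
  refine ⟨Psi π (dv0 (prW (ev π a))), ?_, ?_, ?_⟩
  · show ev π _ ∈ NZ K _ _ _
    rw [ev_Psi]
    exact dv0_NZ (prW_NZ ha)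
  · rw [mem_J_iff_prW, map_sub, ev_x0, ev_Psi, sub_prW, prW_X0, hc, ← h2, sub_self]
  · rw [mem_J_iff_prW, map_sub, ev_x1, ev_Psi, sub_prW, prW_X1, hc, ← h3, sub_self]

end Crest.Agent.R186.Kos374
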