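import Crest.Agent.R186.Tau_890
import Crest.Agent.R186.WinR_810
import Crest.Agent.R186.KosJ_374

/-!
Row 186, half (A), leaf A.C1 (helper808): RIGHT NORMAL FORM.

* `Z0 π` = the span of the `W`-free normal elements `nf1`;
* `zc π q : R'' → R''` = the coefficient of `wq q` (`r = ∑ q, zc q r * wq q`, `zc q r ∈ Z0`, unique,
  graded: `zc_pcZ`), `eW : (Wb → Z0) ≃ R''`;
* `mc π q : M → R''` (`M = N K` of helper890): `m = ∑ q, repM (mc q m) (oo q)`, unique,
  `eM : (Wb → Z0) ≃ M`;
* every operator `T` of `R''` commuting with the right multiplications by `W` is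
  `∑ w, (zc w ∘ T) (x) (wq w · )` on `Z0 (x) W` and on `Z0 (x) DW` (`T_eq`, `TM_eq`), in particular
  `D` (`dl w = zc w ∘ D`, `dl_pcZ`) and left multiplications;
* `R'' / J`: `r ∈ J ↔ zc one r = 0`.
-/

set_option autoImplicit false

noncomputable section

namespace Crest.Agent.R186.C1R808

open Crest.Agent.R186.DefsQ830 Crest.Agent.R186.PBW128 Crest.Agent.R186.Win810
open Crest.Agent.R186.SM890
open Crest.Agent.R186.C2b362 (J mem_J NZ mem_NZ)

variable {K : Type} [Field K]

/-! ### coordinates -/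

/-- the `q`-part in coordinates -/
def cq (K : Type) [Field K] (q : Wb) : N K →ₗ[K] N K :=
  Finsupp.linearCombination K (fun ν : Ix =>
    if ν.2.2.2.2 = q then bv K ν.1 ν.2.1 ν.2.2.1 ν.2.2.2.1 .one else 0)

theorem cq_bv (q : Wb) (i j k : ℕ) (w : List E) (q' : Wb) :
    cq K q (bv K i j k w q') = if q' = q then bv K i j k w .one else 0 := by
  simp [cq, bv]

/-- the part of `N` without `W`-letters -/
def NW (K : Type) [Field K] : Submodule K (N K) :=
  Finsupp.supported K K {ν : Ix | ν.2.2.2.2 = Wb.one}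

theorem span_ind {P : N K → Prop} (h0 : P 0) (ha : ∀ m n, P m → P n → P (m + n))
    (hs : ∀ (c : K) m, P m → P (c • m)) (hb : ∀ i j k w q, P (bv K i j k w q)) (n : N K) : P n := by
  induction n using Finsupp.induction_linear with
  | zero => exact h0
  | add m n hm hn => exact ha m n hm hn
  | single ν c =>
    have h := hs c _ (hb ν.1 ν.2.1 ν.2.2.1 ν.2.2.2.1 ν.2.2.2.2)
    have h2 : c • bv K ν.1 ν.2.1 ν.2.2.1 ν.2.2.2.1 ν.2.2.2.2 = Finsupp.single ν c := by
      simp [bv]
    rwa [h2] at h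

theorem cq_mem (q : Wb) (n : N K) : cq K q n ∈ NW K := by
  refine span_ind (P := fun n => cq K q n ∈ NW K) ?_ ?_ ?_ ?_ n
  · rw [map_zero]; exact zero_mem _
  · intro m n h1 h2
    rw [map_add]; exact add_mem h1 h2
  · intro c m h
    rw [map_smul]; exact Submodule.smul_mem _ _ h
  · intro i j k w q'
    rw [cq_bv]
    split_ifs
    · exact Finsupp.single_mem_supported K _ rfl
    · exact zero_mem _

/-- degree of a coordinate vector, integer version -/
theorem NZ_ind {P A C : ℤ} {Q : N K → Prop} (h0 : Q 0) (ha : ∀ m n, Q m → Q n → Q (m + n))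
    (hs : ∀ (c : K) m, Q m → Q (c • m))
    (hb : ∀ i j k w q, dPx (i, j, k, w, q) = P → (dAx (i, j, k, w, q) : ℤ) = A →
      (dCx (i, j, k, w, q) : ℤ) = C → Q (bv K i j k w q)) {n : N K} (hn : n ∈ NZ K P A C) : Q n := by
  rw [NZ, Finsupp.supported_eq_span_single] at hn
  induction hn using Submodule.span_induction with
  | mem x hx =>
    obtain ⟨⟨i, j, k, w, q⟩, ⟨h1, h2, h3⟩, rfl⟩ := hx
    exact hb i j k w q h1 h2 h3
  | zero => exact h0
  | add x y _ _ hx hy => exact ha x y hx hy
  | smul c x _ hx => exact hs c x hx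

theorem dP_q (i j k : ℕ) (w : List E) (q : Wb) :
    dPx (i, j, k, w, q) = dPx (i, j, k, w, .one) := rfl

theorem dA_q (i j k : ℕ) (w : List E) (q : Wb) :
    dAx (i, j, k, w, q) = dAx (i, j, k, w, .one) := rfl

theorem dC_q (i j k : ℕ) (w : List E) (q : Wb) :
    dCx (i, j, k, w, q) = dCx (i, j, k, w, .one) + wC q.word := by
  simp [dCx, Wb.word, wC]

theorem cq_NZ (q : Wb) {P A C : ℤ} {n : N K} (hn : n ∈ NZ K P A C) :
    cq K q n ∈ NZ K P A (C - wC q.word) := by
  refine NZ_ind (Q := fun n => cq K q n ∈ NZ K P A (C - wC q.word)) ?_ ?_ ?_ ?_ hn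
  · rw [map_zero]; exact zero_mem _
  · intro m n h1 h2
    rw [map_add]; exact add_mem h1 h2
  · intro c m h
    rw [map_smul]; exact Submodule.smul_mem _ _ h
  · intro i j k w q' h1 h2 h3
    rw [cq_bv]
    split_ifs with h
    · subst h
      refine Finsupp.single_mem_supported K _ ⟨?_, ?_, ?_⟩
      · rw [← dP_q i j k w q', h1]
      · rw [← dA_q i j k w q', h2]
      · rw [dC_q] at h3
        push_cast at h3 ⊢
        omega
    · exact zero_mem _

theorem mem_pcZ_iff (π : Par K) {P A C : ℤ} {r : R π} : r ∈ pcZ π P A C ↔ ev π r ∈ NZ K P A C := by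
  by_cases h : 0 ≤ A ∧ 0 ≤ C
  · rw [pcZ_of π h, PBW128.mem_pc_iff, PBW128.mem_NS_iff, mem_NZ]
    constructor
    · intro h1 ν hν
      obtain ⟨h2, h3, h4⟩ := h1 ν hν
      exact ⟨h2, by omega, by omega⟩
    · intro h1 ν hν
      obtain ⟨h2, h3, h4⟩ := h1 ν hν
      exact ⟨h2, by omega, by omega⟩
  · rw [pcZ_neg π (by omega), Submodule.mem_bot]
    constructor
    · rintro rfl
      rw [map_zero]; exact zero_mem _
    · intro h1
      rw [mem_NZ] at h1
      have h2 : ev π r = 0 := by
        ext ν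
        by_contra h3
        obtain ⟨_, h4, h5⟩ := h1 ν h3
        omega
      rw [← Psi_ev π r, h2, map_zero]

/-! ### `R''` -/

/-- the span of the `W`-free normal elements -/
def Z0 (π : Par K) : Submodule K (R π) := (NW K).comap (ev π)

theorem mem_Z0 (π : Par K) {r : R π} : r ∈ Z0 π ↔ ev π r ∈ NW K := Iff.rfl


theorem Z0_ind (π : Par K) {Q : R π → Prop} (h0 : Q 0) (ha : ∀ r s, Q r → Q s → Q (r + s))
    (hs : ∀ (c : K) r, Q r → Q (c • r)) (hb : ∀ i j k w, Q (nf1 π i j k w)) {r : R π}
    (hr : r ∈ Z0 π) : Q r := by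
  rw [mem_Z0, NW, Finsupp.supported_eq_span_single] at hr
  rw [← Psi_ev π r]
  generalize ev π r = n at hr
  induction hr using Submodule.span_induction with
  | mem x hx =>
    obtain ⟨⟨i, j, k, w, q⟩, h1, rfl⟩ := hx
    change q = Wb.one at h1
    subst h1
    have h2 : Psi π (Finsupp.single (i, j, k, w, Wb.one) 1) = nf1 π i j k w :=
      Psi_bv π i j k w .one
    rw [h2]
    exact hb i j k w
  | zero => rw [map_zero]; exact h0
  | add x y _ _ hx hy => rw [map_add]; exact ha _ _ hx hy
  | smul c x _ hx => rw [map_smul]; exact hs c _ hx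

/-- the coefficient of `wq q` -/
def zc (π : Par K) (q : Wb) : R π →ₗ[K] R π := Psi π ∘ₗ cq K q ∘ₗ ev π

theorem zc_apply (π : Par K) (q : Wb) (r : R π) : zc π q r = Psi π (cq K q (ev π r)) := rfl

theorem ev_zc (π : Par K) (q : Wb) (r : R π) : ev π (zc π q r) = cq K q (ev π r) := by
  rw [zc_apply, ev_Psi]

theorem zc_mem (π : Par K) (q : Wb) (r : R π) : zc π q r ∈ Z0 π := by
  rw [mem_Z0, ev_zc]
  exact cq_mem q _

theorem zc_nf (π : Par K) (q : Wb) (i j k : ℕ) (w : List E) (q' : Wb) :
    zc π q (nf π (i, j, k, w, q')) = if q' = q then nf1 π i j k w else 0 := by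
  rw [zc_apply, ev_nf, cq_bv]
  split_ifs
  · exact Psi_bv π i j k w .one
  · rw [map_zero]

theorem zc_pcZ (π : Par K) (q : Wb) {P A C : ℤ} {r : R π} (hr : r ∈ pcZ π P A C) :
    zc π q r ∈ pcZ π P A (C - wC q.word) := by
  rw [mem_pcZ_iff] at hr ⊢
  rw [ev_zc]
  exact cq_NZ q hr

theorem R_span (π : Par K) {Q : R π → Prop} (h0 : Q 0) (ha : ∀ r s, Q r → Q s → Q (r + s))
    (hs : ∀ (c : K) r, Q r → Q (c • r)) (hb : ∀ i j k w q, Q (nf π (i, j, k, w, q))) (r : R π) :
    Q r := by
  rw [← Psi_ev π r]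
  refine span_ind (P := fun n => Q (Psi π n)) ?_ ?_ ?_ ?_ (ev π r)
  · rw [map_zero]; exact h0
  · intro m n h1 h2
    rw [map_add]; exact ha _ _ h1 h2
  · intro c m h
    rw [map_smul]; exact hs _ _ h
  · intro i j k w q
    rw [Psi_bv]
    exact hb i j k w q

/-- **right normal form**: existence -/
theorem zc_sum (π : Par K) (r : R π) : ∑ q, zc π q r * wq π q = r := by
  refine R_span π (Q := fun r => ∑ q, zc π q r * wq π q = r) ?_ ?_ ?_ ?_ r
  · simp
  · intro r s h1 h2
    simp only [map_add, add_mul, Finset.sum_add_distrib, h1, h2]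
  · intro c r h
    simp only [map_smul, smul_mul_assoc, ← Finset.smul_sum, h]
  · intro i j k w q
    rw [Finset.sum_eq_single q]
    · rw [zc_nf, if_pos rfl, ← nf_eq]
    · intro q' _ h
      rw [zc_nf, if_neg (Ne.symm h), zero_mul]
    · intro h
      exact absurd (Finset.mem_univ q) h

/-- **right normal form**: uniqueness -/
theorem zc_mul_wq (π : Par K) (q q' : Wb) {z : R π} (hz : z ∈ Z0 π) :
    zc π q (z * wq π q') = if q' = q then z else 0 := by
  refine Z0_ind π (Q := fun z => zc π q (z * wq π q') = if q' = q then z else 0) ?_ ?_ ?_ ?_ hz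
  · simp
  · intro r s h1 h2
    rw [add_mul, map_add, h1, h2]
    split_ifs <;> simp
  · intro c r h
    rw [smul_mul_assoc, map_smul, h]
    split_ifs <;> simp
  · intro i j k w
    rw [← nf_eq, zc_nf]


theorem zc_Z0 (π : Par K) (q : Wb) {z : R π} (hz : z ∈ Z0 π) :
    zc π q z = if q = .one then z else 0 := by
  have h := zc_mul_wq π q .one hz
  rw [wq_one, mul_one] at h
  rw [h]
  by_cases hq : q = .one
  · rw [if_pos hq, if_pos hq.symm]
  · rw [if_neg hq, if_neg (Ne.symm hq)]




/-! ### structure constants of `W` -/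

/-- `wq a * wq b = wk2 a b • wq (wt2 a b)` -/
def wt2 : Wb → Wb → Wb
  | .one, b => b
  | a, .one => a
  | _, _ => .pi

/-- structure constants of `W` -/
def wk2 (π : Par K) : Wb → Wb → K
  | .one, _ => 1
  | _, .one => 1
  | .y 0, .y 1 => 1
  | .y 1, .y 0 => π.p
  | _, _ => 0

theorem wq_mul_wq (π : Par K) (a b : Wb) :
    wq π a * wq π b = wk2 π a b • wq π (wt2 a b) := by
  cases b with
  | one =>
    rw [wq_one, mul_one]
    cases a <;> simp [wk2, wt2]
  | y t =>
    rw [wq_y]
    have h := wq_mul_Y π a (.y t)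
    rw [show (Y.y t).toGen = Gen.y t from rfl] at h
    rw [h]
    cases a with
    | one => simp [wk2, wt2, wkr, wtr]
    | y s =>
      rcases fin2 s with rfl | rfl <;> rcases fin2 t with rfl | rfl <;> simp [wk2, wt2, wkr, wtr]
    | yb s => simp [wk2, wkr]
    | pi => simp [wk2, wkr]
  | yb t =>
    rw [wq_yb]
    have h := wq_mul_Y π a (.yb t)
    rw [show (Y.yb t).toGen = Gen.yb t from rfl] at h
    rw [h]
    cases a with
    | one => simp [wk2, wt2, wkr, wtr]
    | y s =>
      rcases fin2 s with rfl | rfl <;> simp [wk2, wkr]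
    | yb s => simp [wk2, wkr]
    | pi => simp [wk2, wkr]
  | pi =>
    rw [wq_pi]
    have h0 := wq_mul_Y π a (.y 0)
    rw [show (Y.y 0).toGen = Gen.y 0 from rfl] at h0
    rw [← mul_assoc, h0, smul_mul_assoc]
    have h1 := wq_mul_Y π (wtr a (.y 0)) (.y 1)
    rw [show (Y.y 1).toGen = Gen.y 1 from rfl] at h1
    rw [h1, smul_smul]
    cases a with
    | one => simp [wk2, wt2, wkr, wtr, wq_pi]
    | y s =>
      rcases fin2 s with rfl | rfl <;> simp [wk2, wkr, wtr]
    | yb s => simp [wk2, wkr]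
    | pi => simp [wk2, wkr]

/-- target of the left action of `wq a` on `o_q` -/
def dt2 : Wb → Wb → Wb
  | .one, q => q
  | .y a, q => dt (.y a) q
  | .yb a, q => dt (.yb a) q
  | .pi, _ => .one

/-- coefficient of the left action of `wq a` on `o_q` -/
def dk2 (π : Par K) : Wb → Wb → K
  | .one, _ => 1
  | .y a, q => dk π (.y a) q
  | .yb a, q => dk π (.yb a) q
  | .pi, q => if q = .pi then 1 else 0

theorem repM_y (π : Par K) (a : Y) (q : Wb) :
    repM π (X π a.toGen) (oo K q) = dk π a q • oo K (dt a q) := by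
  rw [repM_Y, oo, opD_bv]
  simp [sc, oo]

theorem repM_wq (π : Par K) (a q : Wb) :
    repM π (wq π a) (oo K q) = dk2 π a q • oo K (dt2 a q) := by
  cases a with
  | one =>
    rw [wq_one, map_one, Module.End.one_apply]
    simp [dk2, dt2]
  | y s =>
    rw [wq_y]
    exact repM_y π (.y s) q
  | yb s =>
    rw [wq_yb]
    exact repM_y π (.yb s) q
  | pi =>
    rw [wq_pi, map_mul, Module.End.mul_apply]
    have h1 := repM_y π (.y 1) q
    rw [show (Y.y 1).toGen = Gen.y 1 from rfl] at h1
    rw [h1, map_smul]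
    have h0 := repM_y π (.y 0) (dt (.y 1) q)
    rw [show (Y.y 0).toGen = Gen.y 0 from rfl] at h0
    rw [h0, smul_smul]
    cases q with
    | one => simp [dk, dk2]
    | y s => rcases fin2 s with rfl | rfl <;> simp [dk, dk2, dt]
    | yb s => simp [dk, dk2]
    | pi => simp [dk, dk2, dt, dt2]

/-! ### operators commuting with right multiplication by `W` -/

/-- `T` commutes with the right multiplications by `W` -/
def RW (π : Par K) (T : R π →ₗ[K] R π) : Prop := ∀ r q, T (r * wq π q) = T r * wq π q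


theorem D_wq (π : Par K) (q : Wb) : Der580.D π (wq π q) = 0 := by
  have hy : ∀ s, Der580.D π (X π (.y s)) = 0 := fun s => by
    rw [Der580.D_X]; simp [dGen]
  have hyb : ∀ s, Der580.D π (X π (.yb s)) = 0 := fun s => by
    rw [Der580.D_X]; simp [dGen]
  cases q with
  | one => rw [wq_one, Der580.D_one]
  | y s => rw [wq_y, hy]
  | yb s => rw [wq_yb, hyb]
  | pi => rw [wq_pi, Der580.D_mul, hy, hy, zero_mul, mul_zero, add_zero]

theorem RW_D (π : Par K) : RW π (Der580.D π) := fun r q => by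
  rw [Der580.D_mul, D_wq, mul_zero, add_zero]




/-! ### `M` -/

/-- the coefficient of `o_q` -/
def mc (π : Par K) (q : Wb) : N K →ₗ[K] R π := Psi π ∘ₗ cq K q

theorem mc_apply (π : Par K) (q : Wb) (m : N K) : mc π q m = Psi π (cq K q m) := rfl

theorem mc_mem (π : Par K) (q : Wb) (m : N K) : mc π q m ∈ Z0 π := by
  rw [mem_Z0, mc_apply, ev_Psi]
  exact cq_mem q _

theorem mc_bv (π : Par K) (q : Wb) (i j k : ℕ) (w : List E) (q' : Wb) :
    mc π q (bv K i j k w q') = if q' = q then nf1 π i j k w else 0 := by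
  rw [mc_apply, cq_bv]
  split_ifs
  · exact Psi_bv π i j k w .one
  · rw [map_zero]

theorem mc_sum (π : Par K) (m : N K) : ∑ q, repM π (mc π q m) (oo K q) = m := by
  refine span_ind (P := fun m => ∑ q, repM π (mc π q m) (oo K q) = m) ?_ ?_ ?_ ?_ m
  · simp
  · intro r s h1 h2
    simp only [map_add, LinearMap.add_apply, Finset.sum_add_distrib, h1, h2]
  · intro c r h
    simp only [map_smul, LinearMap.smul_apply, ← Finset.smul_sum, h]
  · intro i j k w q
    rw [Finset.sum_eq_single q]
    · rw [mc_bv, if_pos rfl, repM_nf1]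
    · intro q' _ h
      rw [mc_bv, if_neg (Ne.symm h), map_zero, LinearMap.zero_apply]
    · intro h
      exact absurd (Finset.mem_univ q) h

theorem mc_repM (π : Par K) (q q' : Wb) {z : R π} (hz : z ∈ Z0 π) :
    mc π q (repM π z (oo K q')) = if q' = q then z else 0 := by
  refine Z0_ind π (Q := fun z => mc π q (repM π z (oo K q')) = if q' = q then z else 0)
    ?_ ?_ ?_ ?_ hz
  · simp
  · intro r s h1 h2
    rw [map_add, LinearMap.add_apply, map_add, h1, h2]
    split_ifs <;> simp
  · intro c r h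
    rw [map_smul, LinearMap.smul_apply, map_smul, h]
    split_ifs <;> simp
  · intro i j k w
    rw [repM_nf1, mc_bv]

/-- `Z0 (x) DW = M` -/
def eM (π : Par K) : (Wb → Z0 π) ≃ₗ[K] N K where
  toFun z := ∑ q, repM π (z q : R π) (oo K q)
  map_add' z z' := by
    simp only [Pi.add_apply, Submodule.coe_add, map_add, LinearMap.add_apply,
      Finset.sum_add_distrib]
  map_smul' c z := by
    simp only [Pi.smul_apply, Submodule.coe_smul, map_smul, LinearMap.smul_apply,
      Finset.smul_sum, RingHom.id_apply]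
  invFun m q := ⟨mc π q m, mc_mem π q m⟩
  left_inv z := by
    funext q
    apply Subtype.ext
    show mc π q (∑ q, repM π (z q : R π) (oo K q)) = z q
    rw [map_sum, Finset.sum_eq_single q]
    · rw [mc_repM π q q (z q).2, if_pos rfl]
    · intro q' _ h
      rw [mc_repM π q q' (z q').2, if_neg h]
    · intro h
      exact absurd (Finset.mem_univ q) h
  right_inv m := mc_sum π m



/-- `r . o_q` in the right normal form -/
theorem repM_eq (π : Par K) (r : R π) (q : Wb) :
    repM π r (oo K q) = ∑ w, dk2 π w q • repM π (zc π w r) (oo K (dt2 w q)) := by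
  conv_lhs => rw [← zc_sum π r, map_sum, LinearMap.sum_apply]
  refine Finset.sum_congr rfl fun w _ => ?_
  rw [map_mul, Module.End.mul_apply, repM_wq, map_smul]

/-- the operator of `M = R'' (x)_W DW` induced by `T` -/
def TM (π : Par K) (T : R π →ₗ[K] R π) : N K →ₗ[K] N K :=
  ∑ q, (LinearMap.applyₗ (oo K q)) ∘ₗ (repM π).toLinearMap ∘ₗ T ∘ₗ mc π q







/-- the differential of `M` -/
def DM (π : Par K) : N K →ₗ[K] N K := TM π (Der580.D π)




/-! ### the components of `D` -/

/-- `D z = ∑ q, dl q z * wq q` -/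
def dl (π : Par K) (q : Wb) : R π →ₗ[K] R π := zc π q ∘ₗ Der580.D π




/-! ### `R'' / J` -/

theorem cq_one_eq (n : N K) (i j k : ℕ) (w : List E) (q : Wb) :
    cq K .one n (i, j, k, w, q) = if q = .one then n (i, j, k, w, q) else 0 := by
  refine span_ind (P := fun n => cq K .one n (i, j, k, w, q) =
    if q = .one then n (i, j, k, w, q) else 0) ?_ ?_ ?_ ?_ n
  · simp
  · intro m n h1 h2
    rw [map_add, Finsupp.add_apply, h1, h2, Finsupp.add_apply]
    split_ifs <;> simp
  · intro c m h
    rw [map_smul, Finsupp.smul_apply, h, Finsupp.smul_apply]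
    split_ifs <;> simp
  · intro i' j' k' w' q'
    rw [cq_bv]
    by_cases h : q' = .one
    · subst h
      rw [if_pos rfl]
      by_cases h2 : q = .one
      · rw [if_pos h2]
      · rw [if_neg h2, bv_apply, if_neg]
        intro h3
        apply h2
        have : Wb.one = q := congrArg (fun ν : Ix => ν.2.2.2.2) h3
        exact this.symm
    · rw [if_neg h, Finsupp.zero_apply]
      by_cases h2 : q = .one
      · subst h2
        rw [if_pos rfl, bv_apply, if_neg]
        intro h3
        apply h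
        exact congrArg (fun ν : Ix => ν.2.2.2.2) h3
      · rw [if_neg h2]

/-- `R' = R''/J = Z0` -/
theorem mem_J_iff_zc (π : Par K) {r : R π} : r ∈ J π ↔ zc π .one r = 0 := by
  rw [mem_J]
  constructor
  · intro h
    have h1 : cq K .one (ev π r) = 0 := by
      ext ⟨i, j, k, w, q⟩
      rw [cq_one_eq, Finsupp.zero_apply]
      split_ifs with h2
      · exact h _ h2
      · rfl
    rw [zc_apply, h1, map_zero]
  · intro h ν hν
    have h1 : cq K .one (ev π r) = 0 := by
      rw [← ev_zc, h, map_zero]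
    have h2 := cq_one_eq (ev π r) ν.1 ν.2.1 ν.2.2.1 ν.2.2.2.1 ν.2.2.2.2
    rw [if_pos hν, h1] at h2
    exact h2.symm


end Crest.Agent.R186.C1R808
end
private theorem rz_7f60f4fd3f : type_of% @_root_.Crest.Agent.R186.C1R808.dk2.eq_1 := @_root_.Crest.Agent.R186.C1R808.dk2.eq_1 -- L339
private theorem rz_433ede01be : type_of% @_root_.Crest.Agent.R186.C1R808.dt2.eq_1 := @_root_.Crest.Agent.R186.C1R808.dt2.eq_1 -- L332
private theorem rz_6ac592ea58 : type_of% @_root_.Crest.Agent.R186.C1R808.wk2.eq_1 := @_root_.Crest.Agent.R186.C1R808.wk2.eq_1 -- L281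
private theorem rz_ac2b6c3b41 : type_of% @_root_.Crest.Agent.R186.C1R808.wt2.eq_1 := @_root_.Crest.Agent.R186.C1R808.wt2.eq_1 -- L275
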