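import Crest.Agent.R186.HatA_827

/-!
Row 186 (A), closing (helper462): the strict dg algebra `C = Γ ⊕ (K ⊗ H)[1]` in matrix form.
`Γ = A : DGA K`; `K` has homogeneous basis `β`, `H` has homogeneous basis `γ`.
-/

set_option autoImplicit false

open Matrix

namespace Crest.Agent.R186.ConeAlg462

open Hat827

variable {K : Type} [Field K]

/-- left dg module with basis `β`, right dg module with basis `γ`, evaluation -/
structure Data (A : DGA K) where
  β : Type
  γ : Type
  [fβ : Fintype β]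
  [eβ : DecidableEq β]
  [fγ : Fintype γ]
  [eγ : DecidableEq γ]
  dk : β → ℤ
  dh : γ → ℤ
  dk_nn : ∀ b, 0 ≤ dk b
  dh_nn : ∀ c, 0 ≤ dh c
  ρ : A.C →ₐ[K] Matrix β β K
  σ : A.C →ₐ[K] Matrix γ γ K
  ρ_deg : ∀ {m : ℤ} {a : A.C}, a ∈ A.G m → ∀ b b', ρ a b' b ≠ 0 → dk b' = dk b + m
  σ_deg : ∀ {m : ℤ} {a : A.C}, a ∈ A.G m → ∀ c c', σ a c c' ≠ 0 → dh c' = dh c + m
  δ : Matrix β β K
  ε : Matrix γ γ K
  δ_deg : ∀ b b', δ b' b ≠ 0 → dk b' = dk b - 1
  ε_deg : ∀ c c', ε c c' ≠ 0 → dh c' = dh c - 1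
  δδ : δ * δ = 0
  εε : ε * ε = 0
  ρ_D : ∀ a, ρ (A.D a) = δ * ρ a + ρ a * δ
  σ_D : ∀ a, σ (A.D a) = ε * σ a + σ a * ε
  ev : Matrix β γ K →ₗ[K] A.C
  ev_l : ∀ a t, ev (ρ a * t) = a * ev t
  ev_r : ∀ a t, ev (t * σ a) = ev t * a
  ev_D : ∀ t, A.D (ev t) = ev (δ * t + t * ε)
  ev_deg : ∀ (m : ℤ) (t : Matrix β γ K), (∀ b c, t b c ≠ 0 → dk b + dh c = m) → ev t ∈ A.G m
  peiffer : ∀ t t', ρ (ev t) * t' = t * σ (ev t')

attribute [instance] Data.fβ Data.eβ Data.fγ Data.eγ

variable {A : DGA K} (S : Data A)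

namespace Data

theorem dbl (t : Matrix S.β S.γ K) : t + t = 0 := by
  have h : (S.ρ (1 + 1)) * t = 0 := by rw [A.two, map_zero, Matrix.zero_mul]
  rwa [map_add, map_one, Matrix.add_mul, Matrix.one_mul] at h

/-- the carrier -/
def Car : Type := A.C × Matrix S.β S.γ K

instance : AddCommGroup S.Car := inferInstanceAs (AddCommGroup (A.C × Matrix S.β S.γ K))
instance : Module K S.Car := inferInstanceAs (Module K (A.C × Matrix S.β S.γ K))
instance : Module.Finite K S.Car := inferInstanceAs (Module.Finite K (A.C × Matrix S.β S.γ K))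

@[ext] theorem Car.ext {x y : S.Car} (h1 : x.1 = y.1) (h2 : x.2 = y.2) : x = y := Prod.ext h1 h2

@[simp] theorem add_fst (x y : S.Car) : (x + y).1 = x.1 + y.1 := rfl
@[simp] theorem add_snd (x y : S.Car) : (x + y).2 = x.2 + y.2 := rfl
@[simp] theorem zero_fst : (0 : S.Car).1 = 0 := rfl
@[simp] theorem zero_snd : (0 : S.Car).2 = 0 := rfl
@[simp] theorem smul_fst (r : K) (x : S.Car) : (r • x).1 = r • x.1 := rfl
@[simp] theorem smul_snd (r : K) (x : S.Car) : (r • x).2 = r • x.2 := rfl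

/-- elements -/
def el (a : A.C) (t : Matrix S.β S.γ K) : S.Car := (a, t)

@[simp] theorem el_fst (a : A.C) (t : Matrix S.β S.γ K) : (S.el a t).1 = a := rfl
@[simp] theorem el_snd (a : A.C) (t : Matrix S.β S.γ K) : (S.el a t).2 = t := rfl

instance : Mul S.Car := ⟨fun x y => S.el (x.1 * y.1) (S.ρ x.1 * y.2 + x.2 * S.σ y.1)⟩
instance : One S.Car := ⟨S.el 1 0⟩

@[simp] theorem mul_fst (x y : S.Car) : (x * y).1 = x.1 * y.1 := rfl
@[simp] theorem mul_snd (x y : S.Car) : (x * y).2 = S.ρ x.1 * y.2 + x.2 * S.σ y.1 := rfl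
@[simp] theorem one_fst : (1 : S.Car).1 = 1 := rfl
@[simp] theorem one_snd : (1 : S.Car).2 = 0 := rfl

instance : Ring S.Car where
  __ := (inferInstance : AddCommGroup S.Car)
  mul := (· * ·)
  one := 1
  left_distrib x y z := by
    apply Car.ext
    · simp [mul_add]
    · simp [Matrix.mul_add, map_add]; abel
  right_distrib x y z := by
    apply Car.ext
    · simp [add_mul]
    · simp [Matrix.add_mul, map_add]; abel
  zero_mul x := by
    apply Car.ext
    · simp
    · simp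
  mul_zero x := by
    apply Car.ext
    · simp
    · simp
  mul_assoc x y z := by
    apply Car.ext
    · simp [mul_assoc]
    · simp [Matrix.mul_add, Matrix.add_mul, Matrix.mul_assoc, add_assoc]
  one_mul x := by
    apply Car.ext
    · simp
    · simp
  mul_one x := by
    apply Car.ext
    · simp
    · simp

instance : Algebra K S.Car := Algebra.ofModule
  (fun r x y => by
    apply Car.ext
    · simp
    · simp [smul_add])
  (fun r x y => by
    apply Car.ext
    · simp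
    · simp [smul_add])

/-- homogeneous matrices -/
def J (m : ℤ) : Submodule K (Matrix S.β S.γ K) where
  carrier := {t | ∀ b c, t b c ≠ 0 → S.dk b + S.dh c + 1 = m}
  add_mem' {x y} hx hy b c h := by
    by_contra hne
    have h1 : x b c = 0 := by_contra fun h' => hne (hx b c h')
    have h2 : y b c = 0 := by_contra fun h' => hne (hy b c h')
    exact h (by rw [Matrix.add_apply, h1, h2, add_zero])
  zero_mem' b c h := absurd rfl h
  smul_mem' r x hx b c h := hx b c fun h' => h (by rw [Matrix.smul_apply, h', smul_zero])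

theorem mem_J {m : ℤ} {t : Matrix S.β S.γ K} :
    t ∈ S.J m ↔ ∀ b c, t b c ≠ 0 → S.dk b + S.dh c + 1 = m := Iff.rfl

theorem lmul_mem {k l : ℤ} {a : A.C} {t : Matrix S.β S.γ K} (ha : a ∈ A.G k) (ht : t ∈ S.J l) :
    S.ρ a * t ∈ S.J (k + l) := by
  intro b c h
  rw [Matrix.mul_apply] at h
  obtain ⟨b', -, hb⟩ := Finset.exists_ne_zero_of_sum_ne_zero h
  have h1 := S.ρ_deg ha b' b (left_ne_zero_of_mul hb)
  have h2 := ht b' c (right_ne_zero_of_mul hb)
  omega

theorem rmul_mem {k l : ℤ} {a : A.C} {t : Matrix S.β S.γ K} (ht : t ∈ S.J k) (ha : a ∈ A.G l) :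
    t * S.σ a ∈ S.J (k + l) := by
  intro b c h
  rw [Matrix.mul_apply] at h
  obtain ⟨c', -, hb⟩ := Finset.exists_ne_zero_of_sum_ne_zero h
  have h1 := S.σ_deg ha c' c (right_ne_zero_of_mul hb)
  have h2 := ht b c' (left_ne_zero_of_mul hb)
  omega

/-- the differential on `J` -/
def dJ : Matrix S.β S.γ K →ₗ[K] Matrix S.β S.γ K where
  toFun t := S.δ * t + t * S.ε
  map_add' x y := by rw [Matrix.mul_add, Matrix.add_mul]; abel
  map_smul' r x := by simp [smul_add]

theorem dJ_apply (t : Matrix S.β S.γ K) : S.dJ t = S.δ * t + t * S.ε := rfl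

theorem dJ_mem {m : ℤ} {t : Matrix S.β S.γ K} (ht : t ∈ S.J m) : S.dJ t ∈ S.J (m - 1) := by
  refine Submodule.add_mem _ ?_ ?_
  · intro b c h
    rw [Matrix.mul_apply] at h
    obtain ⟨b', -, hb⟩ := Finset.exists_ne_zero_of_sum_ne_zero h
    have h1 := S.δ_deg b' b (left_ne_zero_of_mul hb)
    have h2 := ht b' c (right_ne_zero_of_mul hb)
    omega
  · intro b c h
    rw [Matrix.mul_apply] at h
    obtain ⟨c', -, hb⟩ := Finset.exists_ne_zero_of_sum_ne_zero h
    have h1 := S.ε_deg c' c (right_ne_zero_of_mul hb)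
    have h2 := ht b c' (left_ne_zero_of_mul hb)
    omega

theorem dJ_dJ (t : Matrix S.β S.γ K) : S.dJ (S.dJ t) = 0 := by
  rw [dJ_apply, dJ_apply, Matrix.mul_add, Matrix.add_mul, ← Matrix.mul_assoc, S.δδ,
    Matrix.mul_assoc t, S.εε, Matrix.zero_mul, Matrix.mul_zero, zero_add, add_zero,
    Matrix.mul_assoc]
  exact S.dbl _

theorem dJ_l (a : A.C) (t : Matrix S.β S.γ K) :
    S.dJ (S.ρ a * t) = S.ρ (A.D a) * t + S.ρ a * S.dJ t := by
  rw [dJ_apply, dJ_apply, S.ρ_D, Matrix.mul_add, Matrix.add_mul]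
  simp only [Matrix.mul_assoc]
  have h := S.dbl (S.ρ a * (S.δ * t))
  calc S.δ * (S.ρ a * t) + S.ρ a * (t * S.ε)
      = S.δ * (S.ρ a * t) + (S.ρ a * (S.δ * t) + S.ρ a * (S.δ * t)) + S.ρ a * (t * S.ε) := by
        rw [h, add_zero]
    _ = _ := by abel

theorem dJ_r (a : A.C) (t : Matrix S.β S.γ K) :
    S.dJ (t * S.σ a) = S.dJ t * S.σ a + t * S.σ (A.D a) := by
  rw [dJ_apply, dJ_apply, S.σ_D, Matrix.mul_add, Matrix.add_mul]
  simp only [Matrix.mul_assoc]
  have h := S.dbl (t * (S.ε * S.σ a))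
  calc S.δ * (t * S.σ a) + t * (S.σ a * S.ε)
      = S.δ * (t * S.σ a) + (t * (S.ε * S.σ a) + t * (S.ε * S.σ a)) + t * (S.σ a * S.ε) := by
        rw [h, add_zero]
    _ = _ := by abel

/-- the bound of degrees -/
def bd : ℕ := (Finset.univ.sup fun b => (S.dk b).toNat) + (Finset.univ.sup fun c => (S.dh c).toNat) + 1

theorem le_bd (b : S.β) (c : S.γ) : S.dk b + S.dh c + 1 ≤ S.bd := by
  have h1 : (S.dk b).toNat ≤ Finset.univ.sup fun b => (S.dk b).toNat :=
    Finset.le_sup (f := fun b => (S.dk b).toNat) (Finset.mem_univ b)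
  have h2 : (S.dh c).toNat ≤ Finset.univ.sup fun c => (S.dh c).toNat :=
    Finset.le_sup (f := fun c => (S.dh c).toNat) (Finset.mem_univ c)
  have h3 := S.dk_nn b
  have h4 := S.dh_nn c
  unfold bd
  push_cast
  omega

/-- the grading -/
def GC (m : ℤ) : Submodule K S.Car := (A.G m).prod (S.J m)


/-- the differential -/
def DC : S.Car →ₗ[K] S.Car where
  toFun x := S.el (A.D x.1 + S.ev x.2) (S.dJ x.2)
  map_add' x y := by
    apply Car.ext
    · simp only [el_fst, add_fst, add_snd, map_add]; abel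
    · simp only [el_snd, add_snd, map_add]
  map_smul' r x := by
    apply Car.ext
    · simp only [el_fst, smul_fst, smul_snd, map_smul, RingHom.id_apply, smul_add]
    · simp only [el_snd, smul_snd, map_smul, RingHom.id_apply]

@[simp] theorem DC_fst (x : S.Car) : (S.DC x).1 = A.D x.1 + S.ev x.2 := rfl
@[simp] theorem DC_snd (x : S.Car) : (S.DC x).2 = S.dJ x.2 := rfl

theorem ev_dJ (t : Matrix S.β S.γ K) : S.ev (S.dJ t) = A.D (S.ev t) := (S.ev_D t).symm

theorem ev_mem {m : ℤ} {t : Matrix S.β S.γ K} (ht : t ∈ S.J m) : S.ev t ∈ A.G (m - 1) :=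
  S.ev_deg _ t fun b c h => by have := ht b c h; omega

/-- **the cone algebra** -/
def dga : DGA K where
  C := S.Car
  two x := by
    apply Car.ext
    · exact A.two _
    · exact S.dbl _
  N := A.N + S.bd
  G := S.GC
  G_neg k hk := by
    rw [eq_bot_iff]
    rintro x ⟨h1, h2⟩
    rw [Submodule.mem_bot]
    apply Car.ext
    · exact DGA.neg h1 hk
    · ext b c
      by_contra hne
      have h3 := h2 b c hne
      have h4 := S.dk_nn b
      have h5 := S.dh_nn c
      omega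
  G_big k hk := by
    rw [eq_bot_iff]
    rintro x ⟨h1, h2⟩
    rw [Submodule.mem_bot]
    push_cast at hk
    apply Car.ext
    · have : A.G k = ⊥ := A.G_big k (by omega)
      rw [this] at h1
      exact (Submodule.mem_bot K).1 h1
    · ext b c
      by_contra hne
      have h3 := h2 b c hne
      have h4 := S.le_bd b c
      omega
  one_mem := ⟨A.one_mem, Submodule.zero_mem _⟩
  mul_mem {k l x y} hx hy := ⟨A.mul_mem hx.1 hy.1,
    Submodule.add_mem _ (S.lmul_mem hx.1 hy.2) (S.rmul_mem hx.2 hy.1)⟩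
  D := S.DC
  D_mul x y := by
    apply Car.ext
    · simp only [DC_fst, mul_fst, mul_snd, add_fst, map_add, A.D_mul, S.ev_l, S.ev_r, add_mul,
        mul_add]
      abel
    · simp only [DC_snd, mul_snd, add_snd, map_add, dJ_l, dJ_r, DC_fst, Matrix.add_mul,
        Matrix.mul_add, S.peiffer]
      have h := S.dbl (x.2 * S.σ (S.ev y.2))
      calc _ = S.ρ (A.D x.1) * y.2 + S.ρ x.1 * S.dJ y.2 + (S.dJ x.2 * S.σ y.1 +
          x.2 * S.σ (A.D y.1)) + (x.2 * S.σ (S.ev y.2) + x.2 * S.σ (S.ev y.2)) := by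
            rw [h, add_zero]
        _ = _ := by abel
  D_D x := by
    apply Car.ext
    · simp only [DC_fst, DC_snd, map_add, A.D_D, zero_add, ev_dJ, zero_fst]
      exact A.two _
    · simp only [DC_snd, dJ_dJ, zero_snd]
  D_mem {k x} hx := ⟨Submodule.add_mem _ (A.D_mem hx.1) (S.ev_mem hx.2), S.dJ_mem hx.2⟩

end Data

end Crest.Agent.R186.ConeAlg462
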