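import Mathlib
import Crest.Prelude.Def_GorProjVanishing
import Crest.Agent.R186.Syz_700

-- ▼ part R186/BC_234
section

/-!
Row 186 (helper234): base change of modules `M ↦ E ⊗[k] M` from `Λ` to `E ⊗[k] Λ`.
-/

set_option autoImplicit false
set_option linter.unusedSectionVars false

universe u

open scoped TensorProduct

namespace Crest.Agent.R186.BC234

variable (k : Type) [Field k] (E : Type u) [Field E] [Algebra k E]
variable (Λ : Type) [Ring Λ] [Algebra k Λ]

/-- base change of a module -/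
def BC (M : Type) [AddCommGroup M] [Module k M] : Type u := E ⊗[k] M

section inst

variable (M : Type) [AddCommGroup M] [Module k M]

instance : AddCommGroup (BC k E M) := inferInstanceAs (AddCommGroup (E ⊗[k] M))
instance : Module k (BC k E M) := inferInstanceAs (Module k (E ⊗[k] M))
instance : Module E (BC k E M) := inferInstanceAs (Module E (E ⊗[k] M))

end inst

section act

variable (M : Type) [AddCommGroup M] [Module k M] [Module Λ M] [IsScalarTower k Λ M]

/-- action of `Λ` on `E ⊗ M` -/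
noncomputable def actR : Λ →ₐ[k] Module.End k (E ⊗[k] M) where
  toFun r := LinearMap.lTensor E (Algebra.lsmul k k M r)
  map_one' := by
    rw [map_one]
    exact LinearMap.lTensor_id E M
  map_mul' a b := by
    rw [map_mul]
    exact LinearMap.lTensor_comp _ _ _
  map_zero' := by
    rw [map_zero]
    exact LinearMap.lTensor_zero _
  map_add' a b := by
    rw [map_add]
    exact LinearMap.lTensor_add _ _ _
  commutes' r := by
    refine TensorProduct.ext' fun e m => ?_
    simp [Module.algebraMap_end_apply]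

/-- the action of `E ⊗ Λ` on `E ⊗ M` -/
noncomputable def act : E ⊗[k] Λ →ₐ[k] Module.End k (E ⊗[k] M) :=
  Algebra.TensorProduct.lift (Algebra.lsmul k k (E ⊗[k] M)) (actR k E Λ M) (by
    intro x y
    refine TensorProduct.ext' fun e m => ?_
    simp [actR, Module.End.mul_apply, TensorProduct.smul_tmul'])

theorem act_tmul (a : E) (r : Λ) (b : E) (m : M) :
    act k E Λ M (a ⊗ₜ[k] r) (b ⊗ₜ[k] m) = (a * b) ⊗ₜ[k] (r • m) := by
  simp [act, actR, TensorProduct.smul_tmul']

noncomputable instance : Module (E ⊗[k] Λ) (BC k E M) :=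
  Module.compHom (E ⊗[k] M) (act k E Λ M).toRingHom

/-- pure tensors -/
def tm {M : Type} [AddCommGroup M] [Module k M] (e : E) (m : M) : BC k E M := e ⊗ₜ[k] m

variable {k E M}


theorem smul_tm (a : E) (r : Λ) (b : E) (m : M) :
    (a ⊗ₜ[k] r) • (tm k E b m) = tm k E (a * b) (r • m) := act_tmul k E Λ M a r b m

theorem BC_ind {P : BC k E M → Prop} (h0 : P 0) (h1 : ∀ e m, P (tm k E e m))
    (h2 : ∀ x y, P x → P y → P (x + y)) (x : BC k E M) : P x :=
  TensorProduct.induction_on (motive := P) x h0 h1 h2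


end act

section hom

variable {k Λ}
variable {M N : Type} [AddCommGroup M] [Module k M] [Module Λ M] [IsScalarTower k Λ M]
  [AddCommGroup N] [Module k N] [Module Λ N] [IsScalarTower k Λ N]

/-- base change of a linear map, `k`-linear -/
noncomputable def mapk (f : M →ₗ[Λ] N) : BC k E M →ₗ[k] BC k E N :=
  LinearMap.lTensor E (f.restrictScalars k)

theorem mapk_tm (f : M →ₗ[Λ] N) (e : E) (m : M) : mapk E f (tm k E e m) = tm k E e (f m) := rfl

/-- base change of a linear map -/
noncomputable def map (f : M →ₗ[Λ] N) : BC k E M →ₗ[E ⊗[k] Λ] BC k E N where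
  toFun := mapk E f
  map_add' := map_add _
  map_smul' x y := by
    simp only [RingHom.id_apply]
    induction x using TensorProduct.induction_on with
    | zero => simp
    | add a b ha hb => rw [add_smul, map_add, ha, hb, add_smul]
    | tmul a r =>
      induction y using BC_ind (k := k) (E := E) (M := M) with
      | h0 => simp
      | h1 e m => rw [smul_tm, mapk_tm, mapk_tm, smul_tm, map_smul]
      | h2 x y hx hy => rw [smul_add, map_add, hx, hy, map_add, smul_add]

theorem map_tm (f : M →ₗ[Λ] N) (e : E) (m : M) : map E f (tm k E e m) = tm k E e (f m) := rfl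

theorem map_comp {P : Type} [AddCommGroup P] [Module k P] [Module Λ P] [IsScalarTower k Λ P]
    (g : N →ₗ[Λ] P) (f : M →ₗ[Λ] N) : map E (k := k) (g ∘ₗ f) = map E g ∘ₗ map E f := by
  ext x
  induction x using BC_ind (k := k) (E := E) (M := M) with
  | h0 => simp
  | h1 e m => rfl
  | h2 x y hx hy => rw [map_add, map_add, hx, hy]

theorem map_id : map E (k := k) (LinearMap.id : M →ₗ[Λ] M) = LinearMap.id := by
  ext x
  induction x using BC_ind (k := k) (E := E) (M := M) with
  | h0 => simp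
  | h1 e m => rfl
  | h2 x y hx hy => rw [map_add, hx, hy]; rfl

theorem map_zero' : map E (k := k) (0 : M →ₗ[Λ] N) = 0 := by
  ext x
  induction x using BC_ind (k := k) (E := E) (M := M) with
  | h0 => simp
  | h1 e m =>
    rw [map_tm]
    exact TensorProduct.tmul_zero _ _
  | h2 x y hx hy => rw [map_add, map_add, hx, hy]

theorem map_inj {f : M →ₗ[Λ] N} (h : Function.Injective f) :
    Function.Injective (map E (k := k) f) :=
  Module.Flat.lTensor_preserves_injective_linearMap (M := E) (f.restrictScalars k) h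

theorem map_surj {f : M →ₗ[Λ] N} (h : Function.Surjective f) :
    Function.Surjective (map E (k := k) f) :=
  LinearMap.lTensor_surjective E (g := f.restrictScalars k) h

theorem map_exact {P : Type} [AddCommGroup P] [Module k P] [Module Λ P] [IsScalarTower k Λ P]
    {f : M →ₗ[Λ] N} {g : N →ₗ[Λ] P} (h : Function.Exact f g) :
    Function.Exact (map E (k := k) f) (map E (k := k) g) :=
  Module.Flat.lTensor_exact (M := E) (f := f.restrictScalars k) (g := g.restrictScalars k) h

/-- base change of an equivalence -/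
noncomputable def equiv (e : M ≃ₗ[Λ] N) : BC k E M ≃ₗ[E ⊗[k] Λ] BC k E N :=
  LinearEquiv.ofLinearMap (map E e.toLinearMap) (map E e.symm.toLinearMap)
    (by rw [← map_comp]; simp [map_id]) (by rw [← map_comp]; simp [map_id])

end hom

section self

variable {k Λ}

/-- `BC Λ` as a type is `E ⊗ Λ` -/
def toReg : BC k E Λ →+ (E ⊗[k] Λ) := AddMonoidHom.id _

def ofReg : (E ⊗[k] Λ) →+ BC k E Λ := AddMonoidHom.id _

theorem toReg_tm (e : E) (r : Λ) : toReg (k := k) E (tm k E e r) = e ⊗ₜ[k] r := rfl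

theorem toReg_smul (x : E ⊗[k] Λ) (y : BC k E Λ) : toReg E (x • y) = x * toReg E y := by
  induction x using TensorProduct.induction_on with
  | zero => rw [zero_smul, map_zero, zero_mul]
  | add a b ha hb => rw [add_smul, map_add, ha, hb, add_mul]
  | tmul a r =>
    induction y using BC_ind (k := k) (E := E) (M := Λ) with
    | h0 => rw [smul_zero, map_zero, mul_zero]
    | h1 e m =>
      rw [smul_tm, toReg_tm, toReg_tm, Algebra.TensorProduct.tmul_mul_tmul, smul_eq_mul]
    | h2 x y hx hy => rw [smul_add, map_add, hx, hy, map_add, mul_add]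

/-- `BC Λ` is the regular module -/
noncomputable def self : BC k E Λ ≃ₗ[E ⊗[k] Λ] (E ⊗[k] Λ) where
  toFun x := toReg E x
  invFun x := ofReg E x
  left_inv _ := rfl
  right_inv _ := rfl
  map_add' x y := map_add _ x y
  map_smul' x y := toReg_smul E x y

end self

section coord

variable {k E} {ι : Type*} [DecidableEq ι] (b : Module.Basis ι k E)
variable {N : Type} [AddCommGroup N] [Module k N] [Module Λ N] [IsScalarTower k Λ N]

/-- coordinates of `E ⊗ N` -/
noncomputable def cf : BC k E N ≃ₗ[k] (ι →₀ N) := TensorProduct.equivFinsuppOfBasisLeft b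

theorem cf_tm (e : E) (n : N) (i : ι) : cf b (tm k E e n) i = b.repr e i • n :=
  TensorProduct.equivFinsuppOfBasisLeft_apply_tmul_apply b e n i

theorem cf_sum (y : BC k E N) : ((cf b y).sum fun i n => tm k E (b i) n) = y := by
  have h := TensorProduct.equivFinsuppOfBasisLeft_symm_apply b (N := N) (cf b y)
  exact h.symm.trans ((cf b).symm_apply_apply y)

theorem cf_smul (r : Λ) (y : BC k E N) (i : ι) :
    cf b (((1 : E) ⊗ₜ[k] r) • y) i = r • cf b y i := by
  induction y using BC_ind (k := k) (E := E) (M := N) with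
  | h0 => simp
  | h1 e m =>
    rw [smul_tm, cf_tm, cf_tm, one_mul]
    rw [← algebraMap_smul Λ (b.repr e i) (r • m), ← algebraMap_smul Λ (b.repr e i) m,
      ← mul_smul, ← mul_smul, Algebra.commutes]
  | h2 x y hx hy => rw [smul_add, map_add, map_add, Finsupp.add_apply, hx, hy,
      Finsupp.add_apply, smul_add]

variable {Λ}
variable {M : Type} [AddCommGroup M] [Module k M] [Module Λ M] [IsScalarTower k Λ M]

/-- coordinate of a linear map -/
noncomputable def co (φ : BC k E M →ₗ[E ⊗[k] Λ] BC k E N) (i : ι) : M →ₗ[Λ] N where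
  toFun m := cf b (φ (tm k E 1 m)) i
  map_add' x y := by
    have : tm k E (1 : E) (x + y) = tm k E 1 x + tm k E 1 y := TensorProduct.tmul_add _ _ _
    rw [this, map_add, map_add, Finsupp.add_apply]
  map_smul' r x := by
    have : tm k E (1 : E) (r • x) = ((1 : E) ⊗ₜ[k] r) • tm k E 1 x := by
      rw [smul_tm, one_mul]
    rw [this, map_smul, cf_smul, RingHom.id_apply]


/-- multiplication by a scalar -/
noncomputable def esm (e : E) : BC k E N →ₗ[E ⊗[k] Λ] BC k E N where
  toFun y := (e ⊗ₜ[k] (1 : Λ)) • y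
  map_add' x y := smul_add _ _ _
  map_smul' x y := by
    rw [RingHom.id_apply, smul_smul, smul_smul]
    congr 1
    induction x using TensorProduct.induction_on with
    | zero => rw [mul_zero, zero_mul]
    | add a b ha hb => rw [mul_add, ha, hb, add_mul]
    | tmul a r =>
      rw [Algebra.TensorProduct.tmul_mul_tmul, Algebra.TensorProduct.tmul_mul_tmul, one_mul,
        mul_one, mul_comm]

theorem esm_tm (e f : E) (n : N) : esm (k := k) (Λ := Λ) e (tm k E f n) = tm k E (e * f) n := by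
  show (e ⊗ₜ[k] (1 : Λ)) • (tm k E f n) = _
  rw [smul_tm, one_smul]

theorem hom_ext {X : Type*} [AddCommGroup X] [Module (E ⊗[k] Λ) X]
    (f g : BC k E M →ₗ[E ⊗[k] Λ] X) (h : ∀ m, f (tm k E 1 m) = g (tm k E 1 m)) : f = g := by
  ext x
  induction x using BC_ind (k := k) (E := E) (M := M) with
  | h0 => simp
  | h1 e m =>
    have : tm k E e m = (e ⊗ₜ[k] (1 : Λ)) • tm k E 1 m := by rw [smul_tm, one_smul, mul_one]
    rw [this, map_smul, map_smul, h]
  | h2 x y hx hy => rw [map_add, map_add, hx, hy]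

/-- the key lifting lemma -/
theorem lift {A B C : Type} [AddCommGroup A] [Module k A] [Module Λ A] [IsScalarTower k Λ A]
    [AddCommGroup B] [Module k B] [Module Λ B] [IsScalarTower k Λ B]
    [AddCommGroup C] [Module k C] [Module Λ C] [IsScalarTower k Λ C]
    [Module.Finite Λ B] (u : A →ₗ[Λ] B) (v : B →ₗ[Λ] C)
    (H : ∀ g : B →ₗ[Λ] N, g ∘ₗ u = 0 → ∃ f : C →ₗ[Λ] N, f ∘ₗ v = g)
    (g : BC k E B →ₗ[E ⊗[k] Λ] BC k E N) (hg : g ∘ₗ map E u = 0) :
    ∃ f : BC k E C →ₗ[E ⊗[k] Λ] BC k E N, f ∘ₗ map E v = g := by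
  classical
  let b := Module.Basis.ofVectorSpace k E
  have hc : ∀ i, co b g i ∘ₗ u = 0 := by
    intro i
    ext a
    have h1 := LinearMap.congr_fun hg (tm k E 1 a)
    have h2 : g (tm k E 1 (u a)) = 0 := h1
    show cf b (g (tm k E 1 (u a))) i = 0
    rw [h2, map_zero, Finsupp.zero_apply]
  choose F hF using fun i => H (co b g i) (hc i)
  obtain ⟨S, hS⟩ := Module.Finite.fg_top (R := Λ) (M := B)
  let T : Finset _ := S.biUnion fun s => (cf b (g (tm k E 1 s))).support
  have hT : ∀ i, i ∉ T → co b g i = 0 := by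
    intro i hi
    apply LinearMap.ext_on hS
    intro s hs
    have hs' : s ∈ S := hs
    have : i ∉ (cf b (g (tm k E 1 s))).support := by
      intro h
      exact hi (Finset.mem_biUnion.2 ⟨s, hs', h⟩)
    rw [Finsupp.notMem_support_iff] at this
    exact this
  refine ⟨∑ i ∈ T, esm (b i) ∘ₗ map E (F i), hom_ext _ _ fun m => ?_⟩
  rw [LinearMap.comp_apply, LinearMap.sum_apply, map_tm]
  have h3 : ∀ i, (esm (b i) ∘ₗ map E (F i)) (tm k E 1 (v m)) =
      tm k E (b i) (cf b (g (tm k E 1 m)) i) := by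
    intro i
    rw [LinearMap.comp_apply, map_tm, esm_tm, mul_one]
    congr 1
    exact LinearMap.congr_fun (hF i) m
  rw [Finset.sum_congr rfl fun i _ => h3 i]
  conv_rhs => rw [← cf_sum b (g (tm k E 1 m))]
  rw [Finsupp.sum]
  symm
  apply Finset.sum_subset
  · intro i hi
    by_contra h
    have h4 := LinearMap.congr_fun (hT i h) m
    rw [Finsupp.mem_support_iff] at hi
    exact hi h4
  · intro i _ hi
    rw [Finsupp.notMem_support_iff] at hi
    rw [hi]
    exact TensorProduct.tmul_zero _ _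

end coord

end Crest.Agent.R186.BC234
end

-- ▼ part R186/Rad_234
section

/-!
Row 186 (helper234): the Jacobson radical under a split surjection and under base change.
-/

set_option autoImplicit false
set_option linter.style.haveILetI false

universe u

open scoped TensorProduct

namespace Crest.Agent.R186.Rad234

section ker

variable {F : Type*} [Field F] {R : Type*} [Ring R] [Algebra F R] {n : ℕ}

theorem jac_eq_ker (Q : R →ₐ[F] (Fin n → F)) (hs : Function.Surjective Q)
    (hn : ∀ x, Q x = 0 → IsNilpotent x) : Ring.jacobson R = RingHom.ker Q := by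
  apply le_antisymm
  · haveI : RingHomSurjective Q.toRingHom := ⟨hs⟩
    have h := Ring.le_comap_jacobson Q.toRingHom
    rw [IsSemisimpleRing.jacobson_eq_bot (Fin n → F)] at h
    exact h
  · intro x hx
    rw [← Ideal.jacobson_bot, Ideal.mem_jacobson_iff]
    intro y
    have hyx : Q (y * x) = 0 := by
      rw [map_mul, show Q x = 0 from hx, mul_zero]
    have hu : IsUnit (1 + y * x) := IsNilpotent.isUnit_one_add (hn _ hyx)
    obtain ⟨z, hz⟩ := hu.exists_left_inv
    refine ⟨z, ?_⟩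
    rw [Ideal.mem_bot]
    have : z * y * x + z - 1 = z * (1 + y * x) - 1 := by noncomm_ring
    rw [this, hz, sub_self]

theorem quot_equiv (Q : R →ₐ[F] (Fin n → F)) (hs : Function.Surjective Q)
    (hn : ∀ x, Q x = 0 → IsNilpotent x) :
    Nonempty ((R ⧸ Ring.jacobson R) ≃ₐ[F] (Fin n → F)) :=
  ⟨(Ideal.quotientEquivAlgOfEq F (jac_eq_ker Q hs hn)).trans
    (Ideal.quotientKerAlgEquivOfSurjective hs)⟩

/-- conversely -/
theorem exists_surj [IsArtinianRing R] (e : Nonempty ((R ⧸ Ring.jacobson R) ≃ₐ[F] (Fin n → F))) :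
    ∃ Q : R →ₐ[F] (Fin n → F), Function.Surjective Q ∧ RingHom.ker Q = Ring.jacobson R := by
  obtain ⟨e⟩ := e
  refine ⟨e.toAlgHom.comp (Ideal.Quotient.mkₐ F (Ring.jacobson R)),
    e.surjective.comp Ideal.Quotient.mk_surjective, ?_⟩
  ext x
  rw [RingHom.mem_ker]
  constructor
  · intro h
    have h1 : e (Ideal.Quotient.mkₐ F (Ring.jacobson R) x) = 0 := h
    rw [map_eq_zero_iff _ e.injective] at h1
    exact Ideal.Quotient.eq_zero_iff_mem.1 h1
  · intro h
    have h1 : Ideal.Quotient.mkₐ F (Ring.jacobson R) x = 0 := Ideal.Quotient.eq_zero_iff_mem.2 h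
    show e (Ideal.Quotient.mkₐ F (Ring.jacobson R) x) = 0
    rw [h1, map_zero]

theorem jac_nilp [IsArtinianRing R] : ∃ m, (Ring.jacobson R) ^ m = ⊥ := by
  have h := IsArtinianRing.isNilpotent_jacobson_bot (R := R)
  rw [Ideal.jacobson_bot] at h
  exact h

theorem pow_mem_of_mem (I : Ideal R) (x : R) (hx : x ∈ I) (m : ℕ) : x ^ (m + 1) ∈ I ^ (m + 1) := by
  induction m with
  | zero =>
    rw [zero_add, pow_one]
    show x ∈ I ^ 1
    rw [Submodule.pow_one]
    exact hx
  | succ m ih =>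
    rw [pow_succ x (m + 1), Submodule.pow_succ I (n := m + 1)]
    exact Ideal.mul_mem_mul ih hx

end ker

section bc

variable (k : Type) [Field k] (E : Type u) [Field E] [Algebra k E]
variable (Λ : Type) [Ring Λ] [Algebra k Λ]

/-- `E ⊗ I` inside `E ⊗ Λ` -/
def S (I : Ideal Λ) : Submodule E (E ⊗[k] Λ) :=
  Submodule.span E {x | ∃ r ∈ I, x = (1 : E) ⊗ₜ[k] r}

variable {Λ}

theorem S_mul (I I' : Ideal Λ) (x y : E ⊗[k] Λ) (hx : x ∈ S k E Λ I) (hy : y ∈ S k E Λ I') :
    x * y ∈ S k E Λ (I * I') := by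
  refine Submodule.span_induction₂ (p := fun x y _ _ => x * y ∈ S k E Λ (I * I'))
    ?_ ?_ ?_ ?_ ?_ ?_ ?_ hx hy
  · rintro x y ⟨r, hr, rfl⟩ ⟨s, hs, rfl⟩
    rw [Algebra.TensorProduct.tmul_mul_tmul, one_mul]
    exact Submodule.subset_span ⟨r * s, Ideal.mul_mem_mul hr hs, rfl⟩
  · intro y hy
    rw [zero_mul]
    exact zero_mem _
  · intro x hx
    rw [mul_zero]
    exact zero_mem _
  · intro x y z _ _ _ h1 h2
    rw [add_mul]
    exact add_mem h1 h2
  · intro x y z _ _ _ h1 h2
    rw [mul_add]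
    exact add_mem h1 h2
  · intro r x y _ _ h
    rw [smul_mul_assoc]
    exact Submodule.smul_mem _ r h
  · intro r x y _ _ h
    rw [mul_smul_comm]
    exact Submodule.smul_mem _ r h

theorem S_bot (x : E ⊗[k] Λ) (hx : x ∈ S k E Λ ⊥) : x = 0 := by
  have : S k E Λ ⊥ ≤ ⊥ := by
    refine Submodule.span_le.2 ?_
    rintro x ⟨r, hr, rfl⟩
    rw [Ideal.mem_bot] at hr
    rw [hr, TensorProduct.tmul_zero]
    exact Submodule.zero_mem _
  exact this hx

theorem S_pow (I : Ideal Λ) (x : E ⊗[k] Λ) (hx : x ∈ S k E Λ I) (m : ℕ) :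
    x ^ (m + 1) ∈ S k E Λ (I ^ (m + 1)) := by
  induction m with
  | zero =>
    rw [zero_add, pow_one]
    show x ∈ S k E Λ (I ^ 1)
    rw [Submodule.pow_one]
    exact hx
  | succ m ih =>
    rw [pow_succ x (m + 1), Submodule.pow_succ I (n := m + 1)]
    exact S_mul k E _ _ _ _ ih hx

theorem S_nilp (I : Ideal Λ) (m : ℕ) (hm : I ^ m = ⊥) (x : E ⊗[k] Λ) (hx : x ∈ S k E Λ I) :
    IsNilpotent x := by
  refine ⟨m + 1, ?_⟩
  have h := S_pow k E I x hx m
  rw [Submodule.pow_succ, hm, Submodule.bot_mul] at h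
  exact S_bot k E _ h

variable {n : ℕ}

/-- the base changed surjection -/
noncomputable def Qb (Q : Λ →ₐ[k] (Fin n → k)) : E ⊗[k] Λ →ₐ[E] (Fin n → E) :=
  (Algebra.TensorProduct.piScalarRight k E E (Fin n)).toAlgHom.comp
    (Algebra.TensorProduct.map (AlgHom.id E E) Q)

theorem Qb_tmul (Q : Λ →ₐ[k] (Fin n → k)) (e : E) (r : Λ) :
    Qb k E Q (e ⊗ₜ[k] r) = fun i => Q r i • e := by
  have h : Qb k E Q (e ⊗ₜ[k] r) = Algebra.TensorProduct.piScalarRight k E E (Fin n)
      (e ⊗ₜ[k] (Q r)) := rfl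
  rw [h, Algebra.TensorProduct.piScalarRight_tmul]

theorem Qb_surj (Q : Λ →ₐ[k] (Fin n → k)) (hs : Function.Surjective Q) :
    Function.Surjective (Qb k E Q) := by
  have h : Function.Surjective (LinearMap.lTensor E Q.toLinearMap) :=
    LinearMap.lTensor_surjective E hs
  exact (Algebra.TensorProduct.piScalarRight k E E (Fin n)).surjective.comp h

theorem Qb_ker (Q : Λ →ₐ[k] (Fin n → k)) (x : E ⊗[k] Λ) (hx : Qb k E Q x = 0) :
    x ∈ S k E Λ (RingHom.ker Q) := by
  have h0 : (LinearMap.lTensor E Q.toLinearMap) x = 0 := by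
    have h1 : Algebra.TensorProduct.piScalarRight k E E (Fin n)
      ((LinearMap.lTensor E Q.toLinearMap) x) = 0 := hx
    rwa [map_eq_zero_iff _ (Algebra.TensorProduct.piScalarRight k E E (Fin n)).injective] at h1
  have hex : Function.Exact (LinearMap.ker Q.toLinearMap).subtype Q.toLinearMap :=
    LinearMap.exact_subtype_ker_map _
  obtain ⟨y, rfl⟩ := (Module.Flat.lTensor_exact (M := E) hex x).1 h0
  induction y using TensorProduct.induction_on with
  | zero => simp
  | tmul e r =>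
    rw [LinearMap.lTensor_tmul]
    have : e ⊗ₜ[k] (LinearMap.ker Q.toLinearMap).subtype r = e • ((1 : E) ⊗ₜ[k] (r : Λ)) := by
      rw [TensorProduct.smul_tmul', smul_eq_mul, mul_one]
      rfl
    rw [this]
    exact Submodule.smul_mem _ _ (Submodule.subset_span ⟨r, r.2, rfl⟩)
  | add a b ha hb =>
    rw [map_add]
    have h2 : ∀ y, (LinearMap.lTensor E Q.toLinearMap) ((LinearMap.lTensor E
        (LinearMap.ker Q.toLinearMap).subtype) y) = 0 := fun y =>
      (Module.Flat.lTensor_exact (M := E) hex _).2 ⟨y, rfl⟩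
    have h3 : ∀ y, Qb k E Q ((LinearMap.lTensor E (LinearMap.ker Q.toLinearMap).subtype) y) = 0 := by
      intro y
      show Algebra.TensorProduct.piScalarRight k E E (Fin n)
        ((LinearMap.lTensor E Q.toLinearMap) _) = 0
      rw [h2, map_zero]
    exact add_mem (ha (h3 a) (h2 a)) (hb (h3 b) (h2 b))

theorem Qb_nilp [FiniteDimensional k Λ] (Q : Λ →ₐ[k] (Fin n → k))
    (hQ : RingHom.ker Q = Ring.jacobson Λ) (x : E ⊗[k] Λ) (hx : Qb k E Q x = 0) :
    IsNilpotent x := by
  haveI : IsArtinianRing Λ := IsArtinianRing.of_finite k Λ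
  obtain ⟨m, hm⟩ := jac_nilp (R := Λ)
  have h := Qb_ker k E Q x hx
  rw [hQ] at h
  exact S_nilp k E _ m hm x h

/-- base change of the quotient -/
theorem quot_bc [FiniteDimensional k Λ]
    (e : Nonempty ((Λ ⧸ Ring.jacobson Λ) ≃ₐ[k] (Fin n → k))) :
    Nonempty (((E ⊗[k] Λ) ⧸ Ring.jacobson (E ⊗[k] Λ)) ≃ₐ[E] (Fin n → E)) := by
  haveI : IsArtinianRing Λ := IsArtinianRing.of_finite k Λ
  obtain ⟨Q, hs, hQ⟩ := exists_surj e
  exact quot_equiv (Qb k E Q) (Qb_surj k E Q hs) (Qb_nilp k E Q hQ)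

theorem mem_jac_bc [FiniteDimensional k Λ]
    (e : Nonempty ((Λ ⧸ Ring.jacobson Λ) ≃ₐ[k] (Fin n → k))) (r : Λ) (hr : r ∈ Ring.jacobson Λ) :
    ((1 : E) ⊗ₜ[k] r) ∈ Ring.jacobson (E ⊗[k] Λ) := by
  haveI : IsArtinianRing Λ := IsArtinianRing.of_finite k Λ
  obtain ⟨Q, hs, hQ⟩ := exists_surj e
  rw [jac_eq_ker (Qb k E Q) (Qb_surj k E Q hs) (Qb_nilp k E Q hQ), RingHom.mem_ker, Qb_tmul]
  rw [← hQ, RingHom.mem_ker] at hr
  rw [hr]
  funext i
  simp

theorem pow_bc [FiniteDimensional k Λ]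
    (e : Nonempty ((Λ ⧸ Ring.jacobson Λ) ≃ₐ[k] (Fin n → k))) (m : ℕ) (r : Λ)
    (hr : r ∈ Ring.jacobson Λ ^ (m + 1)) :
    ((1 : E) ⊗ₜ[k] r) ∈ Ring.jacobson (E ⊗[k] Λ) ^ (m + 1) := by
  induction m generalizing r with
  | zero =>
    have h1 : r ∈ Ring.jacobson Λ ^ 1 := hr
    rw [Submodule.pow_one] at h1
    show _ ∈ Ring.jacobson (E ⊗[k] Λ) ^ 1
    rw [Submodule.pow_one]
    exact mem_jac_bc k E e r h1
  | succ m ih =>
    rw [Submodule.pow_succ] at hr ⊢
    refine Submodule.mul_induction_on hr ?_ ?_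
    · intro a ha b hb
      have : (1 : E) ⊗ₜ[k] (a * b) = ((1 : E) ⊗ₜ[k] a) * ((1 : E) ⊗ₜ[k] b) := by
        rw [Algebra.TensorProduct.tmul_mul_tmul, one_mul]
      rw [this]
      exact Ideal.mul_mem_mul (ih a ha) (mem_jac_bc k E e b hb)
    · intro a b ha hb
      rw [TensorProduct.tmul_add]
      exact add_mem ha hb

theorem one_tmul_inj (r : Λ) (h : (1 : E) ⊗ₜ[k] r = 0) : r = 0 := by
  obtain ⟨ρ, hρ⟩ := (LinearMap.toSpanSingleton k E (1 : E)).exists_leftInverse_of_injective
    (LinearMap.ker_eq_bot.2 (smul_left_injective k one_ne_zero))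
  have h1 : ρ 1 = 1 := by
    have := LinearMap.congr_fun hρ 1
    simpa using this
  have h2 := congrArg (fun x => TensorProduct.lid k Λ (LinearMap.rTensor Λ ρ x)) h
  simpa [h1] using h2

theorem jac4_bc [FiniteDimensional k Λ]
    (e : Nonempty ((Λ ⧸ Ring.jacobson Λ) ≃ₐ[k] (Fin n → k))) (h4 : Ring.jacobson Λ ^ 4 ≠ ⊥) :
    Ring.jacobson (E ⊗[k] Λ) ^ 4 ≠ ⊥ := by
  obtain ⟨r, hr, hr0⟩ := Submodule.exists_mem_ne_zero_of_ne_bot h4
  intro h
  have h1 := pow_bc k E e 3 r hr
  rw [h, Ideal.mem_bot] at h1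
  exact hr0 (one_tmul_inj k E r h1)

end bc

end Crest.Agent.R186.Rad234
end

-- ▼ part R186/Shift_234
section

/-!
Row 186 (helper234): `Ext`-vanishing from an explicit sequence of syzygies.
-/

set_option autoImplicit false

universe u

open CategoryTheory CategoryTheory.Abelian

namespace Crest.Agent.R186.Shift234

variable {R : Type u} [Ring R]

/-- a sequence of syzygies `0 → X (j+1) → P j → X j → 0` such that all maps `X (j+1) → N`
extend to `P j` -/
structure SyzSeq (N : Type u) [AddCommGroup N] [Module R N] where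
  X : ℕ → Type u
  P : ℕ → Type u
  [gX : ∀ j, AddCommGroup (X j)]
  [mX : ∀ j, Module R (X j)]
  [gP : ∀ j, AddCommGroup (P j)]
  [mP : ∀ j, Module R (P j)]
  pj : ∀ j, Module.Projective R (P j)
  f : ∀ j, X (j + 1) →ₗ[R] P j
  g : ∀ j, P j →ₗ[R] X j
  fi : ∀ j, Function.Injective (f j)
  gs : ∀ j, Function.Surjective (g j)
  ex : ∀ j, Function.Exact (f j) (g j)
  lift : ∀ j (φ : X (j + 1) →ₗ[R] N), ∃ ψ : P j →ₗ[R] N, ψ ∘ₗ f j = φ

attribute [instance] SyzSeq.gX SyzSeq.mX SyzSeq.gP SyzSeq.mP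

variable {N : Type u} [AddCommGroup N] [Module R N]

/-- shift -/
def SyzSeq.shift (s : SyzSeq (R := R) N) : SyzSeq (R := R) N where
  X j := s.X (j + 1)
  P j := s.P (j + 1)
  pj j := s.pj (j + 1)
  f j := s.f (j + 1)
  g j := s.g (j + 1)
  fi j := s.fi (j + 1)
  gs j := s.gs (j + 1)
  ex j := s.ex (j + 1)
  lift j := s.lift (j + 1)

/-- the short exact sequence -/
noncomputable abbrev SyzSeq.sc (s : SyzSeq (R := R) N) : ShortComplex (ModuleCat.{u} R) :=
  ModuleCat.shortComplexOfCompEqZero (s.f 0) (s.g 0) (s.ex 0).linearMap_comp_eq_zero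

theorem SyzSeq.sc_se (s : SyzSeq (R := R) N) : s.sc.ShortExact :=
  ModuleCat.shortComplex_shortExact _ (s.ex 0) (s.fi 0) (s.gs 0)

theorem SyzSeq.projP (s : SyzSeq (R := R) N) : Projective s.sc.X₂ := by
  haveI := s.pj 0
  exact (IsProjective.iff_projective (ModuleCat.of R (s.P 0))).1 inferInstance

theorem SyzSeq.ext_zero (i : ℕ) : ∀ (s : SyzSeq (R := R) N),
    Subsingleton (Ext (ModuleCat.of R (s.X 0)) (ModuleCat.of R N) (i + 1)) := by
  induction i with
  | zero =>
    intro s
    have hz : ∀ x : Ext s.sc.X₃ (ModuleCat.of R N) (0 + 1), x = 0 := by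
      intro x
      haveI := s.projP
      have h0 : (Ext.mk₀ s.sc.g).comp x (zero_add _) = 0 := Ext.eq_zero_of_projective _
      obtain ⟨y, hy⟩ := Ext.contravariant_sequence_exact₃ s.sc_se (ModuleCat.of R N) x h0
        (add_comm 1 0)
      obtain ⟨φ, rfl⟩ := Ext.homEquiv₀.symm.surjective y
      obtain ⟨ψ, hψ⟩ := s.lift 0 φ.hom
      have h1 : φ = s.sc.f ≫ (ModuleCat.ofHom ψ) := by
        ext1
        exact hψ.symm
      rw [← hy, Ext.homEquiv₀_symm_apply, h1, ← Ext.mk₀_comp_mk₀]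
      have h2 := s.sc_se.extClass_comp
      rw [← Ext.comp_assoc (s.sc_se.extClass) (Ext.mk₀ s.sc.f) (Ext.mk₀ (ModuleCat.ofHom ψ))
        (add_zero 1) (zero_add 0) (by omega)]
      rw [s.sc_se.extClass_comp, Ext.zero_comp]
    exact ⟨fun a b => by rw [hz a, hz b]⟩
  | succ i ih =>
    intro s
    have hz : ∀ x : Ext s.sc.X₃ (ModuleCat.of R N) (i + 1 + 1), x = 0 := by
      intro x
      haveI := s.projP
      have h0 : (Ext.mk₀ s.sc.g).comp x (zero_add _) = 0 := Ext.eq_zero_of_projective _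
      obtain ⟨y, hy⟩ := Ext.contravariant_sequence_exact₃ s.sc_se (ModuleCat.of R N) x h0
        (add_comm 1 (i + 1))
      have : y = 0 := (ih s.shift).elim _ _
      rw [← hy, this, Ext.comp_zero]
    exact ⟨fun a b => by rw [hz a, hz b]⟩

theorem SyzSeq.ext_pos (s : SyzSeq (R := R) N) (i : ℕ) (hi : 0 < i) :
    Subsingleton (Ext (ModuleCat.of R (s.X 0)) (ModuleCat.of R N) i) := by
  obtain ⟨j, rfl⟩ := Nat.exists_eq_add_of_le' hi
  exact SyzSeq.ext_zero j s

end Crest.Agent.R186.Shift234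
end

-- ▼ part R186/Frame1_234

/-!
Row 186 (helper234): `GorProjVanishingData` is stable under extension of the base field, in the
literal form of S0281.
-/

set_option autoImplicit false
set_option linter.unusedSectionVars false
set_option linter.style.haveILetI false

universe u

open scoped TensorProduct
open CategoryTheory CategoryTheory.Abelian Crest.AlgebraR

namespace Crest.Agent.R186.Frame234

open BC234 Rad234 Shift234 Syz700

variable {k : Type} [Field k] (E : Type u) [Field E] [Algebra k E]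
variable {Λ : Type} [Ring Λ] [Algebra k Λ]

section proj

/-- `E ⊗ Λ^n` is a retract of `(E ⊗ Λ)^n` -/
noncomputable def ri (n : ℕ) :
    BC k E (Fin n → Λ) →ₗ[E ⊗[k] Λ] (Fin n → E ⊗[k] Λ) :=
  LinearMap.pi fun i => (self (k := k) (Λ := Λ) E).toLinearMap ∘ₗ
    BC234.map E (LinearMap.proj i : (Fin n → Λ) →ₗ[Λ] Λ)

noncomputable def rp (n : ℕ) :
    (Fin n → E ⊗[k] Λ) →ₗ[E ⊗[k] Λ] BC k E (Fin n → Λ) :=
  ∑ i, BC234.map E (LinearMap.single Λ (fun _ : Fin n => Λ) i) ∘ₗ
    (self (k := k) (Λ := Λ) E).symm.toLinearMap ∘ₗ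
    (LinearMap.proj i : (Fin n → E ⊗[k] Λ) →ₗ[E ⊗[k] Λ] (E ⊗[k] Λ))

theorem tm_sum {M : Type} [AddCommGroup M] [Module k M] {ι : Type*} (s : Finset ι) (f : ι → M)
    (e : E) : tm k E e (∑ i ∈ s, f i) = ∑ i ∈ s, tm k E e (f i) :=
  TensorProduct.tmul_sum _ _ _

theorem rp_ri (n : ℕ) : rp (k := k) (Λ := Λ) E n ∘ₗ ri E n = LinearMap.id := by
  apply hom_ext
  intro m
  have h1 : ∀ i, (BC234.map E (LinearMap.single Λ (fun _ : Fin n => Λ) i) ∘ₗ
    (self (k := k) (Λ := Λ) E).symm.toLinearMap ∘ₗ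
    (LinearMap.proj i : (Fin n → E ⊗[k] Λ) →ₗ[E ⊗[k] Λ] (E ⊗[k] Λ)))
      (ri E n (tm k E 1 m)) = tm k E 1 (Pi.single i (m i)) := by
    intro i
    rfl
  rw [LinearMap.comp_apply, rp, LinearMap.sum_apply, Finset.sum_congr rfl fun i _ => h1 i,
    ← tm_sum, Finset.univ_sum_single]
  rfl

theorem proj_free (n : ℕ) : Module.Projective (E ⊗[k] Λ) (BC k E (Fin n → Λ)) :=
  Module.Projective.of_split (ri E n) (rp E n) (rp_ri E n)

theorem finite_free (n : ℕ) : Module.Finite (E ⊗[k] Λ) (BC k E (Fin n → Λ)) :=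
  Module.Finite.of_surjective (rp (k := k) (Λ := Λ) E n) fun x =>
    ⟨ri E n x, LinearMap.congr_fun (rp_ri (k := k) (Λ := Λ) E n) x⟩

variable (P : Type) [AddCommGroup P] [Module k P] [Module Λ P] [IsScalarTower k Λ P]

theorem finite_bc [Module.Finite Λ P] : Module.Finite (E ⊗[k] Λ) (BC k E P) := by
  obtain ⟨n, f, hf⟩ := Module.Finite.exists_fin' Λ P
  haveI := finite_free (k := k) (Λ := Λ) E n
  exact Module.Finite.of_surjective (BC234.map E f) (map_surj (k := k) E hf)

theorem proj_bc [Module.Finite Λ P] [Module.Projective Λ P] :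
    Module.Projective (E ⊗[k] Λ) (BC k E P) := by
  obtain ⟨n, f, hf⟩ := Module.Finite.exists_fin' Λ P
  obtain ⟨h, hh⟩ := Module.projective_lifting_property f LinearMap.id hf
  haveI := proj_free (k := k) (Λ := Λ) E n
  refine Module.Projective.of_split (BC234.map E h) (BC234.map E f) ?_
  rw [← map_comp, hh, map_id]

end proj

section descent

theorem exists_rho : ∃ ρ : E →ₗ[k] k, ρ 1 = 1 := by
  obtain ⟨ρ, hρ⟩ := (LinearMap.toSpanSingleton k E (1 : E)).exists_leftInverse_of_injective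
    (LinearMap.ker_eq_bot.2 (smul_left_injective k one_ne_zero))
  have := LinearMap.congr_fun hρ 1
  exact ⟨ρ, by simpa using this⟩

variable {E} (ρ : E →ₗ[k] k)

variable {N : Type} [AddCommGroup N] [Module k N] [Module Λ N] [IsScalarTower k Λ N]

/-- retraction `E ⊗ N → N` -/
noncomputable def rho : BC k E N →ₗ[k] N :=
  (TensorProduct.lid k N).toLinearMap ∘ₗ LinearMap.rTensor N ρ

theorem rho_tm (e : E) (n : N) : rho ρ (tm k E e n) = ρ e • n := by
  show TensorProduct.lid k N (LinearMap.rTensor N ρ (e ⊗ₜ[k] n)) = _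
  simp

theorem rho_smul (r : Λ) (y : BC k E N) : rho ρ (((1 : E) ⊗ₜ[k] r) • y) = r • rho ρ y := by
  induction y using BC_ind (k := k) (E := E) (M := N) with
  | h0 => simp
  | h1 e m =>
    rw [smul_tm, rho_tm, rho_tm, one_mul]
    rw [← algebraMap_smul Λ (ρ e) (r • m), ← algebraMap_smul Λ (ρ e) m,
      ← mul_smul, ← mul_smul, Algebra.commutes]
  | h2 x y hx hy => rw [smul_add, map_add, map_add, hx, hy, smul_add]

theorem rho_map {M : Type} [AddCommGroup M] [Module k M] [Module Λ M] [IsScalarTower k Λ M]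
    (f : M →ₗ[Λ] N) (y : BC k E M) : rho ρ (BC234.map E f y) = f (rho ρ y) := by
  induction y using BC_ind (k := k) (E := E) (M := M) with
  | h0 => simp
  | h1 e m =>
    rw [map_tm, rho_tm, rho_tm, ← algebraMap_smul Λ (ρ e) (f m), ← algebraMap_smul Λ (ρ e) m,
      map_smul]
  | h2 x y hx hy => rw [map_add, map_add, hx, hy, map_add, map_add]

variable (E)

/-- projectivity descends -/
theorem proj_descent (Z : Type) [AddCommGroup Z] [Module k Z] [Module Λ Z] [IsScalarTower k Λ Z]
    [Module.Finite Λ Z] (h : Module.Projective (E ⊗[k] Λ) (BC k E Z)) :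
    Module.Projective Λ Z := by
  obtain ⟨n, f, hf⟩ := Module.Finite.exists_fin' Λ Z
  obtain ⟨s, hs⟩ := Module.projective_lifting_property (BC234.map E (k := k) f) LinearMap.id
    (map_surj (k := k) E hf)
  obtain ⟨ρ, hρ⟩ := exists_rho (k := k) E
  let σ : Z →ₗ[Λ] (Fin n → Λ) :=
    { toFun := fun z => rho ρ (s (tm k E 1 z))
      map_add' := fun x y => by
        have : tm k E (1 : E) (x + y) = tm k E 1 x + tm k E 1 y := TensorProduct.tmul_add _ _ _
        rw [this, map_add, map_add]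
      map_smul' := fun r x => by
        have : tm k E (1 : E) (r • x) = ((1 : E) ⊗ₜ[k] r) • tm k E 1 x := by
          rw [smul_tm, one_mul]
        rw [this, map_smul, rho_smul, RingHom.id_apply] }
  refine Module.Projective.of_split σ f (LinearMap.ext fun z => ?_)
  show f (rho ρ (s (tm k E 1 z))) = z
  rw [← rho_map]
  have h1 := LinearMap.congr_fun hs (tm k E 1 z)
  have h2 : BC234.map E f (s (tm k E 1 z)) = tm k E 1 z := h1
  rw [h2, rho_tm, hρ, one_smul]

end descent

section ext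

/-- bundled finite modules with a compatible `k`-structure -/
structure FK (k Λ : Type) [Field k] [Ring Λ] [Algebra k Λ] where
  X : Type
  [grp : AddCommGroup X]
  [modk : Module k X]
  [mod : Module Λ X]
  [tow : IsScalarTower k Λ X]
  [fin : Module.Finite Λ X]

attribute [instance] FK.grp FK.modk FK.mod FK.tow FK.fin

/-- forget -/
def FK.toFM (M : FK k Λ) : FM Λ := ⟨M.X⟩

variable [IsNoetherianRing Λ]

/-- syzygy -/
noncomputable def FK.syz (M : FK k Λ) : FK k Λ :=
  { X := LinearMap.ker M.toFM.cov }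

/-- inclusion of the syzygy -/
noncomputable def FK.inc (M : FK k Λ) : M.syz.X →ₗ[Λ] (Fin M.toFM.n → Λ) := M.toFM.inc

/-- the cover -/
noncomputable def FK.cov (M : FK k Λ) : (Fin M.toFM.n → Λ) →ₗ[Λ] M.X := M.toFM.cov

/-- iterated syzygies -/
noncomputable def OmK (M : FK k Λ) : ℕ → FK k Λ
  | 0 => M
  | j + 1 => (OmK M j).syz

theorem ext_OmK (M : FK k Λ) (Y : ModuleCat.{0} Λ)
    (h : ∀ i : ℕ, 0 < i → Subsingleton (Ext (ModuleCat.of Λ M.X) Y i)) (j : ℕ) :
    ∀ i : ℕ, 0 < i → Subsingleton (Ext (ModuleCat.of Λ (OmK M j).X) Y i) := by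
  induction j with
  | zero => exact h
  | succ j ih => exact ext_syz (OmK M j).toFM Y ih

theorem lift_FK (M : FK k Λ) (N : Type) [AddCommGroup N] [Module k N] [Module Λ N]
    [IsScalarTower k Λ N]
    (h : Subsingleton (Ext (ModuleCat.of Λ M.X) (ModuleCat.of Λ N) 1))
    (φ : BC k E M.syz.X →ₗ[E ⊗[k] Λ] BC k E N) :
    ∃ ψ : BC k E (Fin M.toFM.n → Λ) →ₗ[E ⊗[k] Λ] BC k E N, ψ ∘ₗ BC234.map E M.inc = φ := by
  refine BC234.lift (0 : M.syz.X →ₗ[Λ] M.syz.X) M.inc (fun g _ => ?_) φ ?_
  · exact lift_of_ext M.toFM N h g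
  · rw [map_zero', LinearMap.comp_zero]

/-- the base changed syzygy sequence -/
noncomputable def seq (M : FK k Λ) (N : Type) [AddCommGroup N] [Module k N] [Module Λ N]
    [IsScalarTower k Λ N]
    (h : ∀ i : ℕ, 0 < i → Subsingleton (Ext (ModuleCat.of Λ M.X) (ModuleCat.of Λ N) i)) :
    SyzSeq (R := E ⊗[k] Λ) (BC k E N) where
  X j := BC k E (OmK M j).X
  P j := BC k E (Fin (OmK M j).toFM.n → Λ)
  pj j := proj_free E _
  f j := BC234.map E (OmK M j).inc
  g j := BC234.map E (OmK M j).cov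
  fi j := map_inj (k := k) E (OmK M j).toFM.inc_inj
  gs j := map_surj (k := k) E (OmK M j).toFM.cov_surj
  ex j := map_exact (k := k) E (f := (OmK M j).inc) (g := (OmK M j).cov)
    (by
      intro y
      constructor
      · intro hy
        exact (OmK M j).toFM.exists_inc y hy
      · rintro ⟨x, rfl⟩
        exact LinearMap.congr_fun (OmK M j).toFM.cov_inc x)
  lift j φ := lift_FK E (OmK M j) N (ext_OmK M _ h j 1 one_pos) φ

theorem ext_bc (M : FK k Λ) (N : Type) [AddCommGroup N] [Module k N] [Module Λ N]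
    [IsScalarTower k Λ N]
    (h : ∀ i : ℕ, 0 < i → Subsingleton (Ext (ModuleCat.of Λ M.X) (ModuleCat.of Λ N) i))
    (i : ℕ) (hi : 0 < i) :
    Subsingleton (Ext (ModuleCat.of (E ⊗[k] Λ) (BC k E M.X))
      (ModuleCat.of (E ⊗[k] Λ) (BC k E N)) i) :=
  (seq E M N h).ext_pos i hi

end ext

end Crest.Agent.R186.Frame234
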