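import Mathlib
import Crest.Prelude.Def_GorProjVanishing
import Crest.Agent.R186.Frame1_234
import Crest.Agent.R186.Frob_700

-- ▼ part R186/Frame2_234
section

/-!
Row 186 (helper234): `GorProjVanishingData` is stable under extension of the base field, in the
literal form of S0281.
-/

set_option autoImplicit false
set_option linter.unusedSectionVars false
set_option linter.style.haveILetI false

universe u

open scoped TensorProduct
open CategoryTheory CategoryTheory.Abelian Crest.AlgebraR

namespace Crest.Agent.R186.Frame234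

open BC234 Rad234 Shift234 Syz700

theorem ext_iso_right {C : Type*} [Category C] [Abelian C] [HasExt C] {X Y Y' : C} (e : Y ≅ Y')
    (i : ℕ) (h : Subsingleton (Ext X Y i)) : Subsingleton (Ext X Y' i) := by
  have hz : ∀ x : Ext X Y' i, x = 0 := by
    intro x
    have h1 : x.comp (Ext.mk₀ e.inv) (add_zero i) = 0 := h.elim _ _
    have h2 : (x.comp (Ext.mk₀ e.inv) (add_zero i)).comp (Ext.mk₀ e.hom) (add_zero i) = x := by
      rw [Ext.comp_assoc x (Ext.mk₀ e.inv) (Ext.mk₀ e.hom) (add_zero i) (add_zero 0)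
        (by omega), Ext.mk₀_comp_mk₀, e.inv_hom_id, Ext.comp_mk₀_id]
    rw [← h2, h1, Ext.zero_comp]
  exact ⟨fun a b => by rw [hz a, hz b]⟩

theorem ext_iso_left {C : Type*} [Category C] [Abelian C] [HasExt C] {X X' Y : C} (e : X ≅ X')
    (i : ℕ) (h : Subsingleton (Ext X Y i)) : Subsingleton (Ext X' Y i) := by
  have hz : ∀ x : Ext X' Y i, x = 0 := by
    intro x
    have h1 : (Ext.mk₀ e.hom).comp x (zero_add i) = 0 := h.elim _ _
    have h2 : (Ext.mk₀ e.inv).comp ((Ext.mk₀ e.hom).comp x (zero_add i)) (zero_add i) = x := by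
      rw [← Ext.comp_assoc (Ext.mk₀ e.inv) (Ext.mk₀ e.hom) x (add_zero 0) (zero_add i)
        (by omega), Ext.mk₀_comp_mk₀, e.inv_hom_id, Ext.mk₀_id_comp]
    rw [← h2, h1, Ext.comp_zero]
  exact ⟨fun a b => by rw [hz a, hz b]⟩

variable {k : Type} [Field k] (E : Type u) [Field E] [Algebra k E]
variable {Λ : Type} [Ring Λ] [Algebra k Λ]

theorem gproj_bc (Z : Type) [AddCommGroup Z] [Module k Z] [Module Λ Z] [IsScalarTower k Λ Z]
    (h : IsGorensteinProjective Λ Z) : IsGorensteinProjective (E ⊗[k] Λ) (BC k E Z) := by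
  obtain ⟨P, i1, i2, d, hP, hex, hom, ⟨e⟩⟩ := h
  letI i3 : ∀ n, Module k (P n) := fun n => Module.compHom (P n) (algebraMap k Λ)
  haveI i4 : ∀ n, IsScalarTower k Λ (P n) := fun n => ⟨fun r a x => by
    show (r • a) • x = algebraMap k Λ r • (a • x)
    rw [Algebra.smul_def, mul_smul]⟩
  haveI i5 : ∀ n, Module.Finite Λ (P n) := fun n => (hP n).1
  haveI i6 : ∀ n, Module.Projective Λ (P n) := fun n => (hP n).2
  refine ⟨fun n => BC k E (P n), fun n => inferInstance, fun n => inferInstance,
    fun n => BC234.map E (d n), fun n => ⟨finite_bc E (P n), proj_bc E (P n)⟩,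
    fun n => map_exact E (hex n), ?_, ?_⟩
  · intro n g
    constructor
    · intro hg
      have hg' : g ∘ₗ BC234.map E (d (n + 1)) = 0 := hg
      obtain ⟨f, hf⟩ := BC234.lift (E := E) (N := Λ) (d (n + 1)) (d n)
        (fun g h => (hom n g).1 h)
        ((self (k := k) (Λ := Λ) E).symm.toLinearMap ∘ₗ g)
        (by rw [LinearMap.comp_assoc, hg', LinearMap.comp_zero])
      refine ⟨(self (k := k) (Λ := Λ) E).toLinearMap ∘ₗ f, ?_⟩
      show ((self (k := k) (Λ := Λ) E).toLinearMap ∘ₗ f) ∘ₗ BC234.map E (d n) = g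
      rw [LinearMap.comp_assoc, hf]
      rfl
    · rintro ⟨f, rfl⟩
      show (f ∘ₗ BC234.map E (d n)) ∘ₗ BC234.map E (d (n + 1)) = 0
      rw [LinearMap.comp_assoc, ← map_comp, (hex n).linearMap_comp_eq_zero, map_zero',
        LinearMap.comp_zero]
  · let π : P 0 →ₗ[Λ] Z := e.symm.toLinearMap ∘ₗ (LinearMap.range (d 0)).mkQ
    have hπ : Function.Surjective π :=
      e.symm.surjective.comp (Submodule.mkQ_surjective _)
    have hx : Function.Exact (d 0) π := by
      intro y
      constructor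
      · intro hy
        have h1 : (LinearMap.range (d 0)).mkQ y = 0 := by
          have : e.symm ((LinearMap.range (d 0)).mkQ y) = 0 := hy
          rwa [map_eq_zero_iff _ e.symm.injective] at this
        rw [Submodule.mkQ_apply, Submodule.Quotient.mk_eq_zero] at h1
        exact h1
      · rintro ⟨x, rfl⟩
        have h1 : (LinearMap.range (d 0)).mkQ (d 0 x) = 0 := by
          rw [Submodule.mkQ_apply, Submodule.Quotient.mk_eq_zero]
          exact ⟨x, rfl⟩
        show e.symm ((LinearMap.range (d 0)).mkQ (d 0 x)) = 0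
        rw [h1, map_zero]
    have hx' := map_exact (k := k) E hx
    have hs' := map_surj (k := k) E hπ
    exact ⟨((Submodule.quotEquivOfEq _ _ (LinearMap.exact_iff.1 hx').symm).trans
      (LinearMap.quotKerEquivOfSurjective _ hs')).symm⟩

/-- literal second half of S0281 -/
theorem frame (Z : Type) [AddCommGroup Z] [Module Λ Z] [Module k Z] [IsScalarTower k Λ Z]
    (H : GorProjVanishingData k Λ Z) :
    ∃ (_ : Module (E ⊗[k] Λ) (E ⊗[k] Z)),
      (∀ (a b : E) (r : Λ) (z : Z),
        (a ⊗ₜ[k] r) • (b ⊗ₜ[k] z) = (a * b) ⊗ₜ[k] (r • z)) ∧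
      GorProjVanishingData E (E ⊗[k] Λ) (E ⊗[k] Z) := by
  obtain ⟨h1, h2, h3, h4, h5, h6, h7, h8⟩ := H
  haveI : IsNoetherianRing Λ := isNoetherian_of_tower k (inferInstance : IsNoetherian k Λ)
  refine ⟨(inferInstance : Module (E ⊗[k] Λ) (BC k E Z)), fun a b r z => smul_tm Λ a r b z, ?_⟩
  refine ⟨inferInstance, quot_bc k E h2, jac4_bc k E h2 h3, finite_bc E Z,
    fun h => h5 (proj_descent E Z h), gproj_bc E Z h6, fun i hi => ?_, fun i hi => ?_⟩
  · exact ext_bc E (⟨Z⟩ : FK k Λ) Z h7 i hi
  · exact ext_iso_right ((self (k := k) (Λ := Λ) E).toModuleIso) i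
      (ext_bc E (⟨Z⟩ : FK k Λ) Λ h8 i hi)

/-- S0281 from a single pair over the ground field -/
theorem c0281 (K : Type) [Field K] (Λ : Type) [Ring Λ] [Algebra K Λ] (Z : Type) [AddCommGroup Z]
    [Module Λ Z] [Module K Z] [IsScalarTower K Λ Z] (H : GorProjVanishingData K Λ Z) :
    ∃ (Λ : Type) (_ : Ring Λ) (_ : Algebra K Λ) (Z : Type) (_ : AddCommGroup Z)
      (_ : Module Λ Z) (_ : Module K Z) (_ : IsScalarTower K Λ Z),
      GorProjVanishingData K Λ Z ∧
      ∀ (E : Type u) [Field E] [Algebra K E],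
        ∃ (_ : Module (E ⊗[K] Λ) (E ⊗[K] Z)),
          (∀ (a b : E) (r : Λ) (z : Z),
            (a ⊗ₜ[K] r) • (b ⊗ₜ[K] z) = (a * b) ⊗ₜ[K] (r • z)) ∧
          GorProjVanishingData E (E ⊗[K] Λ) (E ⊗[K] Z) :=
  ⟨Λ, inferInstance, inferInstance, Z, inferInstance, inferInstance, inferInstance,
    inferInstance, H, fun E _ _ => frame E Z H⟩

end Crest.Agent.R186.Frame234
end

-- ▼ part R186/Pad_234
section

/-!
Row 186 (helper234): padding by a factor ring.
-/

set_option autoImplicit false
set_option linter.unusedSectionVars false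
set_option linter.style.haveILetI false

universe u

open scoped TensorProduct
open CategoryTheory CategoryTheory.Abelian Crest.AlgebraR

namespace Crest.Agent.R186.Pad234

open Rad234 Shift234 Syz700 Frame234

section ExtRing

/-- `Ext^i (Z, Λ) = 0` for Gorenstein-projective `Z` -/
noncomputable def gseq {Λ : Type u} [Ring Λ] (P : ℤ → Type u) [∀ n, AddCommGroup (P n)]
    [∀ n, Module Λ (P n)] (d : ∀ n : ℤ, P (n + 1) →ₗ[Λ] P n)
    (hP : ∀ n, Module.Projective Λ (P n))
    (hex : ∀ n : ℤ, Function.Exact (d (n + 1)) (d n))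
    (hom : ∀ n : ℤ, Function.Exact (fun f : P n →ₗ[Λ] Λ => f ∘ₗ d n)
      (fun g : P (n + 1) →ₗ[Λ] Λ => g ∘ₗ d (n + 1))) : SyzSeq (R := Λ) Λ where
  X j := P j ⧸ LinearMap.range (d j)
  P j := P j
  pj j := hP j
  f j := (LinearMap.range (d ((j : ℤ) + 1))).liftQ (d j) (by
    rintro _ ⟨x, rfl⟩
    exact (hex j _).2 ⟨x, rfl⟩)
  g j := (LinearMap.range (d (j : ℤ))).mkQ
  fi j := by
    rw [← LinearMap.ker_eq_bot]
    apply Submodule.ker_liftQ_eq_bot
    rw [LinearMap.exact_iff.1 (hex j)]
  gs j := Submodule.mkQ_surjective _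
  ex j := by
    intro y
    constructor
    · intro hy
      rw [Submodule.mkQ_apply, Submodule.Quotient.mk_eq_zero] at hy
      obtain ⟨x, rfl⟩ := hy
      exact ⟨Submodule.Quotient.mk x, rfl⟩
    · rintro ⟨x, rfl⟩
      obtain ⟨x, rfl⟩ := Submodule.mkQ_surjective _ x
      rw [Submodule.mkQ_apply, Submodule.mkQ_apply, Submodule.Quotient.mk_eq_zero]
      exact ⟨x, rfl⟩
  lift j φ := by
    obtain ⟨f, hf⟩ := (hom j (φ ∘ₗ (LinearMap.range (d ((j : ℤ) + 1))).mkQ)).1 (by
      show (φ ∘ₗ (LinearMap.range (d ((j : ℤ) + 1))).mkQ) ∘ₗ d ((j : ℤ) + 1) = 0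
      rw [LinearMap.comp_assoc, LinearMap.range_mkQ_comp, LinearMap.comp_zero])
    refine ⟨f, ?_⟩
    apply Submodule.linearMap_qext
    exact hf

theorem ext_ring {Λ : Type u} [Ring Λ] (Z : Type u) [AddCommGroup Z] [Module Λ Z]
    (h : IsGorensteinProjective Λ Z) (i : ℕ) (hi : 0 < i) :
    Subsingleton (Ext (ModuleCat.of Λ Z) (ModuleCat.of Λ Λ) i) := by
  obtain ⟨P, i1, i2, d, hP, hex, hom, ⟨e⟩⟩ := h
  have h1 := (gseq P d (fun n => (hP n).2) hex hom).ext_pos i hi
  exact ext_iso_left e.symm.toModuleIso i h1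

end ExtRing

section infl

variable (R B : Type) [Ring R] [Ring B]

/-- inflation of an `R`-module to `R × B` -/
def IM (_B : Type) (M : Type) : Type := M

variable (M : Type) [AddCommGroup M] [Module R M]

instance : AddCommGroup (IM B M) := inferInstanceAs (AddCommGroup M)

instance : Module (R × B) (IM B M) :=
  Module.compHom M (RingHom.fst R B)

variable {R M}

/-- `IM` on elements -/
def im (x : M) : IM B M := x

variable {B}

/-- `IM⁻¹` on elements -/
def un (x : IM B M) : M := x


variable {N : Type} [AddCommGroup N] [Module R N]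

/-- maps -/
def imap (B : Type) [Ring B] (f : M →ₗ[R] N) : IM B M →ₗ[R × B] IM B N where
  toFun x := im B (f (un x))
  map_add' x y := map_add f x y
  map_smul' x y := map_smul f x.1 (un y)

/-- maps back -/
def unmap (f : IM B M →ₗ[R × B] IM B N) : M →ₗ[R] N where
  toFun x := un (f (im B x))
  map_add' x y := map_add f x y
  map_smul' x y := by
    have h := f.map_smul ((x, 0) : R × B) (im B y)
    exact h



variable (R B)

/-- the embedding `IM (R^n) → (R × B)^n` -/
def imi (n : ℕ) : IM B (Fin n → R) →ₗ[R × B] (Fin n → R × B) where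
  toFun x := fun i => ((un x) i, 0)
  map_add' x y := by
    funext i
    exact Prod.ext rfl (add_zero 0).symm
  map_smul' x y := by
    funext i
    exact Prod.ext rfl (mul_zero x.2).symm

/-- the projection -/
def imp (n : ℕ) : (Fin n → R × B) →ₗ[R × B] IM B (Fin n → R) where
  toFun x := im B fun i => (x i).1
  map_add' _ _ := rfl
  map_smul' _ _ := rfl

theorem imp_imi (n : ℕ) : imp R B n ∘ₗ imi R B n = LinearMap.id := rfl

theorem proj_free (n : ℕ) : Module.Projective (R × B) (IM B (Fin n → R)) :=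
  Module.Projective.of_split (imi R B n) (imp R B n) (imp_imi R B n)

variable {R}

theorem finite_im [Module.Finite R M] : Module.Finite (R × B) (IM B M) := by
  obtain ⟨n, f, hf⟩ := Module.Finite.exists_fin' R M
  haveI : Module.Finite (R × B) (IM B (Fin n → R)) :=
    Module.Finite.of_surjective (imp R B n) fun x => ⟨imi R B n x, rfl⟩
  exact Module.Finite.of_surjective (imap B f) hf

theorem proj_im [Module.Finite R M] [Module.Projective R M] :
    Module.Projective (R × B) (IM B M) := by
  obtain ⟨n, f, hf⟩ := Module.Finite.exists_fin' R M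
  obtain ⟨h, hh⟩ := Module.projective_lifting_property f LinearMap.id hf
  haveI := proj_free R B n
  refine Module.Projective.of_split (imap B h) (imap B f) ?_
  ext x
  exact LinearMap.congr_fun hh x

theorem proj_of_im [Module.Finite R M] (h : Module.Projective (R × B) (IM B M)) :
    Module.Projective R M := by
  obtain ⟨n, f, hf⟩ := Module.Finite.exists_fin' R M
  obtain ⟨s, hs⟩ := Module.projective_lifting_property (imap B f) LinearMap.id hf
  refine Module.Projective.of_split (unmap s) f ?_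
  ext x
  exact LinearMap.congr_fun hs x

/-- maps to the ring -/
def toRing (f : IM B M →ₗ[R × B] IM B R) : IM B M →ₗ[R × B] (R × B) where
  toFun x := (un (f x), 0)
  map_add' x y := by
    rw [map_add]
    exact Prod.ext rfl (add_zero 0).symm
  map_smul' x y := by
    rw [map_smul]
    exact Prod.ext rfl (mul_zero x.2).symm

/-- maps from the ring -/
def ofRing (f : IM B M →ₗ[R × B] (R × B)) : IM B M →ₗ[R × B] IM B R where
  toFun x := im B (f x).1
  map_add' x y := by rw [map_add]; rfl
  map_smul' x y := by rw [map_smul]; rfl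

theorem toRing_ofRing (f : IM B M →ₗ[R × B] (R × B)) : toRing B (ofRing B f) = f := by
  ext x
  · rfl
  · have h1 : x = ((1, 0) : R × B) • x := by
      show x = im B ((1 : R) • un x)
      rw [one_smul]
      rfl
    have h2 : (f x).2 = 0 := by
      conv_lhs => rw [h1, map_smul]
      show (0 : B) * (f x).2 = 0
      rw [zero_mul]
    exact h2.symm

theorem gproj_im (Z : Type) [AddCommGroup Z] [Module R Z] (h : IsGorensteinProjective R Z) :
    IsGorensteinProjective (R × B) (IM B Z) := by
  obtain ⟨P, i1, i2, d, hP, hex, hom, ⟨e⟩⟩ := h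
  haveI i5 : ∀ n, Module.Finite R (P n) := fun n => (hP n).1
  haveI i6 : ∀ n, Module.Projective R (P n) := fun n => (hP n).2
  refine ⟨fun n => IM B (P n), fun n => inferInstance, fun n => inferInstance,
    fun n => imap B (d n), fun n => ⟨finite_im B, proj_im B⟩, fun n => hex n, ?_, ?_⟩
  · intro n g
    constructor
    · intro hg
      have hg' : g ∘ₗ imap B (d (n + 1)) = 0 := hg
      have h1 : unmap (ofRing B g) ∘ₗ d (n + 1) = 0 := by
        ext x
        have := LinearMap.congr_fun hg' x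
        exact congrArg Prod.fst this
      obtain ⟨f, hf⟩ := (hom n _).1 h1
      refine ⟨toRing B (imap B f), ?_⟩
      show toRing B (imap B f) ∘ₗ imap B (d n) = g
      rw [← toRing_ofRing B g]
      ext x
      · exact LinearMap.congr_fun hf x
      · rfl
    · rintro ⟨f, rfl⟩
      show (f ∘ₗ imap B (d n)) ∘ₗ imap B (d (n + 1)) = 0
      rw [LinearMap.comp_assoc]
      have : imap B (d n) ∘ₗ imap B (d (n + 1)) = 0 := by
        ext x
        exact LinearMap.congr_fun (hex n).linearMap_comp_eq_zero x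
      rw [this, LinearMap.comp_zero]
  · let e1 : IM B Z ≃ₗ[R × B] IM B (P 0 ⧸ LinearMap.range (d 0)) :=
      LinearEquiv.ofBijective (imap B e.toLinearMap) e.bijective
    let q : IM B (P 0) →ₗ[R × B] IM B (P 0 ⧸ LinearMap.range (d 0)) :=
      imap B (LinearMap.range (d 0)).mkQ
    have hq : Function.Surjective q := by
      intro y
      obtain ⟨x, hx⟩ := Submodule.mkQ_surjective (LinearMap.range (d 0)) (un y)
      exact ⟨im B x, hx⟩
    have hk : LinearMap.ker q = LinearMap.range (imap B (d 0)) := by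
      ext x
      exact (Submodule.Quotient.mk_eq_zero (LinearMap.range (d 0)) (x := (un x : P 0)))
    let e2 : (IM B (P 0) ⧸ LinearMap.range (imap B (d 0))) ≃ₗ[R × B]
        IM B (P 0 ⧸ LinearMap.range (d 0)) :=
      (Submodule.quotEquivOfEq _ _ hk.symm).trans (LinearMap.quotKerEquivOfSurjective q hq)
    exact ⟨e1.trans e2.symm⟩

variable [IsNoetherianRing R]

/-- the inflated syzygy sequence -/
noncomputable def iseq (M : FM R) (N : Type) [AddCommGroup N] [Module R N]
    (h : ∀ i : ℕ, 0 < i → Subsingleton (Ext (ModuleCat.of R M.X) (ModuleCat.of R N) i)) :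
    SyzSeq (R := R × B) (IM B N) where
  X j := IM B (Om M j).X
  P j := IM B (Fin (Om M j).n → R)
  pj j := proj_free R B _
  f j := imap B (Om M j).inc
  g j := imap B (Om M j).cov
  fi j := (Om M j).inc_inj
  gs j := (Om M j).cov_surj
  ex j := by
    intro y
    constructor
    · intro hy
      exact (Om M j).exists_inc y hy
    · rintro ⟨x, rfl⟩
      exact LinearMap.congr_fun (Om M j).cov_inc x
  lift j φ := by
    obtain ⟨f, hf⟩ := lift_Om M N h j (unmap φ)
    refine ⟨imap B f, ?_⟩
    ext x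
    exact LinearMap.congr_fun hf x

theorem ext_im (Z : Type) [AddCommGroup Z] [Module R Z] [Module.Finite R Z] (N : Type)
    [AddCommGroup N] [Module R N]
    (h : ∀ i : ℕ, 0 < i → Subsingleton (Ext (ModuleCat.of R Z) (ModuleCat.of R N) i))
    (i : ℕ) (hi : 0 < i) :
    Subsingleton (Ext (ModuleCat.of (R × B) (IM B Z)) (ModuleCat.of (R × B) (IM B N)) i) :=
  (iseq B (⟨Z⟩ : FM R) N h).ext_pos i hi

end infl

end Crest.Agent.R186.Pad234
end

-- ▼ part R186/Pad2_234
section

/-!
Row 186 (helper234): padding to exactly eight simples and `rad^4 ≠ 0`; the literal conclusion of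
S0281 from a Gorenstein-projective pair with at most seven simples.
-/

set_option autoImplicit false
set_option linter.unusedSectionVars false
set_option linter.style.haveILetI false

universe u

open scoped TensorProduct
open CategoryTheory CategoryTheory.Abelian Crest.AlgebraR Polynomial

namespace Crest.Agent.R186.Pad234

open Rad234 Shift234 Syz700 Frame234

section C

variable (k : Type) [Field k]

/-- `k[X]/(X^5)` -/
abbrev C5 : Type := AdjoinRoot ((X : k[X]) ^ 5)

instance : FiniteDimensional k (C5 k) :=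
  (monic_X_pow 5).finite_adjoinRoot

/-- augmentation -/
noncomputable def Qc : C5 k →ₐ[k] k :=
  AdjoinRoot.liftAlgHom _ (AlgHom.id k k) 0 (by simp)

theorem Qc_mk (g : k[X]) : Qc k (AdjoinRoot.mk _ g) = g.eval 0 := by
  have h : (Qc k).comp (AdjoinRoot.mkₐ ((X : k[X]) ^ 5)) = Polynomial.aeval (0 : k) := by
    ext
    simp [Qc]
  have h2 := DFunLike.congr_fun h g
  rw [Polynomial.coe_aeval_eq_eval] at h2
  exact h2

theorem Qc_nil (x : C5 k) (hx : Qc k x = 0) : x ^ 5 = 0 := by
  obtain ⟨g, rfl⟩ := AdjoinRoot.mk_surjective x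
  rw [Qc_mk] at hx
  have h1 : (X : k[X]) ∣ g := by
    rw [X_dvd_iff, coeff_zero_eq_eval_zero]
    exact hx
  rw [← map_pow, AdjoinRoot.mk_eq_zero]
  exact pow_dvd_pow_of_dvd h1 5

theorem root_pow : (AdjoinRoot.root ((X : k[X]) ^ 5)) ^ 4 ≠ 0 := by
  rw [← AdjoinRoot.mk_X, ← map_pow, Ne, AdjoinRoot.mk_eq_zero]
  intro h
  have := Polynomial.natDegree_le_of_dvd h (pow_ne_zero 4 X_ne_zero)
  rw [natDegree_X_pow, natDegree_X_pow] at this
  omega

theorem Qc_root : Qc k (AdjoinRoot.root ((X : k[X]) ^ 5)) = 0 := by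
  rw [← AdjoinRoot.mk_X, Qc_mk, eval_X]

end C

section pad

variable {k : Type} [Field k] {R : Type} [Ring R] [Algebra k R] {n : ℕ}

variable (k) in
/-- the padding factor -/
abbrev PF (n : ℕ) : Type := (Fin (7 - n) → k) × C5 k

/-- the components -/
noncomputable def cmp (Q : R →ₐ[k] (Fin n → k)) (i : Fin 8) : (R × PF k n) →ₐ[k] k :=
  if h : i.val < n then (Pi.evalAlgHom k (fun _ : Fin n => k) ⟨i.val, h⟩).comp
      (Q.comp (AlgHom.fst k R (PF k n)))
  else if h' : i.val < 7 then
    (Pi.evalAlgHom k (fun _ : Fin (7 - n) => k) ⟨i.val - n, by omega⟩).comp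
      ((AlgHom.fst k _ (C5 k)).comp (AlgHom.snd k R (PF k n)))
  else (Qc k).comp ((AlgHom.snd k _ (C5 k)).comp (AlgHom.snd k R (PF k n)))

theorem cmp1 (Q : R →ₐ[k] (Fin n → k)) (i : Fin 8) (h : i.val < n) (x : R × PF k n) :
    cmp Q i x = Q x.1 ⟨i.val, h⟩ := by
  rw [cmp, dif_pos h]
  rfl

theorem cmp2 (Q : R →ₐ[k] (Fin n → k)) (i : Fin 8) (h : ¬ i.val < n) (h' : i.val < 7)
    (x : R × PF k n) : cmp Q i x = x.2.1 ⟨i.val - n, by omega⟩ := by
  rw [cmp, dif_neg h, dif_pos h']
  rfl

theorem cmp3 (Q : R →ₐ[k] (Fin n → k)) (i : Fin 8) (h : ¬ i.val < n) (h' : ¬ i.val < 7)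
    (x : R × PF k n) : cmp Q i x = Qc k x.2.2 := by
  rw [cmp, dif_neg h, dif_neg h']
  rfl

/-- the surjection to `k^8` -/
noncomputable def QQ (Q : R →ₐ[k] (Fin n → k)) : (R × PF k n) →ₐ[k] (Fin 8 → k) :=
  AlgHom.pi (cmp Q)

theorem QQ_apply (Q : R →ₐ[k] (Fin n → k)) (x : R × PF k n) (i : Fin 8) :
    QQ Q x i = cmp Q i x := rfl

theorem QQ_surj (hn : n ≤ 7) (Q : R →ₐ[k] (Fin n → k)) (hs : Function.Surjective Q) :
    Function.Surjective (QQ Q) := by
  intro v
  obtain ⟨x, hx⟩ := hs (fun j => v ⟨j.val, by omega⟩)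
  refine ⟨(x, (fun j => v ⟨n + j.val, by omega⟩, algebraMap k _ (v 7))), ?_⟩
  funext i
  rw [QQ_apply]
  by_cases h : i.val < n
  · rw [cmp1 Q i h, hx]
  · by_cases h' : i.val < 7
    · rw [cmp2 Q i h h']
      show v ⟨n + (i.val - n), _⟩ = v i
      congr 1
      apply Fin.ext
      show n + (i.val - n) = i.val
      omega
    · rw [cmp3 Q i h h']
      show Qc k (algebraMap k _ (v 7)) = v i
      rw [AlgHom.commutes]
      have : i = 7 := by
        apply Fin.ext
        show i.val = 7
        omega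
      rw [this]
      rfl

theorem QQ_nil (hn : n ≤ 7) (Q : R →ₐ[k] (Fin n → k)) (hq : ∀ x, Q x = 0 → IsNilpotent x)
    (x : R × PF k n) (hx : QQ Q x = 0) : IsNilpotent x := by
  have h1 : Q x.1 = 0 := by
    funext j
    have := congrFun hx ⟨j.val, by omega⟩
    rw [QQ_apply, cmp1 Q _ j.2] at this
    exact this
  have h2 : x.2.1 = 0 := by
    funext j
    have := congrFun hx ⟨n + j.val, by omega⟩
    rw [QQ_apply, cmp2 Q _ (by show ¬ n + j.val < n; omega) (by show n + j.val < 7; omega)] at this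
    have h3 : (⟨n + j.val - n, by omega⟩ : Fin (7 - n)) = j := by
      apply Fin.ext
      show n + j.val - n = j.val
      omega
    rw [← h3]
    exact this
  have h3 : Qc k x.2.2 = 0 := by
    have := congrFun hx 7
    rw [QQ_apply, cmp3 Q _ (by show ¬ 7 < n; omega) (by show ¬ 7 < 7; omega)] at this
    exact this
  obtain ⟨a, ha⟩ := hq _ h1
  refine ⟨a + 5, ?_⟩
  refine Prod.ext ?_ (Prod.ext ?_ ?_)
  · show x.1 ^ (a + 5) = 0
    rw [pow_add, ha, zero_mul]
  · show x.2.1 ^ (a + 5) = 0
    rw [h2, zero_pow (by omega)]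
  · show x.2.2 ^ (a + 5) = 0
    rw [pow_add, Qc_nil k _ h3, mul_zero]

/-- the element with nonzero fourth power -/
noncomputable def tt : R × PF k n := (0, (0, AdjoinRoot.root _))

theorem jac4 (hn : n ≤ 7) (Q : R →ₐ[k] (Fin n → k)) (hs : Function.Surjective Q)
    (hq : ∀ x, Q x = 0 → IsNilpotent x) : Ring.jacobson (R × PF k n) ^ 4 ≠ ⊥ := by
  intro h
  have h1 : (tt : R × PF k n) ∈ Ring.jacobson (R × PF k n) := by
    rw [jac_eq_ker (QQ Q) (QQ_surj hn Q hs) (QQ_nil hn Q hq), RingHom.mem_ker]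
    funext i
    show QQ Q tt i = 0
    rw [QQ_apply]
    by_cases h : i.val < n
    · rw [cmp1 Q i h]
      show Q 0 _ = 0
      rw [map_zero]
      rfl
    · by_cases h' : i.val < 7
      · rw [cmp2 Q i h h']
        rfl
      · rw [cmp3 Q i h h']
        exact Qc_root k
  have h2 := pow_mem_of_mem _ _ h1 3
  rw [h, Ideal.mem_bot] at h2
  have h3 : (AdjoinRoot.root ((X : k[X]) ^ 5)) ^ 4 = 0 := congrArg (fun x => x.2.2) h2
  exact root_pow k h3

/-- padding: a Gorenstein-projective pair with at most seven simples gives the data of S0281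
over the ground field -/
theorem pad [FiniteDimensional k R] (hn : n ≤ 7) (Q : R →ₐ[k] (Fin n → k))
    (hs : Function.Surjective Q) (hq : ∀ x, Q x = 0 → IsNilpotent x)
    (Z : Type) [AddCommGroup Z] [Module R Z] [Module.Finite R Z]
    (np : ¬ Module.Projective R Z) (hg : IsGorensteinProjective R Z)
    (he : ∀ i : ℕ, 0 < i → Subsingleton (Ext (ModuleCat.of R Z) (ModuleCat.of R Z) i)) :
    GorProjVanishingData k (R × PF k n) (IM (PF k n) Z) := by
  haveI : IsNoetherianRing R := isNoetherian_of_tower k (inferInstance : IsNoetherian k R)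
  exact ⟨inferInstance, quot_equiv (QQ Q) (QQ_surj hn Q hs) (QQ_nil hn Q hq),
    jac4 hn Q hs hq, finite_im _, fun h => np (proj_of_im _ h), gproj_im _ Z hg,
    fun i hi => ext_im _ Z Z he i hi, fun i hi => ext_ring _ (gproj_im _ Z hg) i hi⟩

end pad

/-- S0281 from `GorProjVanishingData` over the ground field (no `k`-structure on `Z` given) -/
theorem c0281' (K : Type) [Field K] (Λ : Type) [Ring Λ] [Algebra K Λ] (Z : Type) [AddCommGroup Z]
    [Module Λ Z] (H : GorProjVanishingData K Λ Z) :
    ∃ (Λ : Type) (_ : Ring Λ) (_ : Algebra K Λ) (Z : Type) (_ : AddCommGroup Z)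
      (_ : Module Λ Z) (_ : Module K Z) (_ : IsScalarTower K Λ Z),
      GorProjVanishingData K Λ Z ∧
      ∀ (E : Type u) [Field E] [Algebra K E],
        ∃ (_ : Module (E ⊗[K] Λ) (E ⊗[K] Z)),
          (∀ (a b : E) (r : Λ) (z : Z),
            (a ⊗ₜ[K] r) • (b ⊗ₜ[K] z) = (a * b) ⊗ₜ[K] (r • z)) ∧
          GorProjVanishingData E (E ⊗[K] Λ) (E ⊗[K] Z) := by
  letI : Module K Z := Module.compHom Z (algebraMap K Λ)
  haveI : IsScalarTower K Λ Z := ⟨fun r a x => by
    show (r • a) • x = algebraMap K Λ r • (a • x)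
    rw [Algebra.smul_def, mul_smul]⟩
  exact c0281 K Λ Z H

/-- S0281 from a Gorenstein-projective self-orthogonal pair with at most seven simples -/
theorem c0281_pad (K : Type) [Field K] (R : Type) [Ring R] [Algebra K R] [FiniteDimensional K R]
    {n : ℕ} (hn : n ≤ 7) (Q : R →ₐ[K] (Fin n → K)) (hs : Function.Surjective Q)
    (hq : ∀ x, Q x = 0 → IsNilpotent x)
    (Z : Type) [AddCommGroup Z] [Module R Z] [Module.Finite R Z]
    (np : ¬ Module.Projective R Z) (hg : IsGorensteinProjective R Z)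
    (he : ∀ i : ℕ, 0 < i → Subsingleton (Ext (ModuleCat.of R Z) (ModuleCat.of R Z) i)) :
    ∃ (Λ : Type) (_ : Ring Λ) (_ : Algebra K Λ) (Z : Type) (_ : AddCommGroup Z)
      (_ : Module Λ Z) (_ : Module K Z) (_ : IsScalarTower K Λ Z),
      GorProjVanishingData K Λ Z ∧
      ∀ (E : Type u) [Field E] [Algebra K E],
        ∃ (_ : Module (E ⊗[K] Λ) (E ⊗[K] Z)),
          (∀ (a b : E) (r : Λ) (z : Z),
            (a ⊗ₜ[K] r) • (b ⊗ₜ[K] z) = (a * b) ⊗ₜ[K] (r • z)) ∧
          GorProjVanishingData E (E ⊗[K] Λ) (E ⊗[K] Z) :=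
  c0281' K _ _ (pad hn Q hs hq Z np hg he)

/-- S0281 from a Gorenstein-projective self-orthogonal pair with eight simples and
`rad^4 ≠ 0` -/
theorem c0281_eight (K : Type) [Field K] (R : Type) [Ring R] [Algebra K R]
    [FiniteDimensional K R] (Q : R →ₐ[K] (Fin 8 → K)) (hs : Function.Surjective Q)
    (hq : ∀ x, Q x = 0 → IsNilpotent x) (h4 : Ring.jacobson R ^ 4 ≠ ⊥)
    (Z : Type) [AddCommGroup Z] [Module R Z] [Module.Finite R Z]
    (np : ¬ Module.Projective R Z) (hg : IsGorensteinProjective R Z)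
    (he : ∀ i : ℕ, 0 < i → Subsingleton (Ext (ModuleCat.of R Z) (ModuleCat.of R Z) i)) :
    ∃ (Λ : Type) (_ : Ring Λ) (_ : Algebra K Λ) (Z : Type) (_ : AddCommGroup Z)
      (_ : Module Λ Z) (_ : Module K Z) (_ : IsScalarTower K Λ Z),
      GorProjVanishingData K Λ Z ∧
      ∀ (E : Type u) [Field E] [Algebra K E],
        ∃ (_ : Module (E ⊗[K] Λ) (E ⊗[K] Z)),
          (∀ (a b : E) (r : Λ) (z : Z),
            (a ⊗ₜ[K] r) • (b ⊗ₜ[K] z) = (a * b) ⊗ₜ[K] (r • z)) ∧
          GorProjVanishingData E (E ⊗[K] Λ) (E ⊗[K] Z) :=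
  c0281' K R Z ⟨inferInstance, quot_equiv Q hs hq, h4, inferInstance, np, hg, he,
    fun i hi => ext_ring Z hg i hi⟩

end Crest.Agent.R186.Pad234
end

-- ▼ part R186/Sym_234

/-!
Row 186 (helper234): every finite module over a symmetric algebra is Gorenstein-projective;
S0281 from a self-orthogonal module over a symmetric algebra with at most seven simples (or
eight and `rad^4 ≠ 0`).
-/

set_option autoImplicit false
set_option linter.unusedSectionVars false
set_option linter.style.haveILetI false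

universe v u

open scoped TensorProduct
open CategoryTheory CategoryTheory.Abelian Crest.AlgebraR

namespace Crest.Agent.R186.Sym234

open Rad234 Shift234 Syz700 Frame234 Pad234 Frob700

section two

variable {A : Type u} [Ring A]

/-- a two-sided sequence of short exact sequences -/
structure Two (A : Type u) [Ring A] where
  X : ℤ → Type u
  P : ℤ → Type u
  [gX : ∀ j, AddCommGroup (X j)]
  [mX : ∀ j, Module A (X j)]
  [gP : ∀ j, AddCommGroup (P j)]
  [mP : ∀ j, Module A (P j)]
  fin : ∀ j, Module.Finite A (P j)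
  proj : ∀ j, Module.Projective A (P j)
  f : ∀ j, X (j + 1) →ₗ[A] P j
  g : ∀ j, P j →ₗ[A] X j
  fi : ∀ j, Function.Injective (f j)
  gs : ∀ j, Function.Surjective (g j)
  ex : ∀ j, Function.Exact (f j) (g j)

attribute [instance] Two.gX Two.mX Two.gP Two.mP


end two

section sym

variable {K : Type v} [Field K] {A : Type u} [Ring A] [Algebra K A] [FiniteDimensional K A]

include K in
theorem exists_emb (s : Sym K A) (X : Type u) [AddCommGroup X] [Module A X]
    [Module.Finite A X] : ∃ (m : ℕ) (f : X →ₗ[A] (Fin m → A)), Function.Injective f := by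
  letI : Module K X := Module.compHom X (algebraMap K A)
  haveI : IsScalarTower K A X := ⟨fun r a x => by
    show (r • a) • x = algebraMap K A r • (a • x)
    rw [Algebra.smul_def, mul_smul]⟩
  haveI : FiniteDimensional K X := Module.Finite.trans A X
  let b := Module.finBasis K X
  refine ⟨_, LinearMap.pi fun i => s.h (b.coord i), ?_⟩
  rw [injective_iff_map_eq_zero]
  intro x hx
  apply b.repr.injective
  rw [map_zero]
  ext i
  have h1 : s.h (b.coord i) x = 0 := congrFun hx i
  have h2 := s.lam_h (b.coord i) x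
  rw [h1, map_zero] at h2
  exact h2.symm

variable (s : Sym K A)

/-- rank of the envelope -/
noncomputable def em (M : FM A) : ℕ := (exists_emb s M.X).choose

/-- the embedding -/
noncomputable def emb (M : FM A) : M.X →ₗ[A] (Fin (em s M) → A) :=
  (exists_emb s M.X).choose_spec.choose

theorem emb_inj (M : FM A) : Function.Injective (emb s M) :=
  (exists_emb s M.X).choose_spec.choose_spec

/-- cosyzygy -/
noncomputable def cosyz (M : FM A) : FM A := ⟨(Fin (em s M) → A) ⧸ LinearMap.range (emb s M)⟩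

/-- iterated cosyzygies -/
noncomputable def Co (M : FM A) : ℕ → FM A
  | 0 => M
  | j + 1 => cosyz s (Co M j)

variable [IsNoetherianRing A]

/-- the modules -/
noncomputable def XX (M : FM A) : ℤ → FM A
  | Int.ofNat j => Om M j
  | Int.negSucc j => Co s M (j + 1)

/-- the projectives -/
noncomputable def PP (M : FM A) : ℤ → ℕ
  | Int.ofNat j => (Om M j).n
  | Int.negSucc j => em s (Co s M j)

/-- the injections -/
noncomputable def ff (M : FM A) : ∀ n : ℤ, (XX s M (n + 1)).X →ₗ[A] (Fin (PP s M n) → A)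
  | Int.ofNat j => (Om M j).inc
  | Int.negSucc 0 => emb s M
  | Int.negSucc (j + 1) => emb s (Co s M (j + 1))

/-- the surjections -/
noncomputable def gg (M : FM A) : ∀ n : ℤ, (Fin (PP s M n) → A) →ₗ[A] (XX s M n).X
  | Int.ofNat j => (Om M j).cov
  | Int.negSucc j => (LinearMap.range (emb s (Co s M j))).mkQ

theorem ff_inj (M : FM A) : ∀ n : ℤ, Function.Injective (ff s M n)
  | Int.ofNat j => (Om M j).inc_inj
  | Int.negSucc 0 => emb_inj s M
  | Int.negSucc (j + 1) => emb_inj s (Co s M (j + 1))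

theorem gg_surj (M : FM A) : ∀ n : ℤ, Function.Surjective (gg s M n)
  | Int.ofNat j => (Om M j).cov_surj
  | Int.negSucc j => Submodule.mkQ_surjective _

theorem fg_ex (M : FM A) : ∀ n : ℤ, Function.Exact (ff s M n) (gg s M n)
  | Int.ofNat j => by
    intro y
    constructor
    · intro hy
      exact (Om M j).exists_inc y hy
    · rintro ⟨x, rfl⟩
      exact LinearMap.congr_fun (Om M j).cov_inc x
  | Int.negSucc 0 => LinearMap.exact_map_mkQ_range (emb s M)
  | Int.negSucc (j + 1) => LinearMap.exact_map_mkQ_range (emb s (Co s M (j + 1)))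

/-- the two-sided sequence -/
noncomputable def two (M : FM A) : Two A where
  X n := (XX s M n).X
  P n := Fin (PP s M n) → A
  fin _ := inferInstance
  proj _ := inferInstance
  f := ff s M
  g := gg s M
  fi := ff_inj s M
  gs := gg_surj s M
  ex := fg_ex s M


end sym



end Crest.Agent.R186.Sym234
namespace Crest.Agent.R186.Sym234.Two
end Crest.Agent.R186.Sym234.Two
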