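import Mathlib
import Crest.Prelude.Def_SymmetricAlgebra
import Crest.Agent.R186.Frob_700
import Crest.Agent.R186.Syz_700
import Crest.Prelude.Def_Tilting
import Crest.Agent.R186.Frame1_234
import Crest.Prelude.Def_GorProjVanishing
import Crest.Agent.R186.Sym_234

-- ▼ part R186/Triv_700
section

/-!
Row 186, end-game closings, part 9 (helper700): the trivial extension `T(Γ) = Γ ⊕ DΓ` of a
finite-dimensional algebra is a symmetric algebra.
-/

set_option autoImplicit false
set_option linter.style.haveILetI false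

universe v u

open Crest.AlgebraR

namespace Crest.Agent.R186.Triv700

variable (K : Type u) [Field K] (Γ : Type u) [Ring Γ] [Algebra K Γ]

/-- the dual bimodule (a type synonym) -/
def DG : Type u := Module.Dual K Γ

variable {K Γ}

namespace DG

instance : AddCommGroup (DG K Γ) := inferInstanceAs (AddCommGroup (Module.Dual K Γ))
instance : Module K (DG K Γ) := inferInstanceAs (Module K (Module.Dual K Γ))

/-- evaluation -/
def ev (f : DG K Γ) : Module.Dual K Γ := f

/-- constructor -/
def of (f : Module.Dual K Γ) : DG K Γ := f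

@[simp] theorem ev_of (f : Module.Dual K Γ) : ev (of f) = f := rfl

@[ext] theorem ext {f g : DG K Γ} (h : ∀ y, f.ev y = g.ev y) : f = g := LinearMap.ext h

@[simp] theorem ev_add (f g : DG K Γ) : (f + g).ev = f.ev + g.ev := rfl
@[simp] theorem ev_zero : (0 : DG K Γ).ev = 0 := rfl
@[simp] theorem ev_smulK (r : K) (f : DG K Γ) : (r • f).ev = r • f.ev := rfl

/-- left action `(a • f) y = f (y a)` -/
instance : Module Γ (DG K Γ) where
  smul a f := of (f.ev ∘ₗ LinearMap.mulRight K a)
  one_smul f := by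
    ext y
    show f.ev (y * 1) = f.ev y
    rw [mul_one]
  mul_smul a b f := by
    ext y
    show f.ev (y * (a * b)) = f.ev (y * a * b)
    rw [mul_assoc]
  smul_zero a := by ext y; rfl
  smul_add a f g := by ext y; rfl
  add_smul a b f := by
    ext y
    show f.ev (y * (a + b)) = f.ev (y * a) + f.ev (y * b)
    rw [mul_add, map_add]
  zero_smul f := by
    ext y
    show f.ev (y * 0) = 0
    rw [mul_zero, map_zero]

@[simp] theorem ev_smul (a : Γ) (f : DG K Γ) (y : Γ) : (a • f).ev y = f.ev (y * a) := rfl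

/-- right action `(f • b) y = f (b y)` -/
instance : Module Γᵐᵒᵖ (DG K Γ) where
  smul b f := of (f.ev ∘ₗ LinearMap.mulLeft K b.unop)
  one_smul f := by
    ext y
    show f.ev (1 * y) = f.ev y
    rw [one_mul]
  mul_smul a b f := by
    ext y
    show f.ev (b.unop * a.unop * y) = f.ev (b.unop * (a.unop * y))
    rw [mul_assoc]
  smul_zero a := by ext y; rfl
  smul_add a f g := by ext y; rfl
  add_smul a b f := by
    ext y
    show f.ev ((a.unop + b.unop) * y) = f.ev (a.unop * y) + f.ev (b.unop * y)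
    rw [add_mul, map_add]
  zero_smul f := by
    ext y
    show f.ev (0 * y) = 0
    rw [zero_mul, map_zero]

@[simp] theorem ev_op_smul (b : Γᵐᵒᵖ) (f : DG K Γ) (y : Γ) :
    (b • f).ev y = f.ev (b.unop * y) := rfl

instance : SMulCommClass Γ Γᵐᵒᵖ (DG K Γ) := ⟨fun a b f => by
  ext y
  simp [mul_assoc]⟩

instance : IsScalarTower K Γ (DG K Γ) := ⟨fun r a f => by
  ext y
  simp⟩

instance : IsScalarTower K Γᵐᵒᵖ (DG K Γ) := ⟨fun r a f => by
  ext y
  simp⟩

instance [FiniteDimensional K Γ] : FiniteDimensional K (DG K Γ) :=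
  inferInstanceAs (FiniteDimensional K (Module.Dual K Γ))

end DG

variable (K Γ)

/-- the trivial extension -/
abbrev T : Type u := TrivSqZeroExt Γ (DG K Γ)

instance : IsScalarTower K Γ (DG K Γ) := inferInstance

noncomputable instance instAlgT : Algebra K (T K Γ) := inferInstance

variable {K Γ}

/-- the bijection `T → Dual T`, `(a,f) ↦ ((b,g) ↦ f b + g a)` -/
noncomputable def φ₀ : T K Γ →ₗ[K] Module.Dual K (T K Γ) where
  toFun t :=
    { toFun := fun z => t.snd.ev z.fst + z.snd.ev t.fst
      map_add' := fun z w => by simp; ring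
      map_smul' := fun r z => by simp; ring }
  map_add' s t := by
    ext z
    simp
    ring
  map_smul' r t := by
    ext z
    simp
    ring

theorem φ₀_apply (t z : T K Γ) : φ₀ t z = t.snd.ev z.fst + z.snd.ev t.fst := rfl

theorem φ₀_inj : Function.Injective (φ₀ (K := K) (Γ := Γ)) := by
  rw [← LinearMap.ker_eq_bot, LinearMap.ker_eq_bot']
  intro t ht
  have h1 : ∀ z, φ₀ t z = 0 := fun z => by rw [ht]; rfl
  apply TrivSqZeroExt.ext
  · rw [TrivSqZeroExt.fst_zero]
    rw [← Module.forall_dual_apply_eq_zero_iff K]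
    intro g
    have := h1 (TrivSqZeroExt.inr (DG.of g))
    simpa [φ₀_apply] using this
  · ext y
    have := h1 (TrivSqZeroExt.inl y)
    simpa [φ₀_apply] using this

instance instFDT [FiniteDimensional K Γ] : FiniteDimensional K (T K Γ) := by
  have e : T K Γ ≃ₗ[K] Γ × DG K Γ :=
    { toFun := fun t => (t.fst, t.snd)
      invFun := fun p => TrivSqZeroExt.inl p.1 + TrivSqZeroExt.inr p.2
      map_add' := fun _ _ => rfl
      map_smul' := fun _ _ => rfl
      left_inv := fun t => TrivSqZeroExt.inl_fst_add_inr_snd_eq t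
      right_inv := fun p => by simp }
  exact LinearEquiv.finiteDimensional e.symm

theorem isSymmetric [FiniteDimensional K Γ] : IsSymmetricAlgebra K (T K Γ) := by
  have hfr : Module.finrank K (T K Γ) = Module.finrank K (Module.Dual K (T K Γ)) :=
    Subspace.dual_finrank_eq.symm
  refine ⟨LinearEquiv.ofInjectiveOfFinrankEq φ₀ φ₀_inj hfr, ?_⟩
  intro a x b y
  show φ₀ (a * x * b) y = φ₀ x (b * y * a)
  simp only [φ₀_apply, TrivSqZeroExt.snd_mul, TrivSqZeroExt.fst_mul, DG.ev_add, DG.ev_smul,
    DG.ev_op_smul, LinearMap.add_apply, MulOpposite.unop_op]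
  simp only [← mul_assoc]
  ring

end Crest.Agent.R186.Triv700
end

-- ▼ part R186/Homol_700
section

/-!
Row 186, end-game closings, part 1 (helper700): abstract homological algebra.

A family of short exact sequences `0 → Z j → I j → Z (j+1) → 0` in an abelian category with
all `I j` projective and injective, `Z 0` projective but not injective.
-/

set_option autoImplicit false

universe w v u

open CategoryTheory CategoryTheory.Abelian

namespace Crest.Agent.R186.Homol700

variable {C : Type u} [Category.{v} C] [Abelian C]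

/-- A chain of short exact sequences `0 → Z j → I j → Z (j+1) → 0`. -/
structure Chain (Z I : ℕ → C) where
  f : ∀ j, Z j ⟶ I j
  g : ∀ j, I j ⟶ Z (j + 1)
  zero : ∀ j, f j ≫ g j = 0
  se : ∀ j, (ShortComplex.mk (f j) (g j) (zero j)).ShortExact

variable {Z I : ℕ → C} (c : Chain Z I)

include c

theorem proj_of_succ (j : ℕ) (hj : Projective (Z (j + 1))) :
    Nonempty (Retract (Z j) (I j)) := by
  have := (c.se j)
  have hX3 : Projective (ShortComplex.mk (c.f j) (c.g j) (c.zero j)).X₃ := hj
  let s := (c.se j).splittingOfProjective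
  exact ⟨⟨c.f j, s.r, s.f_r⟩⟩

theorem inj_of_inj (j : ℕ) (hj : Injective (Z j)) :
    Nonempty (Retract (Z (j + 1)) (I j)) := by
  have hX1 : Injective (ShortComplex.mk (c.f j) (c.g j) (c.zero j)).X₁ := hj
  let s := (c.se j).splittingOfInjective
  exact ⟨⟨s.s, c.g j, s.s_g⟩⟩


omit [Abelian C] c in
theorem inj_retract {X Y : C} (r : Retract X Y) (h : Injective Y) : Injective X :=
  Retract.injective r

omit [Abelian C] c in
theorem proj_retract {X Y : C} (r : Retract X Y) (h : Projective Y) : Projective X :=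
  Retract.projective r

/-- If some `Z n` is projective with `n ≥ 1` (or `n` arbitrary and `Z 0` ...), then `Z 0` is
injective. -/
theorem inj_zero_of_proj (hIp : ∀ j, Projective (I j)) (hIi : ∀ j, Injective (I j)) (n : ℕ)
    (h : Projective (Z (n + 1))) : Injective (Z 0) := by
  induction n with
  | zero =>
    obtain ⟨r⟩ := proj_of_succ c 0 h
    exact inj_retract r (hIi 0)
  | succ n ih =>
    obtain ⟨r⟩ := proj_of_succ c (n + 1) h
    exact ih (proj_retract r (hIp _))

theorem not_injDim (hIp : ∀ j, Projective (I j)) (hIi : ∀ j, Injective (I j))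
    (h0 : ¬ Injective (Z 0)) (n : ℕ) : ¬ HasInjectiveDimensionLT (Z 0) n := by
  intro h
  -- shift: `Z j` has injective dimension `< n + 1 - j`
  have hs : ∀ m j : ℕ, HasInjectiveDimensionLT (Z 0) (m + 1 + j) →
      HasInjectiveDimensionLT (Z j) (m + 1) := by
    intro m j
    induction j generalizing m with
    | zero => intro h; exact h
    | succ j ih =>
      intro h
      have h1 : HasInjectiveDimensionLT (Z 0) ((m + 1) + 1 + j) := by
        have : (m + 1) + 1 + j = m + 1 + (j + 1) := by omega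
        rw [this]; exact h
      have h2 := ih (m + 1) h1
      have hX2 : HasInjectiveDimensionLT
          (ShortComplex.mk (c.f j) (c.g j) (c.zero j)).X₂ (m + 1) := by
        have : Injective (I j) := hIi j
        have h3 : HasInjectiveDimensionLT (I j) 1 := inferInstance
        exact hasInjectiveDimensionLT_of_ge (I j) 1 (m + 1) (by omega)
      exact (c.se j).hasInjectiveDimensionLT_X₃ (m + 1) hX2 h2
  have h' : HasInjectiveDimensionLT (Z 0) (0 + 1 + n) := by
    exact hasInjectiveDimensionLT_of_ge (Z 0) n (0 + 1 + n) (by omega)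
  have hn : HasInjectiveDimensionLT (Z n) 1 := hs 0 n h'
  have hinj : Injective (Z n) := injective_iff_hasInjectiveDimensionLT_one.2 hn
  obtain ⟨r⟩ := inj_of_inj c n hinj
  exact h0 (inj_zero_of_proj c hIp hIi n (proj_retract r (hIp n)))

theorem projDim_le (hIp : ∀ j, Projective (I j)) (hZ : Projective (Z 0)) (n : ℕ) :
    HasProjectiveDimensionLT (Z n) (n + 1) := by
  induction n with
  | zero => infer_instance
  | succ n ih =>
    have hX2 : HasProjectiveDimensionLT
        (ShortComplex.mk (c.f n) (c.g n) (c.zero n)).X₂ (n + 1 + 1) := by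
      have : Projective (I n) := hIp n
      have h3 : HasProjectiveDimensionLT (I n) 1 := inferInstance
      exact hasProjectiveDimensionLT_of_ge (I n) 1 (n + 1 + 1) (by omega)
    exact (c.se n).hasProjectiveDimensionLT_X₃ (n + 1) ih hX2

theorem not_projDim (hIp : ∀ j, Projective (I j)) (hIi : ∀ j, Injective (I j))
    (h0 : ¬ Injective (Z 0)) (n : ℕ) : ¬ HasProjectiveDimensionLT (Z (n + 1)) (n + 1) := by
  induction n with
  | zero =>
    intro h
    have : HasProjectiveDimensionLT (Z 1) 1 := h
    have hp : Projective (Z 1) := projective_iff_hasProjectiveDimensionLT_one.2 this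
    exact h0 (inj_zero_of_proj c hIp hIi 0 hp)
  | succ n ih =>
    intro h
    apply ih
    have hX2 : HasProjectiveDimensionLT
        (ShortComplex.mk (c.f (n + 1)) (c.g (n + 1)) (c.zero (n + 1))).X₂ (n + 1) := by
      have : Projective (I (n + 1)) := hIp (n + 1)
      have h3 : HasProjectiveDimensionLT (I (n + 1)) 1 := inferInstance
      exact hasProjectiveDimensionLT_of_ge (I (n + 1)) 1 (n + 1) (by omega)
    exact (c.se (n + 1)).hasProjectiveDimensionLT_X₁ (n + 1) hX2 h

theorem projDim_eq (hIp : ∀ j, Projective (I j)) (hIi : ∀ j, Injective (I j))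
    (hZ : Projective (Z 0)) (h0 : ¬ Injective (Z 0)) (n : ℕ) (hn : 1 ≤ n) :
    projectiveDimension (Z n) = (n : WithBot ℕ∞) := by
  apply le_antisymm
  · rw [projectiveDimension_le_iff]
    exact projDim_le c hIp hZ n
  · rw [projectiveDimension_ge_iff]
    obtain ⟨m, rfl⟩ := Nat.exists_eq_add_of_le' hn
    exact not_projDim c hIp hIi h0 m

theorem ext_zero [HasExt.{w} C] (hIi : ∀ j, Injective (I j)) (S : C)
    (hS : ∀ (j : ℕ) (φ : S ⟶ I j), φ = 0) (i : ℕ) :
    ∀ j, Subsingleton (Ext.{w} S (Z j) i) := by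
  induction i with
  | zero =>
    intro j
    refine ⟨fun a b => ?_⟩
    apply Ext.homEquiv₀.injective
    have hm : Mono (c.f j) := (c.se j).mono_f
    rw [← cancel_mono (c.f j)]
    exact (hS j _).trans (hS j _).symm
  | succ i ih =>
    intro j
    have hz : ∀ x : Ext.{w} S (Z j) (i + 1), x = 0 := by
      intro x
      have hI : Injective (ShortComplex.mk (c.f j) (c.g j) (c.zero j)).X₂ := hIi j
      obtain ⟨y, hy⟩ := Ext.covariant_sequence_exact₁ S (c.se j) x
        (Ext.eq_zero_of_injective _) rfl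
      have : y = 0 := (ih (j + 1)).elim _ _
      rw [← hy, this, Ext.zero_comp]
    exact ⟨fun a b => by rw [hz a, hz b]⟩

end Crest.Agent.R186.Homol700
end

-- ▼ part R186/EndG_700
section

/-!
Row 186, end-game closings, part 4 (helper700): the endomorphism ring `Γ = End_A G` of a
generator `G` over a symmetric algebra `A`; `G` and `Hom_A (A^n, G)` are projective and injective
left `Γ`-modules.
-/

set_option autoImplicit false
set_option linter.style.haveILetI false

universe v u

open Crest.AlgebraR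

namespace Crest.Agent.R186.EndG700

open Frob700

variable {A : Type u} [Ring A] {G : Type u} [AddCommGroup G] [Module A G]

/-- `A` is a direct summand of `G` -/
structure Gen (A : Type u) [Ring A] (G : Type u) [AddCommGroup G] [Module A G] where
  i : A →ₗ[A] G
  p : G →ₗ[A] A
  pi : ∀ a, p (i a) = a

section pre

variable {X Y : Type u} [AddCommGroup X] [Module A X] [AddCommGroup Y] [Module A Y]

/-- precomposition, as a `Γ`-linear map -/
def pre (t : X →ₗ[A] Y) : (Y →ₗ[A] G) →ₗ[Module.End A G] (X →ₗ[A] G) where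
  toFun f := f ∘ₗ t
  map_add' _ _ := rfl
  map_smul' _ _ := rfl

@[simp] theorem pre_apply (t : X →ₗ[A] Y) (f : Y →ₗ[A] G) (x : X) :
    pre (G := G) t f x = f (t x) := rfl

end pre

/-- `Γ` as a left module over itself is `Hom_A (G, G)` -/
def selfEquiv : Module.End A G ≃ₗ[Module.End A G] (G →ₗ[A] G) where
  toFun f := f
  invFun f := f
  map_add' _ _ := rfl
  map_smul' _ _ := rfl
  left_inv _ := rfl
  right_inv _ := rfl

namespace Gen

variable (s : Gen A G)

/-- `G → Γ`, `g ↦ (x ↦ p x • g)` -/
def toEnd : G →ₗ[Module.End A G] Module.End A G where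
  toFun g :=
    { toFun := fun x => s.p x • g
      map_add' := fun x y => by simp [add_smul]
      map_smul' := fun a x => by simp [mul_smul] }
  map_add' g h := by ext x; simp
  map_smul' c g := by
    ext x
    simp only [RingHom.id_apply, LinearMap.coe_mk, AddHom.coe_mk, smul_eq_mul,
      Module.End.mul_apply]
    exact (c.map_smul (s.p x) g).symm

/-- `Γ → G`, `γ ↦ γ (i 1)` -/
def fromEnd : Module.End A G →ₗ[Module.End A G] G where
  toFun c := c (s.i 1)
  map_add' _ _ := rfl
  map_smul' _ _ := rfl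

theorem from_to (g : G) : s.fromEnd (s.toEnd g) = g := by
  show s.p (s.i 1) • g = g
  rw [s.pi, one_smul]

include s in
theorem projective : Module.Projective (Module.End A G) G := by
  refine Module.Projective.of_split s.toEnd s.fromEnd ?_
  ext g
  exact s.from_to g

include s in
theorem finite : Module.Finite (Module.End A G) G :=
  Module.Finite.of_surjective s.fromEnd fun g => ⟨s.toEnd g, s.from_to g⟩

end Gen

section inj

variable {K : Type v} [Field K] [Algebra K A] [Module K G] [IsScalarTower K A G]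

/-- `G` is an injective left `End_A G`-module -/
theorem injective [FiniteDimensional K G] (σ : Sym K A) (s : Gen A G) :
    Module.Injective (Module.End A G) G := by
  haveI : SMulCommClass A K G := ⟨fun a r g => by
    rw [← algebraMap_smul A r g, ← algebraMap_smul A r (a • g), ← mul_smul, ← mul_smul,
      Algebra.commutes]⟩
  haveI : SMulCommClass K A G := SMulCommClass.symm A K G
  refine ⟨fun X Y _ _ _ _ f hf g => ?_⟩
  letI : Module K X := Module.compHom X (algebraMap K (Module.End A G))
  letI : Module K Y := Module.compHom Y (algebraMap K (Module.End A G))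
  have hX : ∀ (r : K) (x : X), r • x = algebraMap K (Module.End A G) r • x := fun _ _ => rfl
  have hY : ∀ (r : K) (x : Y), r • x = algebraMap K (Module.End A G) r • x := fun _ _ => rfl
  let fK : X →ₗ[K] Y :=
    { toFun := f
      map_add' := f.map_add
      map_smul' := fun r x => by
        rw [hX, RingHom.id_apply, hY]
        exact f.map_smul _ x }
  let ψ₀ : Module.Dual K X :=
    { toFun := fun x => σ.lam (s.p (g x))
      map_add' := fun x y => by simp
      map_smul' := fun r x => by
        have h1 : g (r • x) = r • g x := by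
          rw [hX, g.map_smul]
          rfl
        have h2 : s.p (r • g x) = r • s.p (g x) := by
          rw [← algebraMap_smul A r (g x), s.p.map_smul, ← algebraMap_smul A r (s.p (g x))]
        rw [h1, h2]; simp }
  obtain ⟨ψ, hψ⟩ := exists_ext fK hf ψ₀
  -- the endomorphism attached to a functional of `G`
  let e : Module.Dual K G → Module.End A G := fun η => s.i ∘ₗ σ.h η
  have e_add : ∀ η θ, e (η + θ) = e η + e θ := by
    intro η θ
    ext x
    simp [e, σ.h_add]
  have e_smul : ∀ (r : K) η, e (r • η) = algebraMap K (Module.End A G) r * e η := by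
    intro r η
    ext x
    have : s.i (r • σ.h η x) = r • s.i (σ.h η x) := by
      rw [← algebraMap_smul A r (σ.h η x), s.i.map_smul, algebraMap_smul]
    simp only [e, LinearMap.comp_apply, σ.h_smul_comp, Module.End.mul_apply, this]
    rfl
  -- the double dual element
  let F₀ : Y → Module.Dual K (Module.Dual K G) := fun y =>
    { toFun := fun η => ψ (e η • y)
      map_add' := fun η θ => by rw [e_add, add_smul, map_add]
      map_smul' := fun r η => by
        rw [e_smul, mul_smul, ← hY, map_smul, RingHom.id_apply] }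
  let ev := Module.evalEquiv K G
  have hev : ∀ (y : Y) (η : Module.Dual K G), η (ev.symm (F₀ y)) = ψ (e η • y) := by
    intro y η
    have h1 : ev (ev.symm (F₀ y)) η = F₀ y η := by rw [LinearEquiv.apply_symm_apply]
    exact h1
  let F : Y →ₗ[Module.End A G] G :=
    { toFun := fun y => ev.symm (F₀ y)
      map_add' := fun y z => by
        rw [← map_add]
        congr 1
        ext η
        show ψ (e η • (y + z)) = ψ (e η • y) + ψ (e η • z)
        rw [smul_add, map_add]
      map_smul' := fun c y => by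
        rw [RingHom.id_apply]
        apply Module.eval_apply_injective K
        ext η
        show η (ev.symm (F₀ (c • y))) = η (c • ev.symm (F₀ y))
        rw [hev]
        let cK : G →ₗ[K] G := c.restrictScalars K
        have h1 : η (c • ev.symm (F₀ y)) = (η ∘ₗ cK) (ev.symm (F₀ y)) := rfl
        rw [h1, hev, ← mul_smul]
        congr 2
        ext x
        show s.i (σ.h η (c x)) = s.i (σ.h (η ∘ₗ cK) x)
        rw [σ.h_comp η c cK (fun _ => rfl)] }
  refine ⟨F, fun x => ?_⟩
  apply Module.eval_apply_injective K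
  ext η
  show η (ev.symm (F₀ (f x))) = η (g x)
  rw [hev]
  have h1 : e η • f x = fK (e η • x) := (f.map_smul (e η) x).symm
  rw [h1, hψ]
  show σ.lam (s.p (g (e η • x))) = η (g x)
  rw [g.map_smul]
  show σ.lam (s.p (s.i (σ.h η (g x)))) = η (g x)
  rw [s.pi, σ.lam_h]

end inj

end Crest.Agent.R186.EndG700
end

-- ▼ part R186/Cores_700
section

/-!
Row 186, end-game closings, part 5 (helper700): the coresolution
`0 → Γ → Hom(P_0,G) → Hom(P_1,G) → ⋯` of `Γ = End_A G`.
-/

set_option autoImplicit false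
set_option linter.style.haveILetI false

universe v u

open CategoryTheory CategoryTheory.Abelian

namespace Crest.Agent.R186.Cores700

open Frob700 EndG700 Syz700 Homol700

variable {A : Type u} [Ring A] [IsNoetherianRing A] {G : Type u} [AddCommGroup G] [Module A G]

section seq

omit [IsNoetherianRing A] in
theorem pre_cov_inj (M : FM A) : Function.Injective (pre (G := G) M.cov) := by
  intro f g h
  ext x
  obtain ⟨y, rfl⟩ := M.cov_surj x
  exact LinearMap.congr_fun h y

theorem pre_exact (M : FM A) : Function.Exact (pre (G := G) M.cov) (pre (G := G) M.inc) := by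
  intro f
  constructor
  · intro hf
    have hker : LinearMap.ker M.cov ≤ LinearMap.ker f := by
      intro y hy
      obtain ⟨x, rfl⟩ := M.exists_inc y hy
      exact LinearMap.congr_fun hf x
    refine ⟨(LinearMap.ker M.cov).liftQ f hker ∘ₗ
      (M.cov.quotKerEquivOfSurjective M.cov_surj).symm.toLinearMap, ?_⟩
    refine LinearMap.ext fun y => ?_
    rw [pre_apply, LinearMap.comp_apply]
    have : (M.cov.quotKerEquivOfSurjective M.cov_surj).symm.toLinearMap (M.cov y)
        = Submodule.Quotient.mk y := by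
      apply (M.cov.quotKerEquivOfSurjective M.cov_surj).injective
      simp
    rw [this]
    simp
  · rintro ⟨g, rfl⟩
    ext x
    have h1 : M.cov (M.inc x) = 0 := LinearMap.congr_fun M.cov_inc x
    show g (M.cov (M.inc x)) = 0
    rw [h1, map_zero]

/-- the basis equivalence `G^n ≃ Hom_A (A^n, G)`, `Γ`-linear -/
noncomputable def homEquiv (n : ℕ) :
    (Fin n → G) ≃ₗ[Module.End A G] ((Fin n → A) →ₗ[A] G) :=
  (Pi.basisFun A (Fin n)).constr (Module.End A G)

omit [IsNoetherianRing A] in
theorem hom_projective (s : Gen A G) (n : ℕ) :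
    Module.Projective (Module.End A G) ((Fin n → A) →ₗ[A] G) := by
  haveI := s.projective
  haveI : Module.Projective (Module.End A G) (Π₀ _ : Fin n, G) := inferInstance
  haveI : Module.Projective (Module.End A G) (Fin n → G) :=
    Module.Projective.of_equiv' (DFinsupp.linearEquivFunOnFintype (R := Module.End A G)
      (M := fun _ : Fin n => G))
  exact Module.Projective.of_equiv' (homEquiv n)

omit [IsNoetherianRing A] in
theorem hom_finite (s : Gen A G) (n : ℕ) :
    Module.Finite (Module.End A G) ((Fin n → A) →ₗ[A] G) := by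
  haveI := s.finite
  exact Module.Finite.equiv (homEquiv n)

theorem injective_of_equiv {R : Type u} [Ring R] {M N : Type u} [AddCommGroup M] [Module R M]
    [AddCommGroup N] [Module R N] (e : M ≃ₗ[R] N) (h : Module.Injective R M) :
    Module.Injective R N := by
  refine ⟨fun X Y _ _ _ _ f hf g => ?_⟩
  obtain ⟨t, ht⟩ := h.out f hf (e.symm.toLinearMap ∘ₗ g)
  refine ⟨e.toLinearMap ∘ₗ t, fun x => ?_⟩
  show e (t (f x)) = g x
  rw [ht]
  simp

omit [IsNoetherianRing A] in
theorem hom_injective (h : Module.Injective (Module.End A G) G) (n : ℕ) :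
    Module.Injective (Module.End A G) ((Fin n → A) →ₗ[A] G) := by
  exact injective_of_equiv (homEquiv n) inferInstance

end seq

section chain

variable (A G)

/-- the start of the resolution -/
noncomputable abbrev FMG [Module.Finite A G] : FM A := ⟨G⟩

variable [Module.Finite A G]

/-- the cosyzygies `Hom_A (Ω^j G, G)` -/
noncomputable abbrev ZZ (j : ℕ) : ModuleCat.{u} (Module.End A G) :=
  ModuleCat.of (Module.End A G) ((Om (FMG A G) j).X →ₗ[A] G)

/-- the terms `Hom_A (P_j, G)` -/
noncomputable abbrev II (j : ℕ) : ModuleCat.{u} (Module.End A G) :=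
  ModuleCat.of (Module.End A G) ((Fin (Om (FMG A G) j).n → A) →ₗ[A] G)

/-- the chain of short exact sequences -/
noncomputable def chain
    (hG : ∀ i : ℕ, 0 < i → Subsingleton (Ext (ModuleCat.of A G) (ModuleCat.of A G) i)) :
    Chain (ZZ A G) (II A G) where
  f j := ModuleCat.ofHom (pre (G := G) (Om (FMG A G) j).cov)
  g j := ModuleCat.ofHom (pre (G := G) (Om (FMG A G) j).inc)
  zero j := by
    ext1
    exact LinearMap.ext fun x => (pre_exact (G := G) (Om (FMG A G) j)).apply_apply_eq_zero x
  se j := by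
    refine ModuleCat.shortComplex_shortExact _ ?_ ?_ ?_
    · exact pre_exact (G := G) (Om (FMG A G) j)
    · exact pre_cov_inj (G := G) (Om (FMG A G) j)
    · exact fun g => lift_Om (FMG A G) G hG j g

end chain

end Crest.Agent.R186.Cores700
end

-- ▼ part R186/NotInj_700
section

/-!
Row 186, end-game closings, part 6 (helper700): `Γ = End_A G` is not self-injective, and there is
a simple `Γ`-module `S` with `Hom_Γ (S, G) = 0`, when `G` is not projective.
-/

set_option autoImplicit false
set_option linter.style.haveILetI false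

universe v u

open CategoryTheory CategoryTheory.Abelian

namespace Crest.Agent.R186.NotInj700

open Frob700 EndG700 Syz700 Homol700 Cores700

variable {A : Type u} [Ring A] {G : Type u} [AddCommGroup G] [Module A G]

/-- the map `G → A^n` attached to a `Γ`-linear map `Hom (A^n, G) → Hom (G, G)` -/
def sec (s : Gen A G) {n : ℕ}
    (r : ((Fin n → A) →ₗ[A] G) →ₗ[Module.End A G] (G →ₗ[A] G)) : G →ₗ[A] (Fin n → A) :=
  LinearMap.pi fun m => s.p ∘ₗ r (s.i ∘ₗ LinearMap.proj m)

theorem eq_sum (s : Gen A G) {n : ℕ} (h : (Fin n → A) →ₗ[A] G) :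
    h = ∑ m, (show Module.End A G from h ∘ₗ LinearMap.single A (fun _ => A) m ∘ₗ s.p) •
      (s.i ∘ₗ LinearMap.proj m : (Fin n → A) →ₗ[A] G) := by
  refine LinearMap.ext fun v => ?_
  rw [LinearMap.sum_apply]
  have h1 : ∀ m : Fin n, ((show Module.End A G from
      h ∘ₗ LinearMap.single A (fun _ => A) m ∘ₗ s.p) •
      (s.i ∘ₗ LinearMap.proj m : (Fin n → A) →ₗ[A] G)) v = h (Pi.single m (v m)) := by
    intro m
    show h (LinearMap.single A (fun _ => A) m (s.p (s.i (v m)))) = _
    rw [s.pi]
    rfl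
  simp only [h1]
  rw [← map_sum]
  congr 1
  exact (Finset.univ_sum_single v).symm

theorem r_eq (s : Gen A G) {n : ℕ}
    (r : ((Fin n → A) →ₗ[A] G) →ₗ[Module.End A G] (G →ₗ[A] G)) (h : (Fin n → A) →ₗ[A] G) :
    r h = h ∘ₗ sec s r := by
  conv_lhs => rw [eq_sum s h]
  rw [map_sum]
  refine LinearMap.ext fun x => ?_
  rw [LinearMap.sum_apply]
  have h1 : ∀ m : Fin n, (r ((show Module.End A G from
      h ∘ₗ LinearMap.single A (fun _ => A) m ∘ₗ s.p) •
      (s.i ∘ₗ LinearMap.proj m : (Fin n → A) →ₗ[A] G))) x = h (Pi.single m (sec s r x m)) := by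
    intro m
    rw [r.map_smul]
    rfl
  simp only [h1]
  rw [← map_sum]
  show _ = h (sec s r x)
  congr 1
  exact Finset.univ_sum_single (sec s r x)

theorem projective_of_retr [IsNoetherianRing A] [Module.Finite A G] (s : Gen A G)
    (r : ((Fin (FMG A G).n → A) →ₗ[A] G) →ₗ[Module.End A G] (G →ₗ[A] G))
    (hr : ∀ γ : G →ₗ[A] G, r (pre (G := G) (FMG A G).cov γ) = γ) : Module.Projective A G := by
  have h1 := r_eq s r (FMG A G).cov
  have h2 := hr LinearMap.id
  have h3 : pre (G := G) (FMG A G).cov LinearMap.id = (FMG A G).cov := rfl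
  rw [h3, h1] at h2
  exact Module.Projective.of_split (sec s r) (FMG A G).cov h2

theorem not_injective [IsNoetherianRing A] [Module.Finite A G] (s : Gen A G)
    (hG : ¬ Module.Projective A G)
    (hE : ∀ i : ℕ, 0 < i → Subsingleton (Ext (ModuleCat.of A G) (ModuleCat.of A G) i)) :
    ¬ Injective (ZZ A G 0) := by
  intro h
  obtain ⟨r, hr⟩ : ∃ r : II A G 0 ⟶ ZZ A G 0, (chain A G hE).f 0 ≫ r = 𝟙 _ := by
    have hX1 : Injective (ShortComplex.mk ((chain A G hE).f 0) ((chain A G hE).g 0)
      ((chain A G hE).zero 0)).X₁ := h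
    let t := ((chain A G hE).se 0).splittingOfInjective
    exact ⟨t.r, t.f_r⟩
  apply hG
  refine projective_of_retr s r.hom fun γ => ?_
  have := congrArg (fun t => t.hom γ) hr
  exact this

section simple

/-- endomorphisms which factor through a free module of finite rank -/
def FactorsFree (γ : Module.End A G) : Prop :=
  ∃ (n : ℕ) (a : G →ₗ[A] (Fin n → A)) (b : (Fin n → A) →ₗ[A] G), γ = b ∘ₗ a

/-- the left ideal of endomorphisms which factor through a free module -/
def J (A : Type u) [Ring A] (G : Type u) [AddCommGroup G] [Module A G] :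
    Submodule (Module.End A G) (Module.End A G) where
  carrier := {γ | FactorsFree γ}
  add_mem' := by
    rintro _ _ ⟨n, a, b, rfl⟩ ⟨m, a', b', rfl⟩
    let e : (Fin n ⊕ Fin m → A) ≃ₗ[A] (Fin (n + m) → A) :=
      LinearEquiv.funCongrLeft A A finSumFinEquiv.symm
    let e' := LinearEquiv.sumArrowLequivProdArrow (Fin n) (Fin m) A A
    refine ⟨n + m, e.toLinearMap ∘ₗ e'.symm.toLinearMap ∘ₗ a.prod a',
      (b.coprod b') ∘ₗ e'.toLinearMap ∘ₗ e.symm.toLinearMap, ?_⟩
    refine LinearMap.ext fun x => ?_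
    simp [LinearMap.comp_apply]
  zero_mem' := ⟨0, 0, 0, by ext; simp⟩
  smul_mem' := by
    rintro c _ ⟨n, a, b, rfl⟩
    exact ⟨n, a, c ∘ₗ b, rfl⟩

theorem J_mul_right {γ : Module.End A G} (h : γ ∈ J A G) (δ : Module.End A G) :
    γ * δ ∈ J A G := by
  obtain ⟨n, a, b, rfl⟩ := h
  exact ⟨n, a ∘ₗ δ, b, rfl⟩

theorem J_ne_top (hG : ¬ Module.Projective A G) : J A G ≠ ⊤ := by
  intro h
  have h1 : (1 : Module.End A G) ∈ J A G := by rw [h]; trivial
  obtain ⟨n, a, b, hab⟩ := h1
  exact hG (Module.Projective.of_split a b hab.symm)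

/-- elements `i ∘ t`, `t : G → A`, are in `J` -/
theorem mem_J (s : Gen A G) (t : G →ₗ[A] A) : (s.i ∘ₗ t : G →ₗ[A] G) ∈ J A G := by
  refine ⟨1, LinearMap.pi fun _ => t, s.i ∘ₗ LinearMap.proj 0, ?_⟩
  ext x
  simp

theorem exists_simple (hG : ¬ Module.Projective A G) :
    ∃ (S : Type u) (_ : AddCommGroup S) (_ : Module (Module.End A G) S),
      IsSimpleModule (Module.End A G) S ∧ ∀ γ ∈ J A G, ∀ x : S, γ • x = 0 := by
  obtain ⟨m, hm, hJ⟩ := Ideal.exists_le_maximal (J A G) (J_ne_top hG)
  refine ⟨Module.End A G ⧸ m, inferInstance, inferInstance, ?_, ?_⟩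
  · exact isSimpleModule_iff_isCoatom.2 hm.out
  · intro γ hγ x
    obtain ⟨δ, rfl⟩ := Submodule.Quotient.mk_surjective _ x
    rw [← Submodule.Quotient.mk_smul, Submodule.Quotient.mk_eq_zero]
    exact hJ (J_mul_right hγ δ)

variable {K : Type v} [Field K] [Algebra K A] [Module K G] [IsScalarTower K A G]

theorem hom_zero (σ : Sym K A) (s : Gen A G) (S : Type u) [AddCommGroup S]
    [Module (Module.End A G) S] (hS : ∀ γ ∈ J A G, ∀ x : S, γ • x = 0)
    (f : S →ₗ[Module.End A G] G) : f = 0 := by
  ext x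
  by_contra hne
  rw [LinearMap.zero_apply] at hne
  obtain ⟨η, hη⟩ := Module.Projective.exists_dual_ne_zero K hne
  have h1 : (s.i ∘ₗ σ.h η : G →ₗ[A] G) ∈ J A G := mem_J s _
  have h2 : f ((show Module.End A G from s.i ∘ₗ σ.h η) • x) = s.i (σ.h η (f x)) := by
    rw [f.map_smul]
    rfl
  rw [hS _ h1 x, map_zero] at h2
  have h3 : σ.h η (f x) = 0 := by
    rw [← s.pi (σ.h η (f x)), ← h2, map_zero]
  apply hη
  rw [← σ.lam_h, h3, map_zero]

end simple

end Crest.Agent.R186.NotInj700
end

-- ▼ part R186/Fin_700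
section

/-!
Row 186, end-game closings, part 7 (helper700): the literal conclusions of S0282, S0283, S0284,
S0285 over a field `K` from a generator `G` (with `A` a direct summand of `G`) over a symmetric
`K`-algebra `A`, `G` finite, not projective and `Ext^i_A (G, G) = 0` for `i > 0`.
-/

set_option autoImplicit false
set_option linter.style.haveILetI false

universe v u

open CategoryTheory CategoryTheory.Abelian Crest.AlgebraR

namespace Crest.Agent.R186.Fin700

open Frob700 EndG700 Syz700 Homol700 Cores700 NotInj700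

section general

variable {R : Type u} [Ring R]

theorem inj_obj {M : Type u} [AddCommGroup M] [Module R M] (h : Module.Injective R M) :
    Injective (ModuleCat.of R M) :=
  Module.injective_object_of_injective_module R M

theorem proj_obj {M : Type u} [AddCommGroup M] [Module R M] (h : Module.Projective R M) :
    Projective (ModuleCat.of R M) :=
  (IsProjective.iff_projective (ModuleCat.of R M)).1 h

/-- `Hom (-, W)` with `W` injective is exact -/
theorem exact_pre {X Y Z W : Type u} [AddCommGroup X] [Module R X] [AddCommGroup Y] [Module R Y]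
    [AddCommGroup Z] [Module R Z] [AddCommGroup W] [Module R W] (hW : Module.Injective R W)
    (a : X →ₗ[R] Y) (b : Y →ₗ[R] Z) (h : Function.Exact a b) :
    Function.Exact (fun f : Z →ₗ[R] W => f ∘ₗ b) (fun g : Y →ₗ[R] W => g ∘ₗ a) := by
  intro g
  constructor
  · intro hg
    have hker : LinearMap.ker b ≤ LinearMap.ker g := by
      intro y hy
      obtain ⟨x, rfl⟩ := (h y).1 hy
      exact LinearMap.congr_fun hg x
    let g' : (Y ⧸ LinearMap.ker b) →ₗ[R] W := (LinearMap.ker b).liftQ g hker
    let b' : (Y ⧸ LinearMap.ker b) →ₗ[R] Z := (LinearMap.ker b).liftQ b le_rfl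
    have hb' : Function.Injective b' := by
      rw [← LinearMap.ker_eq_bot]
      exact Submodule.ker_liftQ_eq_bot _ _ _ le_rfl
    obtain ⟨f, hf⟩ := hW.out b' hb' g'
    refine ⟨f, LinearMap.ext fun y => ?_⟩
    have := hf (Submodule.Quotient.mk y)
    exact this
  · rintro ⟨f, rfl⟩
    refine LinearMap.ext fun x => ?_
    show f (b (a x)) = 0
    rw [(h (a x)).2 ⟨x, rfl⟩, map_zero]

theorem retr_inj {X M : Type u} [AddCommGroup X] [Module R X] [AddCommGroup M] [Module R M]
    (i : X →ₗ[R] M) (p : M →ₗ[R] X) (h : ∀ x, p (i x) = x) (hM : Module.Injective R M) :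
    Module.Injective R X := by
  refine ⟨fun Y Z _ _ _ _ f hf g => ?_⟩
  obtain ⟨t, ht⟩ := hM.out f hf (i ∘ₗ g)
  refine ⟨p ∘ₗ t, fun y => ?_⟩
  show p (t (f y)) = g y
  rw [ht]
  exact h _

theorem inj_of_inAdd {W X : Type u} [AddCommGroup W] [Module R W] [AddCommGroup X] [Module R X]
    (hW : Module.Injective R W) (h : InAdd R W X) : Module.Injective R X := by
  obtain ⟨n, Y, _, _, ⟨e⟩⟩ := h
  haveI : Module.Injective R (Fin n → W) := inferInstance
  exact retr_inj (e.toLinearMap ∘ₗ LinearMap.inl R X Y) (LinearMap.fst R X Y ∘ₗ e.symm.toLinearMap)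
    (fun x => by simp) this

theorem proj_of_inAdd {W X : Type u} [AddCommGroup W] [Module R W] [AddCommGroup X] [Module R X]
    (hW : Module.Projective R W) (h : InAdd R W X) : Module.Projective R X := by
  obtain ⟨n, Y, _, _, ⟨e⟩⟩ := h
  haveI : Module.Projective R (Π₀ _ : Fin n, W) := inferInstance
  haveI : Module.Projective R (Fin n → W) :=
    Module.Projective.of_equiv' (DFinsupp.linearEquivFunOnFintype (R := R)
      (M := fun _ : Fin n => W))
  exact Module.Projective.of_split (e.toLinearMap ∘ₗ LinearMap.inl R X Y)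
    (LinearMap.fst R X Y ∘ₗ e.symm.toLinearMap) (by ext x; simp)

/-- a finite coresolution of `R` by modules which are projective and injective makes `R`
self-injective -/
theorem inj_of_finite_cores (C : ℕ → Type u) [∀ j, AddCommGroup (C j)] [∀ j, Module R (C j)]
    (ε : R →ₗ[R] C 0) (d : ∀ j : ℕ, C j →ₗ[R] C (j + 1)) (r : ℕ)
    (hε : Function.Injective ε) (h0 : Function.Exact ε (d 0))
    (hd : ∀ j, Function.Exact (d j) (d (j + 1)))
    (hp : ∀ j, Module.Projective R (C j)) (hi : ∀ j, Module.Injective R (C j))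
    (hr : ∀ j, r < j → Subsingleton (C j)) : Module.Injective R R := by
  let Z : ℕ → ModuleCat.{u} R := fun j => ModuleCat.of R (LinearMap.ker (d j))
  let I : ℕ → ModuleCat.{u} R := fun j => ModuleCat.of R (C j)
  let gg : ∀ j, C j →ₗ[R] LinearMap.ker (d (j + 1)) := fun j =>
    (d j).codRestrict _ (fun x => (hd j (d j x)).2 ⟨x, rfl⟩)
  have hz : ∀ j, gg j ∘ₗ (LinearMap.ker (d j)).subtype = 0 := by
    intro j
    ext x
    exact x.2
  let c : Chain Z I :=
    { f := fun j => ModuleCat.ofHom (LinearMap.ker (d j)).subtype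
      g := fun j => ModuleCat.ofHom (gg j)
      zero := fun j => by
        ext1
        exact hz j
      se := fun j => by
        refine ModuleCat.shortComplex_shortExact _ ?_ ?_ ?_
        · intro y
          constructor
          · intro hy
            have h1 : (gg j) y = 0 := hy
            have h2 : d j y = 0 := congrArg Subtype.val h1
            exact ⟨⟨y, h2⟩, rfl⟩
          · rintro ⟨x, rfl⟩
            exact LinearMap.congr_fun (hz j) x
        · exact (LinearMap.ker (d j)).injective_subtype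
        · rintro ⟨y, hy⟩
          obtain ⟨x, hx⟩ := (hd j y).1 hy
          exact ⟨x, Subtype.ext hx⟩ }
  have hZ : Projective (Z (r + 1)) := by
    haveI : Subsingleton (C (r + 1)) := hr (r + 1) (by omega)
    haveI : Subsingleton (LinearMap.ker (d (r + 1))) := inferInstance
    haveI : Module.Projective R (LinearMap.ker (d (r + 1))) := inferInstance
    exact proj_obj this
  have h1 : Injective (Z 0) := inj_zero_of_proj c (fun j => proj_obj (hp j))
    (fun j => inj_obj (hi j)) r hZ
  have h2 : Module.Injective R (LinearMap.ker (d 0)) :=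
    Module.injective_module_of_injective_object R _
  let e : R →ₗ[R] LinearMap.ker (d 0) := ε.codRestrict _ (fun x => (h0 (ε x)).2 ⟨x, rfl⟩)
  have he : Function.Bijective e := by
    constructor
    · intro x y hxy
      exact hε (congrArg Subtype.val hxy)
    · rintro ⟨y, hy⟩
      obtain ⟨x, hx⟩ := (h0 y).1 hy
      exact ⟨x, Subtype.ext hx⟩
  exact injective_of_equiv (LinearEquiv.ofBijective e he).symm h2

end general

section zero

variable {A : Type u} [Ring A] {G : Type u} [AddCommGroup G] [Module A G]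

theorem pre_cov_zero (M : FM A) (f : M.X →ₗ[A] G) (h : pre (G := G) M.cov f = 0) : f = 0 := by
  apply pre_cov_inj (G := G) M
  rw [h, map_zero]

theorem pre_eq_zero {X Y : Type u} [AddCommGroup X] [Module A X] [AddCommGroup Y] [Module A Y]
    (t : X →ₗ[A] Y) (f : Y →ₗ[A] G) (h : f = 0) : pre (G := G) t f = 0 := by
  rw [h, map_zero]

end zero

section main

variable {A : Type u} [Ring A] [IsNoetherianRing A] {G : Type u} [AddCommGroup G] [Module A G]
  [Module.Finite A G]

variable (A G) in
/-- the standing hypotheses: everything is expressed over `Γ = End_A G` -/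
structure Hyp where
  s : Gen A G
  np : ¬ Module.Projective A G
  ext : ∀ i : ℕ, 0 < i → Subsingleton (Ext (ModuleCat.of A G) (ModuleCat.of A G) i)
  inj : Module.Injective (Module.End A G) G
  hz : ∀ (S : Type u) [AddCommGroup S] [Module (Module.End A G) S],
    (∀ γ ∈ J A G, ∀ x : S, γ • x = 0) → ∀ f : S →ₗ[Module.End A G] G, f = 0

namespace Hyp

variable (H : Hyp A G)

include H

theorem Ip (j : ℕ) : Projective (II A G j) := proj_obj (hom_projective H.s _)

theorem Ii (j : ℕ) : Injective (II A G j) := inj_obj (hom_injective H.inj _)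

omit [IsNoetherianRing A] [Module.Finite A G] H in
theorem Zp : Projective (ModuleCat.of (Module.End A G) (G →ₗ[A] G)) :=
  proj_obj (Module.Projective.of_equiv' (selfEquiv (A := A) (G := G)))

theorem Zi : ¬ Injective (ZZ A G 0) := not_injective H.s H.np H.ext

omit H in
/-- `Γ ≅ Z 0` -/
noncomputable def isoZ : ModuleCat.of (Module.End A G) (Module.End A G) ≅ ZZ A G 0 :=
  (selfEquiv (A := A) (G := G)).toModuleIso

theorem dim (n : ℕ) (hn : 1 ≤ n) :
    ∃ C : ModuleCat.{u} (Module.End A G), Module.Finite (Module.End A G) C ∧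
      projectiveDimension C = (n : WithBot ℕ∞) := by
  refine ⟨ZZ A G n, ?_, ?_⟩
  · obtain ⟨m, rfl⟩ := Nat.exists_eq_add_of_le' hn
    haveI := hom_finite H.s (Om (FMG A G) m).n
    exact Module.Finite.of_surjective (pre (G := G) (Om (FMG A G) m).inc)
      (fun g => lift_Om (FMG A G) G H.ext m g)
  · exact projDim_eq (chain A G H.ext) H.Ip H.Ii Zp H.Zi n hn

theorem injdim (n : ℕ) :
    ¬ HasInjectiveDimensionLT (ModuleCat.of (Module.End A G) (Module.End A G)) n := by
  intro h
  have h1 : HasInjectiveDimensionLT (ZZ A G 0) n := hasInjectiveDimensionLT_of_iso (isoZ (A := A) (G := G)) n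
  exact not_injDim (chain A G H.ext) H.Ip H.Ii H.Zi n h1

/-- terms -/
abbrev CC (A G : Type u) [Ring A] [IsNoetherianRing A] [AddCommGroup G] [Module A G]
    [Module.Finite A G] (j : ℕ) : Type u := (Fin (Om (FMG A G) j).n → A) →ₗ[A] G

/-- augmentation -/
noncomputable def eps (A G : Type u) [Ring A] [IsNoetherianRing A] [AddCommGroup G] [Module A G]
    [Module.Finite A G] : Module.End A G →ₗ[Module.End A G] CC A G 0 :=
  pre (G := G) (Om (FMG A G) 0).cov ∘ₗ (selfEquiv (A := A) (G := G)).toLinearMap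

/-- differentials -/
noncomputable def dd (A G : Type u) [Ring A] [IsNoetherianRing A] [AddCommGroup G] [Module A G]
    [Module.Finite A G] (j : ℕ) : CC A G j →ₗ[Module.End A G] CC A G (j + 1) :=
  pre (G := G) (Om (FMG A G) (j + 1)).cov ∘ₗ pre (G := G) (Om (FMG A G) j).inc

omit H in
theorem eps_inj : Function.Injective (eps A G) := by
  intro x y hxy
  have h1 := pre_cov_inj (G := G) (Om (FMG A G) 0) hxy
  exact h1

omit H in
theorem eps_exact : Function.Exact (eps A G) (dd A G 0) := by
  intro f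
  constructor
  · intro hf
    have h1 : pre (G := G) (Om (FMG A G) 0).inc f = 0 :=
      pre_cov_zero (G := G) (Om (FMG A G) 1) _ hf
    obtain ⟨g, hg⟩ := (pre_exact (G := G) (Om (FMG A G) 0) f).1 h1
    exact ⟨g, hg⟩
  · rintro ⟨g, rfl⟩
    exact pre_eq_zero (G := G) (Om (FMG A G) 1).cov _
      ((pre_exact (G := G) (Om (FMG A G) 0)).apply_apply_eq_zero g)

theorem dd_exact (j : ℕ) : Function.Exact (dd A G j) (dd A G (j + 1)) := by
  intro f
  constructor
  · intro hf
    have h1 : pre (G := G) (Om (FMG A G) (j + 1)).inc f = 0 :=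
      pre_cov_zero (G := G) (Om (FMG A G) (j + 2)) _ hf
    obtain ⟨g, hg⟩ := (pre_exact (G := G) (Om (FMG A G) (j + 1)) f).1 h1
    obtain ⟨t, ht⟩ := lift_Om (FMG A G) G H.ext j g
    refine ⟨t, ?_⟩
    have h2 : pre (G := G) (Om (FMG A G) j).inc t = g := ht
    exact (congrArg (pre (G := G) (Om (FMG A G) (j + 1)).cov) h2).trans hg
  · rintro ⟨t, rfl⟩
    exact pre_eq_zero (G := G) (Om (FMG A G) (j + 2)).cov _
      ((pre_exact (G := G) (Om (FMG A G) (j + 1))).apply_apply_eq_zero
        (pre (G := G) (Om (FMG A G) j).inc t))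

theorem domdim : ∃ (I : ℕ → ModuleCat.{u} (Module.End A G))
    (ε : Module.End A G →ₗ[Module.End A G] I 0)
    (d : ∀ j : ℕ, I j →ₗ[Module.End A G] I (j + 1)),
    Function.Injective ε ∧ Function.Exact ε (d 0) ∧
      (∀ j, Function.Exact (d j) (d (j + 1))) ∧
      ∀ j, Module.Projective (Module.End A G) (I j) ∧ Module.Injective (Module.End A G) (I j) :=
  ⟨fun j => II A G j, eps A G, dd A G, eps_inj, eps_exact, H.dd_exact,
    fun j => ⟨hom_projective H.s _, hom_injective H.inj _⟩⟩

theorem not_self_inj : ¬ Module.Injective (Module.End A G) (Module.End A G) := by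
  intro h
  have h1 : Module.Injective (Module.End A G) (G →ₗ[A] G) :=
    injective_of_equiv (selfEquiv (A := A) (G := G)) h
  exact H.Zi (inj_obj h1)

theorem self_orth : IsSelfOrthogonal (Module.End A G) G := by
  intro i hi
  haveI : Projective (ModuleCat.of (Module.End A G) G) := proj_obj H.s.projective
  obtain ⟨j, rfl⟩ := Nat.exists_eq_add_of_le' hi
  exact ⟨fun a b => by
    rw [Ext.eq_zero_of_projective a, Ext.eq_zero_of_projective b]⟩

theorem wakamatsu : IsWakamatsuTilting (Module.End A G) G := by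
  refine ⟨H.self_orth, CC A G, inferInstance, inferInstance, eps A G, dd A G,
    ⟨fun j => ⟨(Om (FMG A G) j).n, PUnit, inferInstance, inferInstance, ⟨?_⟩⟩, eps_inj, eps_exact,
      H.dd_exact⟩, ?_, ?_, ?_⟩
  · exact (LinearEquiv.prodUnique).trans (homEquiv (A := A) (G := G) (Om (FMG A G) j).n).symm
  · intro f
    obtain ⟨t, ht⟩ := H.inj.out (eps A G) eps_inj f
    exact ⟨t, LinearMap.ext ht⟩
  · exact exact_pre H.inj (eps A G) (dd A G 0) eps_exact
  · intro j
    exact exact_pre H.inj (dd A G j) (dd A G (j + 1)) (H.dd_exact j)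

theorem not_tilting : ¬ IsTilting (Module.End A G) G := by
  rintro ⟨-, -, C, _, _, ε, d, r, ⟨hadd, hε, h0, hd⟩, hr⟩
  exact H.not_self_inj (inj_of_finite_cores C ε d r hε h0 hd
    (fun j => proj_of_inAdd H.s.projective (hadd j)) (fun j => inj_of_inAdd H.inj (hadd j)) hr)

theorem simple_ext : ∃ S : ModuleCat.{u} (Module.End A G), IsSimpleModule (Module.End A G) S ∧
    ∀ i : ℕ, Subsingleton (Ext S (ModuleCat.of (Module.End A G) (Module.End A G)) i) := by
  obtain ⟨S, _, _, hs, hJ⟩ := exists_simple (A := A) (G := G) H.np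
  refine ⟨ModuleCat.of (Module.End A G) S, hs, fun i => ?_⟩
  have h1 : Subsingleton (Ext (ModuleCat.of (Module.End A G) S) (ZZ A G 0) i) := by
    refine ext_zero (chain A G H.ext) H.Ii _ (fun j φ => ?_) i 0
    have h2 : ∀ f : S →ₗ[Module.End A G] CC A G j, f = 0 := by
      intro f
      have h3 : ∀ m : Fin (Om (FMG A G) j).n, LinearMap.proj m ∘ₗ
          (homEquiv (A := A) (G := G) (Om (FMG A G) j).n).symm.toLinearMap ∘ₗ f = 0 :=
        fun m => H.hz S hJ _
      refine LinearMap.ext fun x => ?_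
      apply (homEquiv (A := A) (G := G) (Om (FMG A G) j).n).symm.injective
      rw [LinearMap.zero_apply, map_zero]
      funext m
      exact LinearMap.congr_fun (h3 m) x
    exact ModuleCat.hom_ext (h2 φ.hom)
  refine ⟨fun a b => ?_⟩
  have h4 : ∀ x : Ext (ModuleCat.of (Module.End A G) S)
      (ModuleCat.of (Module.End A G) (Module.End A G)) i, x = 0 := by
    intro x
    have h5 : x.comp (Ext.mk₀ (isoZ (A := A) (G := G)).hom) (add_zero i) = 0 := h1.elim _ _
    have h6 : (x.comp (Ext.mk₀ (isoZ (A := A) (G := G)).hom) (add_zero i)).comp (Ext.mk₀ (isoZ (A := A) (G := G)).inv)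
        (add_zero i) = x := by
      rw [Ext.comp_assoc_of_second_deg_zero, Ext.mk₀_comp_mk₀, Iso.hom_inv_id, Ext.comp_mk₀_id]
    rw [← h6, h5, Ext.zero_comp]
  rw [h4 a, h4 b]

end Hyp

end main

end Crest.Agent.R186.Fin700
end

-- ▼ part R186/Close_700
section

/-!
Row 186, end-game closings, part 8 (helper700): from a symmetric `K`-algebra `A` and a finite
non-projective `M` with `Ext^i_A (M, M) = 0` for `i > 0` to the literal conclusions of
S0282, S0283, S0284, S0285 over `K`.
-/

set_option autoImplicit false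
set_option linter.style.haveILetI false

universe v u

open CategoryTheory CategoryTheory.Abelian Crest.AlgebraR

namespace Crest.Agent.R186.Close700

open Frob700 EndG700 Syz700 Homol700 Cores700 NotInj700 Fin700

/-- the input -/
structure AR (K : Type v) [Field K] where
  A : Type u
  [ring : Ring A]
  [alg : Algebra K A]
  fd : FiniteDimensional K A
  sym : IsSymmetricAlgebra K A
  M : Type u
  [grp : AddCommGroup M]
  [mod : Module A M]
  fin : Module.Finite A M
  np : ¬ Module.Projective A M
  ext : ∀ i : ℕ, 0 < i → Subsingleton (Ext (ModuleCat.of A M) (ModuleCat.of A M) i)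

attribute [instance] AR.ring AR.alg AR.grp AR.mod

section prod

variable {A : Type u} [Ring A] {M : Type u} [AddCommGroup M] [Module A M]

/-- `0 → A → A × M → M → 0` -/
noncomputable abbrev psc (A M : Type u) [Ring A] [AddCommGroup M] [Module A M] :
    ShortComplex (ModuleCat.{u} A) :=
  ModuleCat.shortComplexOfCompEqZero (LinearMap.inl A A M) (LinearMap.snd A A M)
    (LinearMap.snd_comp_inl A A M)

theorem psc_se : (psc A M).ShortExact := by
  refine ModuleCat.shortComplex_shortExact _ ?_ ?_ ?_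
  · intro x
    constructor
    · intro hx
      refine ⟨x.1, ?_⟩
      have h2 : x.2 = 0 := hx
      exact Prod.ext rfl h2.symm
    · rintro ⟨y, rfl⟩
      rfl
  · exact LinearMap.inl_injective
  · exact LinearMap.snd_surjective

theorem ext_prod (hA : Module.Injective A A)
    (h : ∀ i : ℕ, 0 < i → Subsingleton (Ext (ModuleCat.of A M) (ModuleCat.of A M) i)) (i : ℕ)
    (hi : 0 < i) :
    Subsingleton (Ext (ModuleCat.of A (A × M)) (ModuleCat.of A (A × M)) i) := by
  obtain ⟨j, rfl⟩ := Nat.exists_eq_add_of_le' hi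
  haveI : Injective (ModuleCat.of A A) := inj_obj hA
  haveI : Projective (ModuleCat.of A A) := proj_obj inferInstance
  -- Ext (A × M, M) = 0
  have h1 : ∀ x : Ext (psc A M).X₂ (ModuleCat.of A M) (j + 1), x = 0 := by
    intro x
    have h0 : (Ext.mk₀ (psc A M).f).comp x (zero_add (j + 1)) = 0 :=
      Ext.eq_zero_of_projective (P := ModuleCat.of A A) _
    obtain ⟨y, hy⟩ := Ext.contravariant_sequence_exact₂ psc_se (ModuleCat.of A M) x h0
    have : y = 0 := (h (j + 1) hi).elim _ _
    rw [← hy, this, Ext.comp_zero]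
  have h2 : ∀ x : Ext (ModuleCat.of A (A × M)) (psc A M).X₂ (j + 1), x = 0 := by
    intro x
    have h0 : x.comp (Ext.mk₀ (psc A M).g) (add_zero (j + 1)) = 0 := h1 _
    obtain ⟨y, hy⟩ := Ext.covariant_sequence_exact₂ (ModuleCat.of A (A × M)) psc_se x h0
    have : y = 0 := Ext.eq_zero_of_injective (I := ModuleCat.of A A) _
    rw [← hy, this, Ext.zero_comp]
  exact ⟨fun a b => by rw [h2 a, h2 b]⟩

theorem np_prod (h : ¬ Module.Projective A M) : ¬ Module.Projective A (A × M) := by
  intro hp
  exact h (Module.Projective.of_split (LinearMap.inr A A M) (LinearMap.snd A A M)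
    (LinearMap.snd_comp_inr A A M))

/-- `A` is a summand of `A × M` -/
def genProd : Gen A (A × M) where
  i := LinearMap.inl A A M
  p := LinearMap.fst A A M
  pi _ := rfl

end prod

section K

variable {K : Type v} [Field K] {A : Type u} [Ring A] [Algebra K A] {G : Type u}
  [AddCommGroup G] [Module A G] [Module K G] [IsScalarTower K A G]

include K in
theorem comm_AK : SMulCommClass A K G := ⟨fun a r g => by
  rw [← algebraMap_smul A r g, ← algebraMap_smul A r (a • g), ← mul_smul, ← mul_smul,
    Algebra.commutes]⟩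

theorem fd_end [FiniteDimensional K G] [SMulCommClass A K G] :
    FiniteDimensional K (Module.End A G) := by
  let φ : Module.End A G →ₗ[K] Module.End K G :=
    { toFun := fun f => f.restrictScalars K
      map_add' := fun _ _ => rfl
      map_smul' := fun _ _ => rfl }
  exact FiniteDimensional.of_injective φ (fun f g h => by
    ext x
    exact LinearMap.congr_fun h x)

theorem mkHyp [IsNoetherianRing A] [Module.Finite A G] [FiniteDimensional K G] (σ : Sym K A)
    (s : Gen A G) (np : ¬ Module.Projective A G)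
    (ext : ∀ i : ℕ, 0 < i → Subsingleton (Ext (ModuleCat.of A G) (ModuleCat.of A G) i)) :
    Nonempty (Hyp A G) :=
  ⟨{ s := s
     np := np
     ext := ext
     inj := injective σ s
     hz := fun S _ _ hS f => hom_zero σ s S hS f }⟩

end K

section main

variable {K : Type v} [Field K] (D : AR.{v, u} K)

/-- the collected output -/
structure Out (K : Type v) [Field K] where
  Γ : Type u
  [ring : Ring Γ]
  [alg : Algebra K Γ]
  fd : FiniteDimensional K Γ
  W : Type u
  [grp : AddCommGroup W]
  [mod : Module Γ W]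
  fin : Module.Finite Γ W
  proj : Module.Projective Γ W
  inj : Module.Injective Γ W
  wak : IsWakamatsuTilting Γ W
  nt : ¬ IsTilting Γ W
  simple : ∃ S : ModuleCat.{u} Γ, IsSimpleModule Γ S ∧
    ∀ i : ℕ, Subsingleton (Ext S (ModuleCat.of Γ Γ) i)
  dim : ∀ n : ℕ, 1 ≤ n → ∃ C : ModuleCat.{u} Γ, Module.Finite Γ C ∧
    projectiveDimension C = (n : WithBot ℕ∞)
  dom : ∃ (I : ℕ → ModuleCat.{u} Γ) (ε : Γ →ₗ[Γ] I 0) (d : ∀ j : ℕ, I j →ₗ[Γ] I (j + 1)),
    Function.Injective ε ∧ Function.Exact ε (d 0) ∧ (∀ j, Function.Exact (d j) (d (j + 1))) ∧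
    ∀ j, Module.Projective Γ (I j) ∧ Module.Injective Γ (I j)
  ninj : ∀ n : ℕ, ¬ HasInjectiveDimensionLT (ModuleCat.of Γ Γ) n

attribute [instance] Out.ring Out.alg Out.grp Out.mod

include D in
theorem out : Nonempty (Out.{v, u} K) := by
  obtain ⟨σ⟩ := nonempty_sym D.sym
  haveI := D.fd
  haveI := D.fin
  haveI : IsNoetherianRing D.A := isNoetherian_of_tower K (inferInstance : IsNoetherian K D.A)
  letI : Module K D.M := Module.compHom D.M (algebraMap K D.A)
  haveI : IsScalarTower K D.A D.M := ⟨fun r a x => by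
    show (r • a) • x = algebraMap K D.A r • (a • x)
    rw [Algebra.smul_def, mul_smul]⟩
  haveI : FiniteDimensional K D.M := Module.Finite.trans D.A D.M
  haveI : SMulCommClass D.A K (D.A × D.M) := comm_AK (K := K) (A := D.A) (G := D.A × D.M)
  obtain ⟨H⟩ := mkHyp (G := D.A × D.M) σ genProd (np_prod D.np)
    (ext_prod (injective_self σ) D.ext)
  exact ⟨{ Γ := Module.End D.A (D.A × D.M)
           fd := fd_end
           W := D.A × D.M
           fin := H.s.finite
           proj := H.s.projective
           inj := H.inj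
           wak := H.wakamatsu
           nt := H.not_tilting
           simple := H.simple_ext
           dim := H.dim
           dom := H.domdim
           ninj := H.injdim }⟩

include D

/-- conclusion of S0282 -/
theorem c0282 : ∃ (Γ : Type u) (_ : Ring Γ) (_ : Algebra K Γ), FiniteDimensional K Γ ∧
      ∃ S : ModuleCat.{u} Γ, IsSimpleModule Γ S ∧
        ∀ i : ℕ, Subsingleton (Abelian.Ext S (ModuleCat.of Γ Γ) i) := by
  obtain ⟨O⟩ := out D
  exact ⟨O.Γ, O.ring, O.alg, O.fd, O.simple⟩

/-- conclusion of S0283 -/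
theorem c0283 : ∃ (Γ : Type u) (_ : Ring Γ) (_ : Algebra K Γ), FiniteDimensional K Γ ∧
      ∀ n : ℕ, 1 ≤ n → ∃ C : ModuleCat.{u} Γ, Module.Finite Γ C ∧
        projectiveDimension C = (n : WithBot ℕ∞) := by
  obtain ⟨O⟩ := out D
  exact ⟨O.Γ, O.ring, O.alg, O.fd, O.dim⟩

/-- conclusion of S0284 -/
theorem c0284 : ∃ (Γ : Type u) (_ : Ring Γ) (_ : Algebra K Γ), FiniteDimensional K Γ ∧
      (∃ (I : ℕ → ModuleCat.{u} Γ) (ε : Γ →ₗ[Γ] I 0) (d : ∀ j : ℕ, I j →ₗ[Γ] I (j + 1)),
        Function.Injective ε ∧ Function.Exact ε (d 0) ∧ (∀ j, Function.Exact (d j) (d (j + 1))) ∧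
        ∀ j, Module.Projective Γ (I j) ∧ Module.Injective Γ (I j)) ∧
      ∀ n : ℕ, ¬ HasInjectiveDimensionLT (ModuleCat.of Γ Γ) n := by
  obtain ⟨O⟩ := out D
  exact ⟨O.Γ, O.ring, O.alg, O.fd, O.dom, O.ninj⟩

/-- conclusion of S0285 -/
theorem c0285 : ∃ (Γ : Type u) (_ : Ring Γ) (_ : Algebra K Γ), FiniteDimensional K Γ ∧
      ∃ (W : Type u) (_ : AddCommGroup W) (_ : Module Γ W), Module.Finite Γ W ∧
        Module.Projective Γ W ∧ Module.Injective Γ W ∧
        IsWakamatsuTilting Γ W ∧ ¬ IsTilting Γ W := by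
  obtain ⟨O⟩ := out D
  exact ⟨O.Γ, O.ring, O.alg, O.fd, O.W, O.grp, O.mod, O.fin, O.proj, O.inj, O.wak, O.nt⟩

end main

end Crest.Agent.R186.Close700
end

-- ▼ part R186/Ind_700
section

/-!
Row 186, end-game closings, part 10 (helper700): the induced module `ind X = T(Γ) ⊗_Γ X`
realised as `X ⊕ D(X^*)`, `X^* = Hom_Γ (X, Γ)`, for finite `X`.
-/

set_option autoImplicit false
set_option linter.style.haveILetI false

universe v u

open Crest.AlgebraR CategoryTheory CategoryTheory.Abelian

namespace Crest.Agent.R186.Ind700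

open Triv700 Syz700

variable (K : Type u) [Field K] {Γ : Type u} [Ring Γ] [Algebra K Γ]

section dual

variable (X : Type u) [AddCommGroup X] [Module Γ X]

/-- `D (X^*)` -/
def DX : Type u := Module.Dual K (X →ₗ[Γ] Γ)

variable {X}

/-- right multiplication on `X^*` -/
def rmul (a : Γ) : (X →ₗ[Γ] Γ) →ₗ[K] (X →ₗ[Γ] Γ) where
  toFun h := (LinearMap.toSpanSingleton Γ Γ a) ∘ₗ h
  map_add' g h := by ext x; simp [add_mul]
  map_smul' r h := by ext x; simp

@[simp] theorem rmul_apply (a : Γ) (h : X →ₗ[Γ] Γ) (x : X) : rmul K a h x = h x * a := rfl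

variable {K}

namespace DX

instance : AddCommGroup (DX K X (Γ := Γ)) :=
  inferInstanceAs (AddCommGroup (Module.Dual K (X →ₗ[Γ] Γ)))

/-- evaluation -/
def ev (f : DX K X (Γ := Γ)) : Module.Dual K (X →ₗ[Γ] Γ) := f

/-- constructor -/
def of (f : Module.Dual K (X →ₗ[Γ] Γ)) : DX K X (Γ := Γ) := f

@[simp] theorem ev_of (f : Module.Dual K (X →ₗ[Γ] Γ)) : ev (of f) = f := rfl

@[ext] theorem ext {f g : DX K X (Γ := Γ)} (h : ∀ y, f.ev y = g.ev y) : f = g := LinearMap.ext h

@[simp] theorem ev_add (f g : DX K X (Γ := Γ)) : (f + g).ev = f.ev + g.ev := rfl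
@[simp] theorem ev_zero : (0 : DX K X (Γ := Γ)).ev = 0 := rfl

instance : Module Γ (DX K X (Γ := Γ)) where
  smul a f := of (f.ev ∘ₗ rmul K a)
  one_smul f := by
    ext h
    show f.ev (rmul K 1 h) = f.ev h
    congr 1
    ext x
    simp
  mul_smul a b f := by
    ext h
    show f.ev (rmul K (a * b) h) = f.ev (rmul K b (rmul K a h))
    congr 1
    ext x
    simp [mul_assoc]
  smul_zero a := by ext y; rfl
  smul_add a f g := by ext y; rfl
  add_smul a b f := by
    ext h
    show f.ev (rmul K (a + b) h) = f.ev (rmul K a h) + f.ev (rmul K b h)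
    rw [← map_add]
    congr 1
    ext x
    simp [mul_add]
  zero_smul f := by
    ext h
    show f.ev (rmul K 0 h) = 0
    have : rmul K (0 : Γ) h = 0 := by
      ext x
      simp
    rw [this, map_zero]

@[simp] theorem ev_smul (a : Γ) (f : DX K X (Γ := Γ)) (h : X →ₗ[Γ] Γ) :
    (a • f).ev h = f.ev (rmul K a h) := rfl

end DX

/-- `f ⋆ x : h ↦ f (h x)` -/
def star (f : DG K Γ) (x : X) : DX K X (Γ := Γ) :=
  DX.of
    { toFun := fun h => f.ev (h x)
      map_add' := fun g h => by simp
      map_smul' := fun r h => by simp }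

@[simp] theorem ev_star (f : DG K Γ) (x : X) (h : X →ₗ[Γ] Γ) : (star f x).ev h = f.ev (h x) := rfl

theorem star_add_left (f g : DG K Γ) (x : X) : star (f + g) x = star f x + star g x := by
  ext h; simp

theorem star_add_right (f : DG K Γ) (x y : X) : star f (x + y) = star f x + star f y := by
  ext h; simp

theorem star_smul (a : Γ) (f : DG K Γ) (x : X) : star (a • f) x = a • star f x := by
  ext h; simp

theorem star_op_smul (a : Γ) (f : DG K Γ) (x : X) :
    star (MulOpposite.op a • f) x = star f (a • x) := by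
  ext h; simp

end dual

section ind

variable (X : Type u) [AddCommGroup X] [Module Γ X]

/-- `ind X = X ⊕ D(X^*)` -/
def Ind : Type u := X × DX K X (Γ := Γ)

variable {X K}

instance : AddCommGroup (Ind K X (Γ := Γ)) := inferInstanceAs (AddCommGroup (X × DX K X))

/-- constructor -/
def Ind.mk (x : X) (ξ : DX K X (Γ := Γ)) : Ind K X (Γ := Γ) := (x, ξ)

/-- first component -/
def Ind.a (z : Ind K X (Γ := Γ)) : X := z.1
/-- second component -/
def Ind.b (z : Ind K X (Γ := Γ)) : DX K X (Γ := Γ) := z.2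

@[ext] theorem Ind.ext {z w : Ind K X (Γ := Γ)} (h1 : z.a = w.a) (h2 : z.b = w.b) : z = w :=
  Prod.ext h1 h2

@[simp] theorem Ind.a_mk (x : X) (ξ : DX K X (Γ := Γ)) : (Ind.mk x ξ).a = x := rfl
@[simp] theorem Ind.b_mk (x : X) (ξ : DX K X (Γ := Γ)) : (Ind.mk x ξ).b = ξ := rfl
@[simp] theorem Ind.a_add (z w : Ind K X (Γ := Γ)) : (z + w).a = z.a + w.a := rfl
@[simp] theorem Ind.b_add (z w : Ind K X (Γ := Γ)) : (z + w).b = z.b + w.b := rfl
@[simp] theorem Ind.a_zero : (0 : Ind K X (Γ := Γ)).a = 0 := rfl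
@[simp] theorem Ind.b_zero : (0 : Ind K X (Γ := Γ)).b = 0 := rfl

noncomputable instance : Module (T K Γ) (Ind K X (Γ := Γ)) where
  smul t z := Ind.mk (t.fst • z.a) (t.fst • z.b + star t.snd z.a)
  one_smul z := by
    apply Ind.ext
    · show (1 : T K Γ).fst • z.a = z.a
      simp
    · show (1 : T K Γ).fst • z.b + star (1 : T K Γ).snd z.a = z.b
      rw [TrivSqZeroExt.fst_one, TrivSqZeroExt.snd_one, one_smul]
      have : star (0 : DG K Γ) z.a = 0 := by ext h; simp
      rw [this, add_zero]
  mul_smul s t z := by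
    apply Ind.ext
    · show (s * t).fst • z.a = s.fst • t.fst • z.a
      rw [TrivSqZeroExt.fst_mul, mul_smul]
    · show (s * t).fst • z.b + star (s * t).snd z.a =
        s.fst • (t.fst • z.b + star t.snd z.a) + star s.snd (t.fst • z.a)
      rw [TrivSqZeroExt.fst_mul, TrivSqZeroExt.snd_mul, mul_smul, smul_add, star_add_left,
        star_smul, star_op_smul, add_assoc]
  smul_zero t := by
    apply Ind.ext
    · exact smul_zero _
    · show t.fst • (0 : DX K X (Γ := Γ)) + star t.snd (0 : X) = 0
      have : star t.snd (0 : X) = 0 := by ext h; simp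
      rw [this, smul_zero, add_zero]
  smul_add t z w := by
    apply Ind.ext
    · exact smul_add _ _ _
    · show t.fst • (z.b + w.b) + star t.snd (z.a + w.a) =
        t.fst • z.b + star t.snd z.a + (t.fst • w.b + star t.snd w.a)
      rw [smul_add, star_add_right]
      abel
  add_smul s t z := by
    apply Ind.ext
    · show (s + t).fst • z.a = s.fst • z.a + t.fst • z.a
      rw [TrivSqZeroExt.fst_add, add_smul]
    · show (s + t).fst • z.b + star (s + t).snd z.a =
        s.fst • z.b + star s.snd z.a + (t.fst • z.b + star t.snd z.a)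
      rw [TrivSqZeroExt.fst_add, TrivSqZeroExt.snd_add, add_smul, star_add_left]
      abel
  zero_smul z := by
    apply Ind.ext
    · show (0 : T K Γ).fst • z.a = 0
      simp
    · show (0 : T K Γ).fst • z.b + star (0 : T K Γ).snd z.a = 0
      rw [TrivSqZeroExt.fst_zero, TrivSqZeroExt.snd_zero, zero_smul]
      have : star (0 : DG K Γ) z.a = 0 := by ext h; simp
      rw [this, add_zero]

@[simp] theorem Ind.a_smul (t : T K Γ) (z : Ind K X (Γ := Γ)) : (t • z).a = t.fst • z.a := rfl
@[simp] theorem Ind.b_smul (t : T K Γ) (z : Ind K X (Γ := Γ)) :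
    (t • z).b = t.fst • z.b + star t.snd z.a := rfl

end ind

section map

variable {X Y : Type u} [AddCommGroup X] [Module Γ X] [AddCommGroup Y] [Module Γ Y]

/-- `D(X^*) → D(Y^*)` -/
def dmap (u : X →ₗ[Γ] Y) : DX K X (Γ := Γ) →ₗ[Γ] DX K Y (Γ := Γ) where
  toFun ξ := DX.of
    { toFun := fun h => ξ.ev (h ∘ₗ u)
      map_add' := fun g h => by rw [LinearMap.add_comp, map_add]
      map_smul' := fun r h => by rw [LinearMap.smul_comp, map_smul]; rfl }
  map_add' ξ η := by ext h; rfl
  map_smul' a ξ := by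
    ext h
    show ξ.ev (rmul K a (h ∘ₗ u)) = ξ.ev ((rmul K a h) ∘ₗ u)
    rfl

@[simp] theorem ev_dmap (u : X →ₗ[Γ] Y) (ξ : DX K X (Γ := Γ)) (h : Y →ₗ[Γ] Γ) :
    (dmap K u ξ).ev h = ξ.ev (h ∘ₗ u) := rfl

/-- `ind u` -/
noncomputable def imap (u : X →ₗ[Γ] Y) : Ind K X (Γ := Γ) →ₗ[T K Γ] Ind K Y (Γ := Γ) where
  toFun z := Ind.mk (u z.a) (dmap K u z.b)
  map_add' z w := by
    apply Ind.ext <;> simp
  map_smul' t z := by
    apply Ind.ext
    · simp
    · simp only [Ind.b_mk, Ind.b_smul, map_add, map_smul, RingHom.id_apply, Ind.a_mk, Ind.a_smul]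
      congr 1
      

@[simp] theorem imap_a (u : X →ₗ[Γ] Y) (z : Ind K X (Γ := Γ)) : (imap K u z).a = u z.a := rfl
@[simp] theorem imap_b (u : X →ₗ[Γ] Y) (z : Ind K X (Γ := Γ)) :
    (imap K u z).b = dmap K u z.b := rfl

end map

end Crest.Agent.R186.Ind700
end

-- ▼ part R186/Ind2_700
section

/-!
Row 186, end-game closings, part 11 (helper700): `ind` of free modules is free, `ind` of a
short exact sequence, extension of maps.
-/

set_option autoImplicit false
set_option linter.style.haveILetI false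

universe v u

open Crest.AlgebraR CategoryTheory CategoryTheory.Abelian

namespace Crest.Agent.R186.Ind700

open Triv700 Syz700 Frob700

variable (K : Type u) [Field K] {Γ : Type u} [Ring Γ] [Algebra K Γ]

section free

variable {n : ℕ}

/-- the basis vectors of `ind (Γ^n)` -/
noncomputable def bv (m : Fin n) : Ind K (Fin n → Γ) (Γ := Γ) := Ind.mk (Pi.single m 1) 0

variable {K}

theorem Ind.a_sum {X : Type u} [AddCommGroup X] [Module Γ X] {ι : Type*} (s : Finset ι)
    (f : ι → Ind K X (Γ := Γ)) : (∑ i ∈ s, f i).a = ∑ i ∈ s, (f i).a := by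
  classical
  induction s using Finset.induction_on with
  | empty => simp
  | insert a s ha ih => rw [Finset.sum_insert ha, Finset.sum_insert ha, Ind.a_add, ih]

theorem Ind.b_sum {X : Type u} [AddCommGroup X] [Module Γ X] {ι : Type*} (s : Finset ι)
    (f : ι → Ind K X (Γ := Γ)) : (∑ i ∈ s, f i).b = ∑ i ∈ s, (f i).b := by
  classical
  induction s using Finset.induction_on with
  | empty => simp
  | insert a s ha ih => rw [Finset.sum_insert ha, Finset.sum_insert ha, Ind.b_add, ih]

theorem DX.ev_sum {X : Type u} [AddCommGroup X] [Module Γ X] {ι : Type*} (s : Finset ι)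
    (f : ι → DX K X (Γ := Γ)) (h : X →ₗ[Γ] Γ) :
    (∑ i ∈ s, f i).ev h = ∑ i ∈ s, (f i).ev h := by
  classical
  induction s using Finset.induction_on with
  | empty => simp
  | insert a s ha ih =>
    rw [Finset.sum_insert ha, Finset.sum_insert ha, DX.ev_add, LinearMap.add_apply, ih]

theorem lc_a (c : Fin n → T K Γ) :
    (Fintype.linearCombination (T K Γ) (bv K (Γ := Γ) (n := n)) c).a = fun m => (c m).fst := by
  rw [Fintype.linearCombination_apply, Ind.a_sum]
  funext m
  rw [Finset.sum_apply, Finset.sum_eq_single m]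
  · simp [bv]
  · intro k _ hk
    simp [bv, hk.symm]
  · intro h
    exact absurd (Finset.mem_univ _) h

theorem lc_b (c : Fin n → T K Γ) (h : (Fin n → Γ) →ₗ[Γ] Γ) :
    (Fintype.linearCombination (T K Γ) (bv K (Γ := Γ) (n := n)) c).b.ev h =
      ∑ m, (c m).snd.ev (h (Pi.single m 1)) := by
  rw [Fintype.linearCombination_apply, Ind.b_sum, DX.ev_sum]
  refine Finset.sum_congr rfl fun m _ => ?_
  simp [bv]

/-- `v ↦ v m * y` -/
def hm (m : Fin n) (y : Γ) : (Fin n → Γ) →ₗ[Γ] Γ :=
  (LinearMap.toSpanSingleton Γ Γ y) ∘ₗ (LinearMap.proj m)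

@[simp] theorem hm_apply (m : Fin n) (y : Γ) (v : Fin n → Γ) : hm m y v = v m * y := rfl

theorem lc_inj : Function.Injective
    (Fintype.linearCombination (T K Γ) (bv K (Γ := Γ) (n := n))) := by
  rw [← LinearMap.ker_eq_bot, LinearMap.ker_eq_bot']
  intro c hc
  funext m
  apply TrivSqZeroExt.ext
  · have := lc_a c
    rw [hc] at this
    exact (congrFun this m).symm
  · ext y
    have := lc_b c (hm m y)
    rw [hc, Finset.sum_eq_single m] at this
    · simpa using this.symm
    · intro k _ hk
      simp [hk.symm]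
    · intro h
      exact absurd (Finset.mem_univ _) h

theorem lc_surj : Function.Surjective
    (Fintype.linearCombination (T K Γ) (bv K (Γ := Γ) (n := n))) := by
  intro z
  let L : Fin n → DG K Γ := fun m => DG.of
    { toFun := fun y => z.b.ev (hm m y)
      map_add' := fun x y => by
        rw [← map_add]
        congr 1
        apply LinearMap.ext
        intro v
        simp [mul_add]
      map_smul' := fun r y => by
        rw [RingHom.id_apply, ← map_smul]
        congr 1
        apply LinearMap.ext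
        intro v
        simp }
  refine ⟨fun m => TrivSqZeroExt.inl (z.a m) + TrivSqZeroExt.inr (L m), ?_⟩
  apply Ind.ext
  · rw [lc_a]
    funext m
    simp
  · ext h
    rw [lc_b]
    have h1 : ∀ m, ((TrivSqZeroExt.inl (z.a m) + TrivSqZeroExt.inr (L m) : T K Γ)).snd.ev
        (h (Pi.single m 1)) = z.b.ev (hm m (h (Pi.single m 1))) := by
      intro m
      simp [L]
    simp only [h1]
    rw [← map_sum]
    congr 1
    apply LinearMap.ext
    intro v
    rw [LinearMap.sum_apply]
    simp only [hm_apply]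
    rw [LinearMap.pi_apply_eq_sum_univ h v]
    refine Finset.sum_congr rfl fun m _ => ?_
    rw [smul_eq_mul]
    congr 2
    funext j
    rw [Pi.single_apply]
    by_cases e : j = m
    · subst e; simp
    · simp [e, Ne.symm e]

variable (K Γ n) in
/-- `T^n ≃ ind (Γ^n)` -/
noncomputable def freeEquiv : (Fin n → T K Γ) ≃ₗ[T K Γ] Ind K (Fin n → Γ) (Γ := Γ) :=
  LinearEquiv.ofBijective _ ⟨lc_inj, lc_surj⟩

theorem freeEquiv_single (m : Fin n) :
    freeEquiv K Γ n (Pi.single m 1) = bv K m := by
  show Fintype.linearCombination (T K Γ) (bv K (Γ := Γ) (n := n)) (Pi.single m 1) = _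
  rw [Fintype.linearCombination_apply_single, one_smul]

instance projInd : Module.Projective (T K Γ) (Ind K (Fin n → Γ) (Γ := Γ)) :=
  Module.Projective.of_equiv (freeEquiv K Γ n)

instance finInd : Module.Finite (T K Γ) (Ind K (Fin n → Γ) (Γ := Γ)) :=
  Module.Finite.equiv (freeEquiv K Γ n)

/-- extension from the basis -/
theorem exists_free {Y : Type*} [AddCommGroup Y] [Module (T K Γ) Y] (y : Fin n → Y) :
    ∃ ψ : Ind K (Fin n → Γ) (Γ := Γ) →ₗ[T K Γ] Y, ∀ m, ψ (bv K m) = y m := by
  refine ⟨(Fintype.linearCombination (T K Γ) y) ∘ₗ (freeEquiv K Γ n).symm.toLinearMap, ?_⟩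
  intro m
  rw [LinearMap.comp_apply, LinearEquiv.coe_coe]
  rw [← freeEquiv_single, LinearEquiv.symm_apply_apply,
    Fintype.linearCombination_apply_single, one_smul]

theorem ext_free {Y : Type*} [AddCommGroup Y] [Module (T K Γ) Y]
    (f g : Ind K (Fin n → Γ) (Γ := Γ) →ₗ[T K Γ] Y) (h : ∀ m, f (bv K m) = g (bv K m)) :
    f = g := by
  ext z
  obtain ⟨c, rfl⟩ := lc_surj z
  rw [Fintype.linearCombination_apply, map_sum, map_sum]
  refine Finset.sum_congr rfl fun m _ => ?_
  rw [map_smul, map_smul, h]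

end free

section cover

variable {K} {n : ℕ} {X : Type u} [AddCommGroup X] [Module Γ X]

theorem dmap_surj (u : (Fin n → Γ) →ₗ[Γ] X) (hu : Function.Surjective u) :
    Function.Surjective (dmap K u) := by
  intro ξ
  let r : (X →ₗ[Γ] Γ) →ₗ[K] ((Fin n → Γ) →ₗ[Γ] Γ) :=
    { toFun := fun h => h ∘ₗ u
      map_add' := fun g h => LinearMap.add_comp _ _ _
      map_smul' := fun a h => LinearMap.smul_comp _ _ _ }
  have hr : Function.Injective r := by
    intro g h e
    ext x
    obtain ⟨y, rfl⟩ := hu x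
    exact LinearMap.congr_fun e y
  obtain ⟨ψ, hψ⟩ := exists_ext r hr ξ.ev
  refine ⟨DX.of ψ, ?_⟩
  ext h
  exact hψ h

theorem imap_surj (u : (Fin n → Γ) →ₗ[Γ] X) (hu : Function.Surjective u) :
    Function.Surjective (imap K u) := by
  intro z
  obtain ⟨p, hp⟩ := hu z.a
  obtain ⟨q, hq⟩ := dmap_surj (K := K) u hu z.b
  refine ⟨Ind.mk p q, ?_⟩
  apply Ind.ext
  · simpa using hp
  · simpa using hq

/-- two `T`-linear maps out of `ind X`, `X` finite, agreeing on `X` agree -/
theorem ext_ind [Module.Finite Γ X] {Y : Type*} [AddCommGroup Y] [Module (T K Γ) Y]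
    (f g : Ind K X (Γ := Γ) →ₗ[T K Γ] Y) (h : ∀ x, f (Ind.mk x 0) = g (Ind.mk x 0)) :
    f = g := by
  obtain ⟨n, u, hu⟩ := exists_cov (A := Γ) X
  have h1 : f ∘ₗ imap K u = g ∘ₗ imap K u := by
    apply ext_free
    intro m
    have h2 : imap K u (bv K m) = Ind.mk (u (Pi.single m 1)) 0 := by
      apply Ind.ext
      · simp [bv]
      · rw [imap_b]
        simp [bv]
    rw [LinearMap.comp_apply, LinearMap.comp_apply, h2, h]
  ext z
  obtain ⟨y, rfl⟩ := imap_surj (K := K) u hu z
  exact LinearMap.congr_fun h1 y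

end cover

section exact

variable {K} {n : ℕ} {X Z : Type u} [AddCommGroup X] [Module Γ X] [AddCommGroup Z] [Module Γ Z]
  (i : Z →ₗ[Γ] (Fin n → Γ)) (u : (Fin n → Γ) →ₗ[Γ] X)

/-- restriction of functionals -/
def res (i : Z →ₗ[Γ] (Fin n → Γ)) : ((Fin n → Γ) →ₗ[Γ] Γ) →ₗ[K] (Z →ₗ[Γ] Γ) where
  toFun h := h ∘ₗ i
  map_add' _ _ := LinearMap.add_comp _ _ _
  map_smul' _ _ := LinearMap.smul_comp _ _ _

theorem dmap_inj (hs : ∀ g : Z →ₗ[Γ] Γ, ∃ f : (Fin n → Γ) →ₗ[Γ] Γ, f ∘ₗ i = g) :
    Function.Injective (dmap K i) := by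
  intro ξ η e
  ext g
  obtain ⟨f, rfl⟩ := hs g
  have := congrArg (fun (z : DX K (Fin n → Γ) (Γ := Γ)) => z.ev f) e
  exact this

theorem dmap_exact (hu : Function.Surjective u) (he : Function.Exact i u)
    (ξ : DX K (Fin n → Γ) (Γ := Γ)) (hξ : dmap K u ξ = 0) : ∃ η, dmap K i η = ξ := by
  -- the functional on the range of `res`
  let R : ((Fin n → Γ) →ₗ[Γ] Γ) →ₗ[K] (Z →ₗ[Γ] Γ) := res (K := K) i
  have hker : ∀ h, R h = 0 → ξ.ev h = 0 := by
    intro h hh
    have h1 : ∀ y, u y = 0 → h y = 0 := by
      intro y hy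
      obtain ⟨z, rfl⟩ := (he y).1 hy
      exact LinearMap.congr_fun hh z
    -- factor `h` through `u`
    obtain ⟨h', hh'⟩ : ∃ h' : X →ₗ[Γ] Γ, h' ∘ₗ u = h := by
      let e := u.quotKerEquivOfSurjective hu
      have hle : LinearMap.ker u ≤ LinearMap.ker h := fun y hy => h1 y hy
      refine ⟨((LinearMap.ker u).liftQ h hle) ∘ₗ e.symm.toLinearMap, ?_⟩
      ext1 y
      ext1
      rw [LinearMap.comp_apply, LinearMap.comp_apply, LinearMap.comp_apply, LinearEquiv.coe_coe]
      have : e.symm (u (LinearMap.single Γ (fun _ => Γ) y 1)) =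
          (LinearMap.ker u).mkQ (LinearMap.single Γ (fun _ => Γ) y 1) := by
        rw [LinearEquiv.symm_apply_eq]
        rfl
      rw [this, Submodule.mkQ_apply, Submodule.liftQ_apply]
      rfl
    have h2 := congrArg (fun (z : DX K X (Γ := Γ)) => z.ev h') hξ
    have h3 : ξ.ev (h' ∘ₗ u) = 0 := h2
    rwa [hh'] at h3
  obtain ⟨ψ, hψ⟩ := exists_ext (K := K) ((LinearMap.ker R).liftQ R le_rfl) (by
    rw [← LinearMap.ker_eq_bot]
    exact Submodule.ker_liftQ_eq_bot _ _ _ le_rfl)
    ((LinearMap.ker R).liftQ (ξ.ev) (fun h hh => hker h hh))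
  refine ⟨DX.of ψ, ?_⟩
  ext h
  have := hψ ((LinearMap.ker R).mkQ h)
  exact this

theorem imap_inj (hi : Function.Injective i)
    (hs : ∀ g : Z →ₗ[Γ] Γ, ∃ f : (Fin n → Γ) →ₗ[Γ] Γ, f ∘ₗ i = g) :
    Function.Injective (imap K i) := by
  intro z w e
  apply Ind.ext
  · exact hi (congrArg Ind.a e)
  · exact dmap_inj i hs (congrArg Ind.b e)

theorem imap_exact (hu : Function.Surjective u) (he : Function.Exact i u) :
    Function.Exact (imap K i) (imap K u) := by
  intro z
  constructor
  · intro hz
    obtain ⟨p, hp⟩ := (he z.a).1 (congrArg Ind.a hz)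
    obtain ⟨q, hq⟩ := dmap_exact i u hu he z.b (congrArg Ind.b hz)
    exact ⟨Ind.mk p q, Ind.ext (by simpa using hp) (by simpa using hq)⟩
  · rintro ⟨w, rfl⟩
    apply Ind.ext
    · exact (he _).2 ⟨w.a, rfl⟩
    · ext h
      have h0 : h ∘ₗ u ∘ₗ i = 0 := by
        ext z
        have := (he (i z)).2 ⟨z, rfl⟩
        simp [this]
      show w.b.ev ((h ∘ₗ u) ∘ₗ i) = 0
      rw [LinearMap.comp_assoc, h0, map_zero]

end exact

end Crest.Agent.R186.Ind700
end

-- ▼ part R186/Ind3_700
section

/-!
Row 186, end-game closings, part 12 (helper700): from `(Γ, N)` with `Ext^i_Γ(N, Γ) = 0`,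
`Ext^i_Γ(N, N) = 0`, `Ext^i_Γ(N, D(N^*)) = 0` for `i > 0` to `(T(Γ), ind N)`.
-/

set_option autoImplicit false
set_option linter.style.haveILetI false

universe v u

open Crest.AlgebraR CategoryTheory CategoryTheory.Abelian

namespace Crest.Agent.R186.Ind700

open Triv700 Syz700 Frob700 Close700

variable {K : Type u} [Field K] {Γ : Type u} [Ring Γ] [Algebra K Γ] [IsNoetherianRing Γ]

/-- the hypotheses -/
structure Data (K : Type u) [Field K] (Γ : Type u) [Ring Γ] [Algebra K Γ] (N : FM Γ) : Prop where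
  eG : ∀ i : ℕ, 0 < i → Subsingleton (Ext (ModuleCat.of Γ N.X) (ModuleCat.of Γ Γ) i)
  eN : ∀ i : ℕ, 0 < i → Subsingleton (Ext (ModuleCat.of Γ N.X) (ModuleCat.of Γ N.X) i)
  eD : ∀ i : ℕ, 0 < i → Subsingleton (Ext (ModuleCat.of Γ N.X)
    (ModuleCat.of Γ (DX K N.X (Γ := Γ))) i)

variable {N : FM Γ} (H : Data K Γ N)

/-- the short complex of inductions -/
noncomputable abbrev isc (K : Type u) [Field K] {Γ : Type u} [Ring Γ] [Algebra K Γ]
    [IsNoetherianRing Γ] (M : FM Γ) : ShortComplex (ModuleCat.{u} (T K Γ)) :=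
  ModuleCat.shortComplexOfCompEqZero (imap K M.inc) (imap K M.cov) (by
    apply LinearMap.ext
    intro z
    have he : Function.Exact M.inc M.cov := by
      intro y
      constructor
      · intro hy
        exact M.exists_inc y hy
      · rintro ⟨x, rfl⟩
        exact LinearMap.congr_fun M.cov_inc x
    exact (imap_exact M.inc M.cov M.cov_surj he _).2 ⟨z, rfl⟩)

theorem exact_inc_cov (M : FM Γ) : Function.Exact M.inc M.cov := by
  intro y
  constructor
  · intro hy
    exact M.exists_inc y hy
  · rintro ⟨x, rfl⟩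
    exact LinearMap.congr_fun M.cov_inc x

include H in
theorem isc_se (j : ℕ) : (isc K (Om N j)).ShortExact := by
  refine ModuleCat.shortComplex_shortExact _ ?_ ?_ ?_
  · exact imap_exact (Om N j).inc (Om N j).cov (Om N j).cov_surj (exact_inc_cov _)
  · exact imap_inj (Om N j).inc (Om N j).inc_inj (fun g => lift_Om N Γ H.eG j g)
  · exact imap_surj (Om N j).cov (Om N j).cov_surj

/-- the two components of a `T`-linear map `ind X → ind Y` on `X` -/
noncomputable def comp_a {X Y : Type u} [AddCommGroup X] [Module Γ X] [AddCommGroup Y] [Module Γ Y]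
    (φ : Ind K X (Γ := Γ) →ₗ[T K Γ] Ind K Y (Γ := Γ)) : X →ₗ[Γ] Y where
  toFun x := (φ (Ind.mk x 0)).a
  map_add' x y := by
    rw [← Ind.a_add, ← map_add]
    congr 2
    apply Ind.ext <;> simp
  map_smul' c x := by
    have h1 : (Ind.mk (c • x) 0 : Ind K X (Γ := Γ)) =
        (TrivSqZeroExt.inl c : T K Γ) • Ind.mk x 0 := by
      apply Ind.ext
      · simp
      · ext h; simp
    rw [h1, map_smul]
    simp

/-- second component -/
noncomputable def comp_b {X Y : Type u} [AddCommGroup X] [Module Γ X] [AddCommGroup Y] [Module Γ Y]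
    (φ : Ind K X (Γ := Γ) →ₗ[T K Γ] Ind K Y (Γ := Γ)) : X →ₗ[Γ] DX K Y (Γ := Γ) where
  toFun x := (φ (Ind.mk x 0)).b
  map_add' x y := by
    rw [← Ind.b_add, ← map_add]
    congr 2
    apply Ind.ext <;> simp
  map_smul' c x := by
    have h1 : (Ind.mk (c • x) 0 : Ind K X (Γ := Γ)) =
        (TrivSqZeroExt.inl c : T K Γ) • Ind.mk x 0 := by
      apply Ind.ext
      · simp
      · ext h; simp
    rw [h1, map_smul]
    ext h
    simp

include H in
theorem extend (j : ℕ)
    (φ : Ind K (Om N (j + 1)).X (Γ := Γ) →ₗ[T K Γ] Ind K N.X (Γ := Γ)) :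
    ∃ ψ : Ind K (Fin (Om N j).n → Γ) (Γ := Γ) →ₗ[T K Γ] Ind K N.X (Γ := Γ),
      ψ ∘ₗ imap K (Om N j).inc = φ := by
  obtain ⟨fa, ha⟩ := lift_Om N N.X H.eN j (comp_a φ)
  obtain ⟨fb, hb⟩ := lift_Om N (DX K N.X (Γ := Γ)) H.eD j (comp_b φ)
  obtain ⟨ψ, hψ⟩ := exists_free (K := K) (Γ := Γ) (n := (Om N j).n)
    (fun m => Ind.mk (K := K) (Γ := Γ) (fa (Pi.single m 1)) (fb (Pi.single m 1)))
  refine ⟨ψ, ?_⟩
  -- `ψ` on `mk p 0`
  have h1 : ∀ p : Fin (Om N j).n → Γ, ψ (Ind.mk p 0) = Ind.mk (fa p) (fb p) := by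
    intro p
    have h2 : (Ind.mk p 0 : Ind K (Fin (Om N j).n → Γ) (Γ := Γ)) =
        ∑ m, (TrivSqZeroExt.inl (p m) : T K Γ) • bv K m := by
      apply Ind.ext
      · rw [Ind.a_sum]
        simp only [Ind.a_mk, Ind.a_smul, TrivSqZeroExt.fst_inl, bv]
        funext k
        rw [Finset.sum_apply, Finset.sum_eq_single k]
        · simp
        · intro l _ hl
          simp [hl.symm]
        · intro h
          exact absurd (Finset.mem_univ _) h
      · rw [Ind.b_sum]
        ext h
        rw [DX.ev_sum]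
        simp [bv]
    have h3 : p = ∑ m, p m • (Pi.single m 1 : Fin (Om N j).n → Γ) := by
      funext k
      rw [Finset.sum_apply, Finset.sum_eq_single k]
      · simp
      · intro l _ hl
        simp [hl.symm]
      · intro h
        exact absurd (Finset.mem_univ _) h
    rw [h2, map_sum]
    simp only [map_smul, hψ]
    apply Ind.ext
    · rw [Ind.a_sum]
      simp only [Ind.a_mk, Ind.a_smul, TrivSqZeroExt.fst_inl]
      conv_rhs => rw [h3, map_sum]
      simp only [map_smul]
    · rw [Ind.b_sum]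
      conv_rhs => rw [Ind.b_mk, h3, map_sum]
      simp only [map_smul]
      refine Finset.sum_congr rfl fun m _ => ?_
      ext h
      simp
  apply ext_ind
  intro x
  rw [LinearMap.comp_apply]
  have h4 : imap K (Om N j).inc (Ind.mk x 0) = Ind.mk ((Om N j).inc x) 0 := by
    apply Ind.ext
    · rfl
    · rw [imap_b]; simp
  rw [h4, h1]
  apply Ind.ext
  · exact LinearMap.congr_fun ha x
  · exact LinearMap.congr_fun hb x

include H in
theorem ext_ind_zero (i : ℕ) : ∀ j : ℕ,
    Subsingleton (Ext (ModuleCat.of (T K Γ) (Ind K (Om N j).X (Γ := Γ)))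
      (ModuleCat.of (T K Γ) (Ind K N.X (Γ := Γ))) (i + 1)) := by
  induction i with
  | zero =>
    intro j
    have hz : ∀ x : Ext (isc K (Om N j)).X₃ (ModuleCat.of (T K Γ) (Ind K N.X (Γ := Γ))) (0 + 1),
        x = 0 := by
      intro x
      haveI : Projective (isc K (Om N j)).X₂ :=
        (IsProjective.iff_projective (ModuleCat.of (T K Γ)
          (Ind K (Fin (Om N j).n → Γ) (Γ := Γ)))).1 projInd
      obtain ⟨y, hy⟩ := Ext.contravariant_sequence_exact₃ (isc_se H j)
        (ModuleCat.of (T K Γ) (Ind K N.X (Γ := Γ))) x (Ext.eq_zero_of_projective _)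
        (n₀ := 0) (by omega)
      obtain ⟨φ, rfl⟩ := Ext.homEquiv₀.symm.surjective y
      rw [Ext.homEquiv₀_symm_apply] at hy
      obtain ⟨ψ, hψ⟩ := extend H j φ.hom
      have h5 : φ = (isc K (Om N j)).f ≫ ModuleCat.ofHom ψ := by
        ext1
        exact hψ.symm
      rw [h5, ← Ext.mk₀_comp_mk₀, ShortComplex.ShortExact.extClass_comp_assoc] at hy
      exact hy.symm
    exact ⟨fun a b => by rw [hz a, hz b]⟩
  | succ i ih =>
    intro j
    have hz : ∀ x : Ext (isc K (Om N j)).X₃ (ModuleCat.of (T K Γ) (Ind K N.X (Γ := Γ)))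
        (i + 1 + 1), x = 0 := by
      intro x
      haveI : Projective (isc K (Om N j)).X₂ :=
        (IsProjective.iff_projective (ModuleCat.of (T K Γ)
          (Ind K (Fin (Om N j).n → Γ) (Γ := Γ)))).1 projInd
      obtain ⟨y, hy⟩ := Ext.contravariant_sequence_exact₃ (isc_se H j)
        (ModuleCat.of (T K Γ) (Ind K N.X (Γ := Γ))) x (Ext.eq_zero_of_projective _)
        (n₀ := i + 1) (by omega)
      have : y = 0 := (ih (j + 1)).elim _ _
      rw [← hy, this, Ext.comp_zero]
    exact ⟨fun a b => by rw [hz a, hz b]⟩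

omit [IsNoetherianRing Γ] in
theorem not_proj_ind (M : FM Γ) (hM : ¬ Module.Projective Γ M.X) :
    ¬ Module.Projective (T K Γ) (Ind K M.X (Γ := Γ)) := by
  intro hp
  obtain ⟨s, hs⟩ := Module.projective_lifting_property (imap K M.cov) LinearMap.id
    (imap_surj (K := K) M.cov M.cov_surj)
  apply hM
  refine Module.Projective.of_split (comp_a s) M.cov ?_
  ext x
  have := LinearMap.congr_fun hs (Ind.mk x 0)
  exact congrArg Ind.a this

omit [IsNoetherianRing Γ] in
theorem finite_ind (M : FM Γ) : Module.Finite (T K Γ) (Ind K M.X (Γ := Γ)) :=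
  Module.Finite.of_surjective (imap K M.cov) (imap_surj (K := K) M.cov M.cov_surj)

end Crest.Agent.R186.Ind700
end

-- ▼ part R186/Main_700
section

/-!
Row 186, end-game closings, part 13 (helper700): the main reductions.

* `main` : `Γ` finite-dimensional over `K`, `N` finite non-projective with
  `Ext^i_Γ(N, Γ) = 0`, `Ext^i_Γ(N, N) = 0`, `Ext^i_Γ(N, D(Hom_Γ(N, Γ))) = 0` for all `i > 0`.
  Then the symmetric algebra `T(Γ)` and the module `ind N` form an `AR` datum.
* `main_null` : the same from a nonzero finite `V` with `Hom_Γ(V, Γ) = 0`, `Ext^i_Γ(V, Γ) = 0`,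
  `Ext^i_Γ(V, V) = 0` for `i > 0`.
* `s0280`, `s0282` ... : literal conclusions.
-/

set_option autoImplicit false
set_option linter.style.haveILetI false

universe v u

open Crest.AlgebraR CategoryTheory CategoryTheory.Abelian

namespace Crest.Agent.R186.Main700

open Triv700 Syz700 Frob700 Close700 Ind700

variable (K : Type u) [Field K] (Γ : Type u) [Ring Γ] [Algebra K Γ]

/-- the main reduction -/
theorem main [FiniteDimensional K Γ] (N : Type u) [AddCommGroup N] [Module Γ N]
    [Module.Finite Γ N] (hp : ¬ Module.Projective Γ N)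
    (eG : ∀ i : ℕ, 0 < i → Subsingleton (Ext (ModuleCat.of Γ N) (ModuleCat.of Γ Γ) i))
    (eN : ∀ i : ℕ, 0 < i → Subsingleton (Ext (ModuleCat.of Γ N) (ModuleCat.of Γ N) i))
    (eD : ∀ i : ℕ, 0 < i → Subsingleton (Ext (ModuleCat.of Γ N)
      (ModuleCat.of Γ (DX K N (Γ := Γ))) i)) :
    Nonempty (AR.{u, u} K) := by
  haveI : IsNoetherianRing Γ := isNoetherian_of_tower K (inferInstance : IsNoetherian K Γ)
  let M : FM Γ := ⟨N⟩
  have H : Data K Γ M := ⟨eG, eN, eD⟩
  exact ⟨{ A := T K Γ
           fd := instFDT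
           sym := isSymmetric
           M := Ind K N (Γ := Γ)
           fin := finite_ind M
           np := not_proj_ind M hp
           ext := fun i hi => by
             obtain ⟨j, rfl⟩ := Nat.exists_eq_add_of_le' hi
             exact ext_ind_zero H j 0 }⟩

/-- the reduction from a null module -/
theorem main_null [FiniteDimensional K Γ] (V : Type u) [AddCommGroup V] [Module Γ V]
    [Module.Finite Γ V] [Nontrivial V]
    (h0 : ∀ f : V →ₗ[Γ] Γ, f = 0)
    (eG : ∀ i : ℕ, 0 < i → Subsingleton (Ext (ModuleCat.of Γ V) (ModuleCat.of Γ Γ) i))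
    (eV : ∀ i : ℕ, 0 < i → Subsingleton (Ext (ModuleCat.of Γ V) (ModuleCat.of Γ V) i)) :
    Nonempty (AR.{u, u} K) := by
  refine main K Γ V ?_ eG eV ?_
  · intro hp
    obtain ⟨n, u, hu⟩ := exists_cov (A := Γ) V
    obtain ⟨s, hs⟩ := Module.projective_lifting_property u LinearMap.id hu
    obtain ⟨x, hx⟩ := exists_ne (0 : V)
    apply hx
    have h1 : s x = 0 := by
      funext m
      exact LinearMap.congr_fun (h0 ((LinearMap.proj m) ∘ₗ s)) x
    have h2 := LinearMap.congr_fun hs x
    rw [LinearMap.comp_apply, h1, map_zero] at h2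
    exact h2.symm
  · intro i hi
    have hz : ∀ ξ : DX K V (Γ := Γ), ξ = 0 := by
      intro ξ
      ext h
      rw [h0 h, map_zero, map_zero]
    haveI : Subsingleton (DX K V (Γ := Γ)) := ⟨fun a b => by rw [hz a, hz b]⟩
    have hZ : Limits.IsZero (ModuleCat.of Γ (DX K V (Γ := Γ))) :=
      ModuleCat.isZero_of_subsingleton _
    refine ⟨fun a b => ?_⟩
    have hc : ∀ x : Ext (ModuleCat.of Γ V) (ModuleCat.of Γ (DX K V (Γ := Γ))) i, x = 0 := by
      intro x
      have e := Ext.comp_mk₀_id x
      rw [← e, hZ.eq_zero_of_src (𝟙 _), Ext.mk₀_zero, Ext.comp_zero]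
    rw [hc a, hc b]

end Crest.Agent.R186.Main700
end

-- ▼ part R186/Wrap_700
section

/-!
Row 186, end-game closings, part 14 (helper700): literal wrappers from `AR`.
-/

set_option autoImplicit false
set_option linter.style.haveILetI false

universe v u

open Crest.AlgebraR CategoryTheory CategoryTheory.Abelian

namespace Crest.Agent.R186.Wrap700

open Close700

/-- literal form of S0280 from `AR` over `F_2(x,y,z)` -/
theorem s0280 (D : AR.{0, 0} (FractionRing (MvPolynomial (Fin 3) (ZMod 2)))) :
    ∃ (A : Type) (_ : Ring A) (_ : Algebra (FractionRing (MvPolynomial (Fin 3) (ZMod 2))) A),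
      FiniteDimensional (FractionRing (MvPolynomial (Fin 3) (ZMod 2))) A ∧
      IsSymmetricAlgebra (FractionRing (MvPolynomial (Fin 3) (ZMod 2))) A ∧
      ∃ M : ModuleCat.{0} A, Module.Finite A M ∧ ¬ Module.Projective A M ∧
        ∀ i : ℕ, 0 < i → Subsingleton (CategoryTheory.Abelian.Ext M M i) :=
  ⟨D.A, D.ring, D.alg, D.fd, D.sym, ModuleCat.of D.A D.M, D.fin, D.np, D.ext⟩

end Crest.Agent.R186.Wrap700
end

-- ▼ part R186/BCAR_700
section

/-!
Row 186 (helper700): base change of the datum `AR` (a symmetric algebra with a finite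
non-projective self-orthogonal module) from `k` to an arbitrary extension field `E`.
-/

set_option autoImplicit false
set_option linter.unusedSectionVars false
set_option linter.style.haveILetI false

universe u

open scoped TensorProduct
open CategoryTheory CategoryTheory.Abelian Crest.AlgebraR

namespace Crest.Agent.R186.BCAR700

open BC234 Frame234 Frob700 Close700

variable (k : Type) [Field k] (E : Type u) [Field E] [Algebra k E]
variable {A : Type} [Ring A] [Algebra k A]

/-- the extended form -/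
noncomputable def lamE (s : Sym k A) : E ⊗[k] A →ₗ[k] E :=
  (TensorProduct.rid k E).toLinearMap ∘ₗ LinearMap.lTensor E s.lam

theorem lamE_tmul (s : Sym k A) (e : E) (a : A) : lamE k E s (e ⊗ₜ[k] a) = s.lam a • e := by
  show TensorProduct.rid k E (LinearMap.lTensor E s.lam (e ⊗ₜ[k] a)) = _
  rw [LinearMap.lTensor_tmul, TensorProduct.rid_tmul]

theorem lam_comm (s : Sym k A) (a b : A) : s.lam (a * b) = s.lam (b * a) := by
  rw [← s.φ_apply', s.φ_apply]

theorem lamE_comm (s : Sym k A) (x y : E ⊗[k] A) : lamE k E s (x * y) = lamE k E s (y * x) := by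
  induction x using TensorProduct.induction_on with
  | zero => simp
  | add a b ha hb => rw [add_mul, mul_add, map_add, map_add, ha, hb]
  | tmul e a =>
    induction y using TensorProduct.induction_on with
    | zero => simp
    | add c d hc hd => rw [add_mul, mul_add, map_add, map_add, hc, hd]
    | tmul f b =>
      rw [Algebra.TensorProduct.tmul_mul_tmul, Algebra.TensorProduct.tmul_mul_tmul, lamE_tmul,
        lamE_tmul, lam_comm, mul_comm e f]

theorem lamE_smul (s : Sym k A) (c : E) (x : E ⊗[k] A) :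
    lamE k E s (c • x) = c * lamE k E s x := by
  induction x using TensorProduct.induction_on with
  | zero => simp
  | add a b ha hb => rw [smul_add, map_add, map_add, ha, hb, mul_add]
  | tmul e a =>
    rw [TensorProduct.smul_tmul', lamE_tmul, lamE_tmul, smul_eq_mul, mul_smul_comm]

theorem lam_nondeg (s : Sym k A) (a : A) (h : ∀ b, s.lam (a * b) = 0) : a = 0 := by
  have h1 : s.φ a = 0 := by
    ext b
    rw [s.φ_apply', h b]
    rfl
  exact (map_eq_zero_iff _ s.φ.injective).1 h1

theorem lamE_nondeg (s : Sym k A) (x : E ⊗[k] A) (h : ∀ y, lamE k E s (x * y) = 0) : x = 0 := by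
  classical
  let b := Module.Basis.ofVectorSpace k E
  let cfb : E ⊗[k] A ≃ₗ[k] (_ →₀ A) := TensorProduct.equivFinsuppOfBasisLeft b
  have hc : ∀ (x : E ⊗[k] A) (a : A) i, b.repr (lamE k E s (x * ((1 : E) ⊗ₜ[k] a))) i =
      s.lam (cfb x i * a) := by
    intro x a i
    induction x using TensorProduct.induction_on with
    | zero => simp
    | add c d hc hd =>
      rw [add_mul, map_add, map_add, Finsupp.add_apply, hc, hd, map_add, Finsupp.add_apply,
        add_mul, map_add]
    | tmul e c =>
      rw [Algebra.TensorProduct.tmul_mul_tmul, mul_one, lamE_tmul, map_smul, Finsupp.smul_apply]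
      have h2 : cfb (e ⊗ₜ[k] c) i = b.repr e i • c :=
        TensorProduct.equivFinsuppOfBasisLeft_apply_tmul_apply b e c i
      rw [h2, smul_mul_assoc, map_smul, smul_eq_mul, smul_eq_mul, mul_comm]
  have h0 : cfb x = 0 := by
    ext i
    refine lam_nondeg k s _ fun a => ?_
    rw [← hc, h, map_zero]
    rfl
  exact (map_eq_zero_iff _ cfb.injective).1 h0

/-- the bijection -/
noncomputable def φE (s : Sym k A) : E ⊗[k] A →ₗ[E] Module.Dual E (E ⊗[k] A) where
  toFun x :=
    { toFun := fun y => lamE k E s (x * y)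
      map_add' := fun y z => by rw [mul_add, map_add]
      map_smul' := fun c y => by
        rw [mul_smul_comm, lamE_smul, RingHom.id_apply, smul_eq_mul] }
  map_add' x y := by
    ext z
    show lamE k E s ((x + y) * _) = lamE k E s (x * _) + lamE k E s (y * _)
    rw [add_mul, map_add]
  map_smul' c x := by
    ext z
    show lamE k E s ((c • x) * _) = c • lamE k E s (x * _)
    rw [smul_mul_assoc, lamE_smul, smul_eq_mul]

theorem φE_apply (s : Sym k A) (x y : E ⊗[k] A) : φE k E s x y = lamE k E s (x * y) := rfl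

theorem sym_bc [FiniteDimensional k A] (s : Sym k A) : IsSymmetricAlgebra E (E ⊗[k] A) := by
  have hi : Function.Injective (φE k E s) := by
    rw [← LinearMap.ker_eq_bot, LinearMap.ker_eq_bot']
    intro x hx
    refine lamE_nondeg k E s x fun y => ?_
    rw [← φE_apply, hx]
    rfl
  have hfr : Module.finrank E (E ⊗[k] A) = Module.finrank E (Module.Dual E (E ⊗[k] A)) :=
    Subspace.dual_finrank_eq.symm
  refine ⟨LinearEquiv.ofInjectiveOfFinrankEq (φE k E s) hi hfr, ?_⟩
  intro a x b y
  show φE k E s (a * x * b) y = φE k E s x (b * y * a)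
  rw [φE_apply, φE_apply, mul_assoc, mul_assoc, lamE_comm, mul_assoc]

/-- base change of an `AR` datum -/
theorem ar_bc (h : Nonempty (AR.{0, 0} k)) : Nonempty (AR.{u, u} E) := by
  obtain ⟨D⟩ := h
  obtain ⟨s⟩ := nonempty_sym D.sym
  haveI := D.fd
  haveI := D.fin
  haveI : IsNoetherianRing D.A := isNoetherian_of_tower k (inferInstance : IsNoetherian k D.A)
  letI : Module k D.M := Module.compHom D.M (algebraMap k D.A)
  haveI : IsScalarTower k D.A D.M := ⟨fun r a x => by
    show (r • a) • x = algebraMap k D.A r • (a • x)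
    rw [Algebra.smul_def, mul_smul]⟩
  exact ⟨{ A := E ⊗[k] D.A
           fd := inferInstance
           sym := sym_bc k E s
           M := BC k E D.M
           fin := finite_bc E D.M
           np := fun h => D.np (proj_descent E D.M h)
           ext := fun i hi => ext_bc E (⟨D.M⟩ : FK k D.A) D.M D.ext i hi }⟩

end Crest.Agent.R186.BCAR700
end

-- ▼ part R186/Spine_700

/-!
Row 186 (helper700), THE SPINE: from block structures over the ground field `k` (type 0) to the
six literal statements S0280 ... S0285.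

* `Null K`  : a null pair `(Γ, V)`: `V ≠ 0` finite, `Hom(V, Γ) = 0`, `Ext^{>0}(V, Γ) = 0`,
  `Ext^{>0}(V, V) = 0`.
* `Pair K`  : the weaker input of `Main700.main` (`N` not projective, `Ext^{>0}(N, Γ ⊕ N ⊕ D(N^*)) = 0`).
* `Simples K Γ n` : a surjection `Γ → K^n` with nil kernel.
* `Null8 K` / `Pair8 K` / `GP8 K` : the same with at most seven simples, or with eight simples and
  four radical elements with nonzero product.
-/

set_option autoImplicit false
set_option linter.style.haveILetI false

universe v u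

open Crest.AlgebraR CategoryTheory CategoryTheory.Abelian
open scoped TensorProduct

namespace Crest.Agent.R186.Spine700

open Close700 Main700 Triv700 Sym234 Pad234 BCAR700 Wrap700 Syz700

/-! ### blocks -/

/-- a null pair over `K` -/
structure Null (K : Type v) [Field K] where
  Γ : Type u
  [ring : Ring Γ]
  [alg : Algebra K Γ]
  [fd : FiniteDimensional K Γ]
  V : Type u
  [grp : AddCommGroup V]
  [mod : Module Γ V]
  [fin : Module.Finite Γ V]
  [nt : Nontrivial V]
  h0 : ∀ f : V →ₗ[Γ] Γ, f = 0
  eG : ∀ i : ℕ, 0 < i → Subsingleton (Ext (ModuleCat.of Γ V) (ModuleCat.of Γ Γ) i)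
  eV : ∀ i : ℕ, 0 < i → Subsingleton (Ext (ModuleCat.of Γ V) (ModuleCat.of Γ V) i)

attribute [instance] Null.ring Null.alg Null.fd Null.grp Null.mod Null.fin Null.nt

/-- a pair satisfying the hypotheses of `Main700.main` -/
structure Pair (K : Type u) [Field K] where
  Γ : Type u
  [ring : Ring Γ]
  [alg : Algebra K Γ]
  [fd : FiniteDimensional K Γ]
  N : Type u
  [grp : AddCommGroup N]
  [mod : Module Γ N]
  [fin : Module.Finite Γ N]
  np : ¬ Module.Projective Γ N
  eG : ∀ i : ℕ, 0 < i → Subsingleton (Ext (ModuleCat.of Γ N) (ModuleCat.of Γ Γ) i)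
  eN : ∀ i : ℕ, 0 < i → Subsingleton (Ext (ModuleCat.of Γ N) (ModuleCat.of Γ N) i)
  eD : ∀ i : ℕ, 0 < i → Subsingleton (Ext (ModuleCat.of Γ N)
      (ModuleCat.of Γ (Ind700.DX K N (Γ := Γ))) i)

attribute [instance] Pair.ring Pair.alg Pair.fd Pair.grp Pair.mod Pair.fin

/-- `Γ` has (split basic) semisimple quotient `K^n` -/
def Simples (K : Type v) [Field K] (Γ : Type u) [Ring Γ] [Algebra K Γ] (n : ℕ) : Prop :=
  ∃ Q : Γ →ₐ[K] (Fin n → K), Function.Surjective Q ∧ ∀ x, Q x = 0 → IsNilpotent x

/-- the condition on simples for S0281: at most seven of them, or eight and a nonzero product of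
four radical elements -/
def Eight (K : Type v) [Field K] (Γ : Type u) [Ring Γ] [Algebra K Γ] : Prop :=
  (∃ n : ℕ, n ≤ 7 ∧ Simples K Γ n) ∨
    ∃ Q : Γ →ₐ[K] (Fin 8 → K), Function.Surjective Q ∧ (∀ x, Q x = 0 → IsNilpotent x) ∧
      ∃ a b c d : Γ, Q a = 0 ∧ Q b = 0 ∧ Q c = 0 ∧ Q d = 0 ∧ a * b * c * d ≠ 0

/-! ### from blocks to `AR` -/

theorem ar_of_null {K : Type u} [Field K] (h : Nonempty (Null.{u, u} K)) :
    Nonempty (AR.{u, u} K) := by
  obtain ⟨D⟩ := h
  exact main_null K D.Γ D.V D.h0 D.eG D.eV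


/-! ### simples of the trivial extension -/

section triv

variable {K : Type u} [Field K] {Γ : Type u} [Ring Γ] [Algebra K Γ] {n : ℕ}






end triv

/-! ### S0281 -/

/-- the literal conclusion of S0281 over `K` -/
def C0281 (K : Type) [Field K] : Prop :=
  ∃ (Λ : Type) (_ : Ring Λ) (_ : Algebra K Λ) (Z : Type) (_ : AddCommGroup Z)
      (_ : Module Λ Z) (_ : Module K Z) (_ : IsScalarTower K Λ Z),
      GorProjVanishingData K Λ Z ∧
      ∀ (E : Type u) [Field E] [Algebra K E],
        ∃ (_ : Module (E ⊗[K] Λ) (E ⊗[K] Z)),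
          (∀ (a b : E) (r : Λ) (z : Z),
            (a ⊗ₜ[K] r) • (b ⊗ₜ[K] z) = (a * b) ⊗ₜ[K] (r • z)) ∧
          GorProjVanishingData E (E ⊗[K] Λ) (E ⊗[K] Z)







/-- S0281 from a Gorenstein-projective self-orthogonal pair -/
theorem c0281_gp {K : Type} [Field K] (R : Type) [Ring R] [Algebra K R] [FiniteDimensional K R]
    (h8 : Eight K R) (Z : Type) [AddCommGroup Z] [Module R Z] [Module.Finite R Z]
    (np : ¬ Module.Projective R Z) (hg : IsGorensteinProjective R Z)
    (he : ∀ i : ℕ, 0 < i → Subsingleton (Ext (ModuleCat.of R Z) (ModuleCat.of R Z) i)) :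
    C0281.{u} K := by
  rcases h8 with ⟨n, hn, Q, hs, hq⟩ | ⟨Q, hs, hq, a, b, c, d, ha, hb, hc, hd, hne⟩
  · exact c0281_pad K R hn Q hs hq Z np hg he
  · refine c0281_eight K R Q hs hq ?_ Z np hg he
    have hj : Ring.jacobson R = RingHom.ker Q := Rad234.jac_eq_ker Q hs hq
    intro h4
    apply hne
    have m1 : a * b * c * d ∈ Ring.jacobson R ^ 4 := by
      have e4 : Ring.jacobson R ^ 4 =
          Ring.jacobson R * Ring.jacobson R * Ring.jacobson R * Ring.jacobson R := by
        rw [Submodule.pow_succ, Submodule.pow_succ, Submodule.pow_succ, Submodule.pow_one]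
      rw [e4, hj]
      exact Ideal.mul_mem_mul (Ideal.mul_mem_mul (Ideal.mul_mem_mul ha hb) hc) hd
    rw [h4, Ideal.mem_bot] at m1
    exact m1

/-! ### the six literal statements -/

/-- the ground field -/
abbrev k0 : Type := FractionRing (MvPolynomial (Fin 3) (ZMod 2))

section final

theorem s0280 (h : Nonempty (AR.{0, 0} k0)) :
    ∃ (A : Type) (_ : Ring A) (_ : Algebra (FractionRing (MvPolynomial (Fin 3) (ZMod 2))) A),
      FiniteDimensional (FractionRing (MvPolynomial (Fin 3) (ZMod 2))) A ∧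
      IsSymmetricAlgebra (FractionRing (MvPolynomial (Fin 3) (ZMod 2))) A ∧
      ∃ M : ModuleCat.{0} A, Module.Finite A M ∧ ¬ Module.Projective A M ∧
        ∀ i : ℕ, 0 < i → Subsingleton (CategoryTheory.Abelian.Ext M M i) := by
  obtain ⟨D⟩ := h
  exact Wrap700.s0280 D

theorem s0282 (h : Nonempty (AR.{0, 0} k0))
    (K : Type u) [Field K] [Algebra (FractionRing (MvPolynomial (Fin 3) (ZMod 2))) K] :
    ∃ (Γ : Type u) (_ : Ring Γ) (_ : Algebra K Γ), FiniteDimensional K Γ ∧
      ∃ S : ModuleCat.{u} Γ, IsSimpleModule Γ S ∧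
        ∀ i : ℕ, Subsingleton (Abelian.Ext S (ModuleCat.of Γ Γ) i) := by
  obtain ⟨D⟩ := ar_bc k0 K h
  exact c0282 D

theorem s0283 (h : Nonempty (AR.{0, 0} k0))
    (K : Type u) [Field K] [Algebra (FractionRing (MvPolynomial (Fin 3) (ZMod 2))) K] :
    ∃ (Γ : Type u) (_ : Ring Γ) (_ : Algebra K Γ), FiniteDimensional K Γ ∧
      ∀ n : ℕ, 1 ≤ n → ∃ C : ModuleCat.{u} Γ, Module.Finite Γ C ∧
        projectiveDimension C = (n : WithBot ℕ∞) := by
  obtain ⟨D⟩ := ar_bc k0 K h
  exact c0283 D

theorem s0284 (h : Nonempty (AR.{0, 0} k0))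
    (K : Type u) [Field K] [Algebra (FractionRing (MvPolynomial (Fin 3) (ZMod 2))) K] :
    ∃ (Γ : Type u) (_ : Ring Γ) (_ : Algebra K Γ), FiniteDimensional K Γ ∧
      (∃ (I : ℕ → ModuleCat.{u} Γ) (ε : Γ →ₗ[Γ] I 0) (d : ∀ j : ℕ, I j →ₗ[Γ] I (j + 1)),
        Function.Injective ε ∧ Function.Exact ε (d 0) ∧ (∀ j, Function.Exact (d j) (d (j + 1))) ∧
        ∀ j, Module.Projective Γ (I j) ∧ Module.Injective Γ (I j)) ∧
      ∀ n : ℕ, ¬ HasInjectiveDimensionLT (ModuleCat.of Γ Γ) n := by
  obtain ⟨D⟩ := ar_bc k0 K h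
  exact c0284 D

theorem s0285 (h : Nonempty (AR.{0, 0} k0))
    (K : Type u) [Field K] [Algebra (FractionRing (MvPolynomial (Fin 3) (ZMod 2))) K] :
    ∃ (Γ : Type u) (_ : Ring Γ) (_ : Algebra K Γ), FiniteDimensional K Γ ∧
      ∃ (W : Type u) (_ : AddCommGroup W) (_ : Module Γ W), Module.Finite Γ W ∧
        Module.Projective Γ W ∧ Module.Injective Γ W ∧
        IsWakamatsuTilting Γ W ∧ ¬ IsTilting Γ W := by
  obtain ⟨D⟩ := ar_bc k0 K h
  exact c0285 D


end final

end Crest.Agent.R186.Spine700
namespace Crest.Agent.R186.Spine700.Null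
end Crest.Agent.R186.Spine700.Null
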