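import Crest.Agent.R186.HatA_827
import Mathlib
import Crest.Agent.R186.Spine_700

-- ▼ part R186/HatB_827
section

/-!
Row 186, leaf HAT, part 3 (helper827): columns, rows, single entries in the hat algebra; the
hat module of a `C`-module in degree `0`; cells.
-/

set_option autoImplicit false
set_option linter.style.haveILetI false

namespace Crest.Agent.R186.Hat827

variable {K : Type} [Field K]

namespace DGA

variable {A : DGA K}

/-! ### additivity of `mat` -/

theorem mat_sum {κ : Type} (s : Finset κ) (a b : κ → ℤ → ℤ → A.C) :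
    ∑ x ∈ s, A.mat (a x) (b x) = A.mat (fun j i => ∑ x ∈ s, a x j i)
      (fun j i => ∑ x ∈ s, b x j i) := by
  classical
  induction s using Finset.induction_on with
  | empty =>
    simp only [Finset.sum_empty]
    exact mat_zero.symm
  | insert x s hx ih =>
    rw [Finset.sum_insert hx, ih, mat_add]
    congr 1
    · funext j i
      simp only [Pi.add_apply]
      rw [Finset.sum_insert hx]
    · funext j i
      simp only [Pi.add_apply]
      rw [Finset.sum_insert hx]

variable (A) in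
/-- a column -/
def col (i : ℤ) (a b : ℤ → A.C) : Matrix A.Ix A.Ix A.C :=
  A.mat (fun j i' => if i' = i then a j else 0) (fun j i' => if i' = i then b j else 0)

variable (A) in
/-- a row -/
def row (j : ℤ) (a b : ℤ → A.C) : Matrix A.Ix A.Ix A.C :=
  A.mat (fun j' i => if j' = j then a i else 0) (fun j' i => if j' = j then b i else 0)

variable (A) in
/-- a single entry -/
def sg (j i : ℤ) (u v : A.C) : Matrix A.Ix A.Ix A.C :=
  A.mat (fun j' i' => if j' = j ∧ i' = i then u else 0)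
    (fun j' i' => if j' = j ∧ i' = i then v else 0)

theorem Rep.col {i : ℤ} {a b : ℤ → A.C} (ha : ∀ j, a j ∈ A.G (j - i))
    (hb : ∀ j, b j ∈ A.G (j - i + 1)) :
    A.Rep (fun j i' => if i' = i then a j else 0) (fun j i' => if i' = i then b j else 0) := by
  constructor
  · intro j i'
    split
    · next h => subst h; exact ha j
    · exact Submodule.zero_mem _
  · intro j i'
    split
    · next h => subst h; exact hb j
    · exact Submodule.zero_mem _

theorem Rep.row {j : ℤ} {a b : ℤ → A.C} (ha : ∀ i, a i ∈ A.G (j - i))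
    (hb : ∀ i, b i ∈ A.G (j - i + 1)) :
    A.Rep (fun j' i => if j' = j then a i else 0) (fun j' i => if j' = j then b i else 0) := by
  constructor
  · intro j' i
    split
    · next h => subst h; exact ha i
    · exact Submodule.zero_mem _
  · intro j' i
    split
    · next h => subst h; exact hb i
    · exact Submodule.zero_mem _

theorem Rep.sg {j i : ℤ} {u v : A.C} (hu : u ∈ A.G (j - i)) (hv : v ∈ A.G (j - i + 1)) :
    A.Rep (fun j' i' => if j' = j ∧ i' = i then u else 0)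
      (fun j' i' => if j' = j ∧ i' = i then v else 0) := by
  constructor
  · intro j' i'
    split
    · next h => obtain ⟨rfl, rfl⟩ := h; exact hu
    · exact Submodule.zero_mem _
  · intro j' i'
    split
    · next h => obtain ⟨rfl, rfl⟩ := h; exact hv
    · exact Submodule.zero_mem _

theorem col_sum {κ : Type} (s : Finset κ) (i : ℤ) (a b : κ → ℤ → A.C) :
    ∑ x ∈ s, A.col i (a x) (b x) = A.col i (fun j => ∑ x ∈ s, a x j)
      (fun j => ∑ x ∈ s, b x j) := by
  unfold col
  rw [mat_sum]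
  congr 1
  · funext j i'
    split <;> simp
  · funext j i'
    split <;> simp

theorem row_sum {κ : Type} (s : Finset κ) (i : ℤ) (a b : κ → ℤ → A.C) :
    ∑ x ∈ s, A.row i (a x) (b x) = A.row i (fun j => ∑ x ∈ s, a x j)
      (fun j => ∑ x ∈ s, b x j) := by
  unfold row
  rw [mat_sum]
  congr 1
  · funext j i'
    split <;> simp
  · funext j i'
    split <;> simp

variable (A) in
/-- position in range -/
def inr (i : ℤ) : Prop := 0 ≤ i ∧ i ≤ A.n

theorem sum_pick {i : ℤ} (hi : A.inr i) (f : ℤ → A.C) (hf : ∀ k : ℤ, k ≠ i → f k = 0) :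
    ∑ k ∈ Finset.range (A.n + 1), f k = f i := by
  obtain ⟨h0, h1⟩ := hi
  obtain ⟨i, rfl⟩ := Int.eq_ofNat_of_zero_le h0
  rw [Finset.sum_eq_single i]
  · intro k _ hk
    exact hf _ (by exact_mod_cast hk)
  · intro h
    exact absurd (Finset.mem_range.2 (by omega)) h

theorem pa_pick {a b a' b' : ℤ → ℤ → A.C} {j i i' : ℤ} (hi : A.inr i)
    (h : ∀ k : ℤ, k ≠ i → (a j k = 0 ∧ b j k = 0) ∨ (a' k i' = 0 ∧ b' k i' = 0)) :
    A.pa a b a' b' j i' = a j i * a' i i' + b j i * A.D (a' i i') := by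
  refine sum_pick hi (fun k => a j k * a' k i' + b j k * A.D (a' k i')) ?_
  intro k hk
  rcases h k hk with ⟨h1, h2⟩ | ⟨h1, h2⟩ <;> simp [h1, h2]

theorem pb_pick {a b a' b' : ℤ → ℤ → A.C} {j i i' : ℤ} (hi : A.inr i)
    (h : ∀ k : ℤ, k ≠ i → (a j k = 0 ∧ b j k = 0) ∨ (a' k i' = 0 ∧ b' k i' = 0)) :
    A.pb a b a' b' j i' = b j i * a' i i' + a j i * b' i i' + b j i * A.D (b' i i') := by
  refine sum_pick hi (fun k => b j k * a' k i' + a j k * b' k i' + b j k * A.D (b' k i')) ?_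
  intro k hk
  rcases h k hk with ⟨h1, h2⟩ | ⟨h1, h2⟩ <;> simp [h1, h2]

theorem col_zero (i : ℤ) : A.col i 0 0 = 0 := by
  unfold col
  rw [← mat_zero]
  congr 1
  · funext j i'
    simp
  · funext j i'
    simp

theorem row_zero (i : ℤ) : A.row i 0 0 = 0 := by
  unfold row
  rw [← mat_zero]
  congr 1
  · funext j i'
    simp
  · funext j i'
    simp

/-- column times entry -/
theorem col_mul_sg {i i' : ℤ} {a b : ℤ → A.C} {u v : A.C} (ha : ∀ j, a j ∈ A.G (j - i))
    (hb : ∀ j, b j ∈ A.G (j - i + 1)) (hu : u ∈ A.G (i - i')) (hv : v ∈ A.G (i - i' + 1))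
    (hi : A.inr i ∨ (a = 0 ∧ b = 0)) :
    A.col i a b * A.sg i i' u v = A.col i' (fun j => a j * u + b j * A.D u)
      (fun j => b j * u + a j * v + b j * A.D v) := by
  rcases hi with hi | ⟨rfl, rfl⟩
  · unfold col sg
    rw [mat_mul (Rep.col ha hb) (Rep.sg hu hv)]
    congr 1
    · funext j i''
      rw [pa_pick hi (fun k hk => Or.inl ⟨by simp [hk], by simp [hk]⟩)]
      by_cases h : i'' = i' <;> simp [h]
    · funext j i''
      rw [pb_pick hi (fun k hk => Or.inl ⟨by simp [hk], by simp [hk]⟩)]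
      by_cases h : i'' = i' <;> simp [h]
  · rw [col_zero, zero_mul, ← col_zero i']
    congr 1
    · funext j
      simp
    · funext j
      simp

/-- entry times row -/
theorem sg_mul_row {j j' : ℤ} {a b : ℤ → A.C} {u v : A.C} (ha : ∀ i, a i ∈ A.G (j' - i))
    (hb : ∀ i, b i ∈ A.G (j' - i + 1)) (hu : u ∈ A.G (j - j')) (hv : v ∈ A.G (j - j' + 1))
    (hi : A.inr j' ∨ (a = 0 ∧ b = 0)) :
    A.sg j j' u v * A.row j' a b = A.row j (fun i => u * a i + v * A.D (a i))
      (fun i => v * a i + u * b i + v * A.D (b i)) := by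
  rcases hi with hi | ⟨rfl, rfl⟩
  · unfold row sg
    rw [mat_mul (Rep.sg hu hv) (Rep.row ha hb)]
    congr 1
    · funext j'' i
      rw [pa_pick hi (fun k hk => Or.inr ⟨by simp [hk], by simp [hk]⟩)]
      by_cases h : j'' = j <;> simp [h]
    · funext j'' i
      rw [pb_pick hi (fun k hk => Or.inr ⟨by simp [hk], by simp [hk]⟩)]
      by_cases h : j'' = j <;> simp [h]
  · rw [row_zero, mul_zero, ← row_zero j]
    congr 1
    · funext i
      simp
    · funext i
      simp

/-- a general element times an entry -/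
theorem mat_mul_sg {i i' : ℤ} {a b : ℤ → ℤ → A.C} {u v : A.C} (h : A.Rep a b)
    (hu : u ∈ A.G (i - i')) (hv : v ∈ A.G (i - i' + 1)) (hi : A.inr i) :
    A.mat a b * A.sg i i' u v = A.col i' (fun j => a j i * u + b j i * A.D u)
      (fun j => b j i * u + a j i * v + b j i * A.D v) := by
  unfold col sg
  rw [mat_mul h (Rep.sg hu hv)]
  congr 1
  · funext j i''
    rw [pa_pick hi (fun k hk => Or.inr ⟨by simp [hk], by simp [hk]⟩)]
    by_cases h : i'' = i' <;> simp [h]
  · funext j i''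
    rw [pb_pick hi (fun k hk => Or.inr ⟨by simp [hk], by simp [hk]⟩)]
    by_cases h : i'' = i' <;> simp [h]

theorem sg_mul_mat {j j' : ℤ} {a b : ℤ → ℤ → A.C} {u v : A.C} (h : A.Rep a b)
    (hu : u ∈ A.G (j - j')) (hv : v ∈ A.G (j - j' + 1)) (hi : A.inr j') :
    A.sg j j' u v * A.mat a b = A.row j (fun i => u * a j' i + v * A.D (a j' i))
      (fun i => v * a j' i + u * b j' i + v * A.D (b j' i)) := by
  unfold row sg
  rw [mat_mul (Rep.sg hu hv) h]
  congr 1
  · funext j'' i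
    rw [pa_pick hi (fun k hk => Or.inl ⟨by simp [hk], by simp [hk]⟩)]
    by_cases h : j'' = j <;> simp [h]
  · funext j'' i
    rw [pb_pick hi (fun k hk => Or.inl ⟨by simp [hk], by simp [hk]⟩)]
    by_cases h : j'' = j <;> simp [h]

/-- entries out of range vanish -/
theorem sg_out {j i : ℤ} {u v : A.C} (h : ¬ A.inr j ∨ ¬ A.inr i) : A.sg j i u v = 0 := by
  have hn1 : 0 < A.n := Nat.succ_pos _
  ext ⟨p, ε⟩ ⟨q, η⟩
  have hp := p.2
  have hq := q.2
  unfold inr at h
  cases ε <;> cases η <;> simp only [sg, mat, Matrix.zero_apply]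
  · rw [if_neg (by omega)]
  · rw [if_neg (by omega)]
  · rw [if_neg (by omega), map_zero]
  · rw [if_neg (by omega), if_neg (by omega), map_zero, add_zero]

/-- entry times entry -/
theorem sg_mul_sg {j i i' : ℤ} {u v u' v' : A.C} (hu : u ∈ A.G (j - i)) (hv : v ∈ A.G (j - i + 1))
    (hu' : u' ∈ A.G (i - i')) (hv' : v' ∈ A.G (i - i' + 1)) (hi : A.inr i) :
    A.sg j i u v * A.sg i i' u' v' = A.sg j i' (u * u' + v * A.D u')
      (v * u' + u * v' + v * A.D v') := by
  unfold sg
  rw [mat_mul (Rep.sg hu hv) (Rep.sg hu' hv')]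
  congr 1
  · funext j'' i''
    rw [pa_pick hi (fun k hk => Or.inl ⟨by simp [hk], by simp [hk]⟩)]
    by_cases h : j'' = j <;> by_cases h' : i'' = i' <;> simp [h, h']
  · funext j'' i''
    rw [pb_pick hi (fun k hk => Or.inl ⟨by simp [hk], by simp [hk]⟩)]
    by_cases h : j'' = j <;> by_cases h' : i'' = i' <;> simp [h, h']

/-! ### normal forms -/

/-- normal form of a column -/
theorem exists_col (X : A.Hat) {i : ℤ} {e : A.C} (he : e ∈ A.G 0) (hee : e * e = e)
    (hX : X.1 * A.sg i i e 0 = X.1) :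
    ∃ a b : ℤ → A.C, X.1 = A.col i a b ∧ (∀ j, a j ∈ A.G (j - i)) ∧
      (∀ j, b j ∈ A.G (j - i + 1)) ∧ (∀ j, a j * e = a j) ∧ (∀ j, b j * e = b j) ∧
      (¬ A.inr i → a = 0 ∧ b = 0) ∧ (i = 0 → b = 0) ∧ b A.n = 0 := by
  have hDe : A.D e = 0 := D_neg he (by omega)
  by_cases hi : A.inr i
  swap
  · refine ⟨0, 0, ?_, fun _ => Submodule.zero_mem _, fun _ => Submodule.zero_mem _,
      fun _ => zero_mul _, fun _ => zero_mul _, fun _ => ⟨rfl, rfl⟩, fun _ => rfl, rfl⟩
    rw [← hX, sg_out (Or.inl hi), mul_zero, col_zero]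
  obtain ⟨_, a, b, h, rfl⟩ := X
  dsimp only at hX ⊢
  rw [mat_mul_sg h (by simpa using he) (Submodule.zero_mem _) hi] at hX
  simp only [hDe, mul_zero, add_zero, map_zero] at hX
  have h1 : ∀ j, a j i * e ∈ A.G (j - i) := by
    intro j
    simpa using A.mul_mem (h.ha j i) he
  have h2 : ∀ j, b j i * e ∈ A.G (j - i + 1) := by
    intro j
    simpa using A.mul_mem (h.hb j i) he
  have h3 : ∀ j, (if j = A.n then a j i * e + A.D (b j i * e) else a j i * e) ∈
      A.G (j - i) := by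
    intro j
    split
    · have := A.D_mem (h2 j)
      rw [show j - i + 1 - 1 = j - i by ring] at this
      exact Submodule.add_mem _ (h1 j) this
    · exact h1 j
  have h4 : ∀ j, (if j = A.n ∨ i = 0 then 0 else b j i * e) ∈ A.G (j - i + 1) := by
    intro j
    split
    · exact Submodule.zero_mem _
    · exact h2 j
  refine ⟨fun j => if j = A.n then a j i * e + A.D (b j i * e) else a j i * e,
    fun j => if j = A.n ∨ i = 0 then 0 else b j i * e, ?_, h3, h4, ?_, ?_,
    fun h => absurd hi h, ?_, ?_⟩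
  · rw [← hX]
    refine mat_ext (Rep.col h1 h2) (Rep.col h3 h4) ?_ ?_ ?_
    · intro j i' h5 h6 _ _
      dsimp only
      rw [if_neg (show ¬ (j = A.n) by omega)]
    · intro j i' h5 h6 h7 _
      dsimp only
      by_cases h8 : i' = i
      · rw [if_pos h8, if_pos h8, if_neg (show ¬ (j = A.n ∨ i = 0) by omega)]
      · rw [if_neg h8, if_neg h8]
    · intro i' h7 _
      by_cases h8 : i' = i
      · simp only [h8, if_true, true_or, map_zero, add_zero]
      · simp only [if_neg h8]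
  · intro j
    dsimp only
    split
    · rw [A.D_mul, hDe, mul_zero, add_zero, add_mul, mul_assoc, mul_assoc, hee]
    · rw [mul_assoc, hee]
  · intro j
    dsimp only
    split
    · rw [zero_mul]
    · rw [mul_assoc, hee]
  · intro h0
    funext j
    simp [h0]
  · simp

/-- normal form of a row -/
theorem exists_row (X : A.Hat) {j : ℤ} {e : A.C} (he : e ∈ A.G 0) (hee : e * e = e)
    (hX : A.sg j j e 0 * X.1 = X.1) :
    ∃ a b : ℤ → A.C, X.1 = A.row j a b ∧ (∀ i, a i ∈ A.G (j - i)) ∧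
      (∀ i, b i ∈ A.G (j - i + 1)) ∧ (∀ i, e * a i = a i) ∧ (∀ i, e * b i = b i) ∧
      (¬ A.inr j → a = 0 ∧ b = 0) ∧ (j = A.n → b = 0) ∧ b 0 = 0 := by
  have hDe : A.D e = 0 := D_neg he (by omega)
  by_cases hj : A.inr j
  swap
  · refine ⟨0, 0, ?_, fun _ => Submodule.zero_mem _, fun _ => Submodule.zero_mem _,
      fun _ => mul_zero _, fun _ => mul_zero _, fun _ => ⟨rfl, rfl⟩, fun _ => rfl, rfl⟩
    rw [← hX, sg_out (Or.inl hj), zero_mul, row_zero]
  obtain ⟨_, a, b, h, rfl⟩ := X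
  dsimp only at hX ⊢
  rw [sg_mul_mat h (by simpa using he) (Submodule.zero_mem _) hj] at hX
  simp only [zero_mul, add_zero, zero_add] at hX
  have h1 : ∀ i, e * a j i ∈ A.G (j - i) := by
    intro i
    simpa using A.mul_mem he (h.ha j i)
  have h2 : ∀ i, e * b j i ∈ A.G (j - i + 1) := by
    intro i
    have := A.mul_mem he (h.hb j i)
    rwa [show 0 + (j - i + 1) = j - i + 1 by ring] at this
  have h3 : ∀ i, (if j = A.n then e * a j i + A.D (e * b j i) else e * a j i) ∈
      A.G (j - i) := by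
    intro i
    split
    · have := A.D_mem (h2 i)
      rw [show j - i + 1 - 1 = j - i by ring] at this
      exact Submodule.add_mem _ (h1 i) this
    · exact h1 i
  have h4 : ∀ i, (if j = A.n ∨ i = 0 then 0 else e * b j i) ∈ A.G (j - i + 1) := by
    intro i
    split
    · exact Submodule.zero_mem _
    · exact h2 i
  refine ⟨fun i => if j = A.n then e * a j i + A.D (e * b j i) else e * a j i,
    fun i => if j = A.n ∨ i = 0 then 0 else e * b j i, ?_, h3, h4, ?_, ?_, fun h => absurd hj h,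
    ?_, ?_⟩
  · rw [← hX]
    refine mat_ext (Rep.row h1 h2) (Rep.row h3 h4) ?_ ?_ ?_
    · intro j' i h5 h6 _ _
      dsimp only
      by_cases h8 : j' = j
      · rw [if_pos h8, if_pos h8, if_neg (show ¬ (j = A.n) by omega)]
      · rw [if_neg h8, if_neg h8]
    · intro j' i h5 h6 h7 _
      dsimp only
      by_cases h8 : j' = j
      · rw [if_pos h8, if_pos h8, if_neg (show ¬ (j = A.n ∨ i = 0) by omega)]
      · rw [if_neg h8, if_neg h8]
    · intro i h7 _
      by_cases h8 : (A.n : ℤ) = j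
      · simp only [h8, if_true, true_or, map_zero, add_zero]
      · simp only [if_neg h8]
  · intro i
    dsimp only
    split
    · rw [A.D_mul, hDe, zero_mul, zero_add, mul_add, ← mul_assoc, ← mul_assoc, hee]
    · rw [← mul_assoc, hee]
  · intro i
    dsimp only
    split
    · rw [mul_zero]
    · rw [← mul_assoc, hee]
  · intro h0
    funext i
    simp [h0]
  · simp

/-- the last diagonal entry -/
def ev (X : A.Hat) : A.C :=
  X.1 (⟨A.n - 1, by have : 0 < A.n := Nat.succ_pos _; omega⟩, true)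
    (⟨A.n - 1, by have : 0 < A.n := Nat.succ_pos _; omega⟩, true)

theorem mat_last (a b : ℤ → ℤ → A.C) :
    A.mat a b (⟨A.n - 1, by have : 0 < A.n := Nat.succ_pos _; omega⟩, true)
      (⟨A.n - 1, by have : 0 < A.n := Nat.succ_pos _; omega⟩, true) =
    a A.n A.n + A.D (b A.n A.n) := by
  have h1 : (((A.n - 1 : ℕ) : ℤ)) + 1 = A.n := by
    have : 0 < A.n := Nat.succ_pos _
    omega
  simp only [mat, h1]

theorem ev_mul (X Y : A.Hat) : ∃ x ∈ A.G 1, ∃ y : A.C, ev (X * Y) = ev X * ev Y + A.D x * y := by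
  have hn1 : 0 < A.n := Nat.succ_pos _
  obtain ⟨a, b, h, rfl⟩ := exists_hmk X
  obtain ⟨a', b', h', rfl⟩ := exists_hmk Y
  have h1 : (((A.n - 1 : ℕ) : ℤ)) + 1 = A.n := by omega
  refine ⟨a A.n (A.n - 1), by simpa using h.ha A.n (A.n - 1), b' (A.n - 1) A.n, ?_⟩
  unfold ev
  rw [show (hmk h * hmk h').1 = A.mat a b * A.mat a' b' from rfl,
    show (hmk h).1 = A.mat a b from rfl, show (hmk h').1 = A.mat a' b' from rfl]
  rw [Matrix.mul_apply, Fintype.sum_prod_type]
  simp only [Fintype.sum_bool]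
  rw [Finset.sum_eq_single (⟨A.n - 1, by omega⟩ : Fin A.n)]
  · congr 1
    have h2 : (((A.n - 1 : ℕ) : ℤ)) = A.n - 1 := by omega
    simp only [mat, h2]
    simp
  · intro k _ hk
    have hk1 : (k : ℕ) ≠ A.n - 1 := fun h0 => hk (Fin.ext h0)
    have hk2 := k.2
    have e1 : A.mat a' b' (k, true) (⟨A.n - 1, by omega⟩, true) = 0 := by
      simp only [mat, h1]
      rw [neg (h'.ha _ _) (by omega), D_neg (h'.hb _ _) (by omega), add_zero]
    have e2 : A.mat a' b' (k, false) (⟨A.n - 1, by omega⟩, true) = 0 := by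
      simp only [mat, h1]
      exact neg (h'.hb _ _) (by omega)
    rw [e1, e2, mul_zero, mul_zero, add_zero]
  · intro h0
    exact absurd (Finset.mem_univ _) h0

theorem ev_add (X Y : A.Hat) : ev (X + Y) = ev X + ev Y := rfl

theorem ev_zero : ev (0 : A.Hat) = 0 := rfl

theorem ev_one : ev (1 : A.Hat) = 1 := by
  unfold ev
  change (1 : Matrix A.Ix A.Ix A.C) _ _ = 1
  rw [Matrix.one_apply_eq]

theorem ev_smul (r : K) (X : A.Hat) : ev (r • X) = r • ev X := rfl

end DGA

end Crest.Agent.R186.Hat827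
end

-- ▼ part R186/Res_827
section

/-!
Row 186, leaf HAT, part 1 (helper827): `Ext` out of an explicit projective resolution.

`ext_of_res` : `... → T 1 → T 0 → X → 0` exact, `T m` projective, every cocycle `T (i+1) → M` is a
coboundary; then `Ext^(i+1)(X, M) = 0`.
-/

set_option autoImplicit false
set_option linter.style.haveILetI false

universe u

open CategoryTheory CategoryTheory.Abelian

namespace Crest.Agent.R186.Res827

variable {A : Type u} [Ring A]

section step

variable {P X : Type u} [AddCommGroup P] [Module A P] [AddCommGroup X] [Module A X]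
  (ε : P →ₗ[A] X) (hε : Function.Surjective ε)

/-- `Ext^1 = 0` if every map out of the syzygy extends -/
theorem ext_one [hP : Module.Projective A P] (hε : Function.Surjective ε) (M : Type u)
    [AddCommGroup M] [Module A M]
    (h : ∀ g : LinearMap.ker ε →ₗ[A] M, ∃ f : P →ₗ[A] M, f ∘ₗ (LinearMap.ker ε).subtype = g) :
    Subsingleton (Ext (ModuleCat.of A X) (ModuleCat.of A M) 1) := by
  let S : ShortComplex (ModuleCat.{u} A) := ε.shortComplexKer
  have hS : S.ShortExact := LinearMap.shortExact_shortComplexKer hε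
  have : Projective S.X₂ := (IsProjective.iff_projective (ModuleCat.of A P)).1 inferInstance
  have hz : ∀ x : Ext S.X₃ (ModuleCat.of A M) 1, x = 0 := by
    intro x
    have h0 : (Ext.mk₀ S.g).comp x (zero_add 1) = 0 := Ext.eq_zero_of_projective _
    obtain ⟨y, hy⟩ := Ext.contravariant_sequence_exact₃ hS (ModuleCat.of A M) x h0 (add_zero 1)
    obtain ⟨φ, rfl⟩ := Ext.homEquiv₀.symm.surjective y
    obtain ⟨f, hf⟩ := h φ.hom
    have h1 : φ = S.f ≫ ModuleCat.ofHom f := by
      apply ModuleCat.hom_ext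
      exact hf.symm
    rw [Ext.homEquiv₀_symm_apply, h1, ← Ext.mk₀_comp_mk₀] at hy
    rw [← hy, ← Ext.comp_assoc (X := S.X₃) (Y := S.X₁) (Z := S.X₂) hS.extClass (Ext.mk₀ S.f)
      (Ext.mk₀ (ModuleCat.ofHom f)) (add_zero 1) (zero_add 0) (by omega), hS.extClass_comp,
      Ext.zero_comp]
  exact ⟨fun a b => by rw [hz a, hz b]⟩

/-- dimension shift -/
theorem ext_succ [hP : Module.Projective A P] (hε : Function.Surjective ε) (M : Type u)
    [AddCommGroup M] [Module A M] (i : ℕ)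
    (h : Subsingleton (Ext (ModuleCat.of A (LinearMap.ker ε)) (ModuleCat.of A M) (i + 1))) :
    Subsingleton (Ext (ModuleCat.of A X) (ModuleCat.of A M) (i + 2)) := by
  let S : ShortComplex (ModuleCat.{u} A) := ε.shortComplexKer
  have hS : S.ShortExact := LinearMap.shortExact_shortComplexKer hε
  have : Projective S.X₂ := (IsProjective.iff_projective (ModuleCat.of A P)).1 inferInstance
  have hz : ∀ x : Ext S.X₃ (ModuleCat.of A M) (i + 2), x = 0 := by
    intro x
    have h0 : (Ext.mk₀ S.g).comp x (zero_add (i + 2)) = 0 := Ext.eq_zero_of_projective _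
    obtain ⟨y, hy⟩ := Ext.contravariant_sequence_exact₃ hS (ModuleCat.of A M) x h0
      (show 1 + (i + 1) = i + 2 by omega)
    have : Subsingleton (Ext S.X₁ (ModuleCat.of A M) (i + 1)) := h
    rw [← hy, this.elim y 0, Ext.comp_zero]
  exact ⟨fun a b => by rw [hz a, hz b]⟩


end step

/-- **`Ext` from a projective resolution.** -/
theorem ext_of_res (i : ℕ) : ∀ (T : ℕ → Type u) [∀ m, AddCommGroup (T m)] [∀ m, Module A (T m)]
    [∀ m, Module.Projective A (T m)] (d : ∀ m, T (m + 1) →ₗ[A] T m)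
    (hd : ∀ m (x : T (m + 1)), d m x = 0 ↔ ∃ y, d (m + 1) y = x)
    (X : Type u) [AddCommGroup X] [Module A X] (ε : T 0 →ₗ[A] X) (_ : Function.Surjective ε)
    (_ : ∀ x, ε x = 0 ↔ ∃ y, d 0 y = x)
    (M : Type u) [AddCommGroup M] [Module A M]
    (_ : ∀ f : T (i + 1) →ₗ[A] M, f ∘ₗ d (i + 1) = 0 → ∃ g : T i →ₗ[A] M, f = g ∘ₗ d i),
    Subsingleton (Ext (ModuleCat.of A X) (ModuleCat.of A M) (i + 1)) := by
  induction i with
  | zero =>
    intro T _ _ _ d hd X _ _ ε hε he M _ _ h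
    refine ext_one ε hε M ?_
    intro g
    let d' : T 1 →ₗ[A] LinearMap.ker ε :=
      LinearMap.codRestrict _ (d 0) (fun y => (he _).2 ⟨y, rfl⟩)
    obtain ⟨f, hf⟩ := h (g ∘ₗ d') (by
      ext y
      have : d' (d 1 y) = 0 := by
        apply Subtype.ext
        exact (hd 0 _).2 ⟨y, rfl⟩
      simp [this])
    refine ⟨f, ?_⟩
    ext x
    obtain ⟨y, hy⟩ := (he x.1).1 x.2
    have h1 := LinearMap.congr_fun hf y
    have h2 : d' y = x := Subtype.ext hy
    simp only [LinearMap.comp_apply, h2] at h1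
    rw [hy] at h1
    exact h1.symm
  | succ i ih =>
    intro T _ _ _ d hd X _ _ ε hε he M _ _ h
    refine ext_succ ε hε M i ?_
    let d' : T 1 →ₗ[A] LinearMap.ker ε :=
      LinearMap.codRestrict _ (d 0) (fun y => (he _).2 ⟨y, rfl⟩)
    refine ih (fun m => T (m + 1)) (fun m => d (m + 1)) (fun m x => hd (m + 1) x)
      (LinearMap.ker ε) d' ?_ ?_ M h
    · intro x
      obtain ⟨y, hy⟩ := (he x.1).1 x.2
      exact ⟨y, Subtype.ext hy⟩
    · intro x
      have : d' x = 0 ↔ d 0 x = 0 := by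
        constructor
        · intro h0
          exact congrArg Subtype.val h0
        · intro h0
          exact Subtype.ext h0
      rw [this]
      exact hd 0 x

end Crest.Agent.R186.Res827
end

-- ▼ part R186/HatC_827

/-!
Row 186, leaf HAT, part 4 (helper827): from a semi-free resolution over the strict dg algebra `C`
to a null pair over the hat algebra.
-/

set_option autoImplicit false
set_option linter.style.haveILetI false

open CategoryTheory CategoryTheory.Abelian

namespace Crest.Agent.R186.Hat827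

variable {K : Type} [Field K]

open DGA

/-- a `C`-module `V` in degree `0` with a semi-free resolution and the exactness statements -/
structure Cells (A : DGA K) where
  V : Type
  [grp : AddCommGroup V]
  [modK : Module K V]
  [modC : Module A.C V]
  [tower : IsScalarTower K A.C V]
  [finV : Module.Finite K V]
  [nt : Nontrivial V]
  dpos : ∀ x ∈ A.G 1, ∀ w : V, A.D x • w = 0
  ι : Type
  s : ι → ℕ
  F : ℕ → Finset ι
  mem_F : ∀ m σ, σ ∈ F m ↔ s σ ≤ m
  e : ι → A.C
  e_mem : ∀ σ, e σ ∈ A.G 0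
  e_idem : ∀ σ, e σ * e σ = e σ
  c : ι → ι → A.C
  c_mem : ∀ σ τ, c σ τ ∈ A.G ((s σ : ℤ) - s τ - 1)
  c_left : ∀ σ τ, e σ * c σ τ = c σ τ
  c_right : ∀ σ τ, c σ τ * e τ = c σ τ
  mc : ∀ σ τ, A.D (c σ τ) + ∑ ρ ∈ F (s σ), c σ ρ * c ρ τ = 0
  v : ι → V
  v_e : ∀ σ, e σ • v σ = v σ
  v_zero : ∀ σ, s σ ≠ 0 → v σ = 0
  v_aug : ∀ σ, s σ = 1 → ∑ τ ∈ F 0, c σ τ • v τ = 0
  exR : ∀ (m : ℕ) (x : ι → A.C), (∀ σ, x σ ∈ A.G ((m : ℤ) + 1 - s σ)) →
    (∀ σ, x σ * e σ = x σ) → (∀ τ, A.D (x τ) + ∑ σ ∈ F (m + 1), x σ * c σ τ = 0) →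
    ∃ y : ι → A.C, (∀ σ, y σ ∈ A.G ((m : ℤ) + 2 - s σ)) ∧ (∀ σ, y σ * e σ = y σ) ∧
      ∀ τ, x τ = A.D (y τ) + ∑ σ ∈ F (m + 2), y σ * c σ τ
  exR0 : ∀ x : ι → A.C, (∀ σ, x σ ∈ A.G (-(s σ : ℤ))) → (∀ σ, x σ * e σ = x σ) →
    ∑ σ ∈ F 0, x σ • v σ = 0 →
    ∃ y : ι → A.C, (∀ σ, y σ ∈ A.G ((1 : ℤ) - s σ)) ∧ (∀ σ, y σ * e σ = y σ) ∧
      ∀ τ, x τ = A.D (y τ) + ∑ σ ∈ F 1, y σ * c σ τ
  gen : ∀ w : V, ∃ x : ι → A.C, (∀ σ, x σ ∈ A.G (-(s σ : ℤ))) ∧ ∑ σ ∈ F 0, x σ • v σ = w
  exV : ∀ (m : ℕ) (φ : ι → V), (∀ σ, s σ ≠ m + 1 → φ σ = 0) → (∀ σ, e σ • φ σ = φ σ) →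
    (∀ σ, s σ = m + 2 → ∑ τ ∈ F (m + 1), c σ τ • φ τ = 0) →
    ∃ ψ : ι → V, (∀ σ, s σ ≠ m → ψ σ = 0) ∧ ∀ σ, s σ = m + 1 → φ σ = ∑ τ ∈ F m, c σ τ • ψ τ
  exC : ∀ (p : ℤ) (φ : ι → A.C), (∀ σ, φ σ ∈ A.G ((s σ : ℤ) - p)) → (∀ σ, e σ * φ σ = φ σ) →
    (∀ σ, A.D (φ σ) + ∑ τ ∈ F (s σ), c σ τ * φ τ = 0) →
    ∃ ψ : ι → A.C, (∀ σ, ψ σ ∈ A.G ((s σ : ℤ) - p + 1)) ∧ (∀ σ, e σ * ψ σ = ψ σ) ∧
      ∀ σ, φ σ = A.D (ψ σ) + ∑ τ ∈ F (s σ), c σ τ * ψ τ

attribute [instance] Cells.grp Cells.modK Cells.modC Cells.tower Cells.finV Cells.nt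

namespace Cells

variable {A : DGA K} (R : Cells A)

/-! ### the hat module -/

/-- `V` at the last vertex -/
def Vh : Type := R.V

instance : AddCommGroup R.Vh := R.grp
instance : Module K R.Vh := R.modK
instance : Module.Finite K R.Vh := R.finV
instance : Nontrivial R.Vh := R.nt

noncomputable instance : Module A.Hat R.Vh where
  smul X w := (show R.V from ev X • (show R.V from w))
  one_smul w := by
    change ev (1 : A.Hat) • (show R.V from w) = w
    rw [ev_one, one_smul]
  mul_smul X Y w := by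
    change ev (X * Y) • (show R.V from w) = ev X • (ev Y • (show R.V from w))
    obtain ⟨x, hx, y, h⟩ := ev_mul X Y
    rw [h, add_smul, mul_smul, mul_smul, R.dpos x hx, add_zero]
  smul_zero X := by
    change ev X • (0 : R.V) = 0
    rw [smul_zero]
  smul_add X w w' := by
    change ev X • ((show R.V from w) + (show R.V from w')) = _
    rw [smul_add]
    rfl
  add_smul X Y w := by
    change ev (X + Y) • (show R.V from w) = _
    rw [ev_add, add_smul]
    rfl
  zero_smul w := by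
    change ev (0 : A.Hat) • (show R.V from w) = 0
    rw [ev_zero, zero_smul]

theorem smul_def (X : A.Hat) (w : R.Vh) : X • w = (show R.V from ev X • (show R.V from w)) := rfl

instance : IsScalarTower K A.Hat R.Vh where
  smul_assoc r X w := by
    change ev (r • X) • (show R.V from w) = r • (ev X • (show R.V from w))
    rw [ev_smul, smul_assoc]

instance : Module.Finite A.Hat R.Vh := Module.Finite.of_restrictScalars_finite K A.Hat R.Vh

/-! ### positions, idempotents, differential -/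

theorem De (σ : R.ι) : A.D (R.e σ) = 0 := D_neg (R.e_mem σ) (by omega)

theorem c_zero {σ τ : R.ι} (h : R.s σ ≤ R.s τ) : R.c σ τ = 0 :=
  neg (R.c_mem σ τ) (by omega)

/-- position of a cell -/
def pos (σ : R.ι) (m : ℤ) : ℤ := (R.s σ : ℤ) + A.n - m

/-- the idempotent of a cell -/
def ep (m : ℤ) (σ : R.ι) : A.Hat :=
  hmk (Rep.sg (j := R.pos σ m) (i := R.pos σ m) (u := R.e σ) (v := 0)
    (by simpa using R.e_mem σ) (Submodule.zero_mem _))

open Classical in
theorem dm_rep (m : ℤ) (σ τ : R.ι) :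
    R.c σ τ ∈ A.G (R.pos σ (m + 1) - R.pos τ m) ∧
      (if σ = τ then R.e σ else 0) ∈ A.G (R.pos σ (m + 1) - R.pos τ m + 1) := by
  constructor
  · have := R.c_mem σ τ
    unfold pos
    rwa [show (R.s σ : ℤ) + A.n - (m + 1) - (R.s τ + A.n - m) = R.s σ - R.s τ - 1 by ring]
  · split
    · next h =>
      subst h
      have := R.e_mem σ
      unfold pos
      rwa [show (R.s σ : ℤ) + A.n - (m + 1) - (R.s σ + A.n - m) + 1 = 0 by ring]
    · exact Submodule.zero_mem _

open Classical in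
/-- the matrix of the differential -/
noncomputable def dm (m : ℤ) (σ τ : R.ι) : A.Hat :=
  hmk (Rep.sg (j := R.pos σ (m + 1)) (i := R.pos τ m) (u := R.c σ τ)
    (v := if σ = τ then R.e σ else 0) (R.dm_rep m σ τ).1 (R.dm_rep m σ τ).2)

theorem ep_val (m : ℤ) (σ : R.ι) :
    (R.ep m σ).1 = A.sg (R.pos σ m) (R.pos σ m) (R.e σ) 0 := rfl

open Classical in
theorem dm_val (m : ℤ) (σ τ : R.ι) :
    (R.dm m σ τ).1 = A.sg (R.pos σ (m + 1)) (R.pos τ m) (R.c σ τ)
      (if σ = τ then R.e σ else 0) := rfl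

theorem dm_ep (m : ℤ) (σ τ : R.ι) : R.dm m σ τ * R.ep m τ = R.dm m σ τ := by
  classical
  apply Subtype.ext
  change (R.dm m σ τ).1 * (R.ep m τ).1 = (R.dm m σ τ).1
  rw [dm_val, ep_val]
  by_cases h : A.inr (R.pos τ m)
  · rw [sg_mul_sg (R.dm_rep m σ τ).1 (R.dm_rep m σ τ).2 (by simpa using R.e_mem τ)
      (Submodule.zero_mem _) h, R.De, R.c_right]
    congr 1
    · simp
    · by_cases h1 : σ = τ
      · subst h1
        simp [R.e_idem]
      · simp [h1]
  · rw [sg_out (Or.inr h), zero_mul]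

theorem ep_dm (m : ℤ) (σ τ : R.ι) : R.ep (m + 1) σ * R.dm m σ τ = R.dm m σ τ := by
  classical
  apply Subtype.ext
  change (R.ep (m + 1) σ).1 * (R.dm m σ τ).1 = (R.dm m σ τ).1
  rw [dm_val, ep_val]
  by_cases h : A.inr (R.pos σ (m + 1))
  · rw [sg_mul_sg (by simpa using R.e_mem σ) (Submodule.zero_mem _) (R.dm_rep m σ τ).1
      (R.dm_rep m σ τ).2 h, R.c_left]
    congr 1
    · simp
    · by_cases h1 : σ = τ
      · subst h1
        simp [R.e_idem]
      · simp [h1]
  · rw [sg_out (Or.inl h), sg_out (Or.inl h), mul_zero]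

theorem ep_idem (m : ℤ) (σ : R.ι) : R.ep m σ * R.ep m σ = R.ep m σ := by
  apply Subtype.ext
  change (R.ep m σ).1 * (R.ep m σ).1 = (R.ep m σ).1
  rw [ep_val]
  by_cases h : A.inr (R.pos σ m)
  · rw [sg_mul_sg (by simpa using R.e_mem σ) (Submodule.zero_mem _) (by simpa using R.e_mem σ)
      (Submodule.zero_mem _) h, R.e_idem]
    congr 1 <;> simp
  · rw [sg_out (Or.inl h), zero_mul]

theorem ep_out {m : ℤ} {σ : R.ι} (h : ¬ A.inr (R.pos σ m)) : R.ep m σ = 0 := by
  apply Subtype.ext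
  rw [ep_val, sg_out (Or.inl h)]
  rfl

theorem dm_out {m : ℤ} {σ τ : R.ι} (h : ¬ A.inr (R.pos σ (m + 1)) ∨ ¬ A.inr (R.pos τ m)) :
    R.dm m σ τ = 0 := by
  apply Subtype.ext
  rw [dm_val, sg_out h]
  rfl

theorem dm_zero (m : ℤ) {σ τ : R.ι} (h : R.s σ < R.s τ) : R.dm m σ τ = 0 := by
  apply Subtype.ext
  rw [dm_val, R.c_zero h.le, if_neg (by rintro rfl; exact lt_irrefl _ h)]
  change A.mat _ _ = 0
  rw [← mat_zero]
  congr 1 <;> funext j i <;> simp

/-! ### coordinates -/

theorem sum_eq_sum {κ M : Type} [AddCommMonoid M] {S S' : Finset κ} {f : κ → M}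
    (h : ∀ τ ∈ S, τ ∉ S' → f τ = 0) (h' : ∀ τ ∈ S', τ ∉ S → f τ = 0) :
    ∑ τ ∈ S, f τ = ∑ τ ∈ S', f τ :=
  Finset.sum_congr_of_eq_on_inter h h' fun _ _ _ => rfl

theorem val_mul (X Y : A.Hat) : (X * Y).1 = X.1 * Y.1 := rfl

theorem val_sum {κ : Type} (S : Finset κ) (f : κ → A.Hat) :
    (∑ x ∈ S, f x).1 = ∑ x ∈ S, (f x).1 := AddSubmonoidClass.coe_finsetSum f S

theorem coord0 {a b : ℤ → ℤ → A.C} (e : A.mat a b = 0) :
    (∀ j i : ℤ, 0 ≤ j → j < A.n → 0 ≤ i → i < A.n → a j i = 0) ∧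
    (∀ j i : ℤ, 0 ≤ j → j < A.n → 1 ≤ i → i ≤ A.n → b j i = 0) ∧
    (∀ i : ℤ, 1 ≤ i → i ≤ A.n → a A.n i + A.D (b A.n i) = 0) := by
  have hn1 : 0 < A.n := Nat.succ_pos _
  refine ⟨?_, ?_, ?_⟩
  · intro j i h0 h1 h2 h3
    obtain ⟨j, rfl⟩ := Int.eq_ofNat_of_zero_le h0
    obtain ⟨i, rfl⟩ := Int.eq_ofNat_of_zero_le h2
    exact congrFun (congrFun e (⟨j, by omega⟩, false)) (⟨i, by omega⟩, false)
  · intro j i h0 h1 h2 h3
    obtain ⟨j, rfl⟩ := Int.eq_ofNat_of_zero_le h0
    obtain ⟨i', rfl⟩ := Int.eq_ofNat_of_zero_le (show (0 : ℤ) ≤ i by omega)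
    obtain ⟨i, rfl⟩ : ∃ i, i' = i + 1 := ⟨i' - 1, by omega⟩
    have := congrFun (congrFun e (⟨j, by omega⟩, false)) (⟨i, by omega⟩, true)
    simpa [mat] using this
  · intro i h2 h3
    obtain ⟨i', rfl⟩ := Int.eq_ofNat_of_zero_le (show (0 : ℤ) ≤ i by omega)
    obtain ⟨i, rfl⟩ : ∃ i, i' = i + 1 := ⟨i' - 1, by omega⟩
    have := congrFun (congrFun e (⟨A.n - 1, by omega⟩, true)) (⟨i, by omega⟩, true)
    simp only [mat] at this
    have h5 : (((A.n - 1 : ℕ) : ℤ)) + 1 = A.n := by omega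
    rw [h5] at this
    simpa using this

/-- coordinates of a vanishing row -/
theorem row_coord {j : ℤ} {a b : ℤ → A.C} (e : A.row j a b = 0) :
    (0 ≤ j → j < A.n → (∀ i : ℤ, 0 ≤ i → i < A.n → a i = 0) ∧
      (∀ i : ℤ, 1 ≤ i → i ≤ A.n → b i = 0)) := by
  intro h0 h1
  obtain ⟨e1, e2, -⟩ := coord0 e
  refine ⟨fun i h2 h3 => ?_, fun i h2 h3 => ?_⟩
  · simpa using e1 j i h0 h1 h2 h3
  · simpa using e2 j i h0 h1 h2 h3

/-- coordinates of a vanishing column -/
theorem col_coord {i : ℤ} {a b : ℤ → A.C} (e : A.col i a b = 0) (h2 : 1 ≤ i) (h3 : i ≤ A.n) :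
    (∀ j : ℤ, 0 ≤ j → j < A.n → b j = 0) ∧ a A.n + A.D (b A.n) = 0 := by
  obtain ⟨-, e2, e3⟩ := coord0 e
  refine ⟨fun j h0 h1 => ?_, ?_⟩
  · simpa using e2 j i h0 h1 h2 h3
  · simpa using e3 i h2 h3

/-- characteristic two -/
theorem eq_of_add {a b : A.C} (h : a + b = 0) : a = b := by
  calc a = a + (b + b) := by rw [A.two, add_zero]
    _ = (a + b) + b := by rw [add_assoc]
    _ = b := by rw [h, zero_add]

theorem eD {σ : R.ι} {x : A.C} (h : R.e σ * x = x) : R.e σ * A.D x = A.D x := by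
  have := A.D_mul (R.e σ) x
  rw [h, R.De, zero_mul, zero_add] at this
  exact this.symm


theorem self_mem (σ : R.ι) : σ ∈ R.F (R.s σ) := (R.mem_F _ _).2 le_rfl

/-- **cochains with values in the hat algebra** -/
theorem row_lemma (m : ℤ) (φ : R.ι → A.Hat) (hφ : ∀ σ, R.ep (m + 1) σ * φ σ = φ σ)
    (hd : ∀ σ, ∑ τ ∈ R.F (R.s σ), R.dm (m + 1) σ τ * φ τ = 0) :
    ∃ ψ : R.ι → A.Hat, (∀ σ, R.ep m σ * ψ σ = ψ σ) ∧
      ∀ σ, φ σ = ∑ τ ∈ R.F (R.s σ), R.dm m σ τ * ψ τ := by
  classical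
  have hn1 : 0 < A.n := Nat.succ_pos _
  have hrow := fun σ => exists_row (φ σ) (j := R.pos σ (m + 1)) (R.e_mem σ) (R.e_idem σ)
    (congrArg Subtype.val (hφ σ))
  choose a b hab ha hb hea heb hout hlast hzero using hrow
  have hp1 : ∀ σ, R.pos σ (m + 1 + 1) = R.pos σ (m + 1) - 1 := fun σ => by unfold pos; ring
  have hp0 : ∀ σ, R.pos σ m = R.pos σ (m + 1) + 1 := fun σ => by unfold pos; ring
  have hin : ∀ σ, A.inr (R.pos σ (m + 1)) ∨ (a σ = 0 ∧ b σ = 0) := fun σ => by
    by_cases h : A.inr (R.pos σ (m + 1))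
    · exact Or.inl h
    · exact Or.inr (hout σ h)
  -- the cocycle condition in coordinates
  have hrow0 : ∀ σ, A.row (R.pos σ (m + 1 + 1))
      (fun i => ∑ τ ∈ R.F (R.s σ), R.c σ τ * a τ i + A.D (a σ i))
      (fun i => a σ i + ∑ τ ∈ R.F (R.s σ), R.c σ τ * b τ i + A.D (b σ i)) = 0 := by
    intro σ
    have h1 : (∑ τ ∈ R.F (R.s σ), R.dm (m + 1) σ τ * φ τ).1 = 0 := by
      rw [hd σ]; rfl
    simp only [val_sum, val_mul] at h1
    have h3 : ∀ τ ∈ R.F (R.s σ), (R.dm (m + 1) σ τ).1 * (φ τ).1 =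
        A.row (R.pos σ (m + 1 + 1))
          (fun i => R.c σ τ * a τ i + (if σ = τ then R.e σ else 0) * A.D (a τ i))
          (fun i => (if σ = τ then R.e σ else 0) * a τ i + R.c σ τ * b τ i +
            (if σ = τ then R.e σ else 0) * A.D (b τ i)) := by
      intro τ _
      rw [dm_val, hab τ]
      exact sg_mul_row (ha τ) (hb τ) (R.dm_rep (m + 1) σ τ).1 (R.dm_rep (m + 1) σ τ).2 (hin τ)
    rw [Finset.sum_congr rfl h3, row_sum] at h1
    rw [← h1]
    congr 1
    · funext i
      rw [Finset.sum_add_distrib]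
      congr 1
      rw [Finset.sum_eq_single σ]
      · rw [if_pos rfl, R.eD (hea σ i)]
      · intro τ _ hτ
        rw [if_neg (Ne.symm hτ), zero_mul]
      · intro h
        exact absurd (R.self_mem σ) h
    · funext i
      rw [Finset.sum_add_distrib, Finset.sum_add_distrib]
      congr 1
      · congr 1
        rw [Finset.sum_eq_single σ]
        · rw [if_pos rfl, hea σ i]
        · intro τ _ hτ
          rw [if_neg (Ne.symm hτ), zero_mul]
        · intro h
          exact absurd (R.self_mem σ) h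
      · rw [Finset.sum_eq_single σ]
        · rw [if_pos rfl, R.eD (heb σ i)]
        · intro τ _ hτ
          rw [if_neg (Ne.symm hτ), zero_mul]
        · intro h
          exact absurd (R.self_mem σ) h
  -- column zero
  have hmem0 : ∀ σ i, A.D (a σ i) + ∑ τ ∈ R.F (R.s σ), R.c σ τ * a τ i ∈
      A.G (R.pos σ (m + 1) - i - 1) := by
    intro σ i
    refine Submodule.add_mem _ (A.D_mem (ha σ i)) (Submodule.sum_mem _ fun τ _ => ?_)
    have := A.mul_mem (R.c_mem σ τ) (ha τ i)
    rwa [show (R.s σ : ℤ) - R.s τ - 1 + (R.pos τ (m + 1) - i) = R.pos σ (m + 1) - i - 1 by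
      unfold pos; ring] at this
  obtain ⟨χ, hχ, heχ, hχ2⟩ := R.exC (m + 1 - A.n) (fun σ => a σ 0)
    (fun σ => by
      have := ha σ 0
      unfold pos at this
      rwa [show (R.s σ : ℤ) + A.n - (m + 1) - 0 = R.s σ - (m + 1 - A.n) by ring] at this)
    (fun σ => hea σ 0)
    (fun σ => by
      have hm := hmem0 σ 0
      by_cases h1 : R.pos σ (m + 1) - 1 < 0
      · exact neg hm (by omega)
      by_cases h2 : (A.n : ℤ) ≤ R.pos σ (m + 1) - 1
      · exact big hm (by omega)
      have h3 := (row_coord (hrow0 σ) (by rw [hp1]; omega) (by rw [hp1]; omega)).1 0 le_rfl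
        (by omega)
      rw [add_comm]
      exact h3)
  have hχ' : ∀ σ, χ σ ∈ A.G (R.pos σ m) := by
    intro σ
    have := hχ σ
    unfold pos
    rwa [show (R.s σ : ℤ) - (m + 1 - A.n) + 1 = R.s σ + A.n - m by ring] at this
  -- the cochain
  have ha' : ∀ σ i, (if i = 0 then χ σ else b σ i) ∈ A.G (R.pos σ m - i) := by
    intro σ i
    split
    · next h => subst h; simpa using hχ' σ
    · have := hb σ i
      rwa [show R.pos σ (m + 1) - i + 1 = R.pos σ m - i by rw [hp0]; ring] at this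
  have hz' : ∀ i j : ℤ, (0 : ℤ → A.C) i ∈ A.G j := fun _ _ => Submodule.zero_mem _
  have hin' : ∀ σ, A.inr (R.pos σ m) ∨
      ((fun i => if i = 0 then χ σ else b σ i) = 0 ∧ (0 : ℤ → A.C) = 0) := by
    intro σ
    by_cases h : A.inr (R.pos σ m)
    · exact Or.inl h
    · right
      refine ⟨?_, rfl⟩
      have h1 : b σ = 0 := by
        by_cases h2 : R.pos σ (m + 1) = A.n
        · exact hlast σ h2
        · refine (hout σ ?_).2
          intro h3
          apply h
          have := hp0 σ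
          unfold inr at h3 ⊢
          omega
      have h2 : χ σ = 0 := by
        unfold inr at h
        by_cases h3 : R.pos σ m < 0
        · exact neg (hχ' σ) h3
        · exact big (hχ' σ) (by omega)
      funext i
      simp [h1, h2]
  have hea' : ∀ σ i, R.e σ * (if i = 0 then χ σ else b σ i) = if i = 0 then χ σ else b σ i := by
    intro σ i
    split
    · exact heχ σ
    · exact heb σ i
  obtain ⟨ψ, hψ⟩ : ∃ ψ : R.ι → A.Hat, ∀ σ, (ψ σ).1 =
      A.row (R.pos σ m) (fun i => if i = 0 then χ σ else b σ i) 0 :=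
    ⟨fun σ => hmk (Rep.row (ha' σ) (fun i => hz' i _)), fun σ => rfl⟩
  refine ⟨ψ, ?_, ?_⟩
  · intro σ
    apply Subtype.ext
    rw [val_mul, hψ, ep_val, sg_mul_row (ha' σ) (fun i => hz' i _) (by simpa using R.e_mem σ)
      (Submodule.zero_mem _) (hin' σ)]
    congr 1
    · funext i
      rw [hea' σ i, zero_mul, add_zero]
    · funext i
      simp
  · intro σ
    apply Subtype.ext
    simp only [val_sum, val_mul, hψ]
    have h3 : ∀ τ ∈ R.F (R.s σ), (R.dm m σ τ).1 *
          A.row (R.pos τ m) (fun i => if i = 0 then χ τ else b τ i) 0 =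
        A.row (R.pos σ (m + 1))
          (fun i => R.c σ τ * (if i = 0 then χ τ else b τ i) +
            (if σ = τ then R.e σ else 0) * A.D (if i = 0 then χ τ else b τ i))
          (fun i => (if σ = τ then R.e σ else 0) * (if i = 0 then χ τ else b τ i)) := by
      intro τ _
      rw [dm_val, sg_mul_row (ha' τ) (fun i => hz' i _) (R.dm_rep m σ τ).1 (R.dm_rep m σ τ).2
        (hin' τ)]
      congr 1
      funext i
      simp
    rw [Finset.sum_congr rfl h3, row_sum, hab σ]
    have hP : ∀ i, (∑ τ ∈ R.F (R.s σ), (R.c σ τ * (if i = 0 then χ τ else b τ i) +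
            (if σ = τ then R.e σ else 0) * A.D (if i = 0 then χ τ else b τ i))) =
        ∑ τ ∈ R.F (R.s σ), R.c σ τ * (if i = 0 then χ τ else b τ i) +
          A.D (if i = 0 then χ σ else b σ i) := by
      intro i
      rw [Finset.sum_add_distrib]
      congr 1
      rw [Finset.sum_eq_single σ]
      · rw [if_pos rfl, R.eD (hea' σ i)]
      · intro τ _ hτ
        rw [if_neg (Ne.symm hτ), zero_mul]
      · intro h
        exact absurd (R.self_mem σ) h
    have hQ : ∀ i, (∑ τ ∈ R.F (R.s σ), (if σ = τ then R.e σ else 0) *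
          (if i = 0 then χ τ else b τ i)) = if i = 0 then χ σ else b σ i := by
      intro i
      rw [Finset.sum_eq_single σ]
      · rw [if_pos rfl, hea' σ i]
      · intro τ _ hτ
        rw [if_neg (Ne.symm hτ), zero_mul]
      · intro h
        exact absurd (R.self_mem σ) h
    -- the key equation for `i ≥ 1`
    have hkey : ∀ i : ℤ, 1 ≤ i → i ≤ A.n → 0 ≤ R.pos σ (m + 1) → R.pos σ (m + 1) ≤ A.n →
        a σ i = ∑ τ ∈ R.F (R.s σ), R.c σ τ * b τ i + A.D (b σ i) := by
      intro i h1 h2 h4 h5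
      by_cases h6 : R.pos σ (m + 1) = 0
      · rw [neg (ha σ i) (by omega), D_neg (hb σ i) (by omega), add_zero]
        symm
        refine neg (k := R.pos σ (m + 1) - i) (Submodule.sum_mem _ fun τ _ => ?_) (by omega)
        have := A.mul_mem (R.c_mem σ τ) (hb τ i)
        rwa [show (R.s σ : ℤ) - R.s τ - 1 + (R.pos τ (m + 1) - i + 1) = R.pos σ (m + 1) - i by
          unfold pos; ring] at this
      · have h7 := (row_coord (hrow0 σ) (by rw [hp1]; omega) (by rw [hp1]; omega)).2 i h1 h2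
        rw [add_assoc] at h7
        exact eq_of_add h7
    have hRep : A.Rep (fun j' i => if j' = R.pos σ (m + 1) then a σ i else 0)
        (fun j' i => if j' = R.pos σ (m + 1) then b σ i else 0) := Rep.row (ha σ) (hb σ)
    refine mat_ext hRep (Rep.row ?_ ?_) ?_ ?_ ?_
    · intro i
      refine Submodule.sum_mem _ fun τ _ => Submodule.add_mem _ ?_ ?_
      · have := A.mul_mem (R.dm_rep m σ τ).1 (ha' τ i)
        rwa [show R.pos σ (m + 1) - R.pos τ m + (R.pos τ m - i) = R.pos σ (m + 1) - i by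
          ring] at this
      · have := A.mul_mem (R.dm_rep m σ τ).2 (A.D_mem (ha' τ i))
        rwa [show R.pos σ (m + 1) - R.pos τ m + 1 + (R.pos τ m - i - 1) =
          R.pos σ (m + 1) - i by ring] at this
    · intro i
      refine Submodule.sum_mem _ fun τ _ => ?_
      have := A.mul_mem (R.dm_rep m σ τ).2 (ha' τ i)
      rwa [show R.pos σ (m + 1) - R.pos τ m + 1 + (R.pos τ m - i) =
          R.pos σ (m + 1) - i + 1 by ring] at this
    · intro j' i h4 h5 h6 h7
      dsimp only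
      by_cases h8 : j' = R.pos σ (m + 1)
      · rw [if_pos h8, if_pos h8, hP i]
        by_cases h9 : i = 0
        · simp only [h9, if_true]
          rw [add_comm]
          exact hχ2 σ
        · simp only [if_neg h9]
          exact hkey i (by omega) (by omega) (by omega) (by omega)
      · rw [if_neg h8, if_neg h8]
    · intro j' i h4 h5 h6 h7
      dsimp only
      by_cases h8 : j' = R.pos σ (m + 1)
      · rw [if_pos h8, if_pos h8, hQ i, if_neg (by omega)]
      · rw [if_neg h8, if_neg h8]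
    · intro i h6 h7
      by_cases h8 : (A.n : ℤ) = R.pos σ (m + 1)
      · simp only [if_pos h8]
        rw [hP i, hQ i, hlast σ h8.symm]
        have h9 : ¬ (i = 0) := by omega
        simp only [if_neg h9]
        rw [hkey i h6 h7 (by omega) (by omega), hlast σ h8.symm]
      · simp only [if_neg h8]

end Cells

end Crest.Agent.R186.Hat827
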