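import Mathlib
import Crest.Agent.R186.ConeAlg_462
import Crest.Agent.R186.HatC_827
import Crest.Agent.R186.Adapt_186
import Crest.Agent.R186.Hat_827

-- ▼ part R186/HomA_462
section

/-!
Row 186 (A), closing (helper462): exactness of a complex of vector spaces modulo a subspace gives a
linear homotopy.
-/

set_option autoImplicit false

namespace Crest.Agent.R186.HomA462

variable {K E : Type*} [Field K] [AddCommGroup E] [Module K E]

/-- a projection onto `B` which moves `B ⊔ L` only by elements of `L` -/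
theorem exists_proj (B L : Submodule K E) : ∃ q : E →ₗ[K] E, (∀ x, q x ∈ B) ∧
    (∀ x ∈ B, q x = x) ∧ ∀ b ∈ B, ∀ l ∈ L, b + l - q (b + l) ∈ L := by
  obtain ⟨T, hT⟩ := Submodule.exists_isCompl (L.map B.mkQ)
  obtain ⟨s1, hs1⟩ := LinearMap.exists_rightInverse_of_surjective (B.mkQ.submoduleMap L)
    (LinearMap.range_eq_top.2 (B.mkQ.submoduleMap_surjective L))
  obtain ⟨s0, hs0⟩ := LinearMap.exists_rightInverse_of_surjective B.mkQ
    (LinearMap.range_eq_top.2 B.mkQ_surjective)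
  set P1 : (E ⧸ B) →ₗ[K] (L.map B.mkQ) := Submodule.linearProjOfIsCompl _ _ hT with hP1
  set s : (E ⧸ B) →ₗ[K] E := L.subtype ∘ₗ s1 ∘ₗ P1 +
    s0 ∘ₗ (LinearMap.id - (L.map B.mkQ).subtype ∘ₗ P1) with hs
  have e1 : ∀ x : L.map B.mkQ, B.mkQ (s1 x : E) = x := fun x => by
    have := congrArg Subtype.val (LinearMap.congr_fun hs1 x)
    simpa using this
  have e0 : ∀ x, B.mkQ (s0 x) = x := fun x => by
    have := LinearMap.congr_fun hs0 x
    simpa using this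
  have h1 : ∀ x, B.mkQ (s x) = x := by
    intro x
    simp only [hs, LinearMap.add_apply, LinearMap.comp_apply, Submodule.subtype_apply, map_add,
      e1, e0, LinearMap.sub_apply, LinearMap.id_apply]
    abel
  have h2 : ∀ x ∈ L.map B.mkQ, s x ∈ L := by
    intro x hx
    have : P1 x = ⟨x, hx⟩ := Submodule.linearProjOfIsCompl_apply_left hT ⟨x, hx⟩
    simp only [hs, LinearMap.add_apply, LinearMap.comp_apply, Submodule.subtype_apply,
      LinearMap.sub_apply, LinearMap.id_apply, this, sub_self, map_zero, add_zero]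
    exact (s1 _).2
  refine ⟨LinearMap.id - s ∘ₗ B.mkQ, fun x => ?_, fun x hx => ?_, fun b hb l hl => ?_⟩
  · rw [← Submodule.Quotient.mk_eq_zero, ← Submodule.mkQ_apply]
    simp only [LinearMap.sub_apply, LinearMap.id_apply, LinearMap.comp_apply, map_sub, h1,
      sub_self]
  · have : B.mkQ x = 0 := by rw [Submodule.mkQ_apply, Submodule.Quotient.mk_eq_zero]; exact hx
    simp only [LinearMap.sub_apply, LinearMap.id_apply, LinearMap.comp_apply, this, map_zero,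
      sub_zero]
  · have : B.mkQ b = 0 := by rw [Submodule.mkQ_apply, Submodule.Quotient.mk_eq_zero]; exact hb
    simp only [LinearMap.sub_apply, LinearMap.id_apply, LinearMap.comp_apply, map_add, this,
      zero_add, sub_sub_cancel, add_sub_cancel_left]
    have h3 : s (B.mkQ l) ∈ L := h2 _ ⟨l, hl, rfl⟩
    simpa using h3

/-- a linear section of a linear map over its image -/
theorem exists_sec (Z : Submodule K E) (d : E →ₗ[K] E) : ∃ s : E →ₗ[K] E, (∀ x, s x ∈ Z) ∧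
    ∀ x ∈ Z, d (s (d x)) = d x := by
  obtain ⟨q, hq1, hq2, -⟩ := exists_proj (Z.map d) ⊥
  obtain ⟨g, hg⟩ := LinearMap.exists_rightInverse_of_surjective (d.submoduleMap Z)
    (LinearMap.range_eq_top.2 (d.submoduleMap_surjective Z))
  refine ⟨Z.subtype ∘ₗ g ∘ₗ q.codRestrict _ hq1, fun x => (g _).2, fun x hx => ?_⟩
  have h1 : (q.codRestrict _ hq1) (d x) = ⟨d x, ⟨x, hx, rfl⟩⟩ := by
    apply Subtype.ext
    exact hq2 _ ⟨x, hx, rfl⟩
  have h2 := congrArg Subtype.val (LinearMap.congr_fun hg ⟨d x, ⟨x, hx, rfl⟩⟩)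
  simp only [LinearMap.comp_apply, h1, Submodule.subtype_apply]
  simpa using h2

/-- **linear homotopy** -/
theorem exists_homotopy (Z L : ℤ → Submodule K E) (d : ℤ → E →ₗ[K] E)
    (h2 : ∀ p, ∀ x ∈ Z p, d (p + 1) (d p x) = 0)
    (h3 : ∀ p, ∀ x ∈ Z (p + 1), d (p + 1) x = 0 → ∃ y ∈ Z p, x - d p y ∈ L (p + 1)) :
    ∃ h : ℤ → E →ₗ[K] E, (∀ p x, h p x ∈ Z p) ∧
      ∀ p, ∀ x ∈ Z (p + 1), x - (d p (h p x) + h (p + 1) (d (p + 1) x)) ∈ L (p + 1) := by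
  choose s hs1 hs2 using fun p => exists_sec (Z p) (d p)
  choose q hq1 hq2 hq3 using fun p => exists_proj ((Z p).map (d p)) (L (p + 1))
  refine ⟨fun p => s p ∘ₗ q p ∘ₗ (LinearMap.id - s (p + 1) ∘ₗ d (p + 1)),
    fun p x => hs1 _ _, fun p x hx => ?_⟩
  have e1 : ∀ w, w ∈ (Z p).map (d p) → d p (s p w) = w := by
    rintro _ ⟨y, hy, rfl⟩
    exact hs2 p y hy
  simp only [LinearMap.comp_apply, LinearMap.sub_apply, LinearMap.id_apply]
  rw [e1 _ (hq1 _ _), h2 (p + 1) x hx, map_zero, sub_zero,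
    hq2 (p + 1) (d (p + 1) x) ⟨x, hx, rfl⟩]
  set w := x - s (p + 1) (d (p + 1) x) with hw
  have hz : w ∈ Z (p + 1) := Submodule.sub_mem _ hx (hs1 _ _)
  have h0 : d (p + 1) w = 0 := by rw [hw, map_sub, hs2 _ _ hx, sub_self]
  obtain ⟨y, hy, hl⟩ := h3 p w hz h0
  have h5 := hq3 p (d p y) ⟨y, hy, rfl⟩ _ hl
  rw [add_sub_cancel] at h5
  have : x - (q p w + s (p + 1) (d (p + 1) x)) = w - q p w := by rw [hw]; abel
  rw [this]
  exact h5

end Crest.Agent.R186.HomA462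
end

-- ▼ part R186/ConeHyp_462
section

/-!
Row 186 (A), closing (helper462): cells of `Γ` and the two acyclicity lemmas for the ideal
`J = (K ⊗ H)[1]` of the cone algebra.
-/

set_option autoImplicit false

open Matrix

namespace Crest.Agent.R186.ConeHyp462

open Hat827 ConeAlg462

variable {K : Type} [Field K]

/-- `Hat827.Cells` without `exC` -/
structure PCells (A : DGA K) where
  V : Type
  [grp : AddCommGroup V]
  [modK : Module K V]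
  [modC : Module A.C V]
  [tower : IsScalarTower K A.C V]
  [finV : Module.Finite K V]
  [nt : Nontrivial V]
  dpos : ∀ x ∈ A.G 1, ∀ w : V, A.D x • w = 0
  ι : Type
  s : ι → ℕ
  F : ℕ → Finset ι
  mem_F : ∀ m σ, σ ∈ F m ↔ s σ ≤ m
  e : ι → A.C
  e_mem : ∀ σ, e σ ∈ A.G 0
  e_idem : ∀ σ, e σ * e σ = e σ
  c : ι → ι → A.C
  c_mem : ∀ σ τ, c σ τ ∈ A.G ((s σ : ℤ) - s τ - 1)
  c_left : ∀ σ τ, e σ * c σ τ = c σ τ
  c_right : ∀ σ τ, c σ τ * e τ = c σ τ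
  mc : ∀ σ τ, A.D (c σ τ) + ∑ ρ ∈ F (s σ), c σ ρ * c ρ τ = 0
  v : ι → V
  v_e : ∀ σ, e σ • v σ = v σ
  v_zero : ∀ σ, s σ ≠ 0 → v σ = 0
  v_aug : ∀ σ, s σ = 1 → ∑ τ ∈ F 0, c σ τ • v τ = 0
  exR : ∀ (m : ℕ) (x : ι → A.C), (∀ σ, x σ ∈ A.G ((m : ℤ) + 1 - s σ)) →
    (∀ σ, x σ * e σ = x σ) → (∀ τ, A.D (x τ) + ∑ σ ∈ F (m + 1), x σ * c σ τ = 0) →
    ∃ y : ι → A.C, (∀ σ, y σ ∈ A.G ((m : ℤ) + 2 - s σ)) ∧ (∀ σ, y σ * e σ = y σ) ∧
      ∀ τ, x τ = A.D (y τ) + ∑ σ ∈ F (m + 2), y σ * c σ τ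
  exR0 : ∀ x : ι → A.C, (∀ σ, x σ ∈ A.G (-(s σ : ℤ))) → (∀ σ, x σ * e σ = x σ) →
    ∑ σ ∈ F 0, x σ • v σ = 0 →
    ∃ y : ι → A.C, (∀ σ, y σ ∈ A.G ((1 : ℤ) - s σ)) ∧ (∀ σ, y σ * e σ = y σ) ∧
      ∀ τ, x τ = A.D (y τ) + ∑ σ ∈ F 1, y σ * c σ τ
  gen : ∀ w : V, ∃ x : ι → A.C, (∀ σ, x σ ∈ A.G (-(s σ : ℤ))) ∧ ∑ σ ∈ F 0, x σ • v σ = w
  exV : ∀ (m : ℕ) (φ : ι → V), (∀ σ, s σ ≠ m + 1 → φ σ = 0) → (∀ σ, e σ • φ σ = φ σ) →
    (∀ σ, s σ = m + 2 → ∑ τ ∈ F (m + 1), c σ τ • φ τ = 0) →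
    ∃ ψ : ι → V, (∀ σ, s σ ≠ m → ψ σ = 0) ∧ ∀ σ, s σ = m + 1 → φ σ = ∑ τ ∈ F m, c σ τ • ψ τ

attribute [instance] PCells.grp PCells.modK PCells.modC PCells.tower PCells.finV PCells.nt

variable {A : DGA K} (S : Data A) (X : PCells A)

/-! ### the complex `H ⊗ X` -/

/-- tuples with values in `H` of total degree `n` -/
def Y (n : ℤ) : Submodule K (X.ι → S.γ → K) where
  carrier := {y | (∀ σ c, y σ c ≠ 0 → S.dh c + X.s σ = n) ∧ ∀ σ, y σ ᵥ* S.σ (X.e σ) = y σ}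
  add_mem' {x y} hx hy := by
    refine ⟨fun σ c h => ?_, fun σ => ?_⟩
    · by_contra hne
      have h1 : x σ c = 0 := by_contra fun h' => hne (hx.1 σ c h')
      have h2 : y σ c = 0 := by_contra fun h' => hne (hy.1 σ c h')
      exact h (by rw [Pi.add_apply, Pi.add_apply, h1, h2, add_zero])
    · rw [Pi.add_apply, Matrix.add_vecMul, hx.2, hy.2]
  zero_mem' := ⟨fun σ c h => absurd rfl h, fun σ => by rw [Pi.zero_apply, Matrix.zero_vecMul]⟩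
  smul_mem' r x hx := ⟨fun σ c h => hx.1 σ c fun h' => h (by
    rw [Pi.smul_apply, Pi.smul_apply, h', smul_zero]), fun σ => by
    rw [Pi.smul_apply, Matrix.smul_vecMul, hx.2]⟩

theorem mem_Y {n : ℤ} {y : X.ι → S.γ → K} : y ∈ Y S X n ↔
    (∀ σ c, y σ c ≠ 0 → S.dh c + X.s σ = n) ∧ ∀ σ, y σ ᵥ* S.σ (X.e σ) = y σ := Iff.rfl

/-- the differential of `H ⊗ X`, cells of degree at most `M` -/
def dYM (M : ℕ) : (X.ι → S.γ → K) →ₗ[K] (X.ι → S.γ → K) where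
  toFun y τ := y τ ᵥ* S.ε + ∑ σ ∈ X.F M, y σ ᵥ* S.σ (X.c σ τ)
  map_add' x y := by
    funext τ
    simp only [Pi.add_apply, Matrix.add_vecMul, Finset.sum_add_distrib]
    abel
  map_smul' r x := by
    funext τ
    simp only [Pi.smul_apply, Matrix.smul_vecMul, RingHom.id_apply, Finset.smul_sum, smul_add]

theorem dYM_apply (M : ℕ) (y : X.ι → S.γ → K) (τ : X.ι) :
    dYM S X M y τ = y τ ᵥ* S.ε + ∑ σ ∈ X.F M, y σ ᵥ* S.σ (X.c σ τ) := rfl

/-- the differential of `H ⊗ X` on `Y m` -/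
def dY (m : ℤ) : (X.ι → S.γ → K) →ₗ[K] (X.ι → S.γ → K) := dYM S X m.toNat

/-! ### the complex `Hom(X, K)` -/

/-- tuples with values in `K`, maps of degree `-p` -/
def Z (p : ℤ) : Submodule K (X.ι → S.β → K) where
  carrier := {κ | (∀ σ b, κ σ b ≠ 0 → S.dk b = X.s σ - p) ∧ ∀ σ, S.ρ (X.e σ) *ᵥ κ σ = κ σ}
  add_mem' {x y} hx hy := by
    refine ⟨fun σ c h => ?_, fun σ => ?_⟩
    · by_contra hne
      have h1 : x σ c = 0 := by_contra fun h' => hne (hx.1 σ c h')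
      have h2 : y σ c = 0 := by_contra fun h' => hne (hy.1 σ c h')
      exact h (by rw [Pi.add_apply, Pi.add_apply, h1, h2, add_zero])
    · rw [Pi.add_apply, Matrix.mulVec_add, hx.2, hy.2]
  zero_mem' := ⟨fun σ c h => absurd rfl h, fun σ => by rw [Pi.zero_apply, Matrix.mulVec_zero]⟩
  smul_mem' r x hx := ⟨fun σ c h => hx.1 σ c fun h' => h (by
    rw [Pi.smul_apply, Pi.smul_apply, h', smul_zero]), fun σ => by
    rw [Pi.smul_apply, Matrix.mulVec_smul, hx.2]⟩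

theorem mem_Z {p : ℤ} {κ : X.ι → S.β → K} : κ ∈ Z S X p ↔
    (∀ σ b, κ σ b ≠ 0 → S.dk b = X.s σ - p) ∧ ∀ σ, S.ρ (X.e σ) *ᵥ κ σ = κ σ := Iff.rfl

/-- the differential of `Hom(X, K)` -/
def dZ : (X.ι → S.β → K) →ₗ[K] (X.ι → S.β → K) where
  toFun κ σ := S.δ *ᵥ κ σ + ∑ τ ∈ X.F (X.s σ), S.ρ (X.c σ τ) *ᵥ κ τ
  map_add' x y := by
    funext τ
    simp only [Pi.add_apply, Matrix.mulVec_add, Finset.sum_add_distrib]
    abel
  map_smul' r x := by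
    funext τ
    simp only [Pi.smul_apply, Matrix.mulVec_smul, RingHom.id_apply, Finset.smul_sum, smul_add]

theorem dZ_apply (κ : X.ι → S.β → K) (σ : X.ι) :
    dZ S X κ σ = S.δ *ᵥ κ σ + ∑ τ ∈ X.F (X.s σ), S.ρ (X.c σ τ) *ᵥ κ τ := rfl

variable (A) in
/-- `Hom(X, Γ)`: the coboundary condition `φ = D ψ + Σ c ψ` -/
def IsCob (X : PCells A) (p : ℤ) (φ : X.ι → A.C) : Prop :=
  ∃ ψ : X.ι → A.C, (∀ σ, ψ σ ∈ A.G ((X.s σ : ℤ) - p + 1)) ∧ (∀ σ, X.e σ * ψ σ = ψ σ) ∧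
    ∀ σ, φ σ = A.D (ψ σ) + ∑ τ ∈ X.F (X.s σ), X.c σ τ * ψ τ

/-- the hypotheses on `(K, H, ev)` over `Γ` -/
structure Hyp where
  /-- `H ⊗ X` is acyclic -/
  H : ∀ (m : ℕ) (y : X.ι → S.γ → K), y ∈ Y S X m → dY S X m y = 0 →
    ∃ z ∈ Y S X (m + 1), y = dY S X (m + 1) z
  /-- the class of `Hom(X, K)` -/
  kt : X.ι → S.β → K
  kt_mem : kt ∈ Z S X 0
  kt_d : dZ S X kt = 0
  kt_ne : kt ≠ 0
  /-- `Hom(X, K)` has cohomology spanned by `kt` -/
  KX : ∀ (p : ℤ) (κ : X.ι → S.β → K), κ ∈ Z S X p → dZ S X κ = 0 →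
    ∃ ψ ∈ Z S X (p - 1), ∃ r : K, (p ≠ 0 → r = 0) ∧ κ = r • kt + dZ S X ψ
  /-- `H → Hom(X, Γ)` is onto on cohomology -/
  D1 : ∀ (p : ℤ) (φ : X.ι → A.C), (∀ σ, φ σ ∈ A.G ((X.s σ : ℤ) - p)) →
    (∀ σ, X.e σ * φ σ = φ σ) → (∀ σ, A.D (φ σ) + ∑ τ ∈ X.F (X.s σ), X.c σ τ * φ τ = 0) →
    ∃ η : S.γ → K, (∀ c, η c ≠ 0 → S.dh c = -p) ∧ η ᵥ* S.ε = 0 ∧
      IsCob A X p (fun σ => φ σ + S.ev (vecMulVec (kt σ) η))
  /-- `H → Hom(X, Γ)` is injective on cohomology -/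
  D2 : ∀ (p : ℤ) (η : S.γ → K), (∀ c, η c ≠ 0 → S.dh c = -p) → η ᵥ* S.ε = 0 →
    IsCob A X p (fun σ => S.ev (vecMulVec (kt σ) η)) →
    ∃ η' : S.γ → K, (∀ c, η' c ≠ 0 → S.dh c = -p + 1) ∧ η = η' ᵥ* S.ε

end Crest.Agent.R186.ConeHyp462
end

-- ▼ part R186/ConeCells_384
section

/-!
Row 186 (A), closing (helper384): cells over the cone algebra `C = Γ ⊕ (K ⊗ H)[1]`
from cells over `Γ`.
-/

set_option autoImplicit false

open Matrix

namespace Crest.Agent.R186.ConeCells384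

open Hat827 ConeAlg462 ConeHyp462

variable {K : Type} [Field K]

variable {A : DGA K} (S : Data A) (X : PCells A)

/-- `ev` kills `V` in degree `0` (needed for the dg module `V` over the cone) -/
def EvV : Prop := ∀ t ∈ S.J 1, ∀ w : X.V, S.ev t • w = 0

/-- acyclicity of the rows of `J ⊗ X` -/
def JRt : Prop :=
  ∀ (m : ℕ) (t : X.ι → Matrix S.β S.γ K), (∀ σ, t σ ∈ S.J ((m : ℤ) + 1 - X.s σ)) →
    (∀ σ, t σ * S.σ (X.e σ) = t σ) →
    (∀ τ, S.dJ (t τ) + ∑ σ ∈ X.F (m + 1), t σ * S.σ (X.c σ τ) = 0) →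
    ∃ t' : X.ι → Matrix S.β S.γ K, (∀ σ, t' σ ∈ S.J ((m : ℤ) + 2 - X.s σ)) ∧
      (∀ σ, t' σ * S.σ (X.e σ) = t' σ) ∧
      ∀ τ, t τ = S.dJ (t' τ) + ∑ σ ∈ X.F (m + 2), t' σ * S.σ (X.c σ τ)

/-- `Hom(X, J)` through `kt` -/
def JKt (kt : X.ι → S.β → K) : Prop :=
  ∀ (p : ℤ) (t : X.ι → Matrix S.β S.γ K), (∀ σ, t σ ∈ S.J ((X.s σ : ℤ) - p)) →
    (∀ σ, S.ρ (X.e σ) * t σ = t σ) →
    (∀ σ, S.dJ (t σ) + ∑ τ ∈ X.F (X.s σ), S.ρ (X.c σ τ) * t τ = 0) →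
    ∃ (t' : X.ι → Matrix S.β S.γ K) (η : S.γ → K), (∀ σ, t' σ ∈ S.J ((X.s σ : ℤ) - p + 1)) ∧
      (∀ σ, S.ρ (X.e σ) * t' σ = t' σ) ∧ (∀ c, η c ≠ 0 → S.dh c = -p - 1) ∧ η ᵥ* S.ε = 0 ∧
      ∀ σ, t σ = S.dJ (t' σ) + ∑ τ ∈ X.F (X.s σ), S.ρ (X.c σ τ) * t' τ + vecMulVec (kt σ) η

/-- the columns: everything needed for `exC` over the cone -/
structure KHyp where
  kt : X.ι → S.β → K
  kt_mem : kt ∈ Z S X 0
  kt_d : dZ S X kt = 0
  JK : JKt S X kt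
  D1 : ∀ (p : ℤ) (φ : X.ι → A.C), (∀ σ, φ σ ∈ A.G ((X.s σ : ℤ) - p)) →
    (∀ σ, X.e σ * φ σ = φ σ) → (∀ σ, A.D (φ σ) + ∑ τ ∈ X.F (X.s σ), X.c σ τ * φ τ = 0) →
    ∃ η : S.γ → K, (∀ c, η c ≠ 0 → S.dh c = -p) ∧ η ᵥ* S.ε = 0 ∧
      IsCob A X p (fun σ => φ σ + S.ev (vecMulVec (kt σ) η))
  D2 : ∀ (p : ℤ) (η : S.γ → K), (∀ c, η c ≠ 0 → S.dh c = -p) → η ᵥ* S.ε = 0 →
    IsCob A X p (fun σ => S.ev (vecMulVec (kt σ) η)) →
    ∃ η' : S.γ → K, (∀ c, η' c ≠ 0 → S.dh c = -p + 1) ∧ η = η' ᵥ* S.ε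

variable {S X}

theorem J_nonpos {m : ℤ} {t : Matrix S.β S.γ K} (ht : t ∈ S.J m) (hm : m ≤ 0) : t = 0 := by
  ext b c
  by_contra hne
  have h3 := ht b c hne
  have h4 := S.dk_nn b
  have h5 := S.dh_nn c
  omega

/-- projection to `Γ` -/
def pr : S.dga.C →ₐ[K] A.C where
  toFun x := x.1
  map_one' := rfl
  map_mul' _ _ := rfl
  map_zero' := rfl
  map_add' _ _ := rfl
  commutes' r := by
    rw [Algebra.algebraMap_eq_smul_one, Algebra.algebraMap_eq_smul_one]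
    rfl


/-- elements of the cone -/
def cl (S : Data A) (a : A.C) (t : Matrix S.β S.γ K) : S.dga.C := S.el a t



theorem fst_sum {ι' : Type} (s : Finset ι') (f : ι' → S.dga.C) :
    (∑ i ∈ s, f i).1 = ∑ i ∈ s, (f i).1 := map_sum (pr (S := S)) f s

/-- second projection -/
def pr2 : S.dga.C →+ Matrix S.β S.γ K where
  toFun x := x.2
  map_zero' := rfl
  map_add' _ _ := rfl

theorem snd_sum {ι' : Type} (s : Finset ι') (f : ι' → S.dga.C) :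
    (∑ i ∈ s, f i).2 = ∑ i ∈ s, (f i).2 := map_sum (pr2 (S := S)) f s

variable (S X) in
/-- the module over the cone -/
def Vc (_ : Data A) (X : PCells A) : Type := X.V

instance : AddCommGroup (Vc S X) := X.grp
instance : Module K (Vc S X) := X.modK
instance : Module.Finite K (Vc S X) := X.finV
instance : Nontrivial (Vc S X) := X.nt

noncomputable instance : Module S.dga.C (Vc S X) :=
  Module.compHom (M := X.V) (pr (S := S)).toRingHom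

theorem smul_def (x : S.dga.C) (w : Vc S X) :
    x • w = (show X.V from x.1 • (show X.V from w)) := rfl

instance : IsScalarTower K S.dga.C (Vc S X) where
  smul_assoc r x w := by
    rw [smul_def, smul_def]
    exact smul_assoc (M := K) (N := A.C) (α := X.V) r x.1 w

/-! ### rows -/

/-- in characteristic two -/
theorem eq_of_add {B : Type} [AddCommGroup B] (two : ∀ b : B, b + b = 0) {a b : B}
    (hab : a + b = 0) : a = b := by
  have := two b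
  calc a = a + (b + b) := by rw [this, add_zero]
    _ = (a + b) + b := by abel
    _ = b := by rw [hab, zero_add]

theorem cyc_fst {m : ℕ} {x : X.ι → S.dga.C} {τ : X.ι}
    (hx : S.dga.D (x τ) + ∑ σ ∈ X.F m, x σ * (cl S (X.c σ τ) 0) = 0) :
    A.D (x τ).1 + S.ev (x τ).2 + ∑ σ ∈ X.F m, (x σ).1 * X.c σ τ = 0 := by
  have h1 := congrArg (fun y : S.dga.C => y.1) hx
  have h2 : (S.dga.D (x τ)).1 + (∑ σ ∈ X.F m, x σ * (cl S (X.c σ τ) 0)).1 = 0 := h1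
  rw [fst_sum] at h2
  exact h2

theorem cyc_snd {m : ℕ} {x : X.ι → S.dga.C} {τ : X.ι}
    (hx : S.dga.D (x τ) + ∑ σ ∈ X.F m, x σ * (cl S (X.c σ τ) 0) = 0) :
    S.dJ (x τ).2 + ∑ σ ∈ X.F m, (x σ).2 * S.σ (X.c σ τ) = 0 := by
  have h1 := congrArg (fun y : S.dga.C => y.2) hx
  have h2 : (S.dga.D (x τ)).2 + (∑ σ ∈ X.F m, x σ * (cl S (X.c σ τ) 0)).2 = 0 := h1
  rw [snd_sum] at h2
  have h3 : ∀ σ, (x σ * (cl S (X.c σ τ) 0)).2 = (x σ).2 * S.σ (X.c σ τ) := by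
    intro σ
    change S.ρ (x σ).1 * 0 + (x σ).2 * S.σ (X.c σ τ) = _
    rw [Matrix.mul_zero, zero_add]
  simp only [h3] at h2
  exact h2

theorem mul_e_fst {x : S.dga.C} {a : A.C} (hx : x * (cl S a 0) = x) : x.1 * a = x.1 :=
  congrArg (fun y : S.dga.C => y.1) hx

theorem mul_e_snd {x : S.dga.C} {a : A.C} (hx : x * (cl S a 0) = x) :
    x.2 * S.σ a = x.2 := by
  have h1 : S.ρ x.1 * (0 : Matrix S.β S.γ K) + x.2 * S.σ a = x.2 :=
    congrArg (fun y : S.dga.C => y.2) hx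
  rwa [Matrix.mul_zero, zero_add] at h1

theorem e_mul_fst {x : S.dga.C} {a : A.C} (hx : (cl S a 0) * x = x) : a * x.1 = x.1 :=
  congrArg (fun y : S.dga.C => y.1) hx

theorem e_mul_snd {x : S.dga.C} {a : A.C} (hx : (cl S a 0) * x = x) :
    S.ρ a * x.2 = x.2 := by
  have h1 : S.ρ a * x.2 + (0 : Matrix S.β S.γ K) * S.σ x.1 = x.2 :=
    congrArg (fun y : S.dga.C => y.2) hx
  rwa [Matrix.zero_mul, add_zero] at h1

theorem F_sub (m : ℕ) : X.F m ⊆ X.F (m + 1) := by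
  intro σ hσ
  rw [X.mem_F] at hσ ⊢
  omega

theorem exR (jr : JRt S X) (m : ℕ) (x : X.ι → S.dga.C) (hx : ∀ σ, x σ ∈ S.dga.G ((m : ℤ) + 1 - X.s σ))
    (he : ∀ σ, x σ * (cl S (X.e σ) 0) = x σ)
    (hc : ∀ τ, S.dga.D (x τ) + ∑ σ ∈ X.F (m + 1), x σ * (cl S (X.c σ τ) 0) = 0) :
    ∃ y : X.ι → S.dga.C, (∀ σ, y σ ∈ S.dga.G ((m : ℤ) + 2 - X.s σ)) ∧
      (∀ σ, y σ * (cl S (X.e σ) 0) = y σ) ∧
      ∀ τ, x τ = S.dga.D (y τ) + ∑ σ ∈ X.F (m + 2), y σ * (cl S (X.c σ τ) 0) := by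
  obtain ⟨t', ht1, ht2, ht3⟩ := jr m (fun σ => (x σ).2) (fun σ => (hx σ).2)
    (fun σ => mul_e_snd (he σ)) (fun τ => cyc_snd (hc τ))
  have hev : ∀ σ, X.s σ = m + 2 → t' σ = 0 := by
    intro σ hσ
    exact J_nonpos (ht1 σ) (by rw [hσ]; push_cast; omega)
  have hsum : ∀ τ, ∑ σ ∈ X.F (m + 2), t' σ * S.σ (X.c σ τ) =
      ∑ σ ∈ X.F (m + 1), t' σ * S.σ (X.c σ τ) := by
    intro τ
    symm
    apply Finset.sum_subset (F_sub (m + 1))
    intro σ h1 h2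
    rw [X.mem_F] at h1 h2
    rw [hev σ (by omega), Matrix.zero_mul]
  obtain ⟨y, hy1, hy2, hy3⟩ := X.exR m (fun σ => (x σ).1 + S.ev (t' σ))
    (fun σ => by
      refine Submodule.add_mem _ (hx σ).1 ?_
      have := S.ev_mem (ht1 σ)
      rwa [show (m : ℤ) + 2 - X.s σ - 1 = m + 1 - X.s σ by ring] at this)
    (fun σ => by
      rw [add_mul, mul_e_fst (he σ), ← S.ev_r, ht2])
    (fun τ => by
      have h1 := cyc_fst (hc τ)
      have h3 := congrArg S.ev (ht3 τ)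
      rw [hsum, map_add, map_sum] at h3
      simp only [map_add, add_mul, Finset.sum_add_distrib]
      rw [← S.ev_dJ]
      simp only [S.ev_r] at h3
      have h4 := A.two (S.ev (x τ).2)
      calc _ = (A.D (x τ).1 + ∑ σ ∈ X.F (m + 1), (x σ).1 * X.c σ τ) +
          (S.ev (S.dJ (t' τ)) + ∑ σ ∈ X.F (m + 1), S.ev (t' σ) * X.c σ τ) := by abel
        _ = (A.D (x τ).1 + ∑ σ ∈ X.F (m + 1), (x σ).1 * X.c σ τ) + S.ev (x τ).2 := by rw [← h3]
        _ = A.D (x τ).1 + S.ev (x τ).2 + ∑ σ ∈ X.F (m + 1), (x σ).1 * X.c σ τ := by abel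
        _ = 0 := h1)
  refine ⟨fun σ => cl S (y σ) (t' σ), fun σ => ⟨hy1 σ, ht1 σ⟩, fun σ => ?_, fun τ => ?_⟩
  · apply Data.Car.ext
    · exact hy2 σ
    · change S.ρ (y σ) * 0 + t' σ * S.σ (X.e σ) = t' σ
      rw [Matrix.mul_zero, zero_add, ht2]
  · apply Data.Car.ext
    · change (x τ).1 = (S.dga.D (cl S (y τ) (t' τ))).1 + (∑ σ ∈ X.F (m + 2),
        (cl S (y σ) (t' σ)) * (cl S (X.c σ τ) 0)).1
      rw [fst_sum]
      change (x τ).1 = A.D (y τ) + S.ev (t' τ) + ∑ σ ∈ X.F (m + 2), y σ * X.c σ τ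
      have h5 := hy3 τ
      have h6 := A.two (S.ev (t' τ))
      calc (x τ).1 = ((x τ).1 + S.ev (t' τ)) + S.ev (t' τ) := by rw [add_assoc, h6, add_zero]
        _ = _ := by rw [h5]; abel
    · change (x τ).2 = (S.dga.D (cl S (y τ) (t' τ))).2 + (∑ σ ∈ X.F (m + 2),
        (cl S (y σ) (t' σ)) * (cl S (X.c σ τ) 0)).2
      rw [snd_sum]
      change (x τ).2 = S.dJ (t' τ) + ∑ σ ∈ X.F (m + 2), (S.ρ (y σ) * 0 + t' σ * S.σ (X.c σ τ))
      simp only [Matrix.mul_zero, zero_add]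
      exact ht3 τ

theorem exR0 (x : X.ι → S.dga.C) (hx : ∀ σ, x σ ∈ S.dga.G (-(X.s σ : ℤ)))
    (he : ∀ σ, x σ * (cl S (X.e σ) 0) = x σ)
    (hc : ∑ σ ∈ X.F 0, (x σ).1 • X.v σ = 0) :
    ∃ y : X.ι → S.dga.C, (∀ σ, y σ ∈ S.dga.G ((1 : ℤ) - X.s σ)) ∧
      (∀ σ, y σ * (cl S (X.e σ) 0) = y σ) ∧
      ∀ τ, x τ = S.dga.D (y τ) + ∑ σ ∈ X.F 1, y σ * (cl S (X.c σ τ) 0) := by
  obtain ⟨y, hy1, hy2, hy3⟩ := X.exR0 (fun σ => (x σ).1) (fun σ => (hx σ).1)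
    (fun σ => mul_e_fst (he σ)) hc
  refine ⟨fun σ => cl S (y σ) 0, fun σ => ⟨hy1 σ, Submodule.zero_mem _⟩, fun σ => ?_, fun τ => ?_⟩
  · apply Data.Car.ext
    · exact hy2 σ
    · change S.ρ (y σ) * 0 + 0 * S.σ (X.e σ) = 0
      rw [Matrix.mul_zero, zero_add, Matrix.zero_mul]
  · apply Data.Car.ext
    · change (x τ).1 = (S.dga.D (cl S (y τ) 0)).1 + (∑ σ ∈ X.F 1,
        (cl S (y σ) 0) * (cl S (X.c σ τ) 0)).1
      rw [fst_sum]
      change (x τ).1 = A.D (y τ) + S.ev 0 + ∑ σ ∈ X.F 1, y σ * X.c σ τ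
      rw [map_zero, add_zero]
      exact hy3 τ
    · change (x τ).2 = (S.dga.D (cl S (y τ) 0)).2 + (∑ σ ∈ X.F 1,
        (cl S (y σ) 0) * (cl S (X.c σ τ) 0)).2
      rw [snd_sum]
      change (x τ).2 = S.dJ 0 + ∑ σ ∈ X.F 1, (S.ρ (y σ) * 0 + 0 * S.σ (X.c σ τ))
      simp only [Matrix.mul_zero, zero_add, Matrix.zero_mul, map_zero, Finset.sum_const_zero]
      exact J_nonpos (hx τ).2 (by omega)

/-! ### columns -/

theorem cocyc_fst {x : X.ι → S.dga.C} {σ : X.ι}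
    (hx : S.dga.D (x σ) + ∑ τ ∈ X.F (X.s σ), (cl S (X.c σ τ) 0) * x τ = 0) :
    A.D (x σ).1 + S.ev (x σ).2 + ∑ τ ∈ X.F (X.s σ), X.c σ τ * (x τ).1 = 0 := by
  have h1 := congrArg (fun y : S.dga.C => y.1) hx
  have h2 : (S.dga.D (x σ)).1 + (∑ τ ∈ X.F (X.s σ), (cl S (X.c σ τ) 0) * x τ).1 = 0 := h1
  rw [fst_sum] at h2
  exact h2

theorem cocyc_snd {x : X.ι → S.dga.C} {σ : X.ι}
    (hx : S.dga.D (x σ) + ∑ τ ∈ X.F (X.s σ), (cl S (X.c σ τ) 0) * x τ = 0) :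
    S.dJ (x σ).2 + ∑ τ ∈ X.F (X.s σ), S.ρ (X.c σ τ) * (x τ).2 = 0 := by
  have h1 := congrArg (fun y : S.dga.C => y.2) hx
  have h2 : (S.dga.D (x σ)).2 + (∑ τ ∈ X.F (X.s σ), (cl S (X.c σ τ) 0) * x τ).2 = 0 := h1
  rw [snd_sum] at h2
  have h3 : ∀ τ, ((cl S (X.c σ τ) 0) * x τ).2 = S.ρ (X.c σ τ) * (x τ).2 := by
    intro τ
    change S.ρ (X.c σ τ) * (x τ).2 + 0 * S.σ (x τ).1 = _
    rw [Matrix.zero_mul, add_zero]
  simp only [h3] at h2
  exact h2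

namespace KHyp

variable (h : KHyp S X)

/-- `kt ⊗ η` -/
def kw (η : S.γ → K) (σ : X.ι) : Matrix S.β S.γ K := vecMulVec (h.kt σ) η

theorem kw_mem {η : S.γ → K} {n : ℤ} (hη : ∀ c, η c ≠ 0 → S.dh c = n) (σ : X.ι) :
    h.kw η σ ∈ S.J ((X.s σ : ℤ) + n + 1) := by
  intro b c hne
  change h.kt σ b * η c ≠ 0 at hne
  have h1 := h.kt_mem.1 σ b (left_ne_zero_of_mul hne)
  have h2 := hη c (right_ne_zero_of_mul hne)
  omega

theorem kw_e (η : S.γ → K) (σ : X.ι) : S.ρ (X.e σ) * h.kw η σ = h.kw η σ := by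
  unfold kw
  rw [Matrix.mul_vecMulVec, h.kt_mem.2]

theorem kw_d (η : S.γ → K) (σ : X.ι) :
    S.dJ (h.kw η σ) + ∑ τ ∈ X.F (X.s σ), S.ρ (X.c σ τ) * h.kw η τ = h.kw (η ᵥ* S.ε) σ := by
  have h1 : S.δ *ᵥ h.kt σ + ∑ τ ∈ X.F (X.s σ), S.ρ (X.c σ τ) *ᵥ h.kt τ = 0 := by
    have := congrFun h.kt_d σ
    rwa [dZ_apply] at this
  have h2 : ∀ τ, S.ρ (X.c σ τ) * h.kw η τ = vecMulVec (S.ρ (X.c σ τ) *ᵥ h.kt τ) η := fun τ => by
    unfold kw; rw [Matrix.mul_vecMulVec]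
  have h3 : S.dJ (h.kw η σ) = vecMulVec (S.δ *ᵥ h.kt σ) η + h.kw (η ᵥ* S.ε) σ := by
    unfold kw
    rw [Data.dJ_apply, Matrix.mul_vecMulVec, Matrix.vecMulVec_mul]
  have h4 : ∑ τ ∈ X.F (X.s σ), vecMulVec (S.ρ (X.c σ τ) *ᵥ h.kt τ) η =
      vecMulVec (∑ τ ∈ X.F (X.s σ), S.ρ (X.c σ τ) *ᵥ h.kt τ) η := by
    ext b c
    rw [Matrix.sum_apply]
    simp only [vecMulVec_apply, Finset.sum_apply, Finset.sum_mul]
  simp only [h2, h3, h4]
  have h5 : vecMulVec (S.δ *ᵥ h.kt σ) η +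
      vecMulVec (∑ τ ∈ X.F (X.s σ), S.ρ (X.c σ τ) *ᵥ h.kt τ) η = 0 := by
    rw [← Matrix.add_vecMulVec, h1, Matrix.zero_vecMulVec]
  calc _ = (vecMulVec (S.δ *ᵥ h.kt σ) η +
      vecMulVec (∑ τ ∈ X.F (X.s σ), S.ρ (X.c σ τ) *ᵥ h.kt τ) η) + h.kw (η ᵥ* S.ε) σ := by abel
    _ = _ := by rw [h5, zero_add]

include h in
theorem exC (p : ℤ) (φ : X.ι → S.dga.C) (hφ : ∀ σ, φ σ ∈ S.dga.G ((X.s σ : ℤ) - p))
    (he : ∀ σ, (cl S (X.e σ) 0) * φ σ = φ σ)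
    (hc : ∀ σ, S.dga.D (φ σ) + ∑ τ ∈ X.F (X.s σ), (cl S (X.c σ τ) 0) * φ τ = 0) :
    ∃ ψ : X.ι → S.dga.C, (∀ σ, ψ σ ∈ S.dga.G ((X.s σ : ℤ) - p + 1)) ∧
      (∀ σ, (cl S (X.e σ) 0) * ψ σ = ψ σ) ∧
      ∀ σ, φ σ = S.dga.D (ψ σ) + ∑ τ ∈ X.F (X.s σ), (cl S (X.c σ τ) 0) * ψ τ := by
  obtain ⟨t', η, ht1, ht2, hη1, hη2, ht3⟩ := h.JK p (fun σ => (φ σ).2) (fun σ => (hφ σ).2)
    (fun σ => e_mul_snd (he σ)) (fun σ => cocyc_snd (hc σ))
  -- the class of `η` is a boundary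
  obtain ⟨η', hη'1, hη'2⟩ := h.D2 (p + 1) η
    (fun c hne => by have := hη1 c hne; omega) hη2
    ⟨(fun σ => (φ σ).1 + S.ev (t' σ)), (fun σ => by
      rw [show (X.s σ : ℤ) - (p + 1) + 1 = X.s σ - p by ring]
      refine Submodule.add_mem _ (hφ σ).1 ?_
      have := S.ev_mem (ht1 σ)
      rwa [show (X.s σ : ℤ) - p + 1 - 1 = X.s σ - p by ring] at this),
    (fun σ => by rw [mul_add, e_mul_fst (he σ), ← S.ev_l, ht2]),
    (fun σ => by
      have h1 := cocyc_fst (hc σ)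
      have h3 := congrArg S.ev (ht3 σ)
      rw [map_add, map_add, map_sum] at h3
      simp only [S.ev_l] at h3
      simp only [map_add, mul_add, Finset.sum_add_distrib]
      rw [← S.ev_dJ]
      have h4 := A.two (S.ev (S.dJ (t' σ)) + ∑ τ ∈ X.F (X.s σ), X.c σ τ * S.ev (t' τ))
      have h6 : A.D (φ σ).1 + ∑ τ ∈ X.F (X.s σ), X.c σ τ * (φ τ).1 = S.ev (φ σ).2 := by
        apply eq_of_add A.two
        rw [← h1]; abel
      calc S.ev (vecMulVec (h.kt σ) η)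
          = (S.ev (S.dJ (t' σ)) + ∑ τ ∈ X.F (X.s σ), X.c σ τ * S.ev (t' τ)) +
            (S.ev (S.dJ (t' σ)) + ∑ τ ∈ X.F (X.s σ), X.c σ τ * S.ev (t' τ) +
              S.ev (vecMulVec (h.kt σ) η)) := by
            rw [← add_assoc, h4, zero_add]
        _ = (S.ev (S.dJ (t' σ)) + ∑ τ ∈ X.F (X.s σ), X.c σ τ * S.ev (t' τ)) + S.ev (φ σ).2 := by
            rw [h3]
        _ = _ := by rw [← h6]; abel)⟩
  -- the corrected cocycle over `Γ`
  have hη'3 : ∀ σ, S.dJ (h.kw η' σ) + ∑ τ ∈ X.F (X.s σ), S.ρ (X.c σ τ) * h.kw η' τ =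
      vecMulVec (h.kt σ) η := fun σ => by rw [h.kw_d, ← hη'2]; rfl
  have hev' : ∀ σ, h.kw η' σ ∈ S.J ((X.s σ : ℤ) - p + 1) := fun σ => by
    have h1 := h.kw_mem (n := -p) (fun c hne => by have := hη'1 c hne; omega) σ
    rwa [show (X.s σ : ℤ) + -p + 1 = X.s σ - p + 1 by ring] at h1
  obtain ⟨η1, hη11, hη12, ψ1, hψ1, hψ2, hψ3⟩ := h.D1 p
    (fun σ => (φ σ).1 + S.ev (t' σ) + S.ev (h.kw η' σ))
    (fun σ => by
      refine Submodule.add_mem _ (Submodule.add_mem _ (hφ σ).1 ?_) ?_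
      · have := S.ev_mem (ht1 σ)
        rwa [show (X.s σ : ℤ) - p + 1 - 1 = X.s σ - p by ring] at this
      · have := S.ev_mem (hev' σ)
        rwa [show (X.s σ : ℤ) - p + 1 - 1 = X.s σ - p by ring] at this)
    (fun σ => by rw [mul_add, mul_add, e_mul_fst (he σ), ← S.ev_l, ht2, ← S.ev_l, h.kw_e])
    (fun σ => by
      have h1 := cocyc_fst (hc σ)
      have h3 := congrArg S.ev (ht3 σ)
      rw [← hη'3 σ] at h3
      rw [map_add, map_add, map_add, map_sum, map_sum] at h3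
      simp only [S.ev_l] at h3
      simp only [map_add, mul_add, Finset.sum_add_distrib]
      rw [← S.ev_dJ, ← S.ev_dJ]
      calc _ = (A.D (φ σ).1 + ∑ τ ∈ X.F (X.s σ), X.c σ τ * (φ τ).1) +
          (S.ev (S.dJ (t' σ)) + ∑ τ ∈ X.F (X.s σ), X.c σ τ * S.ev (t' τ) +
            (S.ev (S.dJ (h.kw η' σ)) + ∑ τ ∈ X.F (X.s σ), X.c σ τ * S.ev (h.kw η' τ))) := by abel
        _ = (A.D (φ σ).1 + ∑ τ ∈ X.F (X.s σ), X.c σ τ * (φ τ).1) + S.ev (φ σ).2 := by rw [← h3]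
        _ = A.D (φ σ).1 + S.ev (φ σ).2 + ∑ τ ∈ X.F (X.s σ), X.c σ τ * (φ τ).1 := by abel
        _ = 0 := h1)
  have hev1 : ∀ σ, h.kw η1 σ ∈ S.J ((X.s σ : ℤ) - p + 1) := fun σ => by
    have h1 := h.kw_mem (n := -p) (fun c hne => by have := hη11 c hne; omega) σ
    rwa [show (X.s σ : ℤ) + -p + 1 = X.s σ - p + 1 by ring] at h1
  have hη13 : ∀ σ, S.dJ (h.kw η1 σ) + ∑ τ ∈ X.F (X.s σ), S.ρ (X.c σ τ) * h.kw η1 τ = 0 := by
    intro σ
    rw [h.kw_d, hη12]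
    ext b c
    change h.kt σ b * 0 = 0
    exact mul_zero _
  refine ⟨fun σ => cl S (ψ1 σ) (t' σ + h.kw η' σ + h.kw η1 σ), fun σ => ⟨hψ1 σ, ?_⟩, fun σ => ?_,
    fun σ => ?_⟩
  · exact Submodule.add_mem _ (Submodule.add_mem _ (ht1 σ) (hev' σ)) (hev1 σ)
  · apply Data.Car.ext
    · exact hψ2 σ
    · change S.ρ (X.e σ) * (t' σ + h.kw η' σ + h.kw η1 σ) + 0 * S.σ (ψ1 σ) =
        t' σ + h.kw η' σ + h.kw η1 σ
      rw [Matrix.zero_mul, add_zero, Matrix.mul_add, Matrix.mul_add, ht2, h.kw_e, h.kw_e]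
  · apply Data.Car.ext
    · change (φ σ).1 = (S.dga.D (cl S (ψ1 σ) (t' σ + h.kw η' σ + h.kw η1 σ))).1 +
        (∑ τ ∈ X.F (X.s σ), (cl S (X.c σ τ) 0) *
          (cl S (ψ1 τ) (t' τ + h.kw η' τ + h.kw η1 τ))).1
      rw [fst_sum]
      change (φ σ).1 = A.D (ψ1 σ) + S.ev (t' σ + h.kw η' σ + h.kw η1 σ) +
        ∑ τ ∈ X.F (X.s σ), X.c σ τ * ψ1 τ
      rw [map_add, map_add]
      have h50 : (φ σ).1 + S.ev (t' σ) + S.ev (h.kw η' σ) + S.ev (h.kw η1 σ) =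
        A.D (ψ1 σ) + ∑ τ ∈ X.F (X.s σ), X.c σ τ * ψ1 τ := hψ3 σ
      have h5 : (φ σ).1 + S.ev (t' σ) + S.ev (h.kw η' σ) =
        A.D (ψ1 σ) + ∑ τ ∈ X.F (X.s σ), X.c σ τ * ψ1 τ + S.ev (h.kw η1 σ) := by
        rw [← h50, add_assoc _ _ (S.ev (h.kw η1 σ)), A.two, add_zero]
      have h6 := A.two (S.ev (t' σ) + S.ev (h.kw η' σ))
      calc (φ σ).1 = ((φ σ).1 + S.ev (t' σ) + S.ev (h.kw η' σ)) +
            (S.ev (t' σ) + S.ev (h.kw η' σ)) := by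
            rw [add_assoc (φ σ).1, add_assoc, h6, add_zero]
        _ = _ := by rw [h5]; abel
    · change (φ σ).2 = (S.dga.D (cl S (ψ1 σ) (t' σ + h.kw η' σ + h.kw η1 σ))).2 +
        (∑ τ ∈ X.F (X.s σ), (cl S (X.c σ τ) 0) *
          (cl S (ψ1 τ) (t' τ + h.kw η' τ + h.kw η1 τ))).2
      rw [snd_sum]
      change (φ σ).2 = S.dJ (t' σ + h.kw η' σ + h.kw η1 σ) +
        ∑ τ ∈ X.F (X.s σ), (S.ρ (X.c σ τ) * (t' τ + h.kw η' τ + h.kw η1 τ) + 0 * S.σ (ψ1 τ))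
      simp only [Matrix.zero_mul, add_zero, Matrix.mul_add, Finset.sum_add_distrib, map_add]
      have h7 := ht3 σ
      have h8 := hη'3 σ
      have h9 := hη13 σ
      calc (φ σ).2 = S.dJ (t' σ) + ∑ τ ∈ X.F (X.s σ), S.ρ (X.c σ τ) * t' τ +
            (S.dJ (h.kw η' σ) + ∑ τ ∈ X.F (X.s σ), S.ρ (X.c σ τ) * h.kw η' τ) +
            (S.dJ (h.kw η1 σ) + ∑ τ ∈ X.F (X.s σ), S.ρ (X.c σ τ) * h.kw η1 τ) := by
            rw [h9, add_zero, h8]; exact h7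
        _ = _ := by abel

end KHyp

variable (S X) in
/-- the last field of `Cells` over the cone -/
def ExC : Prop := ∀ (p : ℤ) (φ : X.ι → S.dga.C), (∀ σ, φ σ ∈ S.dga.G ((X.s σ : ℤ) - p)) →
    (∀ σ, (cl S (X.e σ) 0) * φ σ = φ σ) →
    (∀ σ, S.dga.D (φ σ) + ∑ τ ∈ X.F (X.s σ), (cl S (X.c σ τ) 0) * φ τ = 0) →
    ∃ ψ : X.ι → S.dga.C, (∀ σ, ψ σ ∈ S.dga.G ((X.s σ : ℤ) - p + 1)) ∧
      (∀ σ, (cl S (X.e σ) 0) * ψ σ = ψ σ) ∧
      ∀ σ, φ σ = S.dga.D (ψ σ) + ∑ τ ∈ X.F (X.s σ), (cl S (X.c σ τ) 0) * ψ τ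

/-- **cells over the cone** -/
noncomputable def cells0 (evV : EvV S X) (jr : JRt S X) (ec : ExC S X) : Cells S.dga where
  V := Vc S X
  dpos x hx w := by
    rw [smul_def]
    change (A.D x.1 + S.ev x.2) • (show X.V from w) = 0
    rw [add_smul, X.dpos _ hx.1, evV _ hx.2, add_zero]
  ι := X.ι
  s := X.s
  F := X.F
  mem_F := X.mem_F
  e σ := cl S (X.e σ) 0
  e_mem σ := ⟨X.e_mem σ, Submodule.zero_mem _⟩
  e_idem σ := by
    apply Data.Car.ext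
    · exact X.e_idem σ
    · change S.ρ (X.e σ) * 0 + 0 * S.σ (X.e σ) = 0
      rw [Matrix.mul_zero, zero_add, Matrix.zero_mul]
  c σ τ := cl S (X.c σ τ) 0
  c_mem σ τ := ⟨X.c_mem σ τ, Submodule.zero_mem _⟩
  c_left σ τ := by
    apply Data.Car.ext
    · exact X.c_left σ τ
    · change S.ρ (X.e σ) * 0 + 0 * S.σ (X.c σ τ) = 0
      rw [Matrix.mul_zero, zero_add, Matrix.zero_mul]
  c_right σ τ := by
    apply Data.Car.ext
    · exact X.c_right σ τ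
    · change S.ρ (X.c σ τ) * 0 + 0 * S.σ (X.e τ) = 0
      rw [Matrix.mul_zero, zero_add, Matrix.zero_mul]
  mc σ τ := by
    apply Data.Car.ext
    · change (S.dga.D (cl S (X.c σ τ) 0)).1 + (∑ ρ ∈ X.F (X.s σ),
        (cl S (X.c σ ρ) 0) * (cl S (X.c ρ τ) 0)).1 = 0
      rw [fst_sum]
      change A.D (X.c σ τ) + S.ev 0 + ∑ ρ ∈ X.F (X.s σ), X.c σ ρ * X.c ρ τ = 0
      rw [map_zero, add_zero]
      exact X.mc σ τ
    · change (S.dga.D (cl S (X.c σ τ) 0)).2 + (∑ ρ ∈ X.F (X.s σ),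
        (cl S (X.c σ ρ) 0) * (cl S (X.c ρ τ) 0)).2 = 0
      rw [snd_sum]
      change S.dJ 0 + ∑ ρ ∈ X.F (X.s σ), (S.ρ (X.c σ ρ) * 0 + 0 * S.σ (X.c ρ τ)) = 0
      simp only [Matrix.mul_zero, zero_add, Matrix.zero_mul, map_zero, Finset.sum_const_zero]
  v := X.v
  v_e := X.v_e
  v_zero := X.v_zero
  v_aug := X.v_aug
  exR := exR jr
  exR0 := exR0
  gen w := by
    obtain ⟨x, hx1, hx2⟩ := X.gen w
    exact ⟨fun σ => cl S (x σ) 0, fun σ => ⟨hx1 σ, Submodule.zero_mem _⟩, hx2⟩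
  exV := X.exV
  exC := ec

theorem exC_of (h : KHyp S X) : ExC S X := h.exC

/-- **cells over the cone**, from `kt` -/
noncomputable def cells (evV : EvV S X) (jr : JRt S X) (h : KHyp S X) : Cells S.dga :=
  cells0 evV jr (exC_of h)

end Crest.Agent.R186.ConeCells384
end

-- ▼ part R186/ConeJ_462
section

/-!
Row 186 (A), closing (helper462): the two acyclicity lemmas for the ideal
`J = (K ⊗ H)[1]` of the cone algebra.
-/

set_option autoImplicit false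

open Matrix

namespace Crest.Agent.R186.ConeHyp462

open Hat827 ConeAlg462

variable {K : Type} [Field K] {A : DGA K} (S : Data A) (X : PCells A)

theorem PCells.D_e (σ : X.ι) : A.D (X.e σ) = 0 := DGA.D_neg (X.e_mem σ) (by norm_num)

theorem PCells.c_zero {σ τ : X.ι} (h : X.s σ ≤ X.s τ) : X.c σ τ = 0 :=
  DGA.neg (X.c_mem σ τ) (by omega)

theorem σ_comm (σ : X.ι) : S.ε * S.σ (X.e σ) = S.σ (X.e σ) * S.ε := by
  have h := S.σ_D (X.e σ)
  rw [X.D_e, map_zero] at h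
  have h2 : (S.σ (X.e σ) * S.ε : Matrix S.γ S.γ K) + S.σ (X.e σ) * S.ε = 0 := by
    have := congrArg S.σ (A.two (X.e σ))
    rw [map_add, map_zero] at this
    rw [← Matrix.add_mul, this, Matrix.zero_mul]
  calc S.ε * S.σ (X.e σ) = S.ε * S.σ (X.e σ) + (S.σ (X.e σ) * S.ε + S.σ (X.e σ) * S.ε) := by
        rw [h2, add_zero]
    _ = (S.ε * S.σ (X.e σ) + S.σ (X.e σ) * S.ε) + S.σ (X.e σ) * S.ε := by abel
    _ = _ := by rw [← h, zero_add]


/-! ### `H ⊗ X` -/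

theorem Y_zero {n : ℤ} {y : X.ι → S.γ → K} (hy : y ∈ Y S X n) {σ : X.ι} (h : n < X.s σ) :
    y σ = 0 := by
  funext c
  by_contra hne
  have h1 := hy.1 σ c hne
  have h2 := S.dh_nn c
  omega

theorem Y_neg {n : ℤ} {y : X.ι → S.γ → K} (hy : y ∈ Y S X n) (h : n < 0) : y = 0 := by
  funext σ
  exact Y_zero S X hy (by omega)

theorem dYM_eq {n : ℤ} {y : X.ι → S.γ → K} (hy : y ∈ Y S X n) {M : ℕ} (h : n ≤ M) :
    dYM S X M y = dY S X n y := by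
  funext τ
  unfold dY
  rw [dYM_apply, dYM_apply]
  congr 1
  symm
  refine Finset.sum_subset (fun σ hσ => ?_) fun σ _ hσ => ?_
  · rw [X.mem_F] at hσ ⊢
    omega
  · rw [X.mem_F] at hσ
    rw [Y_zero S X hy (by omega), Matrix.zero_vecMul]

theorem dY_mem {n : ℤ} {y : X.ι → S.γ → K} (hy : y ∈ Y S X n) (M : ℕ) :
    dYM S X M y ∈ Y S X (n - 1) := by
  refine ⟨fun τ c h => ?_, fun τ => ?_⟩
  · rw [dYM_apply, Pi.add_apply, Finset.sum_apply] at h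
    by_cases h1 : (y τ ᵥ* S.ε) c = 0
    · rw [h1, zero_add] at h
      obtain ⟨σ, -, hσ⟩ := Finset.exists_ne_zero_of_sum_ne_zero h
      rw [Matrix.vecMul, dotProduct] at hσ
      obtain ⟨c', -, hc⟩ := Finset.exists_ne_zero_of_sum_ne_zero hσ
      have e1 := hy.1 σ c' (left_ne_zero_of_mul hc)
      have e2 := S.σ_deg (X.c_mem σ τ) c' c (right_ne_zero_of_mul hc)
      omega
    · rw [Matrix.vecMul, dotProduct] at h1
      obtain ⟨c', -, hc⟩ := Finset.exists_ne_zero_of_sum_ne_zero h1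
      have e1 := hy.1 τ c' (left_ne_zero_of_mul hc)
      have e2 := S.ε_deg c' c (right_ne_zero_of_mul hc)
      omega
  · rw [dYM_apply, Matrix.add_vecMul, Matrix.vecMul_vecMul, σ_comm S X τ, ← Matrix.vecMul_vecMul,
      hy.2, Matrix.sum_vecMul]
    congr 1
    refine Finset.sum_congr rfl fun σ _ => ?_
    rw [Matrix.vecMul_vecMul, ← map_mul, X.c_right]


theorem dblσ (y : S.γ → K) : y + y = 0 := by
  have := congrArg (fun M : Matrix S.γ S.γ K => y ᵥ* M) (congrArg S.σ (A.two 1))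
  simpa [Matrix.vecMul_add] using this

theorem dblρ (y : S.β → K) : y + y = 0 := by
  have := congrArg (fun M : Matrix S.β S.β K => M *ᵥ y) (congrArg S.ρ (A.two 1))
  simpa [Matrix.add_mulVec] using this

theorem dYM_dYM (M : ℕ) (y : X.ι → S.γ → K) : dYM S X M (dYM S X M y) = 0 := by
  funext ω
  rw [dYM_apply]
  simp only [dYM_apply, Matrix.add_vecMul, Matrix.sum_vecMul, Matrix.vecMul_vecMul, S.εε,
    Matrix.vecMul_zero, zero_add, Finset.sum_add_distrib, Pi.zero_apply]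
  have e1 : ∑ τ ∈ X.F M, ∑ σ ∈ X.F M, y σ ᵥ* (S.σ (X.c σ τ) * S.σ (X.c τ ω)) =
      ∑ σ ∈ X.F M, y σ ᵥ* (S.σ (A.D (X.c σ ω))) := by
    rw [Finset.sum_comm]
    refine Finset.sum_congr rfl fun σ hσ => ?_
    rw [← Matrix.vecMul_sum]
    congr 1
    have e2 : ∑ τ ∈ X.F M, X.c σ τ * X.c τ ω = ∑ τ ∈ X.F (X.s σ), X.c σ τ * X.c τ ω := by
      symm
      refine Finset.sum_subset (fun τ hτ => ?_) fun τ _ hτ => ?_
      · rw [X.mem_F] at hτ hσ ⊢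
        omega
      · rw [X.mem_F] at hτ
        rw [X.c_zero (by omega), zero_mul]
    have e3 : ∑ τ ∈ X.F (X.s σ), X.c σ τ * X.c τ ω = A.D (X.c σ ω) := by
      have h1 := X.mc σ ω
      have h2 := A.two (A.D (X.c σ ω))
      exact add_left_cancel (h1.trans h2.symm)
    rw [← e3, ← e2, map_sum]
    simp only [map_mul]
  rw [e1]
  have e4 : ∑ σ ∈ X.F M, y σ ᵥ* (S.σ (A.D (X.c σ ω))) =
      ∑ σ ∈ X.F M, y σ ᵥ* (S.ε * S.σ (X.c σ ω)) + ∑ σ ∈ X.F M, y σ ᵥ* (S.σ (X.c σ ω) * S.ε) := by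
    rw [← Finset.sum_add_distrib]
    refine Finset.sum_congr rfl fun σ _ => ?_
    rw [S.σ_D, Matrix.vecMul_add]
  rw [e4]
  have h1 := dblσ S (∑ σ ∈ X.F M, y σ ᵥ* (S.ε * S.σ (X.c σ ω)))
  have h2 := dblσ S (∑ σ ∈ X.F M, y σ ᵥ* (S.σ (X.c σ ω) * S.ε))
  generalize (∑ σ ∈ X.F M, y σ ᵥ* (S.ε * S.σ (X.c σ ω))) = a at *
  generalize (∑ σ ∈ X.F M, y σ ᵥ* (S.σ (X.c σ ω) * S.ε)) = b at *
  calc b + (a + (a + b)) = (a + a) + (b + b) := by abel
    _ = 0 := by rw [h1, h2, add_zero]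

/-- the homotopy on `H ⊗ X` -/
theorem exists_hY (hH : ∀ (m : ℕ) (y : X.ι → S.γ → K), y ∈ Y S X m → dY S X m y = 0 →
      ∃ z ∈ Y S X (m + 1), y = dY S X (m + 1) z) :
    ∃ h : ℤ → (X.ι → S.γ → K) →ₗ[K] (X.ι → S.γ → K), (∀ n y, h n y ∈ Y S X (n + 1)) ∧
      ∀ n, ∀ y ∈ Y S X n, y = dY S X (n + 1) (h n y) + h (n - 1) (dY S X n y) := by
  obtain ⟨h, h1, h2⟩ := HomA462.exists_homotopy (K := K) (fun p => Y S X (-p)) (fun _ => ⊥)
    (fun p => dY S X (-p)) (fun p x hx => by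
      have e1 : dY S X (-(p + 1)) (dY S X (-p) x) = dYM S X (-p).toNat (dY S X (-p) x) :=
        (dYM_eq S X (n := -(p + 1)) (by
          have := dY_mem S X hx (-p).toNat
          rw [show -p - 1 = -(p + 1) by ring] at this
          exact this) (by omega)).symm
      exact e1.trans (dYM_dYM S X _ _)) (fun p x hx hd => by
      by_cases hp : 0 ≤ -(p + 1)
      · obtain ⟨m, hm⟩ := Int.eq_ofNat_of_zero_le hp
        have hp' : -p = m + 1 := by omega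
        simp only [hm] at hx hd
        obtain ⟨z, hz, hz'⟩ := hH m x hx hd
        refine ⟨z, ?_, ?_⟩
        · change z ∈ Y S X (-p)
          rw [hp']
          exact hz
        · change x - dY S X (-p) z ∈ (⊥ : Submodule K _)
          rw [hp', ← hz', sub_self]
          exact Submodule.zero_mem _
      · have hx0 : x = 0 := Y_neg S X hx (by omega)
        exact ⟨0, Submodule.zero_mem _, by rw [hx0, map_zero, sub_zero]; exact Submodule.zero_mem _⟩)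
  refine ⟨fun n => h (-n - 1), fun n y => ?_, fun n y hy => ?_⟩
  · have := h1 (-n - 1) y
    simp only [show -(-n - 1) = n + 1 by ring] at this
    exact this
  · have h3 := h2 (-n - 1) y (by
      change y ∈ Y S X (-(-n - 1 + 1))
      rw [show -(-n - 1 + 1) = n by ring]
      exact hy)
    rw [Submodule.mem_bot, sub_eq_zero] at h3
    simp only [show -(-n - 1) = n + 1 by ring, show -n - 1 + 1 = -n by ring,
      show -(-n) = n by ring] at h3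
    simp only [show -(n - 1) - 1 = -n by ring]
    exact h3

theorem row (M : ℕ) (t : X.ι → Matrix S.β S.γ K) (τ : X.ι) (b : S.β) (c : S.γ) :
    (S.dJ (t τ) + ∑ σ ∈ X.F M, t σ * S.σ (X.c σ τ)) b c =
      (∑ b', S.δ b b' * t τ b' c) + dYM S X M (fun σ => t σ b) τ c := by
  rw [dYM_apply, Data.dJ_apply, Matrix.add_apply, Matrix.add_apply, Matrix.sum_apply,
    Pi.add_apply, Finset.sum_apply, Matrix.mul_apply, Matrix.mul_apply, ← add_assoc]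
  rfl

/-- **(JR)** -/
theorem JR (hH : ∀ (m : ℕ) (y : X.ι → S.γ → K), y ∈ Y S X m → dY S X m y = 0 →
      ∃ z ∈ Y S X (m + 1), y = dY S X (m + 1) z)
    (m : ℕ) (t : X.ι → Matrix S.β S.γ K) (ht : ∀ σ, t σ ∈ S.J ((m : ℤ) + 1 - X.s σ))
    (he : ∀ σ, t σ * S.σ (X.e σ) = t σ)
    (hd : ∀ τ, S.dJ (t τ) + ∑ σ ∈ X.F (m + 1), t σ * S.σ (X.c σ τ) = 0) :
    ∃ t' : X.ι → Matrix S.β S.γ K, (∀ σ, t' σ ∈ S.J ((m : ℤ) + 2 - X.s σ)) ∧
      (∀ σ, t' σ * S.σ (X.e σ) = t' σ) ∧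
      ∀ τ, t τ = S.dJ (t' τ) + ∑ σ ∈ X.F (m + 2), t' σ * S.σ (X.c σ τ) := by
  obtain ⟨h, h1, h2⟩ := exists_hY S X hH
  set y : S.β → (X.ι → S.γ → K) := fun b σ => t σ b with hy
  have hyY : ∀ b, y b ∈ Y S X (m - S.dk b) := fun b => by
    refine ⟨fun σ c hc => ?_, fun σ => ?_⟩
    · have := ht σ b c hc
      omega
    · have := congrFun (he σ) b
      rw [Matrix.mul_apply_eq_vecMul] at this
      exact this
  set z : S.β → (X.ι → S.γ → K) := fun b => h (m - S.dk b) (y b) with hz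
  have hzY : ∀ b, z b ∈ Y S X (m - S.dk b + 1) := fun b => h1 _ _
  -- the cocycle condition by rows
  have hrow : ∀ b, dY S X (m - S.dk b) (y b) = ∑ b', S.δ b b' • y b' := fun b => by
    rw [← dYM_eq S X (hyY b) (M := m + 1) (by have := S.dk_nn b; push_cast; omega)]
    funext τ
    have h3 : (∑ b', S.δ b b' • y b') τ + dYM S X (m + 1) (y b) τ = 0 := by
      funext c
      have := congrFun (congrFun (hd τ) b) c
      rw [row S X (m + 1) t τ b c] at this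
      simp only [Pi.add_apply, Finset.sum_apply, Pi.smul_apply, smul_eq_mul]
      exact this
    have h4 := dblσ S ((∑ b', S.δ b b' • y b') τ)
    exact add_left_cancel (h3.trans h4.symm)
  refine ⟨fun σ => Matrix.of fun b c => z b σ c, fun σ b c hc => ?_, fun σ => ?_, fun τ => ?_⟩
  · have := (hzY b).1 σ c hc
    omega
  · ext b c
    rw [Matrix.mul_apply]
    exact congrFun ((hzY b).2 σ) c
  · ext b c
    rw [row S X (m + 2) (fun σ => Matrix.of fun b c => z b σ c) τ b c]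
    have h3 := h2 (m - S.dk b) (y b) (hyY b)
    rw [hrow b, map_sum, ← dYM_eq S X (hzY b) (M := m + 2) (by
      have := S.dk_nn b; push_cast; omega)] at h3
    have h4 : ∑ b', h (m - S.dk b - 1) (S.δ b b' • y b') = ∑ b', S.δ b b' • z b' := by
      refine Finset.sum_congr rfl fun b' _ => ?_
      rw [map_smul]
      by_cases h0 : S.δ b b' = 0
      · rw [h0, zero_smul, zero_smul]
      · have := S.δ_deg b' b h0
        rw [hz]
        simp only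
        rw [show (m : ℤ) - S.dk b' = m - S.dk b - 1 by omega]
    rw [h4] at h3
    have h5 := congrFun (congrFun h3 τ) c
    simp only [Pi.add_apply, Finset.sum_apply, Pi.smul_apply, smul_eq_mul] at h5
    rw [add_comm] at h5
    exact h5

/-! ### `Hom(X, K)` -/


theorem dZ_dZ (κ : X.ι → S.β → K) : dZ S X (dZ S X κ) = 0 := by
  funext σ
  rw [dZ_apply]
  simp only [dZ_apply, Matrix.mulVec_add, Matrix.mulVec_sum, Matrix.mulVec_mulVec, S.δδ,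
    Matrix.zero_mulVec, zero_add, Finset.sum_add_distrib, Pi.zero_apply]
  have e1 : ∑ τ ∈ X.F (X.s σ), ∑ ω ∈ X.F (X.s τ), (S.ρ (X.c σ τ) * S.ρ (X.c τ ω)) *ᵥ κ ω =
      ∑ ω ∈ X.F (X.s σ), S.ρ (A.D (X.c σ ω)) *ᵥ κ ω := by
    have e2 : ∀ τ ∈ X.F (X.s σ), ∑ ω ∈ X.F (X.s τ), (S.ρ (X.c σ τ) * S.ρ (X.c τ ω)) *ᵥ κ ω =
        ∑ ω ∈ X.F (X.s σ), (S.ρ (X.c σ τ) * S.ρ (X.c τ ω)) *ᵥ κ ω := fun τ hτ => by
      refine Finset.sum_subset (fun ω hω => ?_) fun ω _ hω => ?_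
      · rw [X.mem_F] at hτ hω ⊢
        omega
      · rw [X.mem_F] at hω
        rw [X.c_zero (σ := τ) (τ := ω) (by omega), map_zero, Matrix.mul_zero,
          Matrix.zero_mulVec]
    rw [Finset.sum_congr rfl e2, Finset.sum_comm]
    refine Finset.sum_congr rfl fun ω _ => ?_
    rw [← Matrix.sum_mulVec]
    congr 1
    have e3 : ∑ τ ∈ X.F (X.s σ), X.c σ τ * X.c τ ω = A.D (X.c σ ω) := by
      have h1 := X.mc σ ω
      have h2 := A.two (A.D (X.c σ ω))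
      exact add_left_cancel (h1.trans h2.symm)
    rw [← e3, map_sum]
    simp only [map_mul]
  rw [e1]
  have e4 : ∑ ω ∈ X.F (X.s σ), S.ρ (A.D (X.c σ ω)) *ᵥ κ ω =
      ∑ ω ∈ X.F (X.s σ), (S.δ * S.ρ (X.c σ ω)) *ᵥ κ ω +
        ∑ ω ∈ X.F (X.s σ), (S.ρ (X.c σ ω) * S.δ) *ᵥ κ ω := by
    rw [← Finset.sum_add_distrib]
    refine Finset.sum_congr rfl fun ω _ => ?_
    rw [S.ρ_D, Matrix.add_mulVec]
  rw [e4]
  have h1 := dblρ S (∑ ω ∈ X.F (X.s σ), (S.δ * S.ρ (X.c σ ω)) *ᵥ κ ω)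
  have h2 := dblρ S (∑ ω ∈ X.F (X.s σ), (S.ρ (X.c σ ω) * S.δ) *ᵥ κ ω)
  generalize (∑ ω ∈ X.F (X.s σ), (S.δ * S.ρ (X.c σ ω)) *ᵥ κ ω) = a at *
  generalize (∑ ω ∈ X.F (X.s σ), (S.ρ (X.c σ ω) * S.δ) *ᵥ κ ω) = b at *
  calc a + (b + (a + b)) = (a + a) + (b + b) := by abel
    _ = 0 := by rw [h1, h2, add_zero]

theorem col (t : X.ι → Matrix S.β S.γ K) (σ : X.ι) (b : S.β) (c : S.γ) :
    (S.dJ (t σ) + ∑ τ ∈ X.F (X.s σ), S.ρ (X.c σ τ) * t τ) b c =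
      dZ S X (fun τ b' => t τ b' c) σ b + ∑ c', t σ b c' * S.ε c' c := by
  rw [dZ_apply, Data.dJ_apply, Matrix.add_apply, Matrix.add_apply, Matrix.sum_apply,
    Pi.add_apply, Finset.sum_apply, Matrix.mul_apply, Matrix.mul_apply]
  simp only [Matrix.mul_apply, Matrix.mulVec, dotProduct]
  abel

/-- **(JK)** -/
theorem JK (kt : X.ι → S.β → K) (kt_d : dZ S X kt = 0) (kt_ne : kt ≠ 0)
    (KX : ∀ (p : ℤ) (κ : X.ι → S.β → K), κ ∈ Z S X p → dZ S X κ = 0 →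
      ∃ ψ ∈ Z S X (p - 1), ∃ r : K, (p ≠ 0 → r = 0) ∧ κ = r • kt + dZ S X ψ)
    (p : ℤ) (t : X.ι → Matrix S.β S.γ K) (ht : ∀ σ, t σ ∈ S.J ((X.s σ : ℤ) - p))
    (he : ∀ σ, S.ρ (X.e σ) * t σ = t σ)
    (hd : ∀ σ, S.dJ (t σ) + ∑ τ ∈ X.F (X.s σ), S.ρ (X.c σ τ) * t τ = 0) :
    ∃ (t' : X.ι → Matrix S.β S.γ K) (η : S.γ → K),
      (∀ σ, t' σ ∈ S.J ((X.s σ : ℤ) - p + 1)) ∧ (∀ σ, S.ρ (X.e σ) * t' σ = t' σ) ∧
      (∀ c, η c ≠ 0 → S.dh c = -p - 1) ∧ η ᵥ* S.ε = 0 ∧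
      ∀ σ, t σ = S.dJ (t' σ) + ∑ τ ∈ X.F (X.s σ), S.ρ (X.c σ τ) * t' τ +
        vecMulVec (kt σ) η := by
  obtain ⟨h, h1, h2⟩ := HomA462.exists_homotopy (K := K) (fun p => Z S X p)
    (fun q => if q = 0 then Submodule.span K {kt} else ⊥) (fun _ => dZ S X)
    (fun _ x _ => dZ_dZ S X x) (fun q x hx hdx => by
      obtain ⟨ψ, hψ, r, hr, e⟩ := KX (q + 1) x hx hdx
      refine ⟨ψ, by rwa [add_sub_cancel_right] at hψ, ?_⟩
      rw [e, add_sub_cancel_right]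
      by_cases hq : q + 1 = 0
      · rw [if_pos hq]
        exact Submodule.smul_mem _ _ (Submodule.mem_span_singleton_self _)
      · rw [if_neg hq, hr hq, zero_smul]
        exact Submodule.zero_mem _)
  set y : S.γ → (X.ι → S.β → K) := fun c σ b => t σ b c with hy
  have hyZ : ∀ c, y c ∈ Z S X (p + S.dh c + 1) := fun c => by
    refine ⟨fun σ b hc => ?_, fun σ => ?_⟩
    · have := ht σ b c hc
      omega
    · funext b
      have := congrFun (congrFun (he σ) b) c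
      rw [Matrix.mul_apply] at this
      exact this
  set z : S.γ → (X.ι → S.β → K) := fun c => h (p + S.dh c) (y c) with hz
  have hzZ : ∀ c, z c ∈ Z S X (p + S.dh c) := fun c => h1 _ _
  have hcol : ∀ c, dZ S X (y c) = ∑ c', S.ε c' c • y c' := fun c => by
    funext σ
    have h3 : dZ S X (y c) σ + (∑ c', S.ε c' c • y c') σ = 0 := by
      funext b
      have := congrFun (congrFun (hd σ) b) c
      rw [col S X t σ b c] at this
      have e : ∑ c', t σ b c' * S.ε c' c = (∑ c', S.ε c' c • y c') σ b := by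
        rw [Finset.sum_apply, Finset.sum_apply]
        exact Finset.sum_congr rfl fun _ _ => mul_comm _ _
      rw [e] at this
      exact this
    have h4 := dblρ S ((∑ c', S.ε c' c • y c') σ)
    exact add_right_cancel (h3.trans h4.symm)
  have hl : ∀ c, ∃ r : K, (r ≠ 0 → S.dh c = -p - 1) ∧
      y c = dZ S X (z c) + ∑ c', S.ε c' c • z c' + r • kt := fun c => by
    have h3 := h2 (p + S.dh c) (y c) (hyZ c)
    rw [hcol c, map_sum] at h3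
    have h4 : ∑ c', h (p + S.dh c + 1) (S.ε c' c • y c') = ∑ c', S.ε c' c • z c' := by
      refine Finset.sum_congr rfl fun c' _ => ?_
      rw [map_smul]
      by_cases h0 : S.ε c' c = 0
      · rw [h0, zero_smul, zero_smul]
      · have := S.ε_deg c' c h0
        rw [hz]
        simp only
        rw [show p + S.dh c' = p + S.dh c + 1 by omega]
    rw [h4] at h3
    by_cases hq : p + S.dh c + 1 = 0
    · rw [if_pos hq, Submodule.mem_span_singleton] at h3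
      obtain ⟨r, hr⟩ := h3
      refine ⟨r, fun _ => by omega, ?_⟩
      rw [hr]
      simp only [hz]
      abel
    · rw [if_neg hq, Submodule.mem_bot, sub_eq_zero] at h3
      refine ⟨0, fun h0 => absurd rfl h0, ?_⟩
      rw [zero_smul, add_zero]
      exact h3
  choose η hη1 hη2 using hl
  refine ⟨fun σ => Matrix.of fun b c => z c σ b, η, fun σ b c hc => ?_, fun σ => ?_, hη1, ?_,
    fun σ => ?_⟩
  · have := (hzZ c).1 σ b hc
    omega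
  · ext b c
    rw [Matrix.mul_apply]
    exact congrFun ((hzZ c).2 σ) b
  · funext c
    -- apply `dZ` to the formula of column `c`
    have e1 := congrArg (dZ S X) (hη2 c)
    rw [map_add, map_add, dZ_dZ, zero_add, map_smul, kt_d, smul_zero, add_zero, hcol c, map_sum]
      at e1
    have e2 : ∑ c', S.ε c' c • y c' = ∑ c', S.ε c' c • dZ S X (z c') +
        ∑ c', S.ε c' c • ∑ c'', S.ε c'' c' • z c'' + (∑ c', S.ε c' c * η c') • kt := by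
      rw [Finset.sum_smul, ← Finset.sum_add_distrib, ← Finset.sum_add_distrib]
      refine Finset.sum_congr rfl fun c' _ => ?_
      conv_lhs => rw [hη2 c']
      rw [smul_add, smul_add, smul_smul]
    have e3 : ∑ c', S.ε c' c • ∑ c'', S.ε c'' c' • z c'' = 0 := by
      simp only [Finset.smul_sum, smul_smul]
      rw [Finset.sum_comm]
      refine Finset.sum_eq_zero fun c'' _ => ?_
      rw [← Finset.sum_smul]
      have := congrFun (congrFun S.εε c'') c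
      rw [Matrix.mul_apply] at this
      have e : ∑ c', S.ε c' c * S.ε c'' c' = 0 := by
        rw [← Matrix.zero_apply c'' c, ← this]
        exact Finset.sum_congr rfl fun _ _ => mul_comm _ _
      rw [e, zero_smul]
    rw [e2, e3, add_zero] at e1
    simp only [map_smul] at e1
    have e4 : (∑ c', S.ε c' c * η c') • kt = 0 := by
      have := e1
      rwa [add_eq_left] at this
    have e5 : ∑ c', S.ε c' c * η c' = 0 := (smul_eq_zero.1 e4).resolve_right kt_ne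
    rw [Matrix.vecMul, dotProduct, Pi.zero_apply, ← e5]
    exact Finset.sum_congr rfl fun _ _ => mul_comm _ _
  · ext b c
    rw [Matrix.add_apply]
    have h3 := col S X (fun σ => Matrix.of fun b c => z c σ b) σ b c
    rw [h3]
    have h5 := congrFun (congrFun (hη2 c) σ) b
    simp only [Pi.add_apply, Finset.sum_apply, Pi.smul_apply, smul_eq_mul] at h5
    simp only [Matrix.of_apply, vecMulVec_apply]
    rw [mul_comm (kt σ b)]
    simp only [mul_comm (z _ _ _)]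
    exact h5

end Crest.Agent.R186.ConeHyp462
end

-- ▼ part R186/FinD_384

/-!
Row 186 (A), leaf A.FIN (helper384): the joint of the closing in basis-free form.
Input: `I : Adapt186.In A` (`Y = K`, `Z = H`, `ev`), `X : PCells A` and `HIn I X`
(`H ⊗ X` acyclic; `kt`; `Hom(X, Y) = K kt`; `H → Hom(X, A)` a quasi-isomorphism).
Output: `Hat827.Cells I.data.dga` and a null pair.
-/

set_option autoImplicit false

open Matrix

namespace Crest.Agent.R186.FinD384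

open Hat827 ConeAlg462 ConeHyp462 Adapt186 ConeCells384

variable {K : Type} [Field K]

section coord

variable {A : DGA K} (I : In A)

/-- coordinates of `Y` -/
noncomputable def vY : I.Y ≃ₗ[K] (I.data.β → K) := I.gr.bas.equivFun
/-- coordinates of `Z` -/
noncomputable def vZ : I.Z ≃ₗ[K] (I.data.γ → K) := I.gs.bas.equivFun

theorem toMatrix_vY (f : I.Y →ₗ[K] I.Y) (y : I.Y) :
    LinearMap.toMatrix I.gr.bas I.gr.bas f *ᵥ I.gr.bas.equivFun y = I.gr.bas.equivFun (f y) :=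
  LinearMap.toMatrix_mulVec_repr I.gr.bas I.gr.bas f y

theorem toMatrix_vZ (f : I.Z →ₗ[K] I.Z) (y : I.Z) :
    I.gs.bas.equivFun y ᵥ* (LinearMap.toMatrix I.gs.bas I.gs.bas f).transpose =
      I.gs.bas.equivFun (f y) := by
  rw [Matrix.vecMul_transpose]
  exact LinearMap.toMatrix_mulVec_repr I.gs.bas I.gs.bas f y

theorem rho_v (a : A.C) (y : I.Y) : I.data.ρ a *ᵥ vY I y = vY I (I.L a y) :=
  toMatrix_vY I (I.L a) y

theorem del_v (y : I.Y) : I.data.δ *ᵥ vY I y = vY I (I.dY y) := toMatrix_vY I I.dY y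

theorem sig_v (a : A.C) (y : I.Z) : vZ I y ᵥ* I.data.σ a = vZ I (I.Rr a y) :=
  toMatrix_vZ I (I.Rr a) y

theorem eps_v (y : I.Z) : vZ I y ᵥ* I.data.ε = vZ I (I.dZ y) := toMatrix_vZ I I.dZ y

theorem deg_vY (m : ℤ) (y : I.Y) :
    (∀ b : I.data.β, vY I y b ≠ 0 → I.data.dk b = m) ↔ y ∈ I.gr.G m := by
  constructor
  · intro h
    rw [← I.gr.bas.sum_repr y]
    refine Submodule.sum_mem _ fun b _ => ?_
    by_cases hb : I.gr.bas.repr y b = 0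
    · rw [hb, zero_smul]
      exact Submodule.zero_mem _
    · have : I.gr.deg b = m := h b hb
      rw [← this]
      exact Submodule.smul_mem _ _ (I.gr.bas_mem b)
  · intro h b hb
    exact I.gr.deg_of_repr h hb

theorem deg_vZ (m : ℤ) (y : I.Z) :
    (∀ b : I.data.γ, vZ I y b ≠ 0 → I.data.dh b = m) ↔ y ∈ I.gs.G m := by
  constructor
  · intro h
    rw [← I.gs.bas.sum_repr y]
    refine Submodule.sum_mem _ fun b _ => ?_
    by_cases hb : I.gs.bas.repr y b = 0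
    · rw [hb, zero_smul]
      exact Submodule.zero_mem _
    · have : I.gs.deg b = m := h b hb
      rw [← this]
      exact Submodule.smul_mem _ _ (I.gs.bas_mem b)
  · intro h b hb
    exact I.gs.deg_of_repr h hb

theorem ev_v (y : I.Y) (z : I.Z) : I.data.ev (vecMulVec (vY I y) (vZ I z)) = I.ev y z := by
  have h1 : I.ev y z = ∑ b : I.gr.B, ∑ c : I.gs.B,
      (I.gr.bas.repr y b * I.gs.bas.repr z c) • I.ev (I.gr.bas b) (I.gs.bas c) := by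
    have e1 : I.ev y = ∑ b : I.gr.B, I.gr.bas.repr y b • I.ev (I.gr.bas b) := by
      conv_lhs => rw [← I.gr.bas.sum_repr y]
      rw [map_sum]
      exact Finset.sum_congr rfl fun b _ => map_smul _ _ _
    rw [e1, LinearMap.sum_apply]
    refine Finset.sum_congr rfl fun b _ => ?_
    conv_lhs => rw [← I.gs.bas.sum_repr z]
    rw [map_sum]
    refine Finset.sum_congr rfl fun c _ => ?_
    rw [map_smul, LinearMap.smul_apply, smul_smul, mul_comm]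
  rw [In.data_ev, h1]
  rfl

end coord

/-- the hypotheses of the closing, without bases -/
structure HIn {A : DGA K} (I : In A) (X : PCells A) where
  /-- `ev` kills `V` -/
  evV : ∀ y z (w : X.V), I.ev y z • w = 0
  /-- `H ⊗ X` is acyclic -/
  H : ∀ (m : ℕ) (y : X.ι → I.Z), (∀ σ, y σ ∈ I.gs.G ((m : ℤ) - X.s σ)) →
    (∀ σ, I.Rr (X.e σ) (y σ) = y σ) →
    (∀ τ, I.dZ (y τ) + ∑ σ ∈ X.F m, I.Rr (X.c σ τ) (y σ) = 0) →
    ∃ z : X.ι → I.Z, (∀ σ, z σ ∈ I.gs.G ((m : ℤ) + 1 - X.s σ)) ∧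
      (∀ σ, I.Rr (X.e σ) (z σ) = z σ) ∧
      ∀ τ, y τ = I.dZ (z τ) + ∑ σ ∈ X.F (m + 1), I.Rr (X.c σ τ) (z σ)
  /-- the lift of the augmentation -/
  kt : X.ι → I.Y
  kt_deg : ∀ σ, kt σ ∈ I.gr.G (X.s σ)
  kt_e : ∀ σ, I.L (X.e σ) (kt σ) = kt σ
  kt_d : ∀ σ, I.dY (kt σ) + ∑ τ ∈ X.F (X.s σ), I.L (X.c σ τ) (kt τ) = 0
  kt_ne : kt ≠ 0
  /-- `Hom(X, Y)` has cohomology spanned by `kt` -/
  KX : ∀ (p : ℤ) (κ : X.ι → I.Y), (∀ σ, κ σ ∈ I.gr.G ((X.s σ : ℤ) - p)) →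
    (∀ σ, I.L (X.e σ) (κ σ) = κ σ) →
    (∀ σ, I.dY (κ σ) + ∑ τ ∈ X.F (X.s σ), I.L (X.c σ τ) (κ τ) = 0) →
    ∃ (ψ : X.ι → I.Y) (r : K), (∀ σ, ψ σ ∈ I.gr.G ((X.s σ : ℤ) - p + 1)) ∧
      (∀ σ, I.L (X.e σ) (ψ σ) = ψ σ) ∧ (p ≠ 0 → r = 0) ∧
      ∀ σ, κ σ = r • kt σ + (I.dY (ψ σ) + ∑ τ ∈ X.F (X.s σ), I.L (X.c σ τ) (ψ τ))
  /-- `H → Hom(X, A)` is onto on cohomology -/
  D1 : ∀ (p : ℤ) (φ : X.ι → A.C), (∀ σ, φ σ ∈ A.G ((X.s σ : ℤ) - p)) →
    (∀ σ, X.e σ * φ σ = φ σ) → (∀ σ, A.D (φ σ) + ∑ τ ∈ X.F (X.s σ), X.c σ τ * φ τ = 0) →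
    ∃ η ∈ I.gs.G (-p), I.dZ η = 0 ∧ IsCob A X p (fun σ => φ σ + I.ev (kt σ) η)
  /-- `H → Hom(X, A)` is injective on cohomology -/
  D2 : ∀ (p : ℤ), ∀ η ∈ I.gs.G (-p), I.dZ η = 0 → IsCob A X p (fun σ => I.ev (kt σ) η) →
    ∃ η' ∈ I.gs.G (-p + 1), η = I.dZ η'

variable {A : DGA K} {I : In A} {X : PCells A}

theorem dY_v (m : ℤ) (y : X.ι → I.Z) (τ : X.ι) :
    dY I.data X m (fun σ => vZ I (y σ)) τ =
      vZ I (I.dZ (y τ) + ∑ σ ∈ X.F m.toNat, I.Rr (X.c σ τ) (y σ)) := by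
  change dYM I.data X m.toNat (fun σ => vZ I (y σ)) τ = _
  rw [dYM_apply, eps_v, map_add, map_sum]
  simp only [sig_v]

theorem dZ_v (κ : X.ι → I.Y) (σ : X.ι) :
    dZ I.data X (fun σ => vY I (κ σ)) σ =
      vY I (I.dY (κ σ) + ∑ τ ∈ X.F (X.s σ), I.L (X.c σ τ) (κ τ)) := by
  rw [dZ_apply, del_v, map_add, map_sum]
  simp only [rho_v]

theorem mem_Y_v (n : ℤ) (y : X.ι → I.Z) : (fun σ => vZ I (y σ)) ∈ Y I.data X n ↔
    (∀ σ, y σ ∈ I.gs.G (n - X.s σ)) ∧ ∀ σ, I.Rr (X.e σ) (y σ) = y σ := by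
  rw [mem_Y]
  constructor
  · rintro ⟨h1, h2⟩
    refine ⟨fun σ => (deg_vZ I _ _).1 fun c hc => ?_, fun σ => ?_⟩
    · have := h1 σ c hc
      omega
    · have := h2 σ
      rw [sig_v] at this
      exact (vZ I).injective this
  · rintro ⟨h1, h2⟩
    refine ⟨fun σ c hc => ?_, fun σ => ?_⟩
    · have := (deg_vZ I _ _).2 (h1 σ) c hc
      omega
    · rw [sig_v, h2]

theorem mem_Z_v (p : ℤ) (κ : X.ι → I.Y) : (fun σ => vY I (κ σ)) ∈ Z I.data X p ↔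
    (∀ σ, κ σ ∈ I.gr.G ((X.s σ : ℤ) - p)) ∧ ∀ σ, I.L (X.e σ) (κ σ) = κ σ := by
  rw [mem_Z]
  constructor
  · rintro ⟨h1, h2⟩
    refine ⟨fun σ => (deg_vY I _ _).1 fun c hc => h1 σ c hc, fun σ => ?_⟩
    have := h2 σ
    rw [rho_v] at this
    exact (vY I).injective this
  · rintro ⟨h1, h2⟩
    exact ⟨fun σ c hc => (deg_vY I _ _).2 (h1 σ) c hc, fun σ => by rw [rho_v, h2]⟩

theorem exists_vZ (y : X.ι → I.data.γ → K) : ∃ y' : X.ι → I.Z, y = fun σ => vZ I (y' σ) :=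
  ⟨fun σ => (vZ I).symm (y σ), by funext σ; exact ((vZ I).apply_symm_apply (y σ)).symm⟩

theorem exists_vY (y : X.ι → I.data.β → K) : ∃ y' : X.ι → I.Y, y = fun σ => vY I (y' σ) :=
  ⟨fun σ => (vY I).symm (y σ), by funext σ; exact ((vY I).apply_symm_apply (y σ)).symm⟩

namespace HIn

variable (h : HIn I X)

/-- **matrix form** -/
noncomputable def toHyp : Hyp I.data X where
  H m y hy hd := by
    obtain ⟨y', rfl⟩ := exists_vZ y
    obtain ⟨h1, h2⟩ := (mem_Y_v _ _).1 hy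
    obtain ⟨z, hz1, hz2, hz3⟩ := h.H m y' h1 h2 (fun τ => by
      have := congrFun hd τ
      rw [dY_v] at this
      exact (vZ I).injective (this.trans (map_zero _).symm))
    refine ⟨fun σ => vZ I (z σ), (mem_Y_v _ _).2 ⟨hz1, hz2⟩, ?_⟩
    funext τ
    rw [dY_v]
    exact congrArg (vZ I) (hz3 τ)
  kt σ := vY I (h.kt σ)
  kt_mem := (mem_Z_v _ _).2 ⟨fun σ => by rw [sub_zero]; exact h.kt_deg σ, h.kt_e⟩
  kt_d := by
    funext σ
    rw [dZ_v, h.kt_d, map_zero]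
    rfl
  kt_ne h0 := by
    apply h.kt_ne
    funext σ
    exact (vY I).injective ((congrFun h0 σ).trans (map_zero _).symm)
  KX p κ hκ hd := by
    obtain ⟨κ', rfl⟩ := exists_vY κ
    obtain ⟨h1, h2⟩ := (mem_Z_v _ _).1 hκ
    obtain ⟨ψ, r, h3, h4, h5, h6⟩ := h.KX p κ' h1 h2 (fun σ => by
      have := congrFun hd σ
      rw [dZ_v] at this
      exact (vY I).injective (this.trans (map_zero _).symm))
    refine ⟨fun σ => vY I (ψ σ), (mem_Z_v _ _).2 ⟨fun σ => ?_, h4⟩, r, h5, ?_⟩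
    · rw [show (X.s σ : ℤ) - (p - 1) = X.s σ - p + 1 by ring]
      exact h3 σ
    · funext σ
      rw [Pi.add_apply, dZ_v, Pi.smul_apply, ← map_smul, ← map_add]
      exact congrArg (vY I) (h6 σ)
  D1 p φ h1 h2 h3 := by
    obtain ⟨η, h4, h5, h6⟩ := h.D1 p φ h1 h2 h3
    refine ⟨vZ I η, fun c hc => (deg_vZ I _ _).2 h4 c hc, by rw [eps_v, h5, map_zero], ?_⟩
    simp only [ev_v]
    exact h6
  D2 p η h1 h2 h3 := by
    obtain ⟨η', rfl⟩ : ∃ η', η = vZ I η' := ⟨(vZ I).symm η, ((vZ I).apply_symm_apply η).symm⟩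
    simp only [ev_v] at h3
    obtain ⟨η1, h4, h5⟩ := h.D2 p η' ((deg_vZ I _ _).1 h1) ((vZ I).injective (by
      rw [← eps_v, h2, map_zero])) h3
    refine ⟨vZ I η1, fun c hc => (deg_vZ I _ _).2 h4 c hc, ?_⟩
    rw [eps_v, ← h5]

include h in
theorem ev_V : EvV I.data X := fun t _ w => In.data_ev_smul I h.evV t w

/-- **cells over the cone** -/
noncomputable def cells : Cells I.data.dga :=
  ConeCells384.cells h.ev_V (fun m t => JR I.data X h.toHyp.H m t)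
    { kt := h.toHyp.kt
      kt_mem := h.toHyp.kt_mem
      kt_d := h.toHyp.kt_d
      JK := JK I.data X h.toHyp.kt h.toHyp.kt_d h.toHyp.kt_ne h.toHyp.KX
      D1 := h.toHyp.D1
      D2 := h.toHyp.D2 }

include h in
/-- **the null pair** -/
theorem null : Nonempty (Spine700.Null.{0, 0} K) := Hat827.null h.cells

end HIn

end Crest.Agent.R186.FinD384
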