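import Crest.Agent.R186.HatC_827
import Crest.Agent.R186.Res_255
import Crest.Agent.R186.FinD_384

-- ▼ part R186/Dual_827
section

/-!
Row 186 (A), leaf DICT, duality half (helper827): for a finite-dimensional graded left dg module `Z`
over `A : Hat827.DGA K` and cell data `X`, exactness of `Hom(X, Z)` in degree `p` follows from
exactness of `(Dual Z) ⊗ X` in degree `p`.
-/

set_option autoImplicit false
set_option linter.style.haveILetI false

namespace Crest.Agent.R186.Dual827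

open Hat827

variable {K : Type} [Field K]

/-- a finite-dimensional graded left dg module with projections -/
structure LZ (A : DGA K) where
  Z : Type
  [grp : AddCommGroup Z]
  [modK : Module K Z]
  [modC : Module A.C Z]
  [tower : IsScalarTower K A.C Z]
  gr : ℤ → Submodule K Z
  smul_mem : ∀ {k l : ℤ} {a : A.C} {z : Z}, a ∈ A.G k → z ∈ gr l → a • z ∈ gr (k + l)
  d : Z →ₗ[K] Z
  d_mem : ∀ {k : ℤ} {z : Z}, z ∈ gr k → d z ∈ gr (k - 1)
  leib : ∀ (a : A.C) (z : Z), d (a • z) = A.D a • z + a • d z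
  pr : ℤ → Z →ₗ[K] Z
  pr_mem : ∀ (k : ℤ) (z : Z), pr k z ∈ gr k
  pr_same : ∀ {k : ℤ} {z : Z}, z ∈ gr k → pr k z = z
  pr_ne : ∀ {k l : ℤ} {z : Z}, z ∈ gr l → k ≠ l → pr k z = 0
  lo : ℤ
  hi : ℤ
  pr_sum : ∀ z : Z, ∑ k ∈ Finset.Icc lo hi, pr k z = z

attribute [instance] LZ.grp LZ.modK LZ.modC LZ.tower

/-- cell data -/
structure CD (A : DGA K) where
  ι : Type
  s : ι → ℕ
  F : ℕ → Finset ι
  mem_F : ∀ m σ, σ ∈ F m ↔ s σ ≤ m
  e : ι → A.C
  e_mem : ∀ σ, e σ ∈ A.G 0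
  e_idem : ∀ σ, e σ * e σ = e σ
  c : ι → ι → A.C
  c_mem : ∀ σ τ, c σ τ ∈ A.G ((s σ : ℤ) - s τ - 1)
  c_left : ∀ σ τ, e σ * c σ τ = c σ τ
  c_right : ∀ σ τ, c σ τ * e τ = c σ τ

namespace LZ

variable {A : DGA K} (Z : LZ A)

theorem pr_out {l : ℤ} (hl : l ∉ Finset.Icc Z.lo Z.hi) (z : Z.Z) : Z.pr l z = 0 := by
  conv_lhs => rw [← Z.pr_sum z]
  rw [map_sum]
  refine Finset.sum_eq_zero fun k hk => Z.pr_ne (Z.pr_mem k z) ?_
  rintro rfl
  exact hl hk

theorem eq_zero_of_hi {l : ℤ} {z : Z.Z} (hz : z ∈ Z.gr l) (hl : Z.hi < l) : z = 0 := by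
  rw [← Z.pr_same hz]
  exact Z.pr_out (by simp only [Finset.mem_Icc]; omega) z

theorem pr_smul {k l m : ℤ} (hm : m = k + l) {a : A.C} (ha : a ∈ A.G k) (z : Z.Z) :
    Z.pr m (a • z) = a • Z.pr l z := by
  subst hm
  conv_lhs => rw [← Z.pr_sum z]
  rw [Finset.smul_sum, map_sum]
  by_cases hl : l ∈ Finset.Icc Z.lo Z.hi
  · rw [Finset.sum_eq_single l]
    · exact Z.pr_same (Z.smul_mem ha (Z.pr_mem l z))
    · intro j _ hj
      refine Z.pr_ne (Z.smul_mem ha (Z.pr_mem j z)) ?_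
      intro h
      exact hj (by omega)
    · intro h
      exact absurd hl h
  · rw [Z.pr_out hl, smul_zero]
    refine Finset.sum_eq_zero fun j hj => Z.pr_ne (Z.smul_mem ha (Z.pr_mem j z)) ?_
    intro h
    have : l = j := by omega
    exact hl (this ▸ hj)

theorem pr_d {k l : ℤ} (hl : l = k + 1) (z : Z.Z) : Z.pr k (Z.d z) = Z.d (Z.pr l z) := by
  subst hl
  conv_lhs => rw [← Z.pr_sum z]
  rw [map_sum, map_sum]
  by_cases hl : k + 1 ∈ Finset.Icc Z.lo Z.hi
  · rw [Finset.sum_eq_single (k + 1)]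
    · refine Z.pr_same ?_
      have h := Z.d_mem (Z.pr_mem (k + 1) z)
      rwa [show k + 1 - 1 = k by ring] at h
    · intro j _ hj
      refine Z.pr_ne (Z.d_mem (Z.pr_mem j z)) ?_
      intro h
      exact hj (by omega)
    · intro h
      exact absurd hl h
  · rw [Z.pr_out hl, map_zero]
    refine Finset.sum_eq_zero fun j hj => Z.pr_ne (Z.d_mem (Z.pr_mem j z)) ?_
    intro h
    have : k + 1 = j := by omega
    exact hl (this ▸ hj)

end LZ

namespace CD

variable {A : DGA K} (X : CD A)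

theorem c_zero {σ τ : X.ι} (h : X.s σ ≤ X.s τ) : X.c σ τ = 0 :=
  A.neg (X.c_mem σ τ) (by omega)

theorem c_zero' {σ τ : X.ι} (h : τ ∉ X.F (X.s σ)) : X.c σ τ = 0 := by
  rw [X.mem_F] at h
  exact X.c_zero (by omega)

theorem D_e (σ : X.ι) : A.D (X.e σ) = 0 :=
  A.neg (A.D_mem (X.e_mem σ)) (by omega)

end CD

section main

variable {A : DGA K} (X : CD A) (Z : LZ A)

/-- the differential of `Hom(X, Z)` -/
def bd : (X.ι → Z.Z) →ₗ[K] (X.ι → Z.Z) where
  toFun φ σ := Z.d (φ σ) + ∑ τ ∈ X.F (X.s σ), X.c σ τ • φ τ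
  map_add' φ ψ := by
    funext σ
    simp only [Pi.add_apply, map_add, smul_add, Finset.sum_add_distrib]
    abel
  map_smul' r φ := by
    funext σ
    simp only [Pi.smul_apply, map_smul, RingHom.id_apply, smul_add, Finset.smul_sum]
    congr 1
    refine Finset.sum_congr rfl fun τ _ => ?_
    exact smul_algebra_smul_comm r (X.c σ τ) (φ τ)

theorem bd_apply (φ : X.ι → Z.Z) (σ : X.ι) :
    bd X Z φ σ = Z.d (φ σ) + ∑ τ ∈ X.F (X.s σ), X.c σ τ • φ τ := rfl

/-- the degree `p` part of `Hom(X, Z)` -/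
def Hm (p : ℤ) : Submodule K (X.ι → Z.Z) where
  carrier := {φ | (∀ σ, φ σ ∈ Z.gr ((X.s σ : ℤ) - p)) ∧ ∀ σ, X.e σ • φ σ = φ σ}
  add_mem' := by
    rintro φ ψ ⟨h1, h2⟩ ⟨h3, h4⟩
    refine ⟨fun σ => Submodule.add_mem _ (h1 σ) (h3 σ), fun σ => ?_⟩
    rw [Pi.add_apply, smul_add, h2, h4]
  zero_mem' := ⟨fun σ => Submodule.zero_mem _, fun σ => smul_zero _⟩
  smul_mem' := by
    rintro r φ ⟨h1, h2⟩
    refine ⟨fun σ => Submodule.smul_mem _ r (h1 σ), fun σ => ?_⟩
    rw [Pi.smul_apply]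
    exact ((smul_algebra_smul_comm r (X.e σ) (φ σ)).symm ▸ congrArg (r • ·) (h2 σ) :)

variable {X Z}

theorem bd_mem {p q : ℤ} (hq : q = p + 1) {φ : X.ι → Z.Z} (h : φ ∈ Hm X Z p) :
    bd X Z φ ∈ Hm X Z q := by
  subst hq
  obtain ⟨h1, h2⟩ := h
  constructor
  · intro σ
    rw [bd_apply]
    refine Submodule.add_mem _ ?_ (Submodule.sum_mem _ fun τ _ => ?_)
    · have h := Z.d_mem (h1 σ)
      rwa [show (X.s σ : ℤ) - p - 1 = (X.s σ : ℤ) - (p + 1) by ring] at h
    · have h := Z.smul_mem (X.c_mem σ τ) (h1 τ)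
      rwa [show (X.s σ : ℤ) - X.s τ - 1 + ((X.s τ : ℤ) - p) = (X.s σ : ℤ) - (p + 1) by ring] at h
  · intro σ
    rw [bd_apply, smul_add, Finset.smul_sum]
    congr 1
    · have h := Z.leib (X.e σ) (φ σ)
      rw [X.D_e, zero_smul, zero_add, h2] at h
      exact h.symm
    · refine Finset.sum_congr rfl fun τ _ => ?_
      rw [smul_smul, X.c_left]

/-- the support of an element of degree `p` -/
theorem supp {p : ℤ} {φ : X.ι → Z.Z} (h : φ ∈ Hm X Z p) {M : ℕ} (hM : Z.hi + p ≤ M) {σ : X.ι}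
    (hσ : σ ∉ X.F M) : φ σ = 0 := by
  rw [X.mem_F] at hσ
  exact Z.eq_zero_of_hi (h.1 σ) (by omega)

/-- sum over `F (s σ)` equals the sum over `F M` -/
theorem sum_c {p : ℤ} {φ : X.ι → Z.Z} (h : φ ∈ Hm X Z p) {M : ℕ} (hM : Z.hi + p ≤ M) (σ : X.ι) :
    ∑ τ ∈ X.F (X.s σ), X.c σ τ • φ τ = ∑ τ ∈ X.F M, X.c σ τ • φ τ := by
  classical
  have e1 : ∑ τ ∈ X.F (X.s σ), X.c σ τ • φ τ = ∑ τ ∈ X.F (X.s σ) ∪ X.F M, X.c σ τ • φ τ := by
    refine Finset.sum_subset Finset.subset_union_left fun τ _ hτ => ?_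
    rw [X.c_zero' hτ, zero_smul]
  have e2 : ∑ τ ∈ X.F M, X.c σ τ • φ τ = ∑ τ ∈ X.F (X.s σ) ∪ X.F M, X.c σ τ • φ τ := by
    refine Finset.sum_subset Finset.subset_union_right fun τ _ hτ => ?_
    rw [supp h hM hτ, smul_zero]
  rw [e1, e2]

variable (X Z)

/-- **exactness of `(Dual Z) ⊗ X` in degree `p`.** -/
def TEx (p : ℤ) (M M' : ℕ) : Prop :=
  ∀ x : X.ι → (Z.Z →ₗ[K] K),
    (∀ σ l z, z ∈ Z.gr l → l ≠ (X.s σ : ℤ) - p → x σ z = 0) →
    (∀ σ z, x σ (X.e σ • z) = x σ z) →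
    (∀ τ z, x τ (Z.d z) + ∑ σ ∈ X.F M, x σ (X.c σ τ • z) = 0) →
    ∃ y : X.ι → (Z.Z →ₗ[K] K),
      (∀ σ l z, z ∈ Z.gr l → l ≠ (X.s σ : ℤ) - (p + 1) → y σ z = 0) ∧
      (∀ σ z, y σ (X.e σ • z) = y σ z) ∧
      (∀ τ z, x τ z = y τ (Z.d z) + ∑ σ ∈ X.F M', y σ (X.c σ τ • z))

variable {X Z}


/-- multiplication by an element of `C`, as a `K`-linear map -/
def act (Z : LZ A) (a : A.C) : Z.Z →ₗ[K] Z.Z where
  toFun z := a • z
  map_add' := smul_add a
  map_smul' r z := by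
    rw [RingHom.id_apply]
    exact (smul_algebra_smul_comm r a z).symm ▸ rfl

theorem act_apply (Z : LZ A) (a : A.C) (z : Z.Z) : act Z a z = a • z := rfl

/-- **`Hom(X, Z)` is exact in degree `p`.** -/
theorem hom_exact {p : ℤ} {M M' : ℕ} (hM : Z.hi + p ≤ M) (hM' : Z.hi + p + 1 ≤ M')
    (hT : TEx X Z p M M') {φ : X.ι → Z.Z} (hφ : φ ∈ Hm X Z p) (hd : bd X Z φ = 0) :
    ∃ ψ ∈ Hm X Z (p - 1), bd X Z ψ = φ := by
  classical
  by_contra hcon
  have hnot : φ ∉ (Hm X Z (p - 1)).map (bd X Z) := by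
    rintro ⟨ψ, hψ, h⟩
    exact hcon ⟨ψ, hψ, h⟩
  obtain ⟨lam, hl0, hlr⟩ := Submodule.exists_le_ker_of_notMem hnot
  -- the functional as a tensor
  let x : X.ι → (Z.Z →ₗ[K] K) := fun σ =>
    lam ∘ₗ (LinearMap.single K (fun _ : X.ι => Z.Z) σ) ∘ₗ act Z (X.e σ) ∘ₗ Z.pr ((X.s σ : ℤ) - p)
  have x_ap : ∀ σ z, x σ z = lam (Pi.single σ (X.e σ • Z.pr ((X.s σ : ℤ) - p) z)) := by
    intro σ z
    rfl
  have x_of : ∀ {ψ : X.ι → Z.Z}, ψ ∈ Hm X Z p → ∀ σ, x σ (ψ σ) = lam (Pi.single σ (ψ σ)) := by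
    intro ψ hψ σ
    rw [x_ap, Z.pr_same (hψ.1 σ), hψ.2]
  have pair : ∀ {ψ : X.ι → Z.Z}, ψ ∈ Hm X Z p → lam ψ = ∑ σ ∈ X.F M, x σ (ψ σ) := by
    intro ψ hψ
    have e1 : ψ = ∑ σ ∈ X.F M, Pi.single σ (ψ σ) := by
      funext τ
      rw [Finset.sum_apply]
      by_cases hτ : τ ∈ X.F M
      · rw [Finset.sum_eq_single τ]
        · rw [Pi.single_eq_same]
        · intro σ _ hσ
          rw [Pi.single_eq_of_ne hσ.symm]
        · intro h
          exact absurd hτ h
      · rw [supp hψ hM hτ]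
        symm
        refine Finset.sum_eq_zero fun σ hσ => ?_
        rw [Pi.single_eq_of_ne]
        rintro rfl
        exact hτ hσ
    conv_lhs => rw [e1]
    rw [map_sum]
    exact Finset.sum_congr rfl fun σ _ => (x_of hψ σ).symm
  have xsupp : ∀ σ, σ ∉ X.F M → x σ = 0 := by
    intro σ hσ
    ext z
    rw [X.mem_F] at hσ
    rw [x_ap, Z.eq_zero_of_hi (Z.pr_mem _ z) (by omega), smul_zero, Pi.single_zero, map_zero]
    rfl
  have x1 : ∀ σ l z, z ∈ Z.gr l → l ≠ (X.s σ : ℤ) - p → x σ z = 0 := by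
    intro σ l z hz hl
    rw [x_ap, Z.pr_ne hz hl.symm, smul_zero, Pi.single_zero, map_zero]
  have x2 : ∀ σ z, x σ (X.e σ • z) = x σ z := by
    intro σ z
    rw [x_ap, x_ap, Z.pr_smul (k := 0) (l := (X.s σ : ℤ) - p) (by ring) (X.e_mem σ), smul_smul,
      X.e_idem]
  have x3 : ∀ τ z, x τ (Z.d z) + ∑ σ ∈ X.F M, x σ (X.c σ τ • z) = 0 := by
    intro τ z
    set w : Z.Z := X.e τ • Z.pr ((X.s τ : ℤ) - (p - 1)) z with hw
    have hw1 : w ∈ Z.gr ((X.s τ : ℤ) - (p - 1)) := by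
      have h := Z.smul_mem (X.e_mem τ) (Z.pr_mem ((X.s τ : ℤ) - (p - 1)) z)
      rwa [zero_add] at h
    have hw2 : X.e τ • w = w := by
      rw [hw, smul_smul, X.e_idem]
    have hs : (Pi.single τ w : X.ι → Z.Z) ∈ Hm X Z (p - 1) := by
      constructor
      · intro σ
        by_cases h : σ = τ
        · subst h
          rw [Pi.single_eq_same]
          exact hw1
        · rw [Pi.single_eq_of_ne h]
          exact Submodule.zero_mem _
      · intro σ
        by_cases h : σ = τ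
        · subst h
          rw [Pi.single_eq_same]
          exact hw2
        · rw [Pi.single_eq_of_ne h, smul_zero]
    have hb : bd X Z (Pi.single τ w) ∈ Hm X Z p := bd_mem (by ring) hs
    have h0 : lam (bd X Z (Pi.single τ w)) = 0 := hlr ⟨_, hs, rfl⟩
    rw [pair hb] at h0
    have hbσ : ∀ σ, bd X Z (Pi.single τ w) σ = (if σ = τ then Z.d w else 0) + X.c σ τ • w := by
      intro σ
      rw [bd_apply]
      congr 1
      · by_cases h : σ = τ
        · subst h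
          rw [Pi.single_eq_same, if_pos rfl]
        · rw [Pi.single_eq_of_ne h, if_neg h, map_zero]
      · by_cases h : τ ∈ X.F (X.s σ)
        · rw [Finset.sum_eq_single τ]
          · rw [Pi.single_eq_same]
          · intro ρ _ hρ
            rw [Pi.single_eq_of_ne hρ, smul_zero]
          · intro h'
            exact absurd h h'
        · rw [X.c_zero' h, zero_smul]
          refine Finset.sum_eq_zero fun ρ hρ => ?_
          rw [Pi.single_eq_of_ne, smul_zero]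
          rintro rfl
          exact h hρ
    have e1 : x τ (Z.d z) = x τ (Z.d w) := by
      rw [x_ap, x_ap]
      congr 2
      rw [Z.pr_d (l := (X.s τ : ℤ) - (p - 1)) (by ring),
        Z.pr_d (l := (X.s τ : ℤ) - (p - 1)) (by ring), Z.pr_same hw1, hw, Z.leib, X.D_e, zero_smul,
        zero_add, smul_smul, X.e_idem]
    have e2 : ∀ σ, x σ (X.c σ τ • z) = x σ (X.c σ τ • w) := by
      intro σ
      rw [x_ap, x_ap]
      congr 2
      rw [Z.pr_smul (l := (X.s τ : ℤ) - (p - 1)) (by ring) (X.c_mem σ τ),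
        Z.pr_smul (l := (X.s τ : ℤ) - (p - 1)) (by ring) (X.c_mem σ τ), Z.pr_same hw1, hw,
        smul_smul (X.c σ τ) (X.e τ), X.c_right]
    rw [e1, Finset.sum_congr rfl fun σ _ => e2 σ]
    simp only [hbσ, map_add, Finset.sum_add_distrib] at h0
    rw [← h0]
    congr 1
    by_cases hτ : τ ∈ X.F M
    · rw [Finset.sum_eq_single τ]
      · rw [if_pos rfl]
      · intro σ _ hσ
        rw [if_neg hσ, map_zero]
      · intro h
        exact absurd hτ h
    · rw [xsupp τ hτ]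
      symm
      refine Finset.sum_eq_zero fun σ hσ => ?_
      rw [if_neg, map_zero]
      rintro rfl
      exact hτ hσ
  obtain ⟨y, y1, y2, y3⟩ := hT x x1 x2 x3
  apply hl0
  rw [pair hφ, Finset.sum_congr rfl fun τ _ => y3 τ (φ τ), Finset.sum_add_distrib,
    Finset.sum_comm]
  have hMM : X.F M ⊆ X.F (max M M') := by
    intro σ hσ
    rw [X.mem_F] at hσ ⊢
    exact le_trans hσ (le_max_left _ _)
  have hMM' : X.F M' ⊆ X.F (max M M') := by
    intro σ hσ
    rw [X.mem_F] at hσ ⊢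
    exact le_trans hσ (le_max_right _ _)
  have ysupp : ∀ σ, σ ∉ X.F M' → ∀ z, y σ z = 0 := by
    intro σ hσ z
    rw [X.mem_F] at hσ
    rw [← Z.pr_sum z, map_sum]
    refine Finset.sum_eq_zero fun k hk => ?_
    rw [Finset.mem_Icc] at hk
    exact y1 σ k _ (Z.pr_mem k z) (by omega)
  have hA : ∑ τ ∈ X.F M, y τ (Z.d (φ τ)) = ∑ τ ∈ X.F (max M M'), y τ (Z.d (φ τ)) := by
    refine Finset.sum_subset hMM fun τ _ hτ => ?_
    rw [supp hφ hM hτ, map_zero, map_zero]
  have hB : ∑ σ ∈ X.F M', ∑ τ ∈ X.F M, y σ (X.c σ τ • φ τ)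
      = ∑ σ ∈ X.F (max M M'), y σ (∑ τ ∈ X.F (X.s σ), X.c σ τ • φ τ) := by
    rw [Finset.sum_subset hMM' fun σ _ hσ => Finset.sum_eq_zero fun τ _ => ysupp σ hσ _]
    refine Finset.sum_congr rfl fun σ _ => ?_
    rw [sum_c hφ hM, map_sum]
  rw [hA, hB, ← Finset.sum_add_distrib]
  refine Finset.sum_eq_zero fun σ _ => ?_
  rw [← map_add]
  have := congrFun hd σ
  rw [bd_apply] at this
  rw [this, Pi.zero_apply, map_zero]

end main

end Crest.Agent.R186.Dual827
end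

-- ▼ part R186/FinV_988

/-!
Row 186 (A), leaf A.FIN, parts F4 and F5 (helper988).

* `DR Z` : the dual right dg module of a left dg module.
* `tex_of` : exactness of `DR Z ⊗ X` in degree `p` (on `Frame515`) gives 827's `TEx`.
* `hom_ex` : exactness of `Hom(X, Z)` in degree `p`.
* `exV_of`, `pcells` : 462's `PCells` from 515's `Pre` and exactness of `DR V ⊗ X`.
* `zR`, `H_of` : the field `H` of 384's `HIn` from `Ac (tG H X)`.
-/

set_option autoImplicit false
set_option linter.style.haveILetI false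
set_option linter.unusedSectionVars false

open MulOpposite

namespace Crest.Agent.R186.FinV988

open Hat827 Frame515 Res255 SemiFree515 ConeHyp462 Adapt186

variable {K : Type} [Field K] {A : DGA K}

/-! ### the dual right module -/

/-- the right action on the dual -/
noncomputable abbrev dualAct (Z : LM A) : Module A.Cᵐᵒᵖ (Z.X →ₗ[K] K) where
  smul a f := f ∘ₗ lmul Z a.unop
  one_smul f := by
    ext z
    change f ((1 : A.Cᵐᵒᵖ).unop • z) = f z
    rw [unop_one, one_smul]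
  mul_smul a b f := by
    ext z
    change f ((a * b).unop • z) = f (b.unop • (a.unop • z))
    rw [unop_mul, mul_smul]
  smul_zero a := by
    ext z
    rfl
  smul_add a f g := by
    ext z
    rfl
  add_smul a b f := by
    ext z
    change f ((a + b).unop • z) = f (a.unop • z) + f (b.unop • z)
    rw [unop_add, add_smul, map_add]
  zero_smul f := by
    ext z
    change f ((0 : A.Cᵐᵒᵖ).unop • z) = 0
    rw [unop_zero, zero_smul, map_zero]

/-- **the dual right dg module** -/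
noncomputable def DR (Z : LM A) : RM A :=
  letI i1 : Module A.Cᵐᵒᵖ (Z.X →ₗ[K] K) := dualAct Z
  { X := Z.X →ₗ[K] K
    gr := fun k =>
      { carrier := {f | ∀ l z, z ∈ Z.gr l → l ≠ -k → f z = 0}
        add_mem' := fun {f g} hf hg l z hz hl => by
          rw [LinearMap.add_apply, hf l z hz hl, hg l z hz hl, add_zero]
        zero_mem' := fun l z _ _ => rfl
        smul_mem' := fun r f hf l z hz hl => by
          rw [LinearMap.smul_apply, hf l z hz hl, smul_zero] }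
    d :=
      { toFun := fun f => f ∘ₗ Z.d
        map_add' := fun f g => rfl
        map_smul' := fun r f => rfl }
    d_mem := by
      intro k f hf l z hz hl
      exact hf (l - 1) (Z.d z) (Z.d_mem hz) (by omega)
    d_d := by
      intro f
      ext z
      change f (Z.d (Z.d z)) = 0
      rw [Z.d_d, map_zero]
    act := i1
    tower := ⟨fun r a f => by
      ext z
      change f ((r • a).unop • z) = r • f (a.unop • z)
      rw [unop_smul, smul_assoc, map_smul]⟩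
    smul_mem := by
      intro k l a f ha hf m z hz hm
      exact hf (k + m) (a • z) (Z.smul_mem ha hz) (by omega)
    leib := by
      intro a f
      ext z
      change f (a • Z.d z) = f (A.D a • z) + f (Z.d (a • z))
      rw [Z.leib, map_add, ← add_assoc]
      have h : f (A.D a • z) + f (A.D a • z) = 0 := by
        rw [← map_add, ← add_smul, A.two, zero_smul, map_zero]
      rw [h, zero_add] }




/-- evaluation at `z` -/
def dev (Z : LM A) (z : Z.X) : (DR Z).X →ₗ[K] K where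
  toFun f := (show Z.X →ₗ[K] K from f) z
  map_add' _ _ := rfl
  map_smul' _ _ := rfl

theorem DR_ext {Z : LM A} {f g : (DR Z).X} (h : ∀ z, dev Z z f = dev Z z g) : f = g :=
  LinearMap.ext h

theorem dev_d {Z : LM A} (f : (DR Z).X) (z : Z.X) : dev Z z ((DR Z).d f) = dev Z (Z.d z) f := rfl

theorem dev_rmul {Z : LM A} (a : A.C) (f : (DR Z).X) (z : Z.X) :
    dev Z z (rmul (DR Z) a f) = dev Z (a • z) f := rfl

/-! ### 827's letters -/

/-- projections of a left dg module, bounded -/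
structure PrL (Z : LM A) where
  pr : ℤ → Z.X →ₗ[K] Z.X
  pr_mem : ∀ (k : ℤ) (z : Z.X), pr k z ∈ Z.gr k
  pr_same : ∀ {k : ℤ} {z : Z.X}, z ∈ Z.gr k → pr k z = z
  pr_ne : ∀ {k l : ℤ} {z : Z.X}, z ∈ Z.gr l → k ≠ l → pr k z = 0
  lo : ℤ
  hi : ℤ
  pr_sum : ∀ z : Z.X, ∑ k ∈ Finset.Icc lo hi, pr k z = z

/-- 827's module -/
def PrL.lz {Z : LM A} (P : PrL Z) : Dual827.LZ A where
  Z := Z.X
  gr := Z.gr
  smul_mem := Z.smul_mem
  d := Z.d
  d_mem := Z.d_mem
  leib := Z.leib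
  pr := P.pr
  pr_mem := P.pr_mem
  pr_same := P.pr_same
  pr_ne := P.pr_ne
  lo := P.lo
  hi := P.hi
  pr_sum := P.pr_sum

/-- 827's cells -/
def cd (X : LCells A) : Dual827.CD A where
  ι := X.ι
  s := X.s
  F := X.F
  mem_F := X.mem_F
  e := X.e
  e_mem := X.e_mem
  e_idem := X.e_idem
  c := X.c
  c_mem := X.c_mem
  c_left := X.c_left
  c_right := X.c_right

/-- exactness of a complex in one degree -/
def ExAt (X : GC K) (k : ℤ) : Prop :=
  ∀ x ∈ X.gr k, X.d x = 0 → ∃ y ∈ X.gr (k + 1), X.d y = x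


theorem dr_zero {Z : LM A} (P : PrL Z) {k : ℤ} {f : Z.X →ₗ[K] K}
    (hf : ∀ l z, z ∈ Z.gr l → l ≠ -k → f z = 0) (hk : P.hi < -k) : f = 0 := by
  ext z
  rw [← P.pr_sum z, map_sum]
  refine Finset.sum_eq_zero fun j hj => ?_
  rw [Finset.mem_Icc] at hj
  exact hf j _ (P.pr_mem j z) (by omega)

theorem notF {X : LCells A} {M : ℕ} {σ : X.ι} (h : σ ∉ X.F M) : M < X.s σ := by
  by_contra hc
  exact h ((X.mem_F M σ).2 (by omega))

/-- **`DR Z ⊗ X` exact in degree `p` gives 827's `TEx`.** -/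
theorem tex_of {Z : LM A} (P : PrL Z) (X : LCells A) (p : ℤ) (h : ExAt (tG (DR Z) X) p)
    {M M' : ℕ} (hM : P.hi + p ≤ M) (hM' : P.hi + p + 1 ≤ M') :
    Dual827.TEx (cd X) P.lz p M M' := by
  classical
  intro x x1 x2 x3
  have xs : ∀ σ, x σ ≠ 0 → σ ∈ X.F M := by
    intro σ hσ
    by_contra hn
    have hn' : M < X.s σ := notF hn
    exact hσ (dr_zero P (k := p - X.s σ) (fun l z hz hl => x1 σ l z hz (by
      change l ≠ (X.s σ : ℤ) - p
      omega)) (by omega))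
  let x' : X.ι →₀ (DR Z).X := Finsupp.onFinset (X.F M) x xs
  have hx' : ∀ σ, x' σ = x σ := fun σ => rfl
  have hxs : x'.support ⊆ X.F M := Finsupp.support_onFinset_subset
  have hxg : x' ∈ (tG (DR Z) X).gr p := by
    intro σ
    constructor
    · intro l z hz hl
      refine x1 σ l z hz ?_
      change l ≠ (X.s σ : ℤ) - p
      intro h
      apply hl
      change l = -(p - (X.s σ : ℤ))
      omega
    · exact DR_ext fun z => x2 σ z
  have hxd : (tG (DR Z) X).d x' = 0 := by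
    refine Finsupp.ext fun τ => ?_
    have h1 := (twG (DR Z) X).dd_apply' x' (X.F M) hxs τ
    refine h1.trans ?_
    refine DR_ext fun z => ?_
    rw [map_add, map_sum]
    exact x3 τ z
  obtain ⟨y, hy1, hy2⟩ := h x' hxg hxd
  have ys : y.support ⊆ X.F M' := by
    intro σ hσ
    by_contra hn
    have hn' : M' < X.s σ := notF hn
    refine (Finsupp.mem_support_iff.1 hσ) ?_
    refine dr_zero P (k := p + 1 - X.s σ) (hy1 σ).1 ?_
    omega
  refine ⟨fun σ => y σ, fun σ l z hz hl => (hy1 σ).1 l z hz ?_,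
    fun σ z => LinearMap.congr_fun (hy1 σ).2 z, fun τ z => ?_⟩
  · change l ≠ (X.s σ : ℤ) - (p + 1) at hl
    change l ≠ -(p + 1 - (X.s σ : ℤ))
    omega
  · have h1 := (twG (DR Z) X).dd_apply' y (X.F M') ys τ
    have h2 : (twG (DR Z) X).dd y τ = x' τ := DFunLike.congr_fun hy2 τ
    rw [h2] at h1
    have h3 := congrArg (dev Z z) h1
    rw [map_add, map_sum] at h3
    exact h3

/-- **`Hom(X, Z)` is exact in degree `p` if `DR Z ⊗ X` is.** -/
theorem hom_ex {Z : LM A} (P : PrL Z) (X : LCells A) (p : ℤ) (h : ExAt (tG (DR Z) X) p)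
    (φ : X.ι → Z.X) (h1 : ∀ σ, φ σ ∈ Z.gr ((X.s σ : ℤ) - p)) (h2 : ∀ σ, X.e σ • φ σ = φ σ)
    (h3 : ∀ σ, Z.d (φ σ) + ∑ τ ∈ X.F (X.s σ), X.c σ τ • φ τ = 0) :
    ∃ ψ : X.ι → Z.X, (∀ σ, ψ σ ∈ Z.gr ((X.s σ : ℤ) - p + 1)) ∧ (∀ σ, X.e σ • ψ σ = ψ σ) ∧
      ∀ σ, φ σ = Z.d (ψ σ) + ∑ τ ∈ X.F (X.s σ), X.c σ τ • ψ τ := by
  have hM : P.hi + p ≤ ((P.hi + p).toNat : ℤ) := Int.self_le_toNat _
  have hM' : P.hi + p + 1 ≤ ((P.hi + p + 1).toNat : ℤ) := Int.self_le_toNat _
  have hT := tex_of P X p h hM hM'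
  obtain ⟨ψ, hψ, e⟩ := Dual827.hom_exact (X := cd X) (Z := P.lz) hM hM' hT
    (φ := φ) ⟨h1, h2⟩ (funext fun σ => h3 σ)
  refine ⟨ψ, fun σ => ?_, hψ.2, fun σ => ?_⟩
  · have := hψ.1 σ
    change ψ σ ∈ Z.gr ((X.s σ : ℤ) - (p - 1)) at this
    rwa [show (X.s σ : ℤ) - (p - 1) = X.s σ - p + 1 by ring] at this
  · exact (congrFun e σ).symm

/-! ### modules in degree zero -/

/-- the module sits in degree `0` -/
structure Deg0 (N : LM A) : Prop where
  top : ∀ x : N.X, x ∈ N.gr 0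
  bot : ∀ {k : ℤ} {x : N.X}, x ∈ N.gr k → k ≠ 0 → x = 0

theorem Deg0.d {N : LM A} (h : Deg0 N) (x : N.X) : N.d x = 0 :=
  h.bot (N.d_mem (h.top x)) (by omega)

theorem Deg0.D {N : LM A} (h : Deg0 N) (a : A.C) (x : N.X) : A.D a • x = 0 := by
  have := N.leib a x
  rw [h.d, h.d, smul_zero, add_zero] at this
  exact this.symm

/-- projections of a module in degree `0` -/
def Deg0.prl {N : LM A} (h : Deg0 N) : PrL N where
  pr k := if k = 0 then LinearMap.id else 0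
  pr_mem k z := by
    by_cases hk : k = 0
    · subst hk
      exact h.top _
    · rw [if_neg hk]
      exact Submodule.zero_mem _
  pr_same {k z} hz := by
    by_cases hk : k = 0
    · rw [if_pos hk]; rfl
    · rw [if_neg hk, h.bot hz hk]; rfl
  pr_ne {k l z} hz hkl := by
    by_cases hk : k = 0
    · rw [if_pos hk]
      exact h.bot hz (by omega)
    · rw [if_neg hk]; rfl
  lo := 0
  hi := 0
  pr_sum z := by simp

/-- **the field `exV`** -/
theorem exV_of (N : LM A) (h0 : Deg0 N) (X : LCells A)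
    (hT : ∀ k : ℤ, 1 ≤ k → ExAt (tG (DR N) X) k) (m : ℕ) (φ : X.ι → N.X)
    (h1 : ∀ σ, X.s σ ≠ m + 1 → φ σ = 0) (h2 : ∀ σ, X.e σ • φ σ = φ σ)
    (h3 : ∀ σ, X.s σ = m + 2 → ∑ τ ∈ X.F (m + 1), X.c σ τ • φ τ = 0) :
    ∃ ψ : X.ι → N.X, (∀ σ, X.s σ ≠ m → ψ σ = 0) ∧
      ∀ σ, X.s σ = m + 1 → φ σ = ∑ τ ∈ X.F m, X.c σ τ • ψ τ := by
  classical
  obtain ⟨ψ, a1, -, a3⟩ := hom_ex h0.prl X ((m : ℤ) + 1) (hT _ (by omega)) φ
    (fun σ => by
      by_cases hs : X.s σ = m + 1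
      · rw [show (X.s σ : ℤ) - (m + 1) = 0 by rw [hs]; push_cast; ring]
        exact h0.top _
      · rw [h1 σ hs]
        exact Submodule.zero_mem _) h2
    (fun σ => by
      rw [h0.d, zero_add]
      by_cases hs : X.s σ = m + 2
      · rw [hs, ← h3 σ hs]
        symm
        refine Finset.sum_subset (fun τ hτ => ?_) fun τ hτ hτ' => ?_
        · rw [X.mem_F] at hτ ⊢
          omega
        · rw [X.mem_F] at hτ hτ'
          rw [h1 τ (by omega), smul_zero]
      · refine Finset.sum_eq_zero fun τ _ => ?_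
        by_cases ht : X.s τ = m + 1
        · exact h0.bot (N.smul_mem (X.c_mem σ τ) (h0.top (φ τ))) (by omega)
        · rw [h1 τ ht, smul_zero])
  have hψ : ∀ σ, X.s σ ≠ m → ψ σ = 0 := fun σ hs => h0.bot (a1 σ) (by omega)
  refine ⟨ψ, hψ, fun σ hs => ?_⟩
  rw [a3 σ, h0.d, zero_add, hs]
  symm
  refine Finset.sum_subset (fun τ hτ => ?_) fun τ hτ hτ' => ?_
  · rw [X.mem_F] at hτ ⊢
    omega
  · rw [X.mem_F] at hτ hτ'
    rw [hψ τ (by omega), smul_zero]

/-- left cells of 515's `Pre` -/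
def lpre {V : Type} [AddCommGroup V] [Module K V] [Module A.C V] (X : Pre A V) : LCells A where
  ι := X.ι
  s := X.s
  F := X.F
  mem_F := X.mem_F
  e := X.e
  e_mem := X.e_mem
  e_idem := X.e_idem
  c := X.c
  c_mem := X.c_mem
  c_left := X.c_left
  c_right := X.c_right
  mc := X.mc

/-- left cells of 462's `PCells` -/
def lpc (X : PCells A) : LCells A where
  ι := X.ι
  s := X.s
  F := X.F
  mem_F := X.mem_F
  e := X.e
  e_mem := X.e_mem
  e_idem := X.e_idem
  c := X.c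
  c_mem := X.c_mem
  c_left := X.c_left
  c_right := X.c_right
  mc := X.mc

/-- **462's `PCells` from any resolution and exactness of `DR V ⊗ X` in positive degrees** -/
noncomputable def pcells (N : LM A) [Module.Finite K N.X] [Nontrivial N.X] (h0 : Deg0 N)
    (X : Pre A N.X) (hT : ∀ k : ℤ, 1 ≤ k → ExAt (tG (DR N) (lpre X)) k) : PCells A where
  V := N.X
  dpos x _ w := h0.D x w
  ι := X.ι
  s := X.s
  F := X.F
  mem_F := X.mem_F
  e := X.e
  e_mem := X.e_mem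
  e_idem := X.e_idem
  c := X.c
  c_mem := X.c_mem
  c_left := X.c_left
  c_right := X.c_right
  mc := X.mc
  v := X.v
  v_e := X.v_e
  v_zero := X.v_zero
  v_aug := X.v_aug
  exR := X.exR
  exR0 := X.exR0
  gen := X.gen
  exV := exV_of N h0 (lpre X) hT


/-! ### `H` as a right dg module -/

section zr

variable (I : In A)

/-- the right action -/
noncomputable abbrev zAct : Module A.Cᵐᵒᵖ I.Z where
  smul a z := I.Rr a.unop z
  one_smul z := I.R_one z
  mul_smul a b z := I.R_mul b.unop a.unop z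
  smul_zero a := map_zero _
  smul_add a := map_add _
  add_smul a b z := by
    change I.Rr (a.unop + b.unop) z = _
    rw [map_add]
    rfl
  zero_smul z := by
    change I.Rr 0 z = 0
    rw [map_zero]
    rfl

/-- `H` as a right dg module -/
noncomputable def zR : RM A :=
  letI i1 : Module A.Cᵐᵒᵖ I.Z := zAct I
  { X := I.Z
    gr := I.gs.G
    d := I.dZ
    d_mem := fun h => I.dZ_deg h
    d_d := I.dZZ
    act := i1
    tower := ⟨fun r a z => by
      change I.Rr (r • a.unop) z = r • I.Rr a.unop z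
      rw [map_smul]
      rfl⟩
    smul_mem := fun {k l a z} ha hz => by
      have := I.R_deg ha hz
      rwa [add_comm] at this
    leib := fun a z => by
      change I.dZ (I.Rr a z) = I.Rr (A.D a) z + I.Rr a (I.dZ z)
      rw [I.R_D]
      have h : I.Rr a (I.dZ z) + I.Rr a (I.dZ z) = 0 := by
        rw [← LinearMap.add_apply, ← map_add, A.two, map_zero, LinearMap.zero_apply]
      rw [add_assoc, h, add_zero] }


variable (X : PCells A)

/-- **the field `H` of `HIn`** -/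
theorem H_of (h : Ac (tG (zR I) (lpc X))) (m : ℕ) (y : X.ι → I.Z)
    (h1 : ∀ σ, y σ ∈ I.gs.G ((m : ℤ) - X.s σ)) (h2 : ∀ σ, I.Rr (X.e σ) (y σ) = y σ)
    (h3 : ∀ τ, I.dZ (y τ) + ∑ σ ∈ X.F m, I.Rr (X.c σ τ) (y σ) = 0) :
    ∃ z : X.ι → I.Z, (∀ σ, z σ ∈ I.gs.G ((m : ℤ) + 1 - X.s σ)) ∧
      (∀ σ, I.Rr (X.e σ) (z σ) = z σ) ∧
      ∀ τ, y τ = I.dZ (z τ) + ∑ σ ∈ X.F (m + 1), I.Rr (X.c σ τ) (z σ) := by
  classical
  have neg : ∀ {k : ℤ} {z : I.Z}, z ∈ I.gs.G k → k < 0 → z = 0 := by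
    intro k z hz hk
    rw [← I.gs.total z]
    refine Finset.sum_eq_zero fun j _ => ?_
    rw [← (I.gs.mem_G).1 hz]
    exact I.gs.pr_ne _ _ _ (by omega)
  have ys : ∀ σ, y σ ≠ 0 → σ ∈ X.F m := by
    intro σ hσ
    by_contra hn
    have hn' : m < X.s σ := notF (X := lpc X) hn
    exact hσ (neg (h1 σ) (by omega))
  let y' : (lpc X).ι →₀ (zR I).X := Finsupp.onFinset (X.F m) y ys
  have hys : y'.support ⊆ X.F m := Finsupp.support_onFinset_subset
  have hyg : y' ∈ (tG (zR I) (lpc X)).gr m := fun σ => ⟨h1 σ, h2 σ⟩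
  have hyd : (tG (zR I) (lpc X)).d y' = 0 := by
    refine Finsupp.ext fun τ => ?_
    have e1 := (twG (zR I) (lpc X)).dd_apply' y' (X.F m) hys τ
    exact e1.trans (h3 τ)
  obtain ⟨z, hz1, hz2⟩ := h m y' hyg hyd
  have zs : z.support ⊆ X.F (m + 1) := by
    intro σ hσ
    by_contra hn
    have hn' : m + 1 < X.s σ := notF (X := lpc X) hn
    have e := (hz1 σ).1
    change z σ ∈ I.gs.G ((m : ℤ) + 1 - X.s σ) at e
    exact (Finsupp.mem_support_iff.1 hσ) (neg e (by omega))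
  refine ⟨fun σ => z σ, fun σ => (hz1 σ).1, fun σ => (hz1 σ).2, fun τ => ?_⟩
  have e1 := (twG (zR I) (lpc X)).dd_apply' z (X.F (m + 1)) zs τ
  have e2 : (twG (zR I) (lpc X)).dd z τ = y τ := DFunLike.congr_fun hz2 τ
  rw [e2] at e1
  exact e1

end zr

end Crest.Agent.R186.FinV988
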