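import Crest.Agent.R186.C2pp_655
import Crest.Agent.R186.C1R_808
import Crest.Agent.R186.WL_221

/-!
Row 186, half (A), leaf A.C1 (helper655): (c2''), the instance `WA` for `L'' → L`.

`prHm π : Hm (WR π).dga (WL π).dga` (221's `prW`), `waR π : WA (prHm π) PBW128.Y`: the four
`W`-letters and `pi = y_0 y_1` as diagonal window matrices acting on `L''` from the right, in
helper808's right normal form `r = ∑ q, zc q r * wq q` (`kill r = zc one r`).
-/

set_option autoImplicit false
set_option linter.style.haveILetI false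
set_option linter.unusedSectionVars false

noncomputable section

namespace Crest.Agent.R186.C2W655

open Crest.Agent.R186.DefsQ830 Crest.Agent.R186.PBW128 Crest.Agent.R186.Der580
open Crest.Agent.R186.Win810 Crest.Agent.R186.C2b44 Crest.Agent.R186.WL221
open Crest.Agent.R186.C1R808 Crest.Agent.R186.Res255 Crest.Agent.R186.C2pp655
open Crest.Agent.R186.SM890 (nf1 nf_eq)

variable {K : Type} [Field K] (π : Par K)

/-! ### global part -/

/-- `kill` is the first component of the right normal form -/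
theorem kill_eq_zc (r : R π) : kill π r = zc π .one r := by
  refine R_span π (Q := fun r => kill π r = zc π .one r) ?_ ?_ ?_ ?_ r
  · rw [map_zero, map_zero]
  · intro r s h1 h2
    rw [map_add, map_add, h1, h2]
  · intro c r h
    rw [map_smul, map_smul, h]
  · intro i j k w q
    rw [kill_nf, zc_nf]
    by_cases h : q = .one
    · subst h
      simp [nf1]
    · simp [h]

/-- the coefficient of `pi` in `r * y_a` -/
def ep : Y → R π →ₗ[K] R π
  | .y s => if s = 0 then π.p • zc π (.y 1) else zc π (.y 0)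
  | .yb _ => 0

/-- `W`-letter as basis element of `W` -/
def yq : Y → Wb
  | .y s => .y s
  | .yb s => .yb s

theorem wq_yq (a : Y) : wq π (yq a) = X π a.toGen := by
  cases a with
  | y s => exact wq_y π s
  | yb s => exact wq_yb π s

theorem mul_wq_eq (r : R π) (b : Wb) :
    r * wq π b = ∑ q, wk2 π q b • (zc π q r * wq π (wt2 q b)) := by
  conv_lhs => rw [← zc_sum π r]
  rw [Finset.sum_mul]
  refine Finset.sum_congr rfl fun q _ => ?_
  rw [mul_assoc, wq_mul_wq, mul_smul_comm]

theorem sum_Wb {M : Type*} [AddCommMonoid M] (f : Wb → M) :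
    ∑ q, f q = f .one + f (.y 0) + f (.y 1) + f (.yb 0) + f (.yb 1) + f .pi := by
  rw [show (Finset.univ : Finset Wb) = {.one, .y 0, .y 1, .yb 0, .yb 1, .pi} from by decide]
  rw [Finset.sum_insert (by decide), Finset.sum_insert (by decide), Finset.sum_insert (by decide),
    Finset.sum_insert (by decide), Finset.sum_insert (by decide), Finset.sum_singleton]
  simp only [add_assoc]

theorem sum_Y {M : Type*} [AddCommMonoid M] (f : Y → M) :
    ∑ a, f a = f (.y 0) + f (.y 1) + f (.yb 0) + f (.yb 1) := by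
  rw [show (Finset.univ : Finset Y) = {.y 0, .y 1, .yb 0, .yb 1} from by decide]
  rw [Finset.sum_insert (by decide), Finset.sum_insert (by decide), Finset.sum_insert (by decide),
    Finset.sum_singleton]
  simp only [add_assoc]

theorem mul_Y_eq (r : R π) (a : Y) :
    r * X π a.toGen = zc π .one r * wq π (yq a) + ep π a r * wq π .pi := by
  rw [← wq_yq, mul_wq_eq, sum_Wb]
  cases a with
  | y s =>
    rcases fin2 s with rfl | rfl
    · simp [wk2, wt2, yq, ep]
    · simp [wk2, wt2, yq, ep]
  | yb s => simp [wk2, wt2, yq, ep]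

theorem mul_pi_eq (r : R π) : r * wq π .pi = zc π .one r * wq π .pi := by
  rw [mul_wq_eq, sum_Wb]
  simp [wk2, wt2]

theorem yq_ne_one (a : Y) : yq a ≠ .one := by cases a <;> simp [yq]
theorem yq_ne_pi (a : Y) : yq a ≠ .pi := by cases a <;> simp [yq]

theorem yq_inj {a b : Y} (h : yq a = yq b) : a = b := by
  cases a <;> cases b <;> simp_all [yq]

theorem ep_mem0 (a : Y) (r : R π) : ep π a r ∈ Z0 π := by
  cases a with
  | y s =>
    rcases fin2 s with rfl | rfl
    · exact Submodule.smul_mem _ _ (zc_mem π _ r)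
    · exact zc_mem π _ r
  | yb s => exact Submodule.zero_mem _

theorem zc_mul_Y (r : R π) (a b : Y) :
    zc π (yq b) (r * X π a.toGen) = if a = b then zc π .one r else 0 := by
  rw [mul_Y_eq, map_add, zc_mul_wq π _ _ (zc_mem π _ r), zc_mul_wq π _ _ (ep_mem0 π a r),
    if_neg (Ne.symm (yq_ne_pi b)), add_zero]
  by_cases h : a = b
  · subst h; simp
  · rw [if_neg h, if_neg fun h' => h (yq_inj h')]

theorem zc_mul_pi (r : R π) (b : Y) : zc π (yq b) (r * wq π .pi) = 0 := by
  rw [mul_pi_eq, zc_mul_wq π _ _ (zc_mem π _ r), if_neg (Ne.symm (yq_ne_pi b))]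

theorem zc_pi_mul_pi (r : R π) : zc π .pi (r * wq π .pi) = zc π .one r := by
  rw [mul_pi_eq, zc_mul_wq π _ _ (zc_mem π _ r), if_pos rfl]

/-- the operators of (hW) -/
def hq : Y → R π →ₗ[K] R π
  | .y s => if s = 0 then zc π (.y 0) else
      zc π (.y 1) + (LinearMap.mulRight K (X π (.y 0))) ∘ₗ zc π .pi
  | .yb s => zc π (.yb s)

theorem sum_hq {r : R π} (h : kill π r = 0) : r = ∑ a, hq π a r * X π a.toGen := by
  rw [kill_eq_zc] at h
  conv_lhs => rw [← zc_sum π r]
  rw [sum_Wb, sum_Y, h]
  simp only [zero_mul, zero_add, hq, wq_y, wq_yb, wq_pi, Y.toGen, if_true,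
    show ((1 : Fin 2) = 0) = False from by simp, if_false, LinearMap.add_apply,
    LinearMap.comp_apply, LinearMap.mulRight_apply, add_mul, mul_assoc]
  abel

/-- degree of a `W`-letter -/
def dy (a : Y) : ℕ := a.toGen.dC

/-- degree of `pi` -/
def dpi : ℕ := wC (Wb.pi.word)

theorem dpi_eq : dpi = dy (.y 0) + dy (.y 1) := by
  simp [dpi, dy, wC, Wb.word, Y.toGen]

theorem wC_y (s : Fin 2) : wC (Wb.y s).word = dy (.y s) := by
  simp [dy, wC, Wb.word, Y.toGen]

theorem wC_yb (s : Fin 2) : wC (Wb.yb s).word = dy (.yb s) := by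
  simp [dy, wC, Wb.word, Y.toGen]

theorem XY_mem (a : Y) : X π a.toGen ∈ pcZ π 0 0 (dy a) := by
  have h := nf_mem_pcZ π (0, 0, 0, [], yq a) (P := 0) (A := 0) (C := dy a) (by simp [dPx])
    (by simp [dAx]) (by
      cases a with
      | y s => simp [dCx, yq, wC_y]
      | yb s => simp [dCx, yq, wC_yb])
  have e : nf π (0, 0, 0, [], yq a) = X π a.toGen := by
    rw [← wq_yq]
    simp [nf, we_nil]
  rwa [e] at h

theorem pi_mem : wq π .pi ∈ pcZ π 0 0 dpi := by
  have h := nf_mem_pcZ π (0, 0, 0, [], .pi) (P := 0) (A := 0) (C := dpi) (by simp [dPx])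
    (by simp [dAx]) (by simp [dCx, dpi])
  have e : nf π (0, 0, 0, [], .pi) = wq π .pi := by simp [nf, we_nil]
  rwa [e] at h

theorem hq_mem (a : Y) {P A C : ℤ} {r : R π} (hr : r ∈ pcZ π P A C) :
    hq π a r ∈ pcZ π P A (C - dy a) := by
  cases a with
  | y s =>
    rcases fin2 s with rfl | rfl
    · have := zc_pcZ π (.y 0) hr
      rw [wC_y] at this
      exact this
    · have h1 := zc_pcZ π (.y 1) hr
      rw [wC_y] at h1
      have h2 := pcZ_mul π (zc_pcZ π .pi hr) (XY_mem π (.y 0))
      rw [show wC Wb.pi.word = dy (.y 0) + dy (.y 1) from dpi_eq, add_zero, add_zero] at h2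
      rw [show C - ((dy (.y 0) + dy (.y 1) : ℕ) : ℤ) + (dy (.y 0) : ℕ) = C - (dy (.y 1) : ℕ) by
        push_cast; ring] at h2
      exact Submodule.add_mem _ h1 h2
  | yb s =>
    have := zc_pcZ π (.yb s) hr
    rw [wC_yb] at this
    exact this

theorem ep_mem (a : Y) {P A C : ℤ} {r : R π} (hr : r ∈ pcZ π P A C) :
    ep π a r ∈ pcZ π P A (C + dy a - dpi) := by
  cases a with
  | y s =>
    rcases fin2 s with rfl | rfl
    · have := zc_pcZ π (.y 1) hr
      rw [wC_y] at this
      rw [show C + (dy (.y 0) : ℤ) - (dpi : ℕ) = C - (dy (.y 1) : ℕ) by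
        rw [dpi_eq]; push_cast; ring]
      exact Submodule.smul_mem _ _ this
    · have := zc_pcZ π (.y 0) hr
      rw [wC_y] at this
      rw [show C + (dy (.y 1) : ℤ) - (dpi : ℕ) = C - (dy (.y 0) : ℕ) by
        rw [dpi_eq]; push_cast; ring]
      exact this
  | yb s => exact Submodule.zero_mem _

theorem D_XY (a : Y) : D π (X π a.toGen) = 0 := by
  rw [← wq_yq]
  exact C1R808.D_wq π _

theorem kill_XY (a : Y) : kill π (X π a.toGen) = 0 := by
  cases a with
  | y s => exact kill_y π s
  | yb s => exact kill_yb π s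

/-! ### window part, generic -/

section gen

variable {w : WD K}

/-- a diagonal window matrix -/
def dgw (w : WD K) (a : w.S) (c : ℤ) (ha : a ∈ w.pc 0 0 c) : w.Win :=
  ⟨Matrix.diagonal fun _ => a, fun i j => by
    by_cases h : i = j
    · subst h
      rw [Matrix.diagonal_apply_eq]
      refine WD.q_le (w := w) i i c ?_
      unfold WD.q
      rw [sub_self, sub_self]
      exact ha
    · rw [Matrix.diagonal_apply_ne _ h]
      exact Submodule.zero_mem _⟩

theorem dgw_mem (a : w.S) (c : ℤ) (ha : a ∈ w.pc 0 0 c) : dgw w a c ha ∈ w.G c := by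
  intro i j
  change Matrix.diagonal (fun _ => a) i j ∈ _
  by_cases h : i = j
  · subst h
    rw [Matrix.diagonal_apply_eq]
    unfold WD.q
    rw [sub_self, sub_self]
    exact ha
  · rw [Matrix.diagonal_apply_ne _ h]
    exact Submodule.zero_mem _

theorem mul_dgw (m : w.Win) (a : w.S) (c : ℤ) (ha : a ∈ w.pc 0 0 c) (i j : w.Ob) :
    (m * dgw w a c ha).1 i j = m.1 i j * a := by
  exact Matrix.mul_diagonal (fun _ => a) m.1 i j

theorem dgw_mul (m : w.Win) (a : w.S) (c : ℤ) (ha : a ∈ w.pc 0 0 c) (i j : w.Ob) :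
    (dgw w a c ha * m).1 i j = a * m.1 i j := by
  exact Matrix.diagonal_mul (fun _ => a) m.1 i j

theorem dgw_D (a : w.S) (c : ℤ) (ha : a ∈ w.pc 0 0 c) (h : w.D a = 0) :
    w.DW (dgw w a c ha) = 0 := by
  apply Subtype.ext
  ext i j : 2
  change w.D (Matrix.diagonal (fun _ => a) i j) = 0
  by_cases hij : i = j
  · subst hij
    rw [Matrix.diagonal_apply_eq, h]
  · rw [Matrix.diagonal_apply_ne _ hij, map_zero]

theorem Win_sum {ι : Type} (s : Finset ι) (f : ι → w.Win) (i j : w.Ob) :
    (∑ a ∈ s, f a).1 i j = ∑ a ∈ s, (f a).1 i j := by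
  rw [AddSubmonoidClass.coe_finsetSum, Matrix.sum_apply]

/-- entrywise homogeneous operators -/
theorem ent (f : w.S →ₗ[K] w.S) (l : ℤ)
    (hf : ∀ (P A C : ℤ) (r : w.S), r ∈ w.pc P A C → f r ∈ w.pc P A (C + l)) {k : ℤ}
    {m : w.Win} (hm : m ∈ w.G k) :
    ∃ c ∈ w.G (k + l), ∀ i j, c.1 i j = f (m.1 i j) := by
  have h : ∀ i j, f (m.1 i j) ∈ w.q i j (k + l) := fun i j => hf _ _ _ _ (hm i j)
  exact ⟨⟨Matrix.of fun i j => f (m.1 i j), fun i j => WD.q_le (w := w) i j _ (h i j)⟩, h,
    fun i j => rfl⟩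

end gen

/-! ### window part for `R''` -/

/-- `L'' → L` in 255's form -/
def prHm : Hm (WR π).dga (WL π).dga where
  f := prW π
  mem := prW_mem
  D m := prW_D m

variable {π}

/-- the entries of a window matrix -/
def en (m : (WR π).Win) (i j : DefsQ830.Ob) : R π := m.1 i j

theorem en_ext {m n : (WR π).Win} (h : ∀ i j, en m i j = en n i j) : m = n := by
  apply Subtype.ext
  ext i j : 2
  exact h i j

theorem en_zero (i j : DefsQ830.Ob) : en (0 : (WR π).Win) i j = 0 := rfl

theorem en_sum (f : Y → (WR π).Win) (i j : DefsQ830.Ob) :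
    en (∑ a, f a) i j = ∑ a, en (f a) i j := Win_sum _ _ _ _

variable (π) in
/-- `y_a` in the window -/
def yW (a : Y) : (WR π).Win := dgw (WR π) (X π a.toGen) (dy a) (XY_mem π a)

variable (π) in
/-- `pi` in the window -/
def piW : (WR π).Win := dgw (WR π) (wq π .pi) dpi (pi_mem π)

theorem en_mul_yW (m : (WR π).Win) (a : Y) (i j : DefsQ830.Ob) :
    en (m * yW π a) i j = en m i j * X π a.toGen := mul_dgw (w := WR π) m _ _ _ i j

theorem en_mul_piW (m : (WR π).Win) (i j : DefsQ830.Ob) :
    en (m * piW π) i j = en m i j * wq π .pi := mul_dgw (w := WR π) m _ _ _ i j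


theorem en_piW_mul (m : (WR π).Win) (i j : DefsQ830.Ob) :
    en (piW π * m) i j = wq π .pi * en m i j := dgw_mul (w := WR π) m _ _ _ i j

theorem prW_eq_zero {m : (WR π).Win} : prW π m = 0 ↔ ∀ i j, kill π (en m i j) = 0 := by
  constructor
  · intro h i j
    have h1 : (prW π m).1 i j = 0 := by rw [h]; rfl
    exact prL_eq_zero.1 h1
  · intro h
    apply Subtype.ext
    ext i j : 2
    exact prL_eq_zero.2 (h i j)

theorem prW_of_eq_diag (a : R π) (c : ℤ) (ha : a ∈ (WR π).pc 0 0 c) (h : kill π a = 0) :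
    prW π (dgw (WR π) a c ha) = 0 := by
  refine prW_eq_zero.2 fun i j => ?_
  have h1 : en (dgw (WR π) a c ha) i j = if i = j then a else 0 :=
    Matrix.diagonal_apply (n := DefsQ830.Ob) (fun _ => a) i j
  rw [h1]
  split_ifs
  · exact h
  · exact map_zero _

variable (π) in
/-- **the instance** -/
def waR : WA (prHm π) Y where
  y := yW π
  δ := dy
  pi := piW π
  δp := dpi
  y_mem a := dgw_mem (w := WR π) _ _ _
  pi_mem := dgw_mem (w := WR π) _ _ _
  y_D a := dgw_D (w := WR π) _ _ _ (D_XY π a)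
  pi_D := dgw_D (w := WR π) _ _ _ (C1R808.D_wq π _)
  pr_y a := prW_of_eq_diag _ _ _ (kill_XY π a)
  pr_pi := prW_of_eq_diag _ _ _ (by rw [kill_wq, if_neg (by decide)])
  lift hb := prW_surj_G hb
  hW {k m} hm hk := by
    have hm' := prW_eq_zero.1 hm
    have h : ∀ a, ∃ c ∈ (WR π).G (k + -(dy a : ℤ)), ∀ i j, c.1 i j = hq π a (m.1 i j) := fun a =>
      ent (w := WR π) (hq π a) (-(dy a : ℤ)) (fun P A C r hr => by
        rw [← sub_eq_add_neg]; exact hq_mem π a hr) hk
    choose c hc hce using h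
    refine ⟨c, fun a => ?_, ?_⟩
    · have := hc a
      rwa [← sub_eq_add_neg] at this
    · refine en_ext fun i j => ?_
      refine (sum_hq π (hm' i j)).trans (Eq.trans (Finset.sum_congr rfl fun a _ => ?_)
        (en_sum (fun a => c a * yW π a) i j).symm)
      exact (congrArg (· * X π a.toGen) (hce a i j).symm).trans (en_mul_yW (c a) a i j).symm
  yW {k m} a hm hk := by
    have hm' := prW_eq_zero.1 hm
    obtain ⟨c, hc, hce⟩ := ent (w := WR π) (ep π a) ((dy a : ℤ) - dpi) (fun P A C r hr => by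
      rw [← add_sub_assoc]; exact ep_mem π a hr) hk
    refine ⟨c, ?_, ?_⟩
    · rwa [← add_sub_assoc] at hc
    · refine en_ext fun i j => ?_
      have h1 : en m i j * X π a.toGen = ep π a (en m i j) * wq π .pi := by
        rw [mul_Y_eq, ← kill_eq_zc, hm' i j, zero_mul, zero_add]
      exact (en_mul_yW m a i j).trans (h1.trans ((congrArg (· * wq π .pi) (hce i j).symm).trans
        (en_mul_piW c i j).symm))
  piW m hm := by
    have hm' := prW_eq_zero.1 hm
    refine en_ext fun i j => ?_
    refine (en_mul_piW m i j).trans ?_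
    rw [mul_pi_eq, ← kill_eq_zc, hm' i j, zero_mul]
    rfl
  fr1 c := by
    change Y → (WR π).Win at c
    rintro ⟨x, hx⟩ b
    change (WR π).Win at x
    refine prW_eq_zero.2 fun i j => ?_
    have h : ∑ a, en (c a) i j * X π a.toGen = en x i j * wq π .pi := by
      refine Eq.trans (Finset.sum_congr rfl fun a _ => (en_mul_yW (c a) a i j).symm) ?_
      refine (en_sum (fun a => (c a * yW π a : (WR π).Win)) i j).symm.trans ?_
      refine Eq.trans ?_ (en_mul_piW x i j)
      exact congrArg (fun m : (WR π).Win => en m i j) hx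
    have h2 := congrArg (zc π (yq b)) h
    rw [zc_mul_pi, map_sum, Finset.sum_eq_single b] at h2
    · rw [zc_mul_Y, if_pos rfl, ← kill_eq_zc] at h2
      exact h2
    · intro a _ hab
      rw [zc_mul_Y, if_neg hab]
    · intro h
      exact absurd (Finset.mem_univ b) h
  fr2 c hc := by
    refine prW_eq_zero.2 fun i j => ?_
    have h : en c i j * wq π .pi = 0 :=
      (en_mul_piW c i j).symm.trans (congrArg (fun m : (WR π).Win => en m i j) hc)
    have h2 := congrArg (zc π .pi) h
    rw [zc_pi_mul_pi, map_zero, ← kill_eq_zc] at h2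
    exact h2

end Crest.Agent.R186.C2W655
end
private theorem rz_3db0f68685 : type_of% @_root_.Crest.Agent.R186.C2W655.ep.eq_1 := @_root_.Crest.Agent.R186.C2W655.ep.eq_1 -- L46
private theorem rz_fecb1e7753 : type_of% @_root_.Crest.Agent.R186.C2W655.hq.eq_1 := @_root_.Crest.Agent.R186.C2W655.hq.eq_1 -- L124
private theorem rz_20eff09389 : type_of% @_root_.Crest.Agent.R186.C2W655.yq.eq_1 := @_root_.Crest.Agent.R186.C2W655.yq.eq_1 -- L51
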