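import Crest.Agent.R186.PBWr_128
import Crest.Agent.R186.Cells1_221
import Crest.Agent.R186.WinR_810

/-!
# Row 186, leaf C2b (helper44): the sixteen cells resolve `V_{-1}` modulo the W-letters

`kill π : R π →ₐ[K] R π` sends the four W-letters to `0` and fixes the other letters; `kill r = 0`
is the two-sided `D`-stable graded ideal `J` of the W-letters.

`c0 : Cell → Cell → R π`, `c0 (some l) none = X l`, `c0 (some l) (some l') = cf l l'`, `c0 none _ = 0`;
`bd x τ = D (x τ) + Σ_σ x σ * c0 σ τ`.
-/

set_option autoImplicit false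

noncomputable section

namespace Crest.Agent.R186.C2b44

open Crest.Agent.R186.DefsQ830 Crest.Agent.R186.PBW128 Crest.Agent.R186.Der580
open Crest.Agent.R186.Cells221 Crest.Agent.R186.Win810

variable {K : Type} [Field K] (π : Par K)

/-- value of `kill` on letters -/
def kg : Gen → R π
  | .y _ => 0
  | .yb _ => 0
  | a => X π a

theorem kg_of {a : Gen} (h : a.isW = false) : kg π a = X π a := by
  cases a <;> first | rfl | (simp [Gen.isW] at h)

theorem kg_W {a : Gen} (h : a.isW = true) : kg π a = 0 := by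
  cases a <;> first | rfl | (simp [Gen.isW] at h)

/-- the lift to the free algebra -/
def kF : F K →ₐ[K] R π := FreeAlgebra.lift K (kg π)

@[simp] theorem kF_L (a : Gen) : kF π (L K a) = kg π a := by simp [kF, L]


theorem kF_rel {a b : F K} (h : Rel π a b) : kF π a = kF π b := by
  have h2 := mk_rel π h
  cases h with
  | hc a =>
    rw [map_mul, map_mul, kF_L, kF_L, show kg π .h = X π .h from rfl]
    by_cases ha : a.isW = true
    · rw [kg_W π ha, mul_zero, zero_mul]
    · rw [kg_of π (by simpa using ha)]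
      simpa [mk_L] using h2
  | _ => simpa [kg, mk_L] using h2

/-- kill the W-letters -/
def kill : R π →ₐ[K] R π := RingQuot.liftAlgHom K ⟨kF π, fun _ _ h => kF_rel π h⟩

@[simp] theorem kill_mk (a : F K) : kill π (mk π a) = kF π a := by
  simp [kill, mk]

theorem kill_X (a : Gen) : kill π (X π a) = kg π a := by
  rw [← mk_L, kill_mk, kF_L]

@[simp] theorem kill_E (l : E) : kill π (X π l.toGen) = X π l.toGen := by
  rw [kill_X]; cases l <;> rfl

@[simp] theorem kill_x (i : Fin 2) : kill π (X π (.x i)) = X π (.x i) := kill_X π _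
@[simp] theorem kill_h : kill π (X π .h) = X π .h := kill_X π _
@[simp] theorem kill_d (i : Fin 2) : kill π (X π (.d i)) = X π (.d i) := kill_X π _
@[simp] theorem kill_f : kill π (X π .f) = X π .f := kill_X π _
@[simp] theorem kill_z (i : Fin 2) : kill π (X π (.z i)) = X π (.z i) := kill_X π _
@[simp] theorem kill_zc : kill π (X π .zc) = X π .zc := kill_X π _
@[simp] theorem kill_u (i : Fin 2) : kill π (X π (.u i)) = X π (.u i) := kill_X π _
@[simp] theorem kill_e (i : Fin 2) : kill π (X π (.e i)) = X π (.e i) := kill_X π _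
@[simp] theorem kill_gj (i : Fin 2) : kill π (X π (.gj i)) = X π (.gj i) := kill_X π _
@[simp] theorem kill_gc : kill π (X π .gc) = X π .gc := kill_X π _
@[simp] theorem kill_v (i : Fin 2) : kill π (X π (.v i)) = X π (.v i) := kill_X π _
@[simp] theorem kill_y (i : Fin 2) : kill π (X π (.y i)) = 0 := kill_X π _
@[simp] theorem kill_yb (i : Fin 2) : kill π (X π (.yb i)) = 0 := kill_X π _

theorem kill_kill (r : R π) : kill π (kill π r) = kill π r := by
  refine PBW128.R_ind π (P := fun r => kill π (kill π r) = kill π r) ?_ ?_ ?_ ?_ r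
  · intro c; rw [AlgHom.commutes, AlgHom.commutes]
  · intro a; cases a <;> simp
  · intro a b ha hb; rw [map_mul, map_mul, ha, hb]
  · intro a b ha hb; rw [map_add, map_add, ha, hb]

theorem kill_tR : kill π (tR π) = tR π := by simp [tR]


theorem kill_cf (l l' : E) : kill π (cf π l l') = cf π l l' := by
  cases l <;> cases l' <;> simp only [cf, map_zero] <;>
    (try split_ifs) <;> simp [kill_tR]

theorem kill_yp (l : E) : kill π (yp π l) = 0 := by
  cases l <;> simp [yp]

theorem kill_yc (l l' : E) : kill π (yc π l l') = 0 := by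
  cases l <;> cases l' <;> simp only [yc, map_zero] <;>
    (try split_ifs) <;> simp

/-- `D` commutes with `kill` modulo the W-letters -/
theorem kill_D (r : R π) : kill π (D π (kill π r)) = kill π (D π r) := by
  refine PBW128.R_ind π (P := fun r => kill π (D π (kill π r)) = kill π (D π r)) ?_ ?_ ?_ ?_ r
  · intro c; rw [AlgHom.commutes]
  · intro a
    cases a <;> simp [D_X, dGen]
  · intro a b ha hb
    rw [map_mul, D_mul, D_mul, map_add, map_add, map_mul, map_mul, map_mul, map_mul, ha, hb,
      kill_kill, kill_kill]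
  · intro a b ha hb
    rw [map_add, map_add, map_add, map_add, map_add, ha, hb]

/-- the ideal of the W-letters is `D`-stable -/
theorem kill_D_zero {r : R π} (h : kill π r = 0) : kill π (D π r) = 0 := by
  rw [← kill_D, h, map_zero, map_zero]

theorem kill_mul_zero_left {r : R π} (h : kill π r = 0) (s : R π) : kill π (s * r) = 0 := by
  rw [map_mul, h, mul_zero]

theorem kill_mul_zero_right {r : R π} (h : kill π r = 0) (s : R π) : kill π (r * s) = 0 := by
  rw [map_mul, h, zero_mul]

/-! ### last letter split off -/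

/-- the `l`-component -/
def dl (l : E) : R π →ₗ[K] R π := (Psi π) ∘ₗ (divR π l) ∘ₗ (ev π)

/-- the part without free letters -/
def d0 : R π →ₗ[K] R π := (Psi π) ∘ₗ (divN K) ∘ₗ (ev π)

theorem split (r : R π) : r = d0 π r + ∑ l, dl π l r * X π l.toGen := by
  have h := congrArg (Psi π) (decomp π (ev π r))
  rw [Psi_ev, map_add, map_sum] at h
  simp only [Psi_R] at h
  exact h

/-- the polynomials in `x_0, x_1, h` -/
def OO : Submodule K (R π) :=
  Submodule.span K (Set.range fun ν : ℕ × ℕ × ℕ => X π (.x 0) ^ ν.1 * X π (.x 1) ^ ν.2.1 * X π .h ^ ν.2.2)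

theorem kill_we (w : List E) : kill π (we π w) = we π w := by
  induction w with
  | nil => rw [we_nil, map_one]
  | cons l w ih => rw [we_cons, map_mul, ih, kill_E]

theorem kill_wq (q : Wb) : kill π (wq π q) = if q = .one then 1 else 0 := by
  cases q with
  | one => simp [wq_one]
  | y s => simp [wq_y]
  | yb s => simp [wq_yb]
  | pi => simp [wq_pi]

theorem kill_nf (ν : Ix) : kill π (nf π ν) = if ν.2.2.2.2 = .one then nf π ν else 0 := by
  unfold nf
  rw [map_mul, kill_wq, map_mul, kill_we, map_mul, map_mul, map_pow, map_pow, map_pow]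
  split_ifs with h
  · simp [h, wq_one]
  · simp

theorem kill_d0_mem (r : R π) : kill π (d0 π r) ∈ OO π := by
  have h : N0 K ≤ (OO π).comap ((kill π).toLinearMap ∘ₗ (Psi π)) := by
    rw [N0, Finsupp.supported_eq_span_single, Submodule.span_le]
    rintro _ ⟨⟨i, j, k, w, q⟩, hw, rfl⟩
    simp only [Set.mem_ofPred_eq] at hw
    subst hw
    show kill π (Psi π (bv K i j k [] q)) ∈ OO π
    rw [Psi_bv, kill_nf]
    split_ifs with h
    · simp only at h
      subst h
      refine Submodule.subset_span ⟨(i, j, k), ?_⟩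
      simp [nf, we_nil, wq_one]
    · exact Submodule.zero_mem _
  exact h (divN_mem (ev π r))

theorem D_pow_zero {r : R π} (h : D π r = 0) (n : ℕ) : D π (r ^ n) = 0 := by
  induction n with
  | zero => rw [pow_zero]; exact D_one π
  | succ n ih => rw [pow_succ, D_mul, ih, h, zero_mul, mul_zero, add_zero]

theorem D_OO {r : R π} (h : r ∈ OO π) : D π r = 0 := by
  have h2 : OO π ≤ LinearMap.ker (D π) := by
    rw [OO, Submodule.span_le]
    rintro _ ⟨⟨i, j, k⟩, rfl⟩
    show D π _ = 0
    have e0 : D π (X π (.x 0)) = 0 := by simp [D_X, dGen]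
    have e1 : D π (X π (.x 1)) = 0 := by simp [D_X, dGen]
    have e2 : D π (X π .h) = 0 := by simp [D_X, dGen]
    rw [D_mul, D_mul, D_pow_zero π e0, D_pow_zero π e1, D_pow_zero π e2]
    simp
  exact h2 h

/-- the matrix of the sixteen cells (first order, without W-letters) -/
def c0 : Cell → Cell → R π
  | none, _ => 0
  | some l, none => X π l.toGen
  | some l, some l' => cf π l l'

/-- boundary of a row vector of cells -/
def bd (x : Cell → R π) (τ : Cell) : R π := D π (x τ) + ∑ σ, x σ * c0 π σ τ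

theorem sumC {M : Type*} [AddCommMonoid M] (F : Cell → M) : ∑ σ, F σ = F none + ∑ l, F (some l) :=
  Fintype.sum_option F

theorem bd_none (x : Cell → R π) : bd π x none = D π (x none) + ∑ l, x (some l) * X π l.toGen := by
  rw [bd, sumC]; simp [c0]

theorem bd_some (x : Cell → R π) (l' : E) :
    bd π x (some l') = D π (x (some l')) + ∑ l, x (some l) * cf π l l' := by
  rw [bd, sumC]; simp [c0]

theorem bd_sub (x y : Cell → R π) (τ : Cell) :
    bd π (fun σ => x σ - y σ) τ = bd π x τ - bd π y τ := by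
  simp only [bd, map_sub, sub_mul, Finset.sum_sub_distrib]
  abel

/-- `c0` is Maurer-Cartan modulo the W-letters -/
theorem c0_mc (σ τ : Cell) : kill π (D π (c0 π σ τ) + ∑ ρ, c0 π σ ρ * c0 π ρ τ) = 0 := by
  rw [sumC]
  cases σ with
  | none => simp [c0]
  | some l =>
    cases τ with
    | none =>
      simp only [c0, mul_zero, zero_add]
      rw [D_E, add_right_comm, add_self, zero_add, kill_yp]
    | some l'' =>
      simp only [c0, mul_zero, zero_add]
      rw [cf_cf, kill_yc]

/-- two boundaries vanish modulo the W-letters -/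
theorem kill_bd_bd (x : Cell → R π) (τ : Cell) : kill π (bd π (bd π x) τ) = 0 := by
  have e : bd π (bd π x) τ = ∑ σ, x σ * (D π (c0 π σ τ) + ∑ ρ, c0 π σ ρ * c0 π ρ τ) := by
    have h1 : D π (bd π x τ) = ∑ σ, D π (x σ) * c0 π σ τ + ∑ σ, x σ * D π (c0 π σ τ) := by
      rw [bd, map_add, D_D, zero_add, map_sum, ← Finset.sum_add_distrib]
      exact Finset.sum_congr rfl fun σ _ => D_mul π _ _
    have h2 : ∑ ρ, bd π x ρ * c0 π ρ τ =
        ∑ ρ, D π (x ρ) * c0 π ρ τ + ∑ σ, x σ * ∑ ρ, c0 π σ ρ * c0 π ρ τ := by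
      simp only [bd, add_mul, Finset.sum_add_distrib, Finset.sum_mul, Finset.mul_sum]
      rw [Finset.sum_comm]
      simp only [mul_assoc]
    show D π (bd π x τ) + ∑ ρ, bd π x ρ * c0 π ρ τ = _
    rw [h1, h2]
    simp only [mul_add, Finset.sum_add_distrib]
    have := add_self π (∑ σ, D π (x σ) * c0 π σ τ)
    calc _ = (∑ σ, D π (x σ) * c0 π σ τ + ∑ σ, D π (x σ) * c0 π σ τ) +
        (∑ σ, x σ * D π (c0 π σ τ) + ∑ σ, x σ * ∑ ρ, c0 π σ ρ * c0 π ρ τ) := by abel
      _ = _ := by rw [this, zero_add]
  rw [e, map_sum]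
  refine Finset.sum_eq_zero fun σ _ => ?_
  rw [map_mul, c0_mc, mul_zero]

/-- the primitive: last letters of the component at the cell `1` -/
def prim (x : Cell → R π) : Cell → R π
  | none => 0
  | some l => dl π l (x none)

/-- **C2b, plain form**: a cycle is a boundary plus a polynomial at the cell `1` -/
theorem exact_mod (x : Cell → R π) (hx : ∀ τ, kill π (bd π x τ) = 0) :
    kill π (x none - bd π (prim π x) none) ∈ OO π ∧
      ∀ l, kill π (x (some l) - bd π (prim π x) (some l)) = 0 := by
  have e0 : x none - bd π (prim π x) none = d0 π (x none) := by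
    rw [bd_none]
    simp only [prim, map_zero, zero_add]
    conv_lhs => rw [split π (x none)]
    have : ∀ l, dl π l (x none) = dl π l (d0 π (x none) + ∑ l, dl π l (x none) * X π l.toGen) := by
      intro l; rw [← split]
    simp only [← this]
    abel
  have h0 : kill π (x none - bd π (prim π x) none) ∈ OO π := by
    rw [e0]; exact kill_d0_mem π _
  refine ⟨h0, ?_⟩
  set z : Cell → R π := fun σ => x σ - bd π (prim π x) σ with hz
  have h1 : kill π (bd π z none) = 0 := by
    rw [hz, bd_sub, map_sub, hx, kill_bd_bd, sub_zero]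
  have h2 : kill π (D π (z none)) = 0 := by
    rw [← kill_D]
    have : kill π (z none) ∈ OO π := h0
    rw [D_OO π this, map_zero]
  rw [bd_none, map_add, h2, zero_add, map_sum] at h1
  simp only [map_mul, kill_E] at h1
  exact sum_mul_X_inj π _ h1

/-! ### homogeneity -/

/-- to check that a linear map sends a piece into a submodule it suffices to check basis vectors -/
theorem map_pcZ {φ : N K →ₗ[K] R π} {T : Submodule K (R π)} {P A C : ℤ}
    (h : ∀ i j k w q, dPx (i, j, k, w, q) = P → (dAx (i, j, k, w, q) : ℤ) = A →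
      (dCx (i, j, k, w, q) : ℤ) = C → φ (bv K i j k w q) ∈ T) {r : R π} (hr : r ∈ pcZ π P A C) :
    φ (ev π r) ∈ T := by
  rcases pcZ_cases π hr with rfl | ⟨A', C', rfl, rfl, hr'⟩
  · rw [map_zero, map_zero]; exact Submodule.zero_mem _
  · rw [mem_pc_iff] at hr'
    have h2 : NS K P A' C' ≤ T.comap φ := by
      rw [NS, Finsupp.supported_eq_span_single, Submodule.span_le]
      rintro _ ⟨⟨i, j, k, w, q⟩, ⟨h1, h2, h3⟩, rfl⟩
      exact h i j k w q h1 (by rw [h2]) (by rw [h3])
    exact h2 hr'

theorem nf_mem_pcZ (ν : Ix) {P A C : ℤ} (h1 : dPx ν = P) (h2 : (dAx ν : ℤ) = A)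
    (h3 : (dCx ν : ℤ) = C) : nf π ν ∈ pcZ π P A C := by
  subst h1 h2 h3
  rw [pcZ_nat]
  exact nf_mem_pc π ν

theorem dl_mem (l : E) {P A C : ℤ} {r : R π} (hr : r ∈ pcZ π P A C) :
    dl π l r ∈ pcZ π (P - l.toGen.dP) (A - l.toGen.dA) (C - l.toGen.dC) := by
  refine map_pcZ π (φ := (Psi π) ∘ₗ (divR π l)) ?_ hr
  intro i j k w q h1 h2 h3
  rcases List.eq_nil_or_concat w with rfl | ⟨w', l', rfl⟩
  · have : divR π l (bv K i j k [] q) = 0 := by simp [divR, bv]
    rw [LinearMap.comp_apply, this, map_zero]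
    exact Submodule.zero_mem _
  · rw [List.concat_eq_append] at *
    by_cases hl : l' = l
    · subst hl
      have : divR π l' (bv K i j k (w' ++ [l']) q) = (chiq π q l')⁻¹ • bv K i j k w' q := by
        simp [divR, bv]
      rw [LinearMap.comp_apply, this, map_smul, Psi_bv]
      refine Submodule.smul_mem _ _ (nf_mem_pcZ π _ ?_ ?_ ?_)
      · rw [← h1]; simp [dPx]; ring
      · rw [← h2]; simp [dAx]; ring
      · rw [← h3]; simp [dCx]; ring
    · have : divR π l (bv K i j k (w' ++ [l']) q) = 0 := by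
        simp [divR, bv, hl]
      rw [LinearMap.comp_apply, this, map_zero]
      exact Submodule.zero_mem _


theorem kill_mem {P A C : ℤ} {r : R π} (hr : r ∈ pcZ π P A C) : kill π r ∈ pcZ π P A C := by
  have h := map_pcZ π (φ := (kill π).toLinearMap ∘ₗ (Psi π)) (T := pcZ π P A C) ?_ hr
  · rw [LinearMap.comp_apply, Psi_ev] at h
    exact h
  · intro i j k w q h1 h2 h3
    rw [LinearMap.comp_apply, Psi_bv]
    show kill π _ ∈ _
    rw [kill_nf]
    split_ifs
    · exact nf_mem_pcZ π _ h1 h2 h3
    · exact Submodule.zero_mem _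

/-- `kill` in coordinates: keep the coordinates with empty W-part -/
theorem ev_kill (r : R π) (ν : Ix) :
    ev π (kill π r) ν = if ν.2.2.2.2 = .one then ev π r ν else 0 := by
  have h : ∀ n : N K, ev π (kill π (Psi π n)) ν = if ν.2.2.2.2 = .one then n ν else 0 := by
    intro n
    induction n using Finsupp.induction_linear with
    | zero => simp
    | add a b ha hb =>
      rw [map_add, map_add, map_add, Finsupp.add_apply, ha, hb, Finsupp.add_apply]
      split_ifs <;> simp
    | single μ c =>
      obtain ⟨i, j, k, w, q⟩ := μ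
      have e : (Finsupp.single (i, j, k, w, q) c : N K) = c • bv K i j k w q := by simp [bv]
      rw [e, map_smul, map_smul, map_smul, Psi_bv, kill_nf, Finsupp.smul_apply, Finsupp.smul_apply,
        bv_apply]
      by_cases hq : q = .one
      · subst hq
        rw [if_pos rfl, ev_nf, bv_apply]
        by_cases hν : ((i, j, k, w, Wb.one) : Ix) = ν
        · subst hν; simp
        · simp [hν]
      · simp only [if_neg hq, map_zero, Finsupp.coe_zero, Pi.zero_apply, smul_zero]
        by_cases hν : ((i, j, k, w, q) : Ix) = ν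
        · subst hν; simp [hq]
        · simp [hν]
  have := h (ev π r)
  rwa [Psi_ev] at this

/-- the ideal of the W-letters in coordinates -/
theorem kill_eq_zero_iff (r : R π) :
    kill π r = 0 ↔ ∀ ν : Ix, ν.2.2.2.2 = .one → ev π r ν = 0 := by
  constructor
  · intro h ν hν
    have := ev_kill π r ν
    rw [h, map_zero, if_pos hν] at this
    exact this.symm
  · intro h
    rw [← Psi_ev π (kill π r)]
    have : ev π (kill π r) = 0 := by
      ext ν
      rw [ev_kill]
      split_ifs with hν
      · exact h ν hν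
      · rfl
    rw [this, map_zero]

/-- general form of the part at the cell `1` -/
theorem kill_d0_map {T : Submodule K (R π)} {P A C : ℤ}
    (h : ∀ i j k : ℕ, (i : ℤ) + j = P → (k : ℤ) = A → C = 0 →
      X π (.x 0) ^ i * X π (.x 1) ^ j * X π .h ^ k ∈ T) {r : R π} (hr : r ∈ pcZ π P A C) :
    kill π (d0 π r) ∈ T := by
  refine map_pcZ π (φ := (kill π).toLinearMap ∘ₗ (Psi π) ∘ₗ (divN K)) ?_ hr
  intro i j k w q h1 h2 h3
  by_cases hw : w = []
  · subst hw
    have : divN K (bv K i j k [] q) = bv K i j k [] q := by simp [divN, bv]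
    rw [LinearMap.comp_apply, LinearMap.comp_apply, this, Psi_bv]
    show kill π _ ∈ _
    rw [kill_nf]
    split_ifs with hq
    · simp only at hq
      subst hq
      have e : nf π (i, j, k, [], .one) = X π (.x 0) ^ i * X π (.x 1) ^ j * X π .h ^ k := by
        simp [nf, we_nil, wq_one]
      rw [e]
      refine h i j k ?_ ?_ ?_
      · rw [← h1]; simp [dPx]
      · rw [← h2]; simp [dAx]
      · rw [← h3]; simp [dCx, wC, Wb.word]
    · exact Submodule.zero_mem _
  · have : divN K (bv K i j k w q) = 0 := by simp [divN, bv, hw]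
    rw [LinearMap.comp_apply, LinearMap.comp_apply, this, map_zero, map_zero]
    exact Submodule.zero_mem _

theorem kill_d0_pos {P A C : ℤ} (hC : 0 < C) {r : R π} (hr : r ∈ pcZ π P A C) :
    kill π (d0 π r) = 0 :=
  (Submodule.mem_bot K).1 (kill_d0_map π (fun _ _ _ _ _ h => by omega) hr)

theorem kill_d0_neg {P A C : ℤ} (hP : P < 0) {r : R π} (hr : r ∈ pcZ π P A C) :
    kill π (d0 π r) = 0 :=
  (Submodule.mem_bot K).1 (kill_d0_map π (fun _ _ _ h _ _ => by omega) hr)

theorem kill_d0_zero {A : ℕ} {C : ℤ} {r : R π} (hr : r ∈ pcZ π 0 A C) :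
    ∃ c : K, kill π (d0 π r) = c • X π .h ^ A := by
  have h : kill π (d0 π r) ∈ Submodule.span K {X π .h ^ A} := by
    refine kill_d0_map π (fun i j k h1 h2 _ => ?_) hr
    obtain ⟨rfl, rfl, rfl⟩ : i = 0 ∧ j = 0 ∧ k = A := by omega
    simpa using Submodule.mem_span_singleton_self _
  obtain ⟨c, hc⟩ := Submodule.mem_span_singleton.1 h
  exact ⟨c, hc.symm⟩

/-- Adams degree of a cell -/
def cA : Cell → ℤ
  | none => 0
  | some l => (l.toGen.dA : ℤ)

theorem cP_some (l : E) : cP (some l) = l.toGen.dP := by cases l <;> rfl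

theorem cdeg_some (l : E) : cdeg (some l) = l.toGen.dC + 1 := by
  cases l <;> simp only [cdeg, E.toGen, Gen.dC] <;> omega

theorem bd_prim_none (x : Cell → R π) : x none - bd π (prim π x) none = d0 π (x none) := by
  rw [bd_none]
  simp only [prim, map_zero, zero_add]
  conv_lhs => rw [split π (x none)]
  have : ∀ l, dl π l (x none) = dl π l (d0 π (x none) + ∑ l, dl π l (x none) * X π l.toGen) := by
    intro l; rw [← split]
  simp only [← this]
  abel

theorem prim_mem {P A M : ℤ} (x : Cell → R π) (h : x none ∈ pcZ π P A M) (σ : Cell) :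
    prim π x σ ∈ pcZ π (P - cP σ) (A - cA σ) (M + 1 - cdeg σ) := by
  cases σ with
  | none => exact Submodule.zero_mem _
  | some l =>
    rw [cP_some, cdeg_some, show cA (some l) = (l.toGen.dA : ℤ) from rfl,
      show M + 1 - ((l.toGen.dC + 1 : ℕ) : ℤ) = M - l.toGen.dC by push_cast; ring]
    exact dl_mem π l h

/-- **C2b, exR**: exactness in positive cohomological degree, modulo the W-letters -/
theorem exR_mod {P A M : ℤ} (hM : 0 < M) (x : Cell → R π)
    (hm : ∀ σ, x σ ∈ pcZ π (P - cP σ) (A - cA σ) (M - cdeg σ))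
    (hx : ∀ τ, kill π (bd π x τ) = 0) :
    ∃ y : Cell → R π, y none = 0 ∧
      (∀ σ, y σ ∈ pcZ π (P - cP σ) (A - cA σ) (M + 1 - cdeg σ)) ∧
      ∀ τ, kill π (x τ - bd π y τ) = 0 := by
  have h0 : x none ∈ pcZ π P A M := by
    have := hm none
    simpa [cP, cA, cdeg] using this
  refine ⟨prim π x, rfl, prim_mem π x h0, ?_⟩
  intro τ
  cases τ with
  | none => rw [bd_prim_none]; exact kill_d0_pos π hM h0
  | some l => exact (exact_mod π x hx).2 l

/-! ### degree zero -/

theorem rep_kill (r : R π) : Vmod220.rep π (kill π r) = Vmod220.rep π r := by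
  refine PBW128.R_ind π (P := fun r => Vmod220.rep π (kill π r) = Vmod220.rep π r) ?_ ?_ ?_ ?_ r
  · intro c; rw [AlgHom.commutes]
  · intro a; cases a <;> simp [Vmod220.opG]
  · intro a b ha hb; rw [map_mul, map_mul, map_mul, ha, hb]
  · intro a b ha hb; rw [map_add, map_add, map_add, ha, hb]

/-- the generator of `V_{-1}` -/
def v0 (K : Type) [Field K] : VOp220.Pol K := VOp220.mon K 0 0

theorem rep_E_v0 (l : E) : Vmod220.rep π (X π l.toGen) (v0 K) = 0 := by
  cases l with
  | d j =>
    rcases f2 j with rfl | rfl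
    · rw [show E.toGen (.d 0) = Gen.d 0 from rfl, Vmod220.rep_d0, v0, Vmod220.E0_mon]
      simp [VOp220.qn]
    · rw [show E.toGen (.d 1) = Gen.d 1 from rfl, Vmod220.rep_d1, v0, Vmod220.E1_mon]
      simp [VOp220.qn]
  | _ => simp [E.toGen, Vmod220.opG]

/-- the value at the generator only sees the part without letters -/
theorem rep_v0 (r : R π) : Vmod220.rep π r (v0 K) = Vmod220.rep π (kill π (d0 π r)) (v0 K) := by
  rw [rep_kill]
  conv_lhs => rw [split π r]
  rw [map_add, map_sum, LinearMap.add_apply, LinearMap.sum_apply, Finset.sum_eq_zero, add_zero]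
  intro l _
  rw [map_mul, Module.End.mul_apply, rep_E_v0, map_zero]

theorem v0_ne : v0 K ≠ 0 := by
  simp [v0, VOp220.mon]

/-- **C2b, exR0**: exactness in degree zero -/
theorem exR0_mod {P A : ℤ} (hP : P ≤ 0) (x : Cell → R π)
    (hm : ∀ σ, x σ ∈ pcZ π (P - cP σ) (A - cA σ) (-(cdeg σ : ℤ)))
    (h0 : Vmod220.rep π (x none) (v0 K) = 0) :
    ∃ y : Cell → R π, y none = 0 ∧
      (∀ σ, y σ ∈ pcZ π (P - cP σ) (A - cA σ) (1 - cdeg σ)) ∧
      ∀ τ, kill π (x τ - bd π y τ) = 0 := by
  have h1 : x none ∈ pcZ π P A 0 := by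
    have := hm none
    simpa [cP, cA, cdeg] using this
  have hx1 : ∀ l, x (some l) = 0 := by
    intro l
    have := hm (some l)
    rw [cdeg_some, pcZ_neg π (Or.inr (by push_cast; omega))] at this
    exact (Submodule.mem_bot K).1 this
  have hx : ∀ τ, kill π (bd π x τ) = 0 := by
    intro τ
    have hD : D π (x none) = 0 := by
      have := pcZ_D π h1
      rw [pcZ_neg π (Or.inr (by omega))] at this
      exact (Submodule.mem_bot K).1 this
    have : bd π x τ = 0 := by
      cases τ with
      | none => rw [bd_none, hD]; simp [hx1]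
      | some l => rw [bd_some]; simp [hx1]
    rw [this, map_zero]
  refine ⟨prim π x, rfl, ?_, ?_⟩
  · intro σ
    have := prim_mem π x h1 σ
    rwa [zero_add] at this
  intro τ
  cases τ with
  | none =>
    rw [bd_prim_none]
    rcases lt_or_eq_of_le hP with hP | rfl
    · exact kill_d0_neg π hP h1
    · rcases pcZ_cases π h1 with h2 | ⟨A', C', rfl, _, h2⟩
      · rw [h2, map_zero, map_zero]
      · obtain ⟨c, hc⟩ := kill_d0_zero π h1
        rw [rep_v0, hc, map_smul, map_pow, Vmod220.rep_h, one_pow, LinearMap.smul_apply,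
          Module.End.one_apply] at h0
        rcases smul_eq_zero.1 h0 with h3 | h3
        · rw [hc, h3, zero_smul]
        · exact absurd h3 v0_ne
  | some l => exact (exact_mod π x hx).2 l

/-- **C2b, gen**: `V_{-1}` is generated by `v0` -/
theorem gen_mod {P A : ℤ} (hA : 0 ≤ A) (hP : P ≤ 0) {u : VOp220.Pol K} (hu : u ∈ VOp220.hom K P) :
    ∃ r : R π, r ∈ pcZ π P A 0 ∧ Vmod220.rep π r (v0 K) = u := by
  rcases lt_or_eq_of_le hP with hP | rfl
  · rw [VOp220.hom_neg hP] at hu
    rw [(Submodule.mem_bot K).1 hu]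
    exact ⟨0, Submodule.zero_mem _, by simp⟩
  · obtain ⟨A', rfl⟩ : ∃ A' : ℕ, A = A' := ⟨A.toNat, by omega⟩
    have h : u ∈ Submodule.span K {v0 K} := by
      refine VOp220.hom_le (p := Submodule.span K {v0 K}) ?_ hu
      intro a b hab
      obtain ⟨rfl, rfl⟩ : a = 0 ∧ b = 0 := by omega
      exact Submodule.mem_span_singleton_self _
    obtain ⟨c, rfl⟩ := Submodule.mem_span_singleton.1 h
    refine ⟨c • X π .h ^ A', Submodule.smul_mem _ _ ?_, ?_⟩
    · have := nf_mem_pcZ π (0, 0, A', [], .one) (P := 0) (A := A') (C := 0) (by simp [dPx])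
        (by simp [dAx]) (by simp [dCx, wC, Wb.word])
      simpa [nf, we_nil, wq_one] using this
    · rw [map_smul, map_pow, Vmod220.rep_h, one_pow]
      rfl

end Crest.Agent.R186.C2b44
end
private theorem rz_44f767b9a2 : type_of% @_root_.Crest.Agent.R186.C2b44.c0.eq_1 := @_root_.Crest.Agent.R186.C2b44.c0.eq_1 -- L198
private theorem rz_42c9bd0966 : type_of% @_root_.Crest.Agent.R186.C2b44.cA.eq_1 := @_root_.Crest.Agent.R186.C2b44.cA.eq_1 -- L449
private theorem rz_43a75879d4 : type_of% @_root_.Crest.Agent.R186.C2b44.kg.eq_1 := @_root_.Crest.Agent.R186.C2b44.kg.eq_1 -- L27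
private theorem rz_30eb1e054d : type_of% @_root_.Crest.Agent.R186.C2b44.prim.eq_1 := @_root_.Crest.Agent.R186.C2b44.prim.eq_1 -- L258
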