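import Crest.Agent.R186.Frame2_515
import Crest.Agent.R186.Res_255
import Crest.Agent.R186.FW_226

/-!
Row 186, half (A), leaf A.C1 (helper655): statement (c2''), abstract part.

`pr : A → A'` (`L'' → L`), `W ⊂ A` acting on the right (`WA pr ι`), `q : G → G'` a map of right
modules with kernel `G W_+` (`WG`).  If the right cells `Y` resolve `G` over `A`, then the pushed
cells `pushR pr Y` resolve `G'` over `A'` (`c2pp`).  Input: helper226's `bar_acyclic` for the cone.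
-/

set_option autoImplicit false
set_option linter.style.haveILetI false
set_option linter.unusedSectionVars false

open MulOpposite

namespace Crest.Agent.R186.C2pp655

open Hat827 Hat827.DGA Frame515 Res255

variable {K : Type} [Field K] {A A' : DGA K}

/-- `W` acts on `A` by right multiplication, `A` is free over it, and `A' = A / A W_+` -/
structure WA (pr : Hm A A') (ι : Type) [Fintype ι] where
  y : ι → A.C
  δ : ι → ℕ
  pi : A.C
  δp : ℕ
  y_mem : ∀ g, y g ∈ A.G (δ g)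
  pi_mem : pi ∈ A.G δp
  y_D : ∀ g, A.D (y g) = 0
  pi_D : A.D pi = 0
  pr_y : ∀ g, pr.f (y g) = 0
  pr_pi : pr.f pi = 0
  lift : ∀ {k : ℤ} {b : A'.C}, b ∈ A'.G k → ∃ a ∈ A.G k, pr.f a = b
  hW : ∀ {k : ℤ} {a : A.C}, pr.f a = 0 → a ∈ A.G k →
    ∃ c : ι → A.C, (∀ g, c g ∈ A.G (k - δ g)) ∧ a = ∑ g, c g * y g
  yW : ∀ {k : ℤ} {a : A.C} (g : ι), pr.f a = 0 → a ∈ A.G k →
    ∃ c ∈ A.G (k + δ g - δp), a * y g = c * pi
  piW : ∀ a, pr.f a = 0 → a * pi = 0
  fr1 : ∀ c : ι → A.C, (∃ x, ∑ g, c g * y g = x * pi) → ∀ g, pr.f (c g) = 0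
  fr2 : ∀ c, c * pi = 0 → pr.f c = 0

/-- the same for a right module `G` over `A` and a right module `G'` over `A'` -/
structure WG {pr : Hm A A'} {ι : Type} [Fintype ι] (W : WA pr ι) (G : RM A) (G' : RM A') where
  q : G.X →ₗ[K] G'.X
  q_mem : ∀ {k : ℤ} {x : G.X}, x ∈ G.gr k → q x ∈ G'.gr k
  q_d : ∀ x, q (G.d x) = G'.d (q x)
  q_smul : ∀ (a : A.C) (x : G.X), q (op a • x) = op (pr.f a) • q x
  lo : ℤ
  low : ∀ k : ℤ, k < lo → ∀ x ∈ G.gr k, x = 0
  lift : ∀ {k : ℤ} {b : G'.X}, b ∈ G'.gr k → ∃ a ∈ G.gr k, q a = b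
  hW : ∀ {k : ℤ} {a : G.X}, q a = 0 → a ∈ G.gr k →
    ∃ c : ι → G.X, (∀ g, c g ∈ G.gr (k - W.δ g)) ∧ a = ∑ g, op (W.y g) • c g
  yW : ∀ {k : ℤ} {a : G.X} (g : ι), q a = 0 → a ∈ G.gr k →
    ∃ c ∈ G.gr (k + W.δ g - W.δp), op (W.y g) • a = op W.pi • c
  piW : ∀ a, q a = 0 → op W.pi • a = 0
  fr1 : ∀ c : ι → G.X, (∃ x, ∑ g, op (W.y g) • c g = op W.pi • x) → ∀ g, q (c g) = 0
  fr2 : ∀ c, op W.pi • c = 0 → q c = 0

/-- choice for finitely supported functions -/
theorem choose_fs {α β γ : Type} [Zero β] [Zero γ] (x : α →₀ β) (P : α → β → γ → Prop)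
    (h0 : ∀ σ, P σ 0 0) (h : ∀ σ, ∃ z, P σ (x σ) z) : ∃ z : α →₀ γ, ∀ σ, P σ (x σ) (z σ) := by
  classical
  choose z hz using h
  refine ⟨Finsupp.onFinset x.support (fun σ => if x σ = 0 then 0 else z σ) ?_, ?_⟩
  · intro σ hσ
    rw [Finsupp.mem_support_iff]
    intro hx
    exact hσ (if_pos hx)
  · intro σ
    change P σ (x σ) (if x σ = 0 then 0 else z σ)
    split_ifs with hx
    · rw [hx]
      exact h0 σ
    · exact hz σ

/-! ### the differential of the cells, with plain types -/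

/-- the differential of `Y ⊗ A` -/
noncomputable def dT (Y : RCells A) : (Y.ι →₀ A.C) →ₗ[K] (Y.ι →₀ A.C) := (tY Y (selfL A)).d

theorem dT_single (Y : RCells A) (σ : Y.ι) (b : A.C) : dT Y (Finsupp.single σ b) =
    Finsupp.single σ (A.D b) + ∑ τ ∈ Y.F (Y.s σ), Finsupp.single τ (Y.c τ σ * b) :=
  Tw.dd_single (twY Y (selfL A)) σ b

/-- the grading of `Y ⊗ A` -/
noncomputable def gT (Y : RCells A) (k : ℤ) : Submodule K (Y.ι →₀ A.C) := (tY Y (selfL A)).gr k


theorem dT_mem {Y : RCells A} {k : ℤ} {x : Y.ι →₀ A.C} (h : x ∈ gT Y k) : dT Y x ∈ gT Y (k - 1) :=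
  (tY Y (selfL A)).d_mem h

theorem dT_dT (Y : RCells A) (x : Y.ι →₀ A.C) : dT Y (dT Y x) = 0 := (tY Y (selfL A)).d_d x

/-! ### the augmentation is a map of right dg modules -/

section aug

variable {Y : RCells A} {G : RM A}

theorem two_G (G : RM A) (x : G.X) : x + x = 0 := by
  have : x = op (1 : A.C) • x := by rw [op_one, one_smul]
  rw [this, ← add_smul, ← op_add, A.two, op_zero, zero_smul]

theorem augR_smul (v : Y.ι → G.X) (a : A.C) (x : Y.ι →₀ A.C) :
    augR Y G v (Finsupp.mapRange.linearMap (LinearMap.mulRight K a) x) =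
      op a • augR Y G v x := by
  induction x using Finsupp.induction_linear with
  | zero => simp
  | add f g hf hg => rw [map_add, map_add, hf, hg, map_add, smul_add]
  | single σ b =>
    rw [Finsupp.mapRange.linearMap_apply, Finsupp.mapRange_single, augR_single, augR_single,
      LinearMap.mulRight_apply, op_mul, mul_smul]

theorem augR_d (R : RAug Y G) (x : Y.ι →₀ A.C) :
    augR Y G R.v (dT Y x) = G.d (augR Y G R.v x) := by
  have key : (augR Y G R.v) ∘ₗ dT Y = G.d ∘ₗ (augR Y G R.v) := by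
    refine Finsupp.lhom_ext fun σ b => ?_
    rw [LinearMap.comp_apply, LinearMap.comp_apply, dT_single, map_add, map_sum, augR_single,
      augR_single, G.leib, R.v_d, Finset.smul_sum]
    congr 1
    refine Finset.sum_congr rfl fun τ _ => ?_
    rw [augR_single, op_mul, mul_smul]
  exact LinearMap.congr_fun key x

end aug

/-! ### the cone -/

section cone

variable {pr : Hm A A'} {ι : Type} [Fintype ι] (W : WA pr ι) {Y : RCells A} {G : RM A}
  {G' : RM A'} (V : WG W G G') (R : RAug Y G)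

/-- right multiplication on the cells -/
noncomputable def rm (Y : RCells A) (a : A.C) : (Y.ι →₀ A.C) →ₗ[K] (Y.ι →₀ A.C) :=
  Finsupp.mapRange.linearMap (LinearMap.mulRight K a)

@[simp] theorem rm_apply (a : A.C) (x : Y.ι →₀ A.C) (σ : Y.ι) : rm Y a x σ = x σ * a := rfl

theorem rm_single (a : A.C) (σ : Y.ι) (b : A.C) :
    rm Y a (Finsupp.single σ b) = Finsupp.single σ (b * a) := by
  rw [rm, Finsupp.mapRange.linearMap_apply, Finsupp.mapRange_single]
  rfl

theorem rm_d {a : A.C} (ha : A.D a = 0) (x : Y.ι →₀ A.C) :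
    dT Y (rm Y a x) = rm Y a (dT Y x) := by
  have key : dT Y ∘ₗ rm Y a = rm Y a ∘ₗ dT Y := by
    refine Finsupp.lhom_ext fun σ b => ?_
    rw [LinearMap.comp_apply, LinearMap.comp_apply, rm_single, dT_single, dT_single, map_add,
      map_sum, rm_single, A.D_mul, ha, mul_zero, add_zero]
    congr 1
    refine Finset.sum_congr rfl fun τ _ => ?_
    rw [rm_single, mul_assoc]
  exact LinearMap.congr_fun key x

theorem rm_mem {a : A.C} {l k : ℤ} (ha : a ∈ A.G l) {x : Y.ι →₀ A.C}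
    (hx : x ∈ gT Y k) : rm Y a x ∈ gT Y (k + l) := by
  intro σ
  refine ⟨?_, ?_⟩
  · have h : x σ * a ∈ A.G (k - Y.s σ + l) := A.mul_mem (hx σ).1 ha
    rw [show k - (Y.s σ : ℤ) + l = k + l - Y.s σ by ring] at h
    exact h
  · have h : Y.e σ * x σ = x σ := (hx σ).2
    change Y.e σ * (x σ * a) = x σ * a
    rw [← mul_assoc, h]

/-- `2 = 0` in the cells -/
theorem aug_rm (a : A.C) (x : Y.ι →₀ A.C) : augR Y G R.v (rm Y a x) = op a • augR Y G R.v x :=
  augR_smul R.v a x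

/-- right multiplication as a linear map on `G` -/
theorem rmul_d {a : A.C} (ha : A.D a = 0) (x : G.X) : G.d (rmul G a x) = rmul G a (G.d x) := by
  rw [rmul_apply, rmul_apply, G.leib, ha, op_zero, zero_smul, zero_add]

/-- the degree `k` part of the cone -/
noncomputable def cgr (k : ℤ) : Submodule K ((Y.ι →₀ A.C) × G.X) :=
  (gT Y (k - 1)).prod (G.gr (R.lo + k))

/-- the differential of the cone -/
noncomputable def cd : ((Y.ι →₀ A.C) × G.X) →ₗ[K] ((Y.ι →₀ A.C) × G.X) :=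
  LinearMap.prod (dT Y ∘ₗ LinearMap.fst K _ _)
    ((augR Y G R.v) ∘ₗ LinearMap.fst K _ _ + G.d ∘ₗ LinearMap.snd K _ _)

theorem cd_apply (x : (Y.ι →₀ A.C) × G.X) :
    cd R x = (dT Y x.1, augR Y G R.v x.1 + G.d x.2) := rfl

theorem aug_mem {k : ℤ} {x : Y.ι →₀ A.C} (hx : x ∈ gT Y k) :
    augR Y G R.v x ∈ G.gr (R.lo + k) := by
  rw [show augR Y G R.v x = x.sum fun σ a => op a • R.v σ by
    simp [augR, Finsupp.lsum_apply]]
  refine Submodule.sum_mem _ fun σ _ => ?_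
  have h := G.smul_mem (show x σ ∈ A.G (k - Y.s σ) from (hx σ).1) (R.v_mem σ)
  rwa [show k - (Y.s σ : ℤ) + (R.lo + Y.s σ) = R.lo + k by ring] at h

/-- the operator of `a` on the cone -/
noncomputable def cy (a : A.C) : ((Y.ι →₀ A.C) × G.X) →ₗ[K] ((Y.ι →₀ A.C) × G.X) :=
  LinearMap.prodMap (rm Y a) (rmul G a)

theorem cy_apply (a : A.C) (x : (Y.ι →₀ A.C) × G.X) : cy a x = (rm Y a x.1, op a • x.2) := rfl

/-- the submodule `C W_+` -/
noncomputable def cW : Submodule K ((Y.ι →₀ A.C) × G.X) :=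
  (LinearMap.ker (Finsupp.mapRange.linearMap (α := Y.ι) pr.f.toLinearMap)).prod (LinearMap.ker V.q)

theorem mem_cW {x : (Y.ι →₀ A.C) × G.X} :
    x ∈ cW W V ↔ (∀ σ, pr.f (x.1 σ) = 0) ∧ V.q x.2 = 0 := by
  unfold cW
  rw [Submodule.mem_prod, LinearMap.mem_ker, LinearMap.mem_ker]
  refine and_congr ?_ Iff.rfl
  constructor
  · intro h σ
    exact DFunLike.congr_fun h σ
  · intro h
    ext σ
    exact h σ

/-- **the cone of a right cell resolution as a complex over `W`** -/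
noncomputable def wc : FW226.WC K ((Y.ι →₀ A.C) × G.X) ι where
  gr := cgr R
  d := cd R
  d_mem {k x} hx := by
    refine ⟨?_, ?_⟩
    · exact dT_mem hx.1
    · refine Submodule.add_mem _ ?_ ?_
      · exact aug_mem R hx.1
      · have := G.d_mem hx.2
        rwa [show R.lo + k - 1 = R.lo + (k - 1) by ring] at this
  d_d x := by
    rw [cd_apply, cd_apply]
    refine Prod.ext ?_ ?_
    · exact dT_dT Y _
    · change augR Y G R.v (dT Y x.1) + G.d (augR Y G R.v x.1 + G.d x.2) = 0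
      rw [augR_d, map_add, G.d_d, add_zero]
      exact two_G G _
  lo := min 0 (V.lo - R.lo)
  low k hk x hx := by
    refine Prod.ext ?_ ?_
    · refine Finsupp.ext fun σ => ?_
      have h : x.1 σ ∈ A.G (k - 1 - Y.s σ) := (hx.1 σ).1
      exact neg h (by omega)
    · exact V.low _ (by omega) _ hx.2
  y g := cy (W.y g)
  δ := W.δ
  y_mem {k x} g hx := by
    refine ⟨?_, ?_⟩
    · have := rm_mem (W.y_mem g) hx.1
      rwa [show k - 1 + (W.δ g : ℤ) = k + W.δ g - 1 by ring] at this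
    · have := G.smul_mem (W.y_mem g) hx.2
      rwa [show (W.δ g : ℤ) + (R.lo + k) = R.lo + (k + W.δ g) by ring] at this
  y_d g x := by
    rw [cy_apply, cd_apply, cd_apply, cy_apply]
    refine Prod.ext ?_ ?_
    · exact rm_d (W.y_D g) x.1
    · change augR Y G R.v (rm Y (W.y g) x.1) + G.d (op (W.y g) • x.2) =
        op (W.y g) • (augR Y G R.v x.1 + G.d x.2)
      rw [aug_rm, smul_add, G.leib, W.y_D, op_zero, zero_smul, zero_add]
  pi := cy W.pi
  δp := W.δp
  pi_mem {k x} hx := by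
    refine ⟨?_, ?_⟩
    · have := rm_mem W.pi_mem hx.1
      rwa [show k - 1 + (W.δp : ℤ) = k + W.δp - 1 by ring] at this
    · have := G.smul_mem W.pi_mem hx.2
      rwa [show (W.δp : ℤ) + (R.lo + k) = R.lo + (k + W.δp) by ring] at this
  pi_d x := by
    rw [cy_apply, cd_apply, cd_apply, cy_apply]
    refine Prod.ext ?_ ?_
    · exact rm_d W.pi_D x.1
    · change augR Y G R.v (rm Y W.pi x.1) + G.d (op W.pi • x.2) =
        op W.pi • (augR Y G R.v x.1 + G.d x.2)
      rw [aug_rm, smul_add, G.leib, W.pi_D, op_zero, zero_smul, zero_add]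
  Wp := cW W V
  y_Wp g x := by
    rw [mem_cW]
    refine ⟨fun σ => ?_, ?_⟩
    · change pr.f (x.1 σ * W.y g) = 0
      rw [map_mul, W.pr_y, mul_zero]
    · change V.q (op (W.y g) • x.2) = 0
      rw [V.q_smul, W.pr_y, op_zero, zero_smul]
  pi_Wp x := by
    rw [mem_cW]
    refine ⟨fun σ => ?_, ?_⟩
    · change pr.f (x.1 σ * W.pi) = 0
      rw [map_mul, W.pr_pi, mul_zero]
    · change V.q (op W.pi • x.2) = 0
      rw [V.q_smul, W.pr_pi, op_zero, zero_smul]
  hW {k w} hw hk := by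
    rw [mem_cW] at hw
    obtain ⟨c2, hc2, he2⟩ := V.hW hw.2 hk.2
    obtain ⟨z, hz⟩ := choose_fs (γ := ι → A.C) w.1
      (fun σ a c => (∀ g, c g ∈ A.G (k - 1 - Y.s σ - W.δ g)) ∧ (∀ g, Y.e σ * c g = c g) ∧
        a = ∑ g, c g * W.y g)
      (fun σ => ⟨fun g => Submodule.zero_mem _, fun g => mul_zero _, by simp⟩)
      (fun σ => by
        obtain ⟨c, hc, he⟩ := W.hW (hw.1 σ) (show w.1 σ ∈ A.G (k - 1 - Y.s σ) from (hk.1 σ).1)
        refine ⟨fun g => Y.e σ * c g, fun g => ?_, fun g => ?_, ?_⟩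
        · have := A.mul_mem (Y.e_mem σ) (hc g)
          rwa [zero_add] at this
        · rw [← mul_assoc, Y.e_idem]
        · have h : Y.e σ * w.1 σ = w.1 σ := (hk.1 σ).2
          conv_lhs => rw [← h, he, Finset.mul_sum]
          exact Finset.sum_congr rfl fun g _ => (mul_assoc _ _ _).symm)
    refine ⟨fun g => (Finsupp.mapRange (fun c : ι → A.C => c g) rfl z, c2 g), fun g => ⟨?_, ?_⟩, ?_⟩
    · intro σ
      refine ⟨?_, (hz σ).2.1 g⟩
      have h := (hz σ).1 g
      rw [show k - 1 - (Y.s σ : ℤ) - W.δ g = k - W.δ g - 1 - Y.s σ by ring] at h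
      exact h
    · have h := hc2 g
      rw [show R.lo + k - (W.δ g : ℤ) = R.lo + (k - W.δ g) by ring] at h
      exact h
    · refine Prod.ext ?_ ?_
      · refine Finsupp.ext fun σ => ?_
        rw [Prod.fst_sum, Finsupp.finsetSum_apply]
        exact (hz σ).2.2
      · rw [Prod.snd_sum]
        exact he2
  yW {k w} g hw hk := by
    rw [mem_cW] at hw
    obtain ⟨c2, hc2, he2⟩ := V.yW g hw.2 hk.2
    obtain ⟨z, hz⟩ := choose_fs (γ := A.C) w.1
      (fun σ a c => c ∈ A.G (k - 1 - Y.s σ + W.δ g - W.δp) ∧ Y.e σ * c = c ∧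
        a * W.y g = c * W.pi)
      (fun σ => ⟨Submodule.zero_mem _, mul_zero _, by rw [zero_mul, zero_mul]⟩)
      (fun σ => by
        obtain ⟨c, hc, he⟩ := W.yW g (hw.1 σ) (show w.1 σ ∈ A.G (k - 1 - Y.s σ) from (hk.1 σ).1)
        refine ⟨Y.e σ * c, ?_, ?_, ?_⟩
        · have := A.mul_mem (Y.e_mem σ) hc
          rwa [zero_add] at this
        · rw [← mul_assoc, Y.e_idem]
        · have h : Y.e σ * w.1 σ = w.1 σ := (hk.1 σ).2
          rw [mul_assoc, ← he, ← mul_assoc, h])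
    refine ⟨(z, c2), ⟨?_, ?_⟩, ?_⟩
    · intro σ
      refine ⟨?_, (hz σ).2.1⟩
      have h := (hz σ).1
      rw [show k - 1 - (Y.s σ : ℤ) + W.δ g - W.δp = k + W.δ g - W.δp - 1 - Y.s σ by ring] at h
      exact h
    · have h := hc2
      rw [show R.lo + k + (W.δ g : ℤ) - W.δp = R.lo + (k + W.δ g - W.δp) by ring] at h
      exact h
    · refine Prod.ext ?_ ?_
      · refine Finsupp.ext fun σ => ?_
        exact (hz σ).2.2
      · exact he2
  piW w hw := by
    rw [mem_cW] at hw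
    refine Prod.ext ?_ ?_
    · refine Finsupp.ext fun σ => ?_
      exact W.piW _ (hw.1 σ)
    · exact V.piW _ hw.2
  fr1 c := by
    rintro ⟨x, hx⟩ g
    rw [mem_cW]
    have h1 := congrArg Prod.fst hx
    have h2 := congrArg Prod.snd hx
    rw [Prod.fst_sum] at h1
    rw [Prod.snd_sum] at h2
    refine ⟨fun σ => ?_, ?_⟩
    · refine W.fr1 (fun g => (c g).1 σ) ⟨x.1 σ, ?_⟩ g
      have h := DFunLike.congr_fun h1 σ
      rw [Finsupp.finsetSum_apply] at h
      exact h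
    · exact V.fr1 (fun g => (c g).2) ⟨x.2, h2⟩ g
  fr2 c hc := by
    rw [mem_cW]
    refine ⟨fun σ => ?_, ?_⟩
    · exact W.fr2 _ (DFunLike.congr_fun (congrArg Prod.fst hc) σ)
    · exact V.fr2 _ (congrArg Prod.snd hc)

end cone

/-! ### the theorem -/

section main

variable {pr : Hm A A'} {ι : Type} [Fintype ι] (W : WA pr ι) {Y : RCells A} {G : RM A}
  {G' : RM A'} (V : WG W G G')

/-- push forward of cells' elements -/
noncomputable def ph (pr : Hm A A') (Y : RCells A) : (Y.ι →₀ A.C) →ₗ[K] (Y.ι →₀ A'.C) :=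
  Finsupp.mapRange.linearMap pr.f.toLinearMap

@[simp] theorem ph_apply (x : Y.ι →₀ A.C) (σ : Y.ι) : ph pr Y x σ = pr.f (x σ) := rfl

theorem ph_single (σ : Y.ι) (a : A.C) :
    ph pr Y (Finsupp.single σ a) = Finsupp.single σ (pr.f a) := by
  rw [ph, Finsupp.mapRange.linearMap_apply, Finsupp.mapRange_single]
  rfl

/-- the differential of `Y ⊗ A'` -/
noncomputable def dP (pr : Hm A A') (Y : RCells A) : (Y.ι →₀ A'.C) →ₗ[K] (Y.ι →₀ A'.C) :=
  (tY (pushR pr Y) (selfL A')).d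

theorem dP_single (σ : Y.ι) (b : A'.C) : dP pr Y (Finsupp.single σ b) =
    Finsupp.single σ (A'.D b) + ∑ τ ∈ Y.F (Y.s σ), Finsupp.single τ (pr.f (Y.c τ σ) * b) :=
  Tw.dd_single (twY (pushR pr Y) (selfL A')) σ b

/-- the augmentation of the pushed cells -/
noncomputable def augP (pr : Hm A A') (Y : RCells A) (v' : Y.ι → G'.X) :
    (Y.ι →₀ A'.C) →ₗ[K] G'.X := augR (pushR pr Y) G' v'

theorem augP_single (v' : Y.ι → G'.X) (σ : Y.ι) (b : A'.C) :
    augP pr Y v' (Finsupp.single σ b) = op b • v' σ := augR_single (pushR pr Y) G' v' σ b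

theorem ph_d (x : Y.ι →₀ A.C) : ph pr Y (dT Y x) = dP pr Y (ph pr Y x) := by
  have key : ph pr Y ∘ₗ dT Y = dP pr Y ∘ₗ ph pr Y := by
    refine Finsupp.lhom_ext fun σ b => ?_
    rw [LinearMap.comp_apply, LinearMap.comp_apply, ph_single, dT_single, dP_single, map_add,
      map_sum, ph_single, pr.D]
    congr 1
    refine Finset.sum_congr rfl fun τ _ => ?_
    rw [ph_single, map_mul]
  exact LinearMap.congr_fun key x

theorem ph_mem {k : ℤ} {x : Y.ι →₀ A.C} (hx : x ∈ gT Y k) :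
    ph pr Y x ∈ (tY (pushR pr Y) (selfL A')).gr k := by
  intro σ
  refine ⟨pr.mem (hx σ).1, ?_⟩
  have h : Y.e σ * x σ = x σ := (hx σ).2
  change pr.f (Y.e σ) * pr.f (x σ) = pr.f (x σ)
  rw [← map_mul, h]

theorem ph_lift (W : WA pr ι) {k : ℤ} {x : Y.ι →₀ A'.C}
    (hx : x ∈ (tY (pushR pr Y) (selfL A')).gr k) :
    ∃ x0 ∈ gT Y k, ph pr Y x0 = x := by
  obtain ⟨z, hz⟩ := choose_fs (γ := A.C) x
    (fun σ a c => c ∈ A.G (k - Y.s σ) ∧ Y.e σ * c = c ∧ pr.f c = a)
    (fun σ => ⟨Submodule.zero_mem _, mul_zero _, map_zero _⟩)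
    (fun σ => by
      obtain ⟨c, hc, he⟩ := W.lift (show x σ ∈ A'.G (k - Y.s σ) from (hx σ).1)
      refine ⟨Y.e σ * c, ?_, ?_, ?_⟩
      · have := A.mul_mem (Y.e_mem σ) hc
        rwa [zero_add] at this
      · rw [← mul_assoc, Y.e_idem]
      · rw [map_mul, he]
        exact (hx σ).2)
  exact ⟨z, fun σ => ⟨(hz σ).1, (hz σ).2.1⟩, Finsupp.ext fun σ => (hz σ).2.2⟩

theorem q_aug (R : RAug Y G) (x : Y.ι →₀ A.C) :
    V.q (augR Y G R.v x) = augP pr Y (fun σ => V.q (R.v σ)) (ph pr Y x) := by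
  have key : V.q ∘ₗ augR Y G R.v = augP pr Y (fun σ => V.q (R.v σ)) ∘ₗ ph pr Y := by
    refine Finsupp.lhom_ext fun σ b => ?_
    rw [LinearMap.comp_apply, LinearMap.comp_apply, augR_single, ph_single, augP_single,
      V.q_smul]
  exact LinearMap.congr_fun key x

theorem q_v_e (R : RAug Y G) (σ : Y.ι) :
    op (pr.f (Y.e σ)) • V.q (R.v σ) = V.q (R.v σ) := by
  rw [← V.q_smul, R.v_e]

theorem q_v_d (R : RAug Y G) (σ : Y.ι) :
    G'.d (V.q (R.v σ)) = ∑ τ ∈ Y.F (Y.s σ), op (pr.f (Y.c τ σ)) • V.q (R.v τ) := by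
  rw [← V.q_d, R.v_d, map_sum]
  exact Finset.sum_congr rfl fun τ _ => V.q_smul _ _

/-- **(c2'')**: if `Y → G` is a resolution by right cells over `A`, then `Y ⊗_A A' → G'` is a
resolution by right cells over `A'` -/
noncomputable def c2pp (R : RRes Y G) : RRes (pushR pr Y) G' where
  lo := R.lo
  v σ := V.q (R.v σ)
  v_mem σ := V.q_mem (R.v_mem σ)
  v_e := q_v_e W V R.toRAug
  v_d := q_v_d W V R.toRAug
  ex k x n hx hd hn he := by
    obtain ⟨x0, hx0, rfl⟩ := ph_lift W hx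
    obtain ⟨n0, hn0, rfl⟩ := V.lift hn
    have ac : ∀ (k : ℤ), ∀ c ∈ (wc W V R.toRAug).gr k, (wc W V R.toRAug).d c = 0 →
        ∃ c' ∈ (wc W V R.toRAug).gr (k + 1), (wc W V R.toRAug).d c' = c := by
      intro k c hc hdc
      have h1 : dT Y c.1 = 0 := congrArg Prod.fst hdc
      have h2 : augR Y G R.v c.1 + G.d c.2 = 0 := congrArg Prod.snd hdc
      obtain ⟨y, hy, n', hn', e1, e2⟩ := R.ex k c.1 c.2 hc.1 h1 hc.2 h2
      refine ⟨(y, n'), ⟨?_, ?_⟩, Prod.ext e1 e2.symm⟩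
      · rwa [show k + 1 - 1 = k by ring]
      · rwa [show R.lo + (k + 1) = R.lo + k + 1 by ring]
    have hZ := (wc W V R.toRAug).bar_acyclic ac k (x0, n0) ⟨hx0, hn0⟩ (by
      refine (mem_cW W V).2 ⟨fun σ => ?_, ?_⟩
      · have h := DFunLike.congr_fun ((ph_d (pr := pr) x0).trans hd) σ
        exact h
      · change V.q (augR Y G R.v x0 + G.d n0) = 0
        rw [map_add, V.q_d, q_aug]
        exact he)
    obtain ⟨c', hc', hw⟩ := hZ
    have hw' := (mem_cW W V).1 hw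
    refine ⟨ph pr Y c'.1, ?_, V.q c'.2, ?_, ?_, ?_⟩
    · have h := ph_mem (pr := pr) hc'.1
      rwa [show k + 1 - 1 = k by ring] at h
    · have h := V.q_mem hc'.2
      rwa [show R.lo + (k + 1) = R.lo + k + 1 by ring] at h
    · refine Eq.trans (ph_d (pr := pr) c'.1).symm ?_
      refine Finsupp.ext fun σ => ?_
      have h := hw'.1 σ
      change pr.f (x0 σ - (dT Y c'.1) σ) = 0 at h
      rw [map_sub, sub_eq_zero] at h
      exact h.symm
    · have h : V.q (n0 - (augR Y G R.v c'.1 + G.d c'.2)) = 0 := hw'.2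
      rw [map_sub, sub_eq_zero, map_add, V.q_d, q_aug] at h
      exact h

end main

end Crest.Agent.R186.C2pp655
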