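import Crest.Agent.R186.Frame_515

/-!
Row 186 (A), leaf DUAL (helper560): degreewise perfect pairings of graded complexes, duality of
acyclicity and of quasi-isomorphisms, the `K`-dual of a dg module, and the perfect pairing
`(D Z ⊗ X, Hom (X, Z))` for left cells `X`.
-/

set_option autoImplicit false
set_option linter.style.haveILetI false
set_option linter.unusedSectionVars false

open MulOpposite

namespace Crest.Agent.R186.Dual560

open Hat827 Frame515

variable {K : Type} [Field K]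



/-- a functional separating a point from a subspace -/
theorem sep {V : Type} [AddCommGroup V] [Module K V] (p : Submodule K V) {x : V} (hx : x ∉ p) :
    ∃ f : V →ₗ[K] K, f x ≠ 0 ∧ ∀ y ∈ p, f y = 0 := by
  obtain ⟨f, h1, h2⟩ := Submodule.exists_dual_map_eq_bot_of_notMem hx inferInstance
  refine ⟨f, h1, fun y hy => ?_⟩
  have : f y ∈ p.map f := Submodule.mem_map_of_mem hy
  rw [h2] at this
  exact (Submodule.mem_bot K).1 this

/-- degreewise perfect pairing -/
structure DP (X Y : GC K) where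
  b : X.X →ₗ[K] Y.X →ₗ[K] K
  adj : ∀ x y, b (X.d x) y = b x (Y.d y)
  off : ∀ {k l : ℤ} {x : X.X} {y : Y.X}, x ∈ X.gr k → y ∈ Y.gr l → k + l ≠ 0 → b x y = 0
  ndX : ∀ {k : ℤ} {x : X.X}, x ∈ X.gr k → (∀ y ∈ Y.gr (-k), b x y = 0) → x = 0
  ndY : ∀ {k : ℤ} {y : Y.X}, y ∈ Y.gr k → (∀ x ∈ X.gr (-k), b x y = 0) → y = 0
  repX : ∀ (k : ℤ) (lam : Y.X →ₗ[K] K), ∃ x ∈ X.gr k, ∀ y ∈ Y.gr (-k), b x y = lam y
  repY : ∀ (k : ℤ) (lam : X.X →ₗ[K] K), ∃ y ∈ Y.gr k, ∀ x ∈ X.gr (-k), b x y = lam x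

namespace DP

variable {X Y X' Y' : GC K}

/-- the opposite pairing -/
def swap (P : DP X Y) : DP Y X where
  b := P.b.flip
  adj x y := (P.adj y x).symm
  off hx hy h := P.off hy hx (by rwa [add_comm])
  ndX := P.ndY
  ndY := P.ndX
  repX := P.repY
  repY := P.repX

theorem swap_b (P : DP X Y) (x : X.X) (y : Y.X) : P.swap.b y x = P.b x y := rfl

/-- `x` orthogonal to all cycles is a boundary -/
theorem bd_of_orth (P : DP X Y) {k : ℤ} {x : X.X} (hx : x ∈ X.gr k)
    (h : ∀ y ∈ Y.gr (-k), Y.d y = 0 → P.b x y = 0) : ∃ w ∈ X.gr (k + 1), X.d w = x := by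
  by_contra hc
  have hn : x ∉ (X.gr (k + 1)).map X.d := by
    rintro ⟨w, hw, hw'⟩
    exact hc ⟨w, hw, hw'⟩
  obtain ⟨lam, h1, h2⟩ := sep _ hn
  obtain ⟨y, hy, hy'⟩ := P.repY (-k) lam
  have hdy : Y.d y = 0 := by
    refine P.ndY (Y.d_mem hy) fun x' hx' => ?_
    rw [show -(-k - 1) = k + 1 by ring] at hx'
    rw [← P.adj, hy' _ (by
      have := X.d_mem hx'
      rwa [show k + 1 - 1 = - -k by ring] at this)]
    exact h2 _ ⟨x', hx', rfl⟩
  apply h1
  rw [← hy' x (by rwa [neg_neg])]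
  exact h y hy hdy




/-- the one-dimensional version: if the cycles of degree `k` of `X` are spanned by `x0` modulo
boundaries, then the cycles of degree `-k` of `Y` are spanned by any `y0` with `b x0 y0 = 1`
modulo boundaries -/
theorem one (P : DP X Y) {k : ℤ} (x0 : X.X)
    (h : ∀ x ∈ X.gr k, X.d x = 0 → ∃ a : K, ∃ w ∈ X.gr (k + 1), x = a • x0 + X.d w)
    (y0 : Y.X) (hy0 : y0 ∈ Y.gr (-k)) (hd0 : Y.d y0 = 0) (h1 : P.b x0 y0 = 1)
    (y : Y.X) (hy : y ∈ Y.gr (-k)) (hd : Y.d y = 0) :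
    ∃ a : K, ∃ w ∈ Y.gr (-k + 1), y = a • y0 + Y.d w := by
  have hz : y - P.b x0 y • y0 ∈ Y.gr (-k) :=
    Submodule.sub_mem _ hy (Submodule.smul_mem _ _ hy0)
  obtain ⟨w, hw, hw'⟩ := P.swap.bd_of_orth hz fun x hx hdx => by
    rw [neg_neg] at hx
    obtain ⟨a, w, hw, rfl⟩ := h x hx hdx
    have e1 : Y.d (y - P.b x0 y • y0) = 0 := by rw [map_sub, map_smul, hd, hd0, smul_zero, sub_zero]
    have e2 : P.b x0 (y - P.b x0 y • y0) = 0 := by
      rw [map_sub, map_smul, h1, smul_eq_mul, mul_one, sub_self]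
    rw [swap_b, map_add, LinearMap.add_apply, P.adj, e1, map_zero, add_zero, map_smul,
      LinearMap.smul_apply, e2, smul_zero]
  exact ⟨P.b x0 y, w, hw, by rw [hw', add_sub_cancel]⟩



end DP

/-- projections onto the pieces of a bounded, degreewise finite complex -/
structure Pr (X : GC K) where
  pi : ℤ → X.X →ₗ[K] X.X
  mem : ∀ k x, pi k x ∈ X.gr k
  same : ∀ {k : ℤ} {x : X.X}, x ∈ X.gr k → pi k x = x
  ne : ∀ {k l : ℤ} {x : X.X}, k ≠ l → x ∈ X.gr l → pi k x = 0
  lo : ℤ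
  hi : ℤ
  sum : ∀ x, ∑ k ∈ Finset.Icc lo hi, pi k x = x
  fin : ∀ k, Module.Finite K (X.gr k)

namespace Pr

variable {X : GC K} (P : Pr X)

theorem zero {k : ℤ} {x : X.X} (hx : x ∈ X.gr k) (h : k < P.lo ∨ P.hi < k) : x = 0 := by
  rw [← P.sum x]
  refine Finset.sum_eq_zero fun l hl => P.ne ?_ hx
  rw [Finset.mem_Icc] at hl
  omega

theorem fun_eq (f : X.X →ₗ[K] K) {k : ℤ} (hf : ∀ l, l ≠ k → ∀ z ∈ X.gr l, f z = 0) (z : X.X) :
    f (P.pi k z) = f z := by
  by_cases hk : k ∈ Finset.Icc P.lo P.hi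
  · conv_rhs => rw [← P.sum z, map_sum]
    rw [Finset.sum_eq_single k]
    · intro l _ hl
      exact hf l hl _ (P.mem _ _)
    · intro h
      exact absurd hk h
  · have h1 : P.pi k z = 0 := P.zero (P.mem k z) (by rw [Finset.mem_Icc] at hk; omega)
    rw [h1, map_zero]
    conv_rhs => rw [← P.sum z, map_sum]
    symm
    refine Finset.sum_eq_zero fun l hl => hf l ?_ _ (P.mem _ _)
    rintro rfl
    exact hk hl

end Pr

/-! ### the dual of a complex -/

section dual

/-- functionals -/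
def DX (Z : GC K) : Type := Z.X →ₗ[K] K

instance (Z : GC K) : AddCommGroup (DX Z) := inferInstanceAs (AddCommGroup (Z.X →ₗ[K] K))
instance (Z : GC K) : Module K (DX Z) := inferInstanceAs (Module K (Z.X →ₗ[K] K))

/-- evaluation -/
def ev {Z : GC K} (f : DX Z) : Z.X →ₗ[K] K := f

/-- the dual complex -/
def GCd (Z : GC K) : GC K where
  X := DX Z
  gr k :=
    { carrier := {f | ∀ l : ℤ, l ≠ -k → ∀ z ∈ Z.gr l, ev f z = 0}
      zero_mem' := fun _ _ _ _ => rfl
      add_mem' := fun {f g} hf hg l hl z hz => by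
        show ev f z + ev g z = 0
        rw [hf l hl z hz, hg l hl z hz, add_zero]
      smul_mem' := fun r f hf l hl z hz => by
        show r • ev f z = 0
        rw [hf l hl z hz, smul_zero] }
  d :=
    { toFun := fun f => (ev f ∘ₗ Z.d : Z.X →ₗ[K] K)
      map_add' := fun f g => rfl
      map_smul' := fun r f => rfl }
  d_mem := by
    intro k f hf l hl z hz
    exact hf (l - 1) (by omega) _ (Z.d_mem hz)
  d_d f := LinearMap.ext fun z => by
    show ev f (Z.d (Z.d z)) = 0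
    rw [Z.d_d, map_zero]



/-- the canonical pairing of `D Z` and `Z` -/
def dpG {Z : GC K} (P : Pr Z) : DP (GCd Z) Z where
  b := LinearMap.id (R := K) (M := Z.X →ₗ[K] K)
  adj _ _ := rfl
  off := by
    intro k l f z hf hz h
    exact hf l (by omega) z hz
  ndX := by
    intro k f hf h
    refine LinearMap.ext fun z => ?_
    have h1 := P.fun_eq (ev f) (k := -k) hf z
    have h2 : ev f (P.pi (-k) z) = 0 := h _ (P.mem _ _)
    exact h1.symm.trans h2
  ndY := by
    intro k z hz h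
    refine (Module.forall_dual_apply_eq_zero_iff K z).1 fun lam => ?_
    have h1 := h ((lam ∘ₗ P.pi k : Z.X →ₗ[K] K)) (by
      intro l hl w hw
      show lam (P.pi k w) = 0
      rw [P.ne (by omega) hw, map_zero])
    have h2 : lam (P.pi k z) = 0 := h1
    rwa [P.same hz] at h2
  repX := by
    intro k lam
    refine ⟨(lam ∘ₗ P.pi (-k) : Z.X →ₗ[K] K), ?_, ?_⟩
    · intro l hl w hw
      show lam (P.pi (-k) w) = 0
      rw [P.ne (Ne.symm hl) hw, map_zero]
    · intro z hz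
      show lam (P.pi (-k) z) = lam z
      rw [P.same hz]
  repY := by
    intro k Lam
    haveI := P.fin k
    let q : Z.X →ₗ[K] Z.gr k := (P.pi k).codRestrict (Z.gr k) (P.mem k)
    let L' : Module.Dual K (Module.Dual K (Z.gr k)) :=
      (show (Z.X →ₗ[K] K) →ₗ[K] K from Lam) ∘ₗ (LinearMap.lcomp K K q)
    obtain ⟨z, hz⟩ := (Module.evalEquiv K (Z.gr k)).surjective L'
    refine ⟨z.1, z.2, fun f hf => ?_⟩
    have h1 := LinearMap.congr_fun hz ((ev f) ∘ₗ (Z.gr k).subtype)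
    have h2 : (Module.evalEquiv K (Z.gr k)) z ((ev f) ∘ₗ (Z.gr k).subtype) = ev f z.1 := rfl
    rw [h2] at h1
    show ev f z.1 = Lam f
    rw [h1]
    show Lam ((ev f ∘ₗ (Z.gr k).subtype) ∘ₗ q : Z.X →ₗ[K] K) = Lam f
    congr 1
    refine LinearMap.ext fun w => ?_
    exact P.fun_eq (ev f) (k := k) (fun l hl z hz => hf l (by omega) z hz) w

end dual

/-! ### the duals of dg modules -/

section dualmod

variable {A : DGA K} (Z : LM A)

theorem LM_two (Z : LM A) (x : Z.X) : x + x = 0 := by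
  have h : ((1 : A.C) + 1) • x = 0 := by rw [A.two, zero_smul]
  rwa [add_smul, one_smul] at h


instance : Module A.Cᵐᵒᵖ (DX Z.toGC) where
  smul c f := (ev f ∘ₗ lmul Z (unop c) : Z.X →ₗ[K] K)
  one_smul f := LinearMap.ext fun z => by
    show ev f ((1 : A.C) • z) = ev f z
    rw [one_smul]
  mul_smul c c' f := LinearMap.ext fun z => by
    show ev f ((unop (c * c')) • z) = ev f (unop c' • unop c • z)
    rw [unop_mul, mul_smul]
  smul_zero c := LinearMap.ext fun z => rfl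
  smul_add c f g := LinearMap.ext fun z => rfl
  add_smul c c' f := LinearMap.ext fun z => by
    show ev f ((unop (c + c')) • z) = ev f (unop c • z) + ev f (unop c' • z)
    rw [unop_add, add_smul, map_add]
  zero_smul f := LinearMap.ext fun z => by
    show ev f ((unop (0 : A.Cᵐᵒᵖ)) • z) = 0
    rw [unop_zero, zero_smul, map_zero]


instance : IsScalarTower K A.Cᵐᵒᵖ (DX Z.toGC) where
  smul_assoc r c f := LinearMap.ext fun z => by
    show ev f ((unop (r • c)) • z) = r • ev f (unop c • z)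
    rw [unop_smul, smul_assoc, map_smul]

/-- the dual of a left dg module, a right dg module -/
def LMd : RM A where
  toGC := GCd Z.toGC
  act := inferInstanceAs (Module A.Cᵐᵒᵖ (DX Z.toGC))
  tower := inferInstanceAs (IsScalarTower K A.Cᵐᵒᵖ (DX Z.toGC))
  smul_mem := by
    intro k l a f ha hf m hm z hz
    exact hf (k + m) (by omega) _ (Z.smul_mem ha hz)
  leib a f := LinearMap.ext fun z => by
    show ev f (a • Z.d z) = ev f (A.D a • z) + ev f (Z.d (a • z))
    rw [Z.leib, map_add, ← add_assoc, ← map_add, LM_two, map_zero, zero_add]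

variable {Z}


/-- the canonical pairing of `D Z` and `Z` -/
def dpD (P : Pr Z.toGC) : DP (LMd Z).toGC Z.toGC := dpG P

variable (G : RM A)

/-- functionals on a right module -/
def DR : Type := G.X →ₗ[K] K

instance : AddCommGroup (DR G) := inferInstanceAs (AddCommGroup (G.X →ₗ[K] K))
instance : Module K (DR G) := inferInstanceAs (Module K (G.X →ₗ[K] K))

instance : Module A.C (DR G) where
  smul c f := ((show G.X →ₗ[K] K from f) ∘ₗ rmul G c : G.X →ₗ[K] K)
  one_smul f := LinearMap.ext fun z => by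
    show (show G.X →ₗ[K] K from f) (op (1 : A.C) • z) = (show G.X →ₗ[K] K from f) z
    rw [op_one, one_smul]
  mul_smul c c' f := LinearMap.ext fun z => by
    show (show G.X →ₗ[K] K from f) (op (c * c') • z) =
      (show G.X →ₗ[K] K from f) (op c' • op c • z)
    rw [op_mul, mul_smul]
  smul_zero c := LinearMap.ext fun z => rfl
  smul_add c f g := LinearMap.ext fun z => rfl
  add_smul c c' f := LinearMap.ext fun z => by
    show (show G.X →ₗ[K] K from f) (op (c + c') • z) =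
      (show G.X →ₗ[K] K from f) (op c • z) + (show G.X →ₗ[K] K from f) (op c' • z)
    rw [op_add, add_smul, map_add]
  zero_smul f := LinearMap.ext fun z => by
    show (show G.X →ₗ[K] K from f) (op (0 : A.C) • z) = 0
    rw [op_zero, zero_smul, map_zero]

instance : IsScalarTower K A.C (DR G) where
  smul_assoc r c f := LinearMap.ext fun z => by
    show (show G.X →ₗ[K] K from f) (op (r • c) • z) =
      r • (show G.X →ₗ[K] K from f) (op c • z)
    rw [op_smul, smul_assoc, map_smul]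



end dualmod

/-! ### the complex `Hom (X, Z)` -/

theorem tw_single {A : DGA K} (G : RM A) (X : LCells A) (σ : X.ι) (f : G.X) :
    (twG G X).dd (Finsupp.single σ f) = Finsupp.single σ (G.d f) +
      ∑ τ ∈ X.F (X.s σ), Finsupp.single τ (op (X.c σ τ) • f) := Tw.dd_single _ _ _

section hom

variable {A : DGA K} (X : LCells A) (Z : LM A)

/-- the differential of `Hom (X, Z)` -/
noncomputable def hd : (X.ι → Z.X) →ₗ[K] (X.ι → Z.X) :=
  LinearMap.pi fun σ => Z.d ∘ₗ LinearMap.proj σ +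
    ∑ τ ∈ X.F (X.s σ), (lmul Z (X.c σ τ)) ∘ₗ LinearMap.proj τ

theorem hd_apply (φ : X.ι → Z.X) (σ : X.ι) :
    hd X Z φ σ = Z.d (φ σ) + ∑ τ ∈ X.F (X.s σ), X.c σ τ • φ τ := by
  simp only [hd, LinearMap.pi_apply, LinearMap.add_apply, LinearMap.sum_apply,
    LinearMap.comp_apply, LinearMap.proj_apply, lmul_apply]

/-- `Hom (X, Z)`; degree `-p` are the families `φ σ` of degree `s σ - p` -/
noncomputable def HomC : GC K where
  X := X.ι → Z.X
  gr k :=
    { carrier := {φ | ∀ σ, φ σ ∈ Z.gr ((X.s σ : ℤ) + k) ∧ X.e σ • φ σ = φ σ}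
      zero_mem' := fun σ => ⟨Submodule.zero_mem _, smul_zero _⟩
      add_mem' := fun {f g} hf hg σ => ⟨Submodule.add_mem _ (hf σ).1 (hg σ).1, by
        rw [Pi.add_apply, smul_add, (hf σ).2, (hg σ).2]⟩
      smul_mem' := fun r f hf σ => ⟨Submodule.smul_mem _ _ (hf σ).1, by
        have h : X.e σ • (r • f σ) = r • (X.e σ • f σ) := (lmul Z (X.e σ)).map_smul r (f σ)
        rw [Pi.smul_apply, h, (hf σ).2]⟩ }
  d := hd X Z
  d_mem := by
    intro k φ hφ σ
    rw [hd_apply]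
    constructor
    · refine Submodule.add_mem _ ?_ (Submodule.sum_mem _ fun τ _ => ?_)
      · have := Z.d_mem (hφ σ).1
        rwa [show (X.s σ : ℤ) + k - 1 = X.s σ + (k - 1) by ring] at this
      · have := Z.smul_mem (X.c_mem σ τ) (hφ τ).1
        rwa [show (X.s σ : ℤ) - X.s τ - 1 + (X.s τ + k) = X.s σ + (k - 1) by ring] at this
    · rw [smul_add, Finset.smul_sum]
      congr 1
      · have := Z.leib (X.e σ) (φ σ)
        rw [LCells.De, zero_smul, zero_add, (hφ σ).2] at this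
        exact this.symm
      · exact Finset.sum_congr rfl fun τ _ => by rw [smul_smul, X.c_left]
  d_d φ := by
    funext σ
    rw [hd_apply, hd_apply, map_add, Z.d_d, zero_add, map_sum]
    simp only [Z.leib, hd_apply, smul_add, Finset.sum_add_distrib, Finset.smul_sum]
    have h1 : ∑ τ ∈ X.F (X.s σ), ∑ ρ ∈ X.F (X.s τ), X.c σ τ • X.c τ ρ • φ ρ =
        ∑ ρ ∈ X.F (X.s σ), (∑ τ ∈ X.F (X.s σ), X.c σ τ * X.c τ ρ) • φ ρ := by
      have h3 : ∀ τ ∈ X.F (X.s σ), ∑ ρ ∈ X.F (X.s τ), X.c σ τ • X.c τ ρ • φ ρ =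
          ∑ ρ ∈ X.F (X.s σ), X.c σ τ • X.c τ ρ • φ ρ := by
        intro τ hτ
        refine Finset.sum_subset (fun ρ hρ => (X.mem_F _ _).2
          (((X.mem_F _ _).1 hρ).trans ((X.mem_F _ _).1 hτ))) fun ρ _ hρ => ?_
        have h5 := (not_congr (X.mem_F (X.s τ) ρ)).1 hρ
        rw [LCells.c_zero (σ := τ) (τ := ρ) (by omega), zero_smul, smul_zero]
      rw [Finset.sum_congr rfl h3, Finset.sum_comm]
      refine Finset.sum_congr rfl fun ρ _ => ?_
      rw [Finset.sum_smul]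
      exact Finset.sum_congr rfl fun τ _ => smul_smul _ _ _
    rw [h1]
    have h2 : ∑ τ ∈ X.F (X.s σ), A.D (X.c σ τ) • φ τ +
        ∑ ρ ∈ X.F (X.s σ), (∑ τ ∈ X.F (X.s σ), X.c σ τ * X.c τ ρ) • φ ρ = 0 := by
      rw [← Finset.sum_add_distrib]
      refine Finset.sum_eq_zero fun τ _ => ?_
      rw [← add_smul, X.mc, zero_smul]
    have h4 := LM_two Z (∑ τ ∈ X.F (X.s σ), X.c σ τ • Z.d (φ τ))
    have h5 : ∀ a b c : Z.X, a + b + (b + c) = a + c + (b + b) := fun a b c => by abel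
    rw [h5, h4, add_zero, h2]
    rfl

theorem HomC_d (φ : X.ι → Z.X) (σ : X.ι) :
    ((HomC X Z).d φ : X.ι → Z.X) σ = Z.d (φ σ) + ∑ τ ∈ X.F (X.s σ), X.c σ τ • φ τ :=
  hd_apply X Z φ σ


/-- evaluation, as a linear map -/
def evL : (LMd Z).X →ₗ[K] (Z.X →ₗ[K] K) where
  toFun f := ev f
  map_add' _ _ := rfl
  map_smul' _ _ := rfl

/-- the pairing of `D Z ⊗ X` with `Hom (X, Z)` -/
noncomputable def bb : (X.ι →₀ (LMd Z).X) →ₗ[K] (X.ι → Z.X) →ₗ[K] K :=
  Finsupp.lsum K fun σ =>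
    (LinearMap.lcomp K K (LinearMap.proj (R := K) (φ := fun _ : X.ι => Z.X) σ)) ∘ₗ evL Z

theorem bb_single (σ : X.ι) (f : (LMd Z).X) (φ : X.ι → Z.X) :
    bb X Z (Finsupp.single σ f) φ = evL Z f (φ σ) := by
  rw [bb, Finsupp.lsum_single]
  rfl

theorem bb_apply (x : X.ι →₀ (LMd Z).X) (φ : X.ι → Z.X) :
    bb X Z x φ = x.sum fun σ f => evL Z f (φ σ) := by
  classical
  induction x using Finsupp.induction_linear with
  | zero => simp
  | add f g hf hg =>
    rw [map_add, LinearMap.add_apply, hf, hg, Finsupp.sum_add_index']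
    · intro σ; rfl
    · intro σ a b; rfl
  | single σ a =>
    rw [bb_single, Finsupp.sum_single_index (by rw [map_zero, LinearMap.zero_apply])]

theorem bb_apply' (x : X.ι →₀ (LMd Z).X) (S : Finset X.ι) (hS : x.support ⊆ S) (φ : X.ι → Z.X) :
    bb X Z x φ = ∑ σ ∈ S, evL Z (x σ) (φ σ) := by
  rw [bb_apply]
  exact Finsupp.sum_of_support_subset _ hS _ fun σ _ => by rw [map_zero, LinearMap.zero_apply]

theorem bb_pi [DecidableEq X.ι] (x : X.ι →₀ (LMd Z).X) (σ : X.ι) (z : Z.X) :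
    bb X Z x (Pi.single σ z) = evL Z (x σ) z := by
  rw [bb_apply' X Z x (insert σ x.support) (Finset.subset_insert _ _), Finset.sum_eq_single σ]
  · rw [Pi.single_eq_same]
  · intro τ _ h
    rw [Pi.single_eq_of_ne h, map_zero]
  · intro h
    exact absurd (Finset.mem_insert_self _ _) h

/-- a functional composed with an idempotent -/
def mkf (a : A.C) (lam : Z.X →ₗ[K] K) : (LMd Z).X := op a • (show (LMd Z).X from lam)

theorem evL_mkf (a : A.C) (lam : Z.X →ₗ[K] K) (z : Z.X) :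
    evL Z (mkf Z a lam) z = lam (a • z) := rfl

theorem evL_op (a : A.C) (f : (LMd Z).X) (z : Z.X) :
    evL Z (op a • f) z = evL Z f (a • z) := rfl

theorem evL_ext {f g : (LMd Z).X} (h : ∀ z, evL Z f z = evL Z g z) : f = g := LinearMap.ext h

/-- homogeneous families of functionals -/
def Gx (k : ℤ) (x : X.ι → (LMd Z).X) : Prop :=
  ∀ σ, x σ ∈ (LMd Z).gr (k - (X.s σ : ℤ)) ∧ op (X.e σ) • x σ = x σ

/-- homogeneous families of elements -/
def Gh (k : ℤ) (φ : X.ι → Z.X) : Prop :=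
  ∀ σ, φ σ ∈ Z.gr ((X.s σ : ℤ) + k) ∧ X.e σ • φ σ = φ σ

variable {X Z}

theorem f_adj (x : X.ι →₀ (LMd Z).X) (φ : X.ι → Z.X) :
    bb X Z ((twG (LMd Z) X).dd x) φ = bb X Z x (hd X Z φ) := by
  have h : ((bb X Z).flip φ) ∘ₗ (twG (LMd Z) X).dd = (bb X Z).flip (hd X Z φ) := by
    refine Finsupp.lhom_ext fun (σ : X.ι) f => ?_
    show bb X Z ((twG (LMd Z) X).dd (Finsupp.single σ f)) φ =
      bb X Z (Finsupp.single σ f) (hd X Z φ)
    rw [tw_single (LMd Z) X σ f, map_add, LinearMap.add_apply, map_sum, LinearMap.sum_apply,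
      bb_single, bb_single, hd_apply, map_add, map_sum]
    congr 1
    refine Finset.sum_congr rfl fun τ _ => ?_
    rw [bb_single]
    rfl
  exact LinearMap.congr_fun h x

theorem f_off {k l : ℤ} {x : X.ι →₀ (LMd Z).X} {φ : X.ι → Z.X} (hx : Gx X Z k x)
    (hφ : Gh X Z l φ) (h : k + l ≠ 0) : bb X Z x φ = 0 := by
  rw [bb_apply]
  refine Finset.sum_eq_zero fun σ _ => ?_
  exact (hx σ).1 _ (by omega) _ (hφ σ).1

theorem f_ndX (P : Pr Z.toGC) {k : ℤ} {x : X.ι →₀ (LMd Z).X} (hx : Gx X Z k x)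
    (h : ∀ φ, Gh X Z (-k) φ → bb X Z x φ = 0) : x = 0 := by
  classical
  refine Finsupp.ext fun σ => evL_ext Z fun z => ?_
  rw [Finsupp.zero_apply, map_zero, LinearMap.zero_apply]
  have h1 : evL Z (x σ) (X.e σ • P.pi ((X.s σ : ℤ) - k) z) = 0 := by
    rw [← bb_pi X Z x σ]
    refine h _ fun τ => ?_
    by_cases hτ : τ = σ
    · subst hτ
      rw [Pi.single_eq_same]
      refine ⟨?_, by rw [smul_smul, X.e_idem]⟩
      have := Z.smul_mem (X.e_mem τ) (P.mem ((X.s τ : ℤ) - k) z)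
      rwa [zero_add, sub_eq_add_neg] at this
    · rw [Pi.single_eq_of_ne hτ]
      exact ⟨Submodule.zero_mem _, smul_zero _⟩
  have h3 : evL Z (x σ) (P.pi ((X.s σ : ℤ) - k) z) = evL Z (x σ) z :=
    P.fun_eq (evL Z (x σ)) (k := (X.s σ : ℤ) - k)
      (fun l hl w hw => (hx σ).1 l (by omega) w hw) z
  rw [← h3, ← (hx σ).2, evL_op]
  exact h1

theorem f_ndY (P : Pr Z.toGC) {k : ℤ} {φ : X.ι → Z.X} (hφ : Gh X Z k φ)
    (h : ∀ x : X.ι →₀ (LMd Z).X, Gx X Z (-k) x → bb X Z x φ = 0) : φ = 0 := by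
  classical
  funext σ
  refine (Module.forall_dual_apply_eq_zero_iff K (φ σ)).1 fun lam => ?_
  have h1 := h (Finsupp.single σ (mkf Z (X.e σ) (lam ∘ₗ P.pi ((X.s σ : ℤ) + k)))) (by
    intro τ
    by_cases hτ : τ = σ
    · subst hτ
      rw [Finsupp.single_eq_same]
      refine ⟨?_, ?_⟩
      · intro l hl w hw
        show lam (P.pi ((X.s τ : ℤ) + k) (X.e τ • w)) = 0
        have hw' := Z.smul_mem (X.e_mem τ) hw
        rw [P.ne (by omega) hw', map_zero]
      · refine evL_ext Z fun z => ?_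
        rw [evL_op, evL_mkf, evL_mkf, smul_smul, X.e_idem]
    · rw [Finsupp.single_eq_of_ne hτ]
      exact ⟨Submodule.zero_mem _, smul_zero _⟩)
  rw [bb_single, evL_mkf, (hφ σ).2, LinearMap.comp_apply, P.same (hφ σ).1] at h1
  exact h1

theorem f_repX (P : Pr Z.toGC) (k : ℤ) (lam : (X.ι → Z.X) →ₗ[K] K) :
    ∃ x : X.ι →₀ (LMd Z).X, Gx X Z k x ∧ ∀ φ, Gh X Z (-k) φ → bb X Z x φ = lam φ := by
  classical
  let g : X.ι → (LMd Z).X := fun σ => mkf Z (X.e σ)
    (lam ∘ₗ (LinearMap.single K (fun _ : X.ι => Z.X) σ) ∘ₗ P.pi ((X.s σ : ℤ) - k))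
  have hg : ∀ σ z, evL Z (g σ) z = lam (Pi.single σ (P.pi ((X.s σ : ℤ) - k) (X.e σ • z))) :=
    fun σ z => rfl
  let S : Finset X.ι := X.F (k + P.hi).toNat
  have hS : ∀ σ, σ ∉ S → ((X.s σ : ℤ) - k < P.lo ∨ P.hi < (X.s σ : ℤ) - k) := by
    intro σ hσ
    have := (not_congr (X.mem_F (k + P.hi).toNat σ)).1 hσ
    right
    omega
  have g0 : ∀ σ, g σ ≠ 0 → σ ∈ S := by
    intro σ h
    by_contra hσ
    apply h
    refine evL_ext Z fun z => ?_
    rw [hg, P.zero (P.mem _ _) (hS σ hσ), Pi.single_zero, map_zero, map_zero,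
      LinearMap.zero_apply]
  refine ⟨Finsupp.onFinset S g g0, fun σ => ?_, fun φ hφ => ?_⟩
  · rw [Finsupp.onFinset_apply]
    refine ⟨?_, ?_⟩
    · intro l hl w hw
      show lam (Pi.single σ (P.pi ((X.s σ : ℤ) - k) (X.e σ • w))) = 0
      have hw' := Z.smul_mem (X.e_mem σ) hw
      rw [P.ne (by omega) hw', Pi.single_zero, map_zero]
    · refine evL_ext Z fun z => ?_
      rw [evL_op, hg, hg, smul_smul, X.e_idem]
  · rw [bb_apply' X Z _ S Finsupp.support_onFinset_subset]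
    have h1 : ∀ σ ∈ S, evL Z (Finsupp.onFinset S g g0 σ) (φ σ) = lam (Pi.single σ (φ σ)) := by
      intro σ _
      rw [Finsupp.onFinset_apply, hg, (hφ σ).2]
      have h2 := (hφ σ).1
      rw [← sub_eq_add_neg] at h2
      rw [P.same h2]
    rw [Finset.sum_congr rfl h1, ← map_sum]
    congr 1
    funext τ
    rw [Finset.sum_apply]
    by_cases hτ : τ ∈ S
    · rw [Finset.sum_eq_single τ]
      · rw [Pi.single_eq_same]
      · intro σ _ h
        rw [Pi.single_eq_of_ne (Ne.symm h)]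
      · intro h
        exact absurd hτ h
    · rw [Finset.sum_eq_zero]
      · have h2 := (hφ τ).1
        rw [← sub_eq_add_neg] at h2
        exact (P.zero h2 (hS τ hτ)).symm
      · intro σ hσ
        rw [Pi.single_eq_of_ne]
        rintro rfl
        exact hτ hσ

theorem f_repY (P : Pr Z.toGC) (k : ℤ) (Lam : (X.ι →₀ (LMd Z).X) →ₗ[K] K) :
    ∃ φ : X.ι → Z.X, Gh X Z k φ ∧ ∀ x : X.ι →₀ (LMd Z).X, Gx X Z (-k) x → bb X Z x φ = Lam x := by
  classical
  have key : ∀ σ : X.ι, ∃ z ∈ Z.gr ((X.s σ : ℤ) + k), ∀ f ∈ (LMd Z).gr (-((X.s σ : ℤ) + k)),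
      evL Z f z = Lam (Finsupp.single σ (op (X.e σ) • f)) := by
    intro σ
    obtain ⟨z, hz, hz'⟩ := (dpD P).repY ((X.s σ : ℤ) + k)
      (Lam ∘ₗ (Finsupp.lsingle σ) ∘ₗ (rmul (LMd Z) (X.e σ)))
    exact ⟨z, hz, hz'⟩
  choose z hz hz' using key
  refine ⟨fun σ => X.e σ • z σ, fun σ => ⟨?_, by rw [smul_smul, X.e_idem]⟩, fun x hx => ?_⟩
  · have := Z.smul_mem (X.e_mem σ) (hz σ)
    rwa [zero_add] at this
  · rw [bb_apply]
    have h1 : Lam x = x.sum fun σ f => Lam (Finsupp.single σ f) := by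
      conv_lhs => rw [← Finsupp.sum_single x]
      exact map_finsuppSum _ _ _
    rw [h1]
    refine Finset.sum_congr rfl fun σ _ => ?_
    have h4 := hz' σ (x σ) (by
      have := (hx σ).1
      rwa [show -k - (X.s σ : ℤ) = -((X.s σ : ℤ) + k) by ring] at this)
    show evL Z (op (X.e σ) • x σ) (z σ) = Lam (Finsupp.single σ (x σ))
    rw [(hx σ).2] at h4 ⊢
    exact h4

/-- **the perfect pairing `(D Z ⊗ X, Hom (X, Z))`** -/
noncomputable def dpH (P : Pr Z.toGC) : DP (tG (LMd Z) X) (HomC X Z) where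
  b := bb X Z
  adj x φ := f_adj x φ
  off hx hφ h := f_off hx hφ h
  ndX hx h := f_ndX P hx h
  ndY hφ h := f_ndY P hφ h
  repX k lam := f_repX P k lam
  repY k lam := f_repY P k lam

end hom

end Crest.Agent.R186.Dual560
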