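import Crest.Agent.R186.WinB_810

/-!
# Row 186, half (A), leaf C2c (helper354): the joint C2a + C2b ⟹ `exR`, `exR0`, `gen` of `X''`

`XC w` = the abstract shape of the twisted complex `X'' = K ⊗_R X` over a window algebra `w : WD K`:
cells `κ × β` (`κ` = the sixteen cells, `β` = a homogeneous basis of `Q`), total matrix `c`,
diagonal blocks `th`, strictly triangular off-diagonal blocks, `J` = the two-sided ideal of the
`W`-letters.  `HA` = acyclicity of `ker (K → R)` (C2a), `HB`, `HB0`, `HG` = the sixteen cells resolve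
the module modulo `J` (C2b).
-/

set_option autoImplicit false

namespace Crest.Agent.R186.C2c354

open Crest.Agent.R186.Win810

variable {K : Type} [Field K]

/-- the abstract shape of `X''` -/
structure XC (w : WD K) where
  κ : Type
  [fκ : Fintype κ]
  [dκ : DecidableEq κ]
  β : Type
  [dβ : DecidableEq β]
  e : β
  cd : κ → ℕ
  oc : κ → w.Ob
  qd : β → ℕ
  qd_e : ∀ b, qd b = 0 ↔ b = e
  F : ℕ → Finset (κ × β)
  mem_F : ∀ m σ, σ ∈ F m ↔ cd σ.1 + qd σ.2 ≤ m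
  th : β → β → w.S
  cc : κ → κ → w.S
  c : κ × β → κ × β → w.S
  c_mem : ∀ σ τ, c σ τ ∈ w.q (oc σ.1) (oc τ.1)
    (((cd σ.1 + qd σ.2 : ℕ) : ℤ) - ((cd τ.1 + qd τ.2 : ℕ) : ℤ) - 1)
  mc : ∀ σ τ, w.D (c σ τ) + ∑ ρ ∈ F (cd σ.1 + qd σ.2), c σ ρ * c ρ τ = 0
  c_diag : ∀ a b b', c (a, b) (a, b') = th b b'
  c_tri : ∀ a a' b b', a ≠ a' → cd a ≤ cd a' → c (a, b) (a', b') = 0
  J : Submodule K w.S
  J_left : ∀ (s : w.S) {j : w.S}, j ∈ J → s * j ∈ J
  J_right : ∀ {j : w.S} (s : w.S), j ∈ J → j * s ∈ J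
  J_D : ∀ {j : w.S}, j ∈ J → w.D j ∈ J
  c_e : ∀ a a', c (a, e) (a', e) - cc a a' ∈ J
  c_J : ∀ a a' b, b ≠ e → c (a, b) (a', e) ∈ J

attribute [instance] XC.fκ XC.dκ XC.dβ

namespace XC

variable {w : WD K} (X : XC w)

/-- the index set -/
abbrev ι : Type := X.κ × X.β

/-- degree of a cell -/
def s (σ : X.ι) : ℕ := X.cd σ.1 + X.qd σ.2

/-- position of a cell -/
def o (σ : X.ι) : w.Ob := X.oc σ.1

/-- C2a: `ker (K → R)` is acyclic -/
def HA : Prop := ∀ (i j : w.Ob) (C : ℤ) (B : Finset X.β), (∀ b, (X.qd b : ℤ) ≤ C + 1 → b ∈ B) →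
  ∀ k : X.β → w.S, (∀ b, k b ∈ w.q i j (C - X.qd b)) →
    (∀ b', w.D (k b') + ∑ b ∈ B, k b * X.th b b' = 0) → k X.e ∈ X.J →
    ∃ y : X.β → w.S, (∀ b, y b ∈ w.q i j (C + 1 - X.qd b)) ∧ y X.e ∈ X.J ∧
      ∀ b', k b' = w.D (y b') + ∑ b ∈ B, y b * X.th b b'

/-- C2b, positive degrees -/
def HB : Prop := ∀ (m : ℕ) (i : w.Ob) (x : X.κ → w.S),
  (∀ a, x a ∈ w.q i (X.oc a) ((m : ℤ) + 1 - X.cd a)) →
  (∀ a', w.D (x a') + ∑ a, x a * X.cc a a' ∈ X.J) →
  ∃ y : X.κ → w.S, (∀ a, y a ∈ w.q i (X.oc a) ((m : ℤ) + 2 - X.cd a)) ∧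
    ∀ a', x a' - (w.D (y a') + ∑ a, y a * X.cc a a') ∈ X.J

variable {X}


theorem sub_eq (a b : w.S) : a - b = a + b := by
  rw [sub_eq_iff_eq_add, add_assoc, w.two, add_zero]


theorem q_neg {i j : w.Ob} {C : ℤ} (hC : C < 0) {a : w.S} (ha : a ∈ w.q i j C) : a = 0 := by
  have h := w.neg i j C hC
  unfold WD.q at ha
  rw [h] at ha
  exact (Submodule.mem_bot K).1 ha

theorem c_zero {σ τ : X.ι} (h : X.s σ ≤ X.s τ) : X.c σ τ = 0 := by
  refine q_neg ?_ (X.c_mem σ τ)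
  have h' : ((X.cd σ.1 + X.qd σ.2 : ℕ) : ℤ) ≤ ((X.cd τ.1 + X.qd τ.2 : ℕ) : ℤ) := by
    exact_mod_cast h
  omega

variable (X) in
/-- the differential on rows -/
def dd (T : Finset X.ι) (x : X.ι → w.S) (τ : X.ι) : w.S := w.D (x τ) + ∑ σ ∈ T, x σ * X.c σ τ

theorem mcT {N : ℕ} {σ : X.ι} (hσ : σ ∈ X.F N) (τ : X.ι) :
    w.D (X.c σ τ) + ∑ ρ ∈ X.F N, X.c σ ρ * X.c ρ τ = 0 := by
  have h := X.mc σ τ
  rw [← h]
  congr 1
  symm
  apply Finset.sum_subset
  · intro ρ hρ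
    rw [X.mem_F] at hρ hσ ⊢
    omega
  · intro ρ _ hρ
    rw [X.mem_F] at hρ
    rw [c_zero (X := X) (σ := σ) (τ := ρ) (by unfold s; omega), zero_mul]

theorem dd_dd (N : ℕ) (x : X.ι → w.S) (τ : X.ι) : X.dd (X.F N) (X.dd (X.F N) x) τ = 0 := by
  unfold dd
  rw [map_add, w.D_D, zero_add, map_sum]
  simp only [w.D_mul, add_mul, Finset.sum_add_distrib, Finset.sum_mul]
  rw [Finset.sum_comm]
  have h1 : ∑ σ ∈ X.F N, x σ * w.D (X.c σ τ) +
      ∑ σ ∈ X.F N, ∑ ρ ∈ X.F N, x σ * X.c σ ρ * X.c ρ τ = 0 := by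
    rw [← Finset.sum_add_distrib]
    refine Finset.sum_eq_zero fun σ hσ => ?_
    simp only [mul_assoc]
    rw [← Finset.mul_sum, ← mul_add, mcT hσ, mul_zero]
  have h2 := w.two (∑ σ ∈ X.F N, w.D (x σ) * X.c σ τ)
  calc _ = (∑ σ ∈ X.F N, w.D (x σ) * X.c σ τ + ∑ σ ∈ X.F N, w.D (x σ) * X.c σ τ) +
      (∑ σ ∈ X.F N, x σ * w.D (X.c σ τ) +
      ∑ σ ∈ X.F N, ∑ ρ ∈ X.F N, x σ * X.c σ ρ * X.c ρ τ) := by abel
    _ = 0 := by rw [h1, h2, add_zero]

theorem dd_add (T : Finset X.ι) (x y : X.ι → w.S) (τ : X.ι) :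
    X.dd T (x + y) τ = X.dd T x τ + X.dd T y τ := by
  unfold dd
  simp only [Pi.add_apply, map_add, add_mul, Finset.sum_add_distrib]
  abel

theorem dd_mem {i : w.Ob} {C : ℤ} {T : Finset X.ι} {x : X.ι → w.S}
    (hx : ∀ σ, x σ ∈ w.q i (X.o σ) (C - X.s σ)) (τ : X.ι) :
    X.dd T x τ ∈ w.q i (X.o τ) (C - 1 - X.s τ) := by
  unfold dd
  refine Submodule.add_mem _ ?_ (Submodule.sum_mem _ fun σ _ => ?_)
  · have h := WD.q_D (hx τ)
    rwa [show C - (X.s τ : ℤ) - 1 = C - 1 - X.s τ by ring] at h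
  · have h := WD.q_mul (hx σ) (X.c_mem σ τ)
    have e : C - (X.s σ : ℤ) + (((X.cd σ.1 + X.qd σ.2 : ℕ) : ℤ)
        - ((X.cd τ.1 + X.qd τ.2 : ℕ) : ℤ) - 1) = C - 1 - X.s τ := by
      unfold s; ring
    rwa [e] at h

/-- sections of the index set -/
def B (X : XC w) (N : ℕ) (a : X.κ) : Finset X.β := ((X.F N).filter fun σ => σ.1 = a).image Prod.snd

theorem mem_B {N : ℕ} {a : X.κ} {b : X.β} : b ∈ X.B N a ↔ X.cd a + X.qd b ≤ N := by
  unfold B
  rw [Finset.mem_image]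
  constructor
  · rintro ⟨σ, hσ, rfl⟩
    rw [Finset.mem_filter] at hσ
    have := (X.mem_F N σ).1 hσ.1
    rw [← hσ.2]
    exact this
  · intro h
    exact ⟨(a, b), Finset.mem_filter.2 ⟨(X.mem_F N (a, b)).2 h, rfl⟩, rfl⟩

theorem sum_F {M : Type*} [AddCommMonoid M] (N : ℕ) (f : X.ι → M) :
    ∑ σ ∈ X.F N, f σ = ∑ a, ∑ b ∈ X.B N a, f (a, b) := by
  classical
  have h : X.F N = (Finset.univ : Finset X.κ).biUnion fun a => (X.B N a).image fun b => (a, b) := by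
    ext σ
    simp only [Finset.mem_biUnion, Finset.mem_image, Finset.mem_univ, true_and]
    rw [X.mem_F]
    constructor
    · intro hσ
      exact ⟨σ.1, σ.2, mem_B.2 hσ, rfl⟩
    · rintro ⟨a, b, hb, rfl⟩
      exact mem_B.1 hb
  rw [h, Finset.sum_biUnion]
  · refine Finset.sum_congr rfl fun a _ => ?_
    rw [Finset.sum_image]
    intro b _ b' _ hb
    exact (Prod.mk.inj hb).2
  · intro a _ a' _ haa
    rw [Function.onFun, Finset.disjoint_left]
    intro σ h1 h2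
    obtain ⟨b, _, rfl⟩ := Finset.mem_image.1 h1
    obtain ⟨b', _, hb'⟩ := Finset.mem_image.1 h2
    exact haa (Prod.mk.inj hb').1.symm

/-- **`ker (X'' → X)` is acyclic**: the cells are killed one degree at a time -/
theorem ker_exact (hA : X.HA) (i : w.Ob) (C : ℤ) (N : ℕ) (hN : C + 1 ≤ N) (n : ℕ) :
    ∀ x : X.ι → w.S, (∀ σ, x σ ∈ w.q i (X.o σ) (C - X.s σ)) → (∀ τ, X.dd (X.F N) x τ = 0) →
      (∀ a, x (a, X.e) ∈ X.J) → (∀ a b, n ≤ X.cd a → x (a, b) = 0) →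
      ∃ y : X.ι → w.S, (∀ σ, y σ ∈ w.q i (X.o σ) (C + 1 - X.s σ)) ∧ (∀ a, y (a, X.e) ∈ X.J) ∧
        ∀ τ, x τ = X.dd (X.F N) y τ := by
  induction n with
  | zero =>
    intro x _ _ _ h0
    refine ⟨0, fun σ => Submodule.zero_mem _, fun a => Submodule.zero_mem _, fun τ => ?_⟩
    obtain ⟨a, b⟩ := τ
    rw [h0 a b (Nat.zero_le _)]
    simp [dd]
  | succ n ih =>
    intro x hx hd hJ h0
    have key : ∀ a : X.κ, ∃ y : X.β → w.S, (∀ b, y b ∈ w.q i (X.oc a) (C + 1 - X.cd a - X.qd b)) ∧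
        y X.e ∈ X.J ∧ (X.cd a ≠ n → y = 0) ∧
        (X.cd a = n → ∀ b', x (a, b') = w.D (y b') + ∑ b ∈ X.B N a, y b * X.th b b') := by
      intro a
      by_cases ha : X.cd a = n
      · obtain ⟨y, h1, h2, h3⟩ := hA i (X.oc a) (C - X.cd a) (X.B N a)
          (fun b hb => mem_B.2 (by omega)) (fun b => x (a, b))
          (fun b => by
            have := hx (a, b)
            unfold s o at this
            push_cast at this
            rwa [show C - ((X.cd a : ℤ) + X.qd b) = C - X.cd a - X.qd b by ring] at this)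
          (fun b' => by
            have h := hd (a, b')
            unfold dd at h
            rw [sum_F] at h
            rw [← h]
            congr 1
            rw [Finset.sum_eq_single a]
            · simp only [X.c_diag]
            · intro a'' _ ha''
              refine Finset.sum_eq_zero fun b _ => ?_
              by_cases hc : X.cd a'' ≤ X.cd a
              · rw [X.c_tri _ _ _ _ ha'' hc, mul_zero]
              · rw [h0 a'' b (by omega), zero_mul]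
            · intro h; exact absurd (Finset.mem_univ a) h)
          (hJ a)
        refine ⟨y, fun b => ?_, h2, fun h => absurd ha h, fun _ => h3⟩
        have := h1 b
        rwa [show C - (X.cd a : ℤ) + 1 - X.qd b = C + 1 - X.cd a - X.qd b by ring] at this
      · exact ⟨0, fun b => Submodule.zero_mem _, Submodule.zero_mem _, fun _ => rfl,
          fun h => absurd h ha⟩
    choose y hy1 hy2 hy3 hy4 using key
    let y0 : X.ι → w.S := fun σ => y σ.1 σ.2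
    have hy0 : ∀ σ, y0 σ ∈ w.q i (X.o σ) (C + 1 - X.s σ) := fun σ => by
      have := hy1 σ.1 σ.2
      unfold s o
      push_cast
      rwa [show C + 1 - ((X.cd σ.1 : ℤ) + X.qd σ.2) = C + 1 - X.cd σ.1 - X.qd σ.2 by ring]
    have hdJ : ∀ a, X.dd (X.F N) y0 (a, X.e) ∈ X.J := fun a => by
      unfold dd
      refine Submodule.add_mem _ (X.J_D (hy2 a)) (Submodule.sum_mem _ fun σ _ => ?_)
      obtain ⟨a', b⟩ := σ
      by_cases hb : b = X.e
      · subst hb; exact X.J_right _ (hy2 a')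
      · exact X.J_left _ (X.c_J a' a b hb)
    obtain ⟨z, hz1, hz2, hz3⟩ := ih (x + X.dd (X.F N) y0)
      (fun σ => Submodule.add_mem _ (hx σ) (by
        have := dd_mem (X := X) (T := X.F N) hy0 σ
        rwa [show C + 1 - 1 - (X.s σ : ℤ) = C - X.s σ by ring] at this))
      (fun τ => by rw [dd_add, hd, dd_dd, add_zero])
      (fun a => Submodule.add_mem _ (hJ a) (hdJ a))
      (fun a b hab => by
        have e1 : X.dd (X.F N) y0 (a, b) = w.D (y a b) + ∑ b' ∈ X.B N a, y a b' * X.th b' b := by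
          unfold dd
          congr 1
          rw [sum_F, Finset.sum_eq_single a]
          · simp only [X.c_diag]; rfl
          · intro a'' _ ha''
            refine Finset.sum_eq_zero fun b' _ => ?_
            by_cases hn : X.cd a'' = n
            · rw [X.c_tri _ _ _ _ ha'' (by omega), mul_zero]
            · show y a'' b' * _ = 0
              rw [hy3 a'' hn, Pi.zero_apply, zero_mul]
          · intro h; exact absurd (Finset.mem_univ a) h
        show x (a, b) + X.dd (X.F N) y0 (a, b) = 0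
        by_cases hn : X.cd a = n
        · rw [e1, ← hy4 a hn b, w.two]
        · rw [e1, hy3 a hn, h0 a b (by omega)]
          simp)
    refine ⟨z + y0, fun σ => Submodule.add_mem _ (hz1 σ) (hy0 σ),
      fun a => Submodule.add_mem _ (hz2 a) (hy2 a), fun τ => ?_⟩
    rw [dd_add, ← hz3 τ, Pi.add_apply, add_assoc, w.two, add_zero]

/-- the component at `e` of the differential is the differential of the cells, modulo `J` -/
theorem modJ {N : ℕ} {x : X.ι → w.S} (hx : ∀ a, N < X.cd a → x (a, X.e) = 0) (a' : X.κ) :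
    X.dd (X.F N) x (a', X.e) - (w.D (x (a', X.e)) + ∑ a, x (a, X.e) * X.cc a a') ∈ X.J := by
  have h1 : X.dd (X.F N) x (a', X.e) - (w.D (x (a', X.e)) + ∑ a, x (a, X.e) * X.cc a a') =
      ∑ a, (∑ b ∈ X.B N a, x (a, b) * X.c (a, b) (a', X.e) - x (a, X.e) * X.cc a a') := by
    rw [Finset.sum_sub_distrib]
    unfold dd
    rw [sum_F]
    abel
  rw [h1]
  refine Submodule.sum_mem _ fun a _ => ?_
  by_cases ha : N < X.cd a
  · have hB : X.B N a = ∅ := by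
      rw [Finset.eq_empty_iff_forall_notMem]
      intro b hb
      have := mem_B.1 hb
      omega
    rw [hB, hx a ha, Finset.sum_empty, zero_mul, sub_zero]
    exact Submodule.zero_mem _
  · have he : X.e ∈ X.B N a := mem_B.2 (by rw [(X.qd_e X.e).2 rfl]; omega)
    rw [← Finset.add_sum_erase _ _ he, add_sub_right_comm, ← mul_sub]
    refine Submodule.add_mem _ (X.J_left _ (X.c_e a a')) (Submodule.sum_mem _ fun b hb => ?_)
    exact X.J_left _ (X.c_J a a' b (Finset.ne_of_mem_erase hb))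

theorem sum_stable {i : w.Ob} {C : ℤ} {N N' : ℕ} (hN : C ≤ N) (hN' : C ≤ N') {x : X.ι → w.S}
    (hx : ∀ σ, x σ ∈ w.q i (X.o σ) (C - X.s σ)) (τ : X.ι) :
    X.dd (X.F N) x τ = X.dd (X.F N') x τ := by
  have aux : ∀ M M' : ℕ, C ≤ M → M ≤ M' →
      ∑ σ ∈ X.F M, x σ * X.c σ τ = ∑ σ ∈ X.F M', x σ * X.c σ τ := by
    intro M M' hM hMM
    apply Finset.sum_subset
    · intro σ hσ
      rw [X.mem_F] at hσ ⊢
      omega
    · intro σ _ hσ
      rw [X.mem_F] at hσ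
      rw [q_neg (a := x σ) ?_ (hx σ), zero_mul]
      have : ((X.cd σ.1 + X.qd σ.2 : ℕ) : ℤ) > M := by
        exact_mod_cast not_le.1 hσ
      unfold s
      omega
  unfold dd
  congr 1
  rcases le_total N N' with h | h
  · exact aux N N' hN h
  · exact (aux N' N hN' h).symm

/-- the common core of `exR` and `exR0` -/
theorem exR_core (hA : X.HA) (i : w.Ob) (C : ℤ) (N : ℕ) (hN : C + 1 ≤ N) (x : X.ι → w.S)
    (hx : ∀ σ, x σ ∈ w.q i (X.o σ) (C - X.s σ)) (hd : ∀ τ, X.dd (X.F N) x τ = 0)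
    (y0 : X.κ → w.S) (hy0 : ∀ a, y0 a ∈ w.q i (X.oc a) (C + 1 - X.cd a))
    (hy : ∀ a', x (a', X.e) - (w.D (y0 a') + ∑ a, y0 a * X.cc a a') ∈ X.J) :
    ∃ y : X.ι → w.S, (∀ σ, y σ ∈ w.q i (X.o σ) (C + 1 - X.s σ)) ∧
      ∀ τ, x τ = X.dd (X.F N) y τ := by
  have hqe : X.qd X.e = 0 := (X.qd_e X.e).2 rfl
  let y1 : X.ι → w.S := fun σ => if σ.2 = X.e then y0 σ.1 else 0
  have hy1 : ∀ σ, y1 σ ∈ w.q i (X.o σ) (C + 1 - X.s σ) := by
    rintro ⟨a, b⟩
    show (if b = X.e then y0 a else 0) ∈ _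
    split_ifs with h
    · subst h
      have := hy0 a
      unfold s o
      rw [hqe, add_zero]
      exact this
    · exact Submodule.zero_mem _
  have hye : ∀ a, y1 (a, X.e) = y0 a := fun a => if_pos rfl
  have hy1z : ∀ a, N < X.cd a → y1 (a, X.e) = 0 := fun a ha => by
    rw [hye]
    refine q_neg ?_ (hy0 a)
    have : ((X.cd a : ℕ) : ℤ) > N := by exact_mod_cast ha
    omega
  have hJ : ∀ a', x (a', X.e) + X.dd (X.F N) y1 (a', X.e) ∈ X.J := fun a' => by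
    have h1 := modJ hy1z a'
    have h2 := Submodule.add_mem _ (hy a') h1
    simp only [hye] at h2
    rw [sub_eq (x (a', X.e)), sub_eq (X.dd _ _ _)] at h2
    have e : x (a', X.e) + (w.D (y0 a') + ∑ a, y0 a * X.cc a a') +
        (X.dd (X.F N) y1 (a', X.e) + (w.D (y0 a') + ∑ a, y0 a * X.cc a a')) =
        x (a', X.e) + X.dd (X.F N) y1 (a', X.e) +
        ((w.D (y0 a') + ∑ a, y0 a * X.cc a a') + (w.D (y0 a') + ∑ a, y0 a * X.cc a a')) := by abel
    rwa [e, w.two, add_zero] at h2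
  obtain ⟨z, hz1, _, hz3⟩ := ker_exact hA i C N hN ((Finset.univ.sup X.cd) + 1)
    (x + X.dd (X.F N) y1)
    (fun σ => Submodule.add_mem _ (hx σ) (by
      have := dd_mem (X := X) (T := X.F N) hy1 σ
      rwa [show C + 1 - 1 - (X.s σ : ℤ) = C - X.s σ by ring] at this))
    (fun τ => by rw [dd_add, hd, dd_dd, add_zero])
    hJ
    (fun a b hab => by
      have : X.cd a ≤ Finset.univ.sup X.cd := Finset.le_sup (f := X.cd) (Finset.mem_univ a)
      omega)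
  refine ⟨z + y1, fun σ => Submodule.add_mem _ (hz1 σ) (hy1 σ), fun τ => ?_⟩
  rw [dd_add, ← hz3 τ, Pi.add_apply, add_assoc, w.two, add_zero]

/-- the `e`-component of a cocycle is a cocycle modulo `J` -/
theorem cocycle_mod {N : ℕ} {x : X.ι → w.S} (hx : ∀ a, N < X.cd a → x (a, X.e) = 0)
    (hd : ∀ τ, X.dd (X.F N) x τ = 0) (a' : X.κ) :
    w.D (x (a', X.e)) + ∑ a, x (a, X.e) * X.cc a a' ∈ X.J := by
  have h := modJ hx a'
  rw [hd, zero_sub] at h
  exact (Submodule.neg_mem_iff _).1 h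

/-- **`exR`** -/
theorem exR (hA : X.HA) (hB : X.HB) (m : ℕ) (i : w.Ob) (x : X.ι → w.S)
    (hx : ∀ σ, x σ ∈ w.q i (X.o σ) ((m : ℤ) + 1 - X.s σ))
    (hd : ∀ τ, w.D (x τ) + ∑ σ ∈ X.F (m + 1), x σ * X.c σ τ = 0) :
    ∃ y : X.ι → w.S, (∀ σ, y σ ∈ w.q i (X.o σ) ((m : ℤ) + 2 - X.s σ)) ∧
      ∀ τ, x τ = w.D (y τ) + ∑ σ ∈ X.F (m + 2), y σ * X.c σ τ := by
  have hqe : X.qd X.e = 0 := (X.qd_e X.e).2 rfl
  have hd' : ∀ τ, X.dd (X.F (m + 2)) x τ = 0 := fun τ => by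
    rw [sum_stable (N := m + 2) (N' := m + 1) (by push_cast; omega) (by push_cast; omega) hx τ]
    exact hd τ
  have hxe : ∀ a, x (a, X.e) ∈ w.q i (X.oc a) ((m : ℤ) + 1 - X.cd a) := fun a => by
    have := hx (a, X.e)
    unfold s o at this
    rwa [hqe, add_zero] at this
  have hxz : ∀ a, m + 2 < X.cd a → x (a, X.e) = 0 := fun a ha => by
    refine q_neg ?_ (hxe a)
    have : ((X.cd a : ℕ) : ℤ) > ((m + 2 : ℕ) : ℤ) := by exact_mod_cast ha
    push_cast at this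
    omega
  obtain ⟨y0, h1, h2⟩ := hB m i (fun a => x (a, X.e)) hxe (cocycle_mod hxz hd')
  obtain ⟨y, h3, h4⟩ := exR_core hA i ((m : ℤ) + 1) (m + 2) (by push_cast; omega) x hx hd' y0
    (fun a => by have := h1 a; rwa [show (m : ℤ) + 1 + 1 - X.cd a = m + 2 - X.cd a by ring]) h2
  refine ⟨y, fun σ => ?_, h4⟩
  have := h3 σ
  rwa [show (m : ℤ) + 1 + 1 - X.s σ = m + 2 - X.s σ by ring] at this

/-! ### degree zero -/

section zero

variable (X)

/-- C2b, degree zero, with values in a module `M` (`vc` = values of the cells) -/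
def HB0 {M : WMod w} (vc : X.κ → M.V) : Prop := ∀ (i : w.Ob) (x : X.κ → w.S),
  (∀ a, x a ∈ w.q i (X.oc a) (-(X.cd a : ℤ))) →
  ∑ a, M.rho (x a) (vc a) = 0 →
  ∃ y : X.κ → w.S, (∀ a, y a ∈ w.q i (X.oc a) ((1 : ℤ) - X.cd a)) ∧
    ∀ a', x a' - (w.D (y a') + ∑ a, y a * X.cc a a') ∈ X.J

/-- C2b, generation -/
def HG {M : WMod w} (vc : X.κ → M.V) : Prop := ∀ (i : w.Ob) (u : M.V), u ∈ M.W i →
  ∃ x : X.κ → w.S, (∀ a, x a ∈ w.q i (X.oc a) (-(X.cd a : ℤ))) ∧ ∑ a, M.rho (x a) (vc a) = u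

/-- the values of the cells of `X''` -/
def v {M : WMod w} (vc : X.κ → M.V) (σ : X.ι) : M.V := if σ.2 = X.e then vc σ.1 else 0

variable {X}

theorem v_mem {M : WMod w} {vc : X.κ → M.V} (h : ∀ a, vc a ∈ M.W (X.oc a)) (σ : X.ι) :
    X.v vc σ ∈ M.W (X.o σ) := by
  unfold v o
  split_ifs
  · exact h _
  · exact Submodule.zero_mem _

theorem v_zero {M : WMod w} {vc : X.κ → M.V} (h : ∀ a, X.cd a ≠ 0 → vc a = 0) (σ : X.ι)
    (hσ : X.s σ ≠ 0) : X.v vc σ = 0 := by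
  unfold v
  split_ifs with he
  · refine h _ fun h0 => hσ ?_
    unfold s
    rw [h0, he, (X.qd_e X.e).2 rfl]
  · rfl

theorem sum_zero {M : WMod w} {vc : X.κ → M.V} (h : ∀ a, X.cd a ≠ 0 → vc a = 0) (x : X.ι → w.S) :
    ∑ σ ∈ X.F 0, M.rho (x σ) (X.v vc σ) = ∑ a, M.rho (x (a, X.e)) (vc a) := by
  rw [sum_F]
  refine Finset.sum_congr rfl fun a _ => ?_
  by_cases ha : X.cd a = 0
  · have hB : X.B 0 a = {X.e} := by
      ext b
      rw [mem_B, Finset.mem_singleton, ← X.qd_e b]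
      omega
    rw [hB, Finset.sum_singleton]
    unfold v
    rw [if_pos rfl]
  · have hB : X.B 0 a = ∅ := by
      rw [Finset.eq_empty_iff_forall_notMem]
      intro b hb
      have := mem_B.1 hb
      omega
    rw [hB, Finset.sum_empty, h a ha, map_zero]

theorem v_aug {M : WMod w} {vc : X.κ → M.V} (h0 : ∀ a, X.cd a ≠ 0 → vc a = 0)
    (h1 : ∀ σ : X.ι, X.s σ = 1 → ∑ a, M.rho (X.c σ (a, X.e)) (vc a) = 0) (σ : X.ι)
    (hσ : X.s σ = 1) : ∑ τ ∈ X.F 0, M.rho (X.c σ τ) (X.v vc τ) = 0 := by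
  rw [sum_zero h0]
  exact h1 σ hσ

/-- **`exR0`** -/
theorem exR0 {M : WMod w} {vc : X.κ → M.V} (hA : X.HA) (hB : X.HB0 vc)
    (h0 : ∀ a, X.cd a ≠ 0 → vc a = 0) (i : w.Ob) (x : X.ι → w.S)
    (hx : ∀ σ, x σ ∈ w.q i (X.o σ) (-(X.s σ : ℤ)))
    (hv : ∑ σ ∈ X.F 0, M.rho (x σ) (X.v vc σ) = 0) :
    ∃ y : X.ι → w.S, (∀ σ, y σ ∈ w.q i (X.o σ) ((1 : ℤ) - X.s σ)) ∧
      ∀ τ, x τ = w.D (y τ) + ∑ σ ∈ X.F 1, y σ * X.c σ τ := by
  have hqe : X.qd X.e = 0 := (X.qd_e X.e).2 rfl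
  have hx' : ∀ σ, x σ ∈ w.q i (X.o σ) ((0 : ℤ) - X.s σ) := fun σ => by
    rw [zero_sub]; exact hx σ
  have hd : ∀ τ, X.dd (X.F 1) x τ = 0 := fun τ => by
    refine q_neg ?_ (dd_mem (X := X) (T := X.F 1) hx' τ)
    omega
  have hxe : ∀ a, x (a, X.e) ∈ w.q i (X.oc a) (-(X.cd a : ℤ)) := fun a => by
    have := hx (a, X.e)
    unfold s o at this
    rwa [hqe, add_zero] at this
  rw [sum_zero h0] at hv
  obtain ⟨y0, h1, h2⟩ := hB i (fun a => x (a, X.e)) hxe hv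
  obtain ⟨y, h3, h4⟩ := exR_core hA i 0 1 (by norm_num) x hx' hd y0
    (fun a => by have := h1 a; rwa [zero_add]) h2
  refine ⟨y, fun σ => ?_, h4⟩
  have := h3 σ
  rwa [zero_add] at this

/-- **`gen`** -/
theorem gen {M : WMod w} {vc : X.κ → M.V} (hG : X.HG vc)
    (h0 : ∀ a, X.cd a ≠ 0 → vc a = 0) (i : w.Ob) (u : M.V) (hu : u ∈ M.W i) :
    ∃ x : X.ι → w.S, (∀ σ, x σ ∈ w.q i (X.o σ) (-(X.s σ : ℤ))) ∧
      ∑ σ ∈ X.F 0, M.rho (x σ) (X.v vc σ) = u := by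
  have hqe : X.qd X.e = 0 := (X.qd_e X.e).2 rfl
  obtain ⟨x, h1, h2⟩ := hG i u hu
  refine ⟨fun σ => if σ.2 = X.e then x σ.1 else 0, ?_, ?_⟩
  · rintro ⟨a, b⟩
    show (if b = X.e then x a else 0) ∈ _
    split_ifs with h
    · subst h
      unfold s o
      rw [hqe, add_zero]
      exact h1 a
    · exact Submodule.zero_mem _
  · rw [sum_zero h0]
    simpa using h2

end zero

end XC

end Crest.Agent.R186.C2c354
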