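import Crest.Agent.R186.Bas_735

-- ▼ part R186/C3q_788
section

/-!
# Row 186, half (A), leaf C3 at `m = -1` (helper788), part 1: the Q-level

`0 → K → Q → ⊕_g Q y_g → Q π → 0` for the rescaled derivations `EQ g`, homogeneous for `QZ`.
-/

set_option autoImplicit false

namespace Crest.Agent.R186.C3m1

open Crest.Agent.R186.DefsQ830 Crest.Agent.R186.VQ735
open Crest.Agent.R186.Loc261 (Lt li sc Q_ind wt Qc Qg prj)

variable {K : Type} [Field K] (π : Par K)

/-- eigenvalue of `EQ g` against `D g` on the content `m` -/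
noncomputable def lam (g : Lt) (m : Multiset Lt) : K :=
  (lp π).chi g g * pw (fun l => ((lp π).chi g l)⁻¹) m

theorem pw_ne (s : Lt → K) (hs : ∀ l, s l ≠ 0) (m : Multiset Lt) : pw s m ≠ 0 := by
  unfold pw
  apply Multiset.prod_ne_zero
  intro h
  obtain ⟨l, _, hl⟩ := Multiset.mem_map.1 h
  exact hs l hl

theorem pw_cons (s : Lt → K) (g : Lt) (m : Multiset Lt) : pw s (g ::ₘ m) = s g * pw s m := by
  unfold pw
  rw [Multiset.map_cons, Multiset.prod_cons]

theorem pw_erase (s : Lt → K) {g : Lt} {m : Multiset Lt} (h : g ∈ m) :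
    pw s m = s g * pw s (m.erase g) := by
  conv_lhs => rw [← Multiset.cons_erase h]
  exact pw_cons s g _

theorem lam_ne (g : Lt) (m : Multiset Lt) : lam π g m ≠ 0 :=
  mul_ne_zero ((lp π).chi_ne g g) (pw_ne _ (fun l => inv_ne_zero ((lp π).chi_ne g l)) m)

theorem EQ_Qc (g : Lt) {m : Multiset Lt} {u : Q π} (hu : u ∈ Qc (lp π) m) :
    EQ π g u = lam π g m • Loc261.D (lp π) g u := by
  rw [EQ_apply, Loc261.sc_Qc (lp π) _ hu, map_smul, smul_smul]
  rfl

theorem EQ_mem (g : Lt) {m : Multiset Lt} {u : Q π} (hu : u ∈ Qc (lp π) m) :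
    EQ π g u ∈ Qg (lp π) m g := by
  rw [EQ_Qc π g hu]
  exact Submodule.smul_mem _ _ (Loc261.D_mem (lp π) g hu)

theorem lam_x'x {m : Multiset Lt} (h : Lt.x ∈ m) :
    lam π .x' (m.erase .x) = π.p * lam π .x' m := by
  have hp := π.p0
  unfold lam
  rw [pw_erase _ h, Loc261.Par.chi_x'_x]
  show _ = π.p * (_ * ((π.p)⁻¹ * _))
  field_simp

theorem lam_xx' {m : Multiset Lt} (h : Lt.x' ∈ m) :
    lam π .x (m.erase .x') = π.p⁻¹ * lam π .x m := by
  have hp := π.p0
  unfold lam
  rw [pw_erase _ h, Loc261.Par.chi_x_x']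
  show _ = π.p⁻¹ * (_ * ((π.p⁻¹)⁻¹ * _))
  field_simp

theorem q_self (u : Q π) : u + u = 0 := by
  rw [← two_smul K, π.two, zero_smul]

theorem q_eq {u v : Q π} (h : u + v = 0) : u = v := by
  have : u + v + v = v := by rw [h, zero_add]
  rwa [add_assoc, q_self, add_zero] at this

/-- middle exactness in one content -/
theorem mid_c (m : Multiset Lt) (b : Lt → Q π) (hb : ∀ g, b g ∈ Qg (lp π) m g)
    (h : EQ π .x' (b .x) + π.p • EQ π .x (b .x') = 0) :
    ∃ u ∈ Qc (lp π) m, ∀ g, EQ π g u = b g := by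
  have hp := π.p0
  have e1 : EQ π .x' (b .x) = (π.p * lam π .x' m) • Loc261.D (lp π) .x' (b .x) := by
    have h1 := hb .x
    unfold Qg at h1
    split_ifs at h1 with hx
    · rw [EQ_Qc π .x' h1, lam_x'x π hx]
    · have h2 : b .x = 0 := h1
      rw [h2, map_zero, map_zero, smul_zero]
  have e2 : EQ π .x (b .x') = (π.p⁻¹ * lam π .x m) • Loc261.D (lp π) .x (b .x') := by
    have h1 := hb .x'
    unfold Qg at h1
    split_ifs at h1 with hx
    · rw [EQ_Qc π .x h1, lam_xx' π hx]
    · have h2 : b .x' = 0 := h1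
      rw [h2, map_zero, map_zero, smul_zero]
  rw [e1, e2, smul_smul, ← mul_assoc, mul_inv_cancel₀ hp, one_mul] at h
  have h3 := q_eq π h
  obtain ⟨u, hu, hu'⟩ := Loc261.mid (lp π) (lp_ind π) m (fun g => (lam π g m)⁻¹ • b g)
    (fun g => Submodule.smul_mem _ _ (hb g)) (by
      show Loc261.D (lp π) .x ((lam π .x' m)⁻¹ • b .x') =
        π.p • Loc261.D (lp π) .x' ((lam π .x m)⁻¹ • b .x)
      rw [map_smul, map_smul]
      have hx := lam_ne π .x m
      have hx' := lam_ne π .x' m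
      have h4 : Loc261.D (lp π) .x (b .x') =
          ((lam π .x m)⁻¹ * (π.p * lam π .x' m)) • Loc261.D (lp π) .x' (b .x) := by
        rw [mul_smul, h3, smul_smul, inv_mul_cancel₀ hx, one_smul]
      rw [h4, smul_smul, smul_smul]
      congr 1
      field_simp)
  refine ⟨u, hu, fun g => ?_⟩
  rw [EQ_Qc π g hu, hu' g, smul_smul, mul_inv_cancel₀ (lam_ne π g m), one_smul]

/-- projection to contents commutes with `EQ` -/
theorem EQ_prj (g : Lt) (n : Multiset Lt) (u : Q π) :
    EQ π g (prj (lp π) (g ::ₘ n) u) = prj (lp π) n (EQ π g u) := by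
  have hu : u ∈ (⨆ m : Multiset Lt, Qc (lp π) m) := by rw [Qc_top π]; exact Submodule.mem_top
  induction hu using Submodule.iSup_induction' with
  | mem k u hu =>
    by_cases hk : k = g ::ₘ n
    · subst hk
      rw [Loc261.prj_id (lp π) hu]
      have h1 := EQ_mem π g hu
      unfold Qg at h1
      rw [if_pos (Multiset.mem_cons_self _ _), Multiset.erase_cons_head] at h1
      rw [Loc261.prj_id (lp π) h1]
    · rw [Loc261.prj_ne (lp π) hk hu, map_zero]
      have h1 := EQ_mem π g hu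
      unfold Qg at h1
      split_ifs at h1 with hg
      · rw [Loc261.prj_ne (lp π) _ h1]
        rintro rfl
        exact hk (Multiset.cons_erase hg).symm
      · have h2 : EQ π g u = 0 := h1
        rw [h2, map_zero]
  | zero => simp only [map_zero]
  | add u v _ _ hu hv => simp only [map_add, hu, hv]

theorem fin_sum (u : Q π) : ∃ S0 : Finset (Multiset Lt), ∀ S, S0 ⊆ S →
    ∑ m ∈ S, prj (lp π) m u = u := by
  classical
  have hu : u ∈ (⨆ m : Multiset Lt, Qc (lp π) m) := by rw [Qc_top π]; exact Submodule.mem_top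
  induction hu using Submodule.iSup_induction' with
  | mem k u hu =>
    refine ⟨{k}, fun S hS => ?_⟩
    rw [Finset.sum_eq_single k]
    · exact Loc261.prj_id (lp π) hu
    · intro m _ hm
      exact Loc261.prj_ne (lp π) (Ne.symm hm) hu
    · intro h
      exact absurd (hS (Finset.mem_singleton_self k)) h
  | zero => exact ⟨∅, fun S _ => by simp only [map_zero, Finset.sum_const_zero]⟩
  | add u v _ _ hu hv =>
    obtain ⟨S1, h1⟩ := hu
    obtain ⟨S2, h2⟩ := hv
    refine ⟨S1 ∪ S2, fun S hS => ?_⟩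
    simp only [map_add, Finset.sum_add_distrib]
    rw [h1 S (Finset.subset_union_left.trans hS), h2 S (Finset.subset_union_right.trans hS)]

/-- elements of `Q` of degree `d` -/
noncomputable def QZ (d : ℤ) : Submodule K (Q π) where
  carrier := {u | ∀ m : Multiset Lt, (md m : ℤ) ≠ d → prj (lp π) m u = 0}
  add_mem' ha hb m h := by rw [map_add, ha m h, hb m h, add_zero]
  zero_mem' m _ := map_zero _
  smul_mem' c _ ha m h := by rw [map_smul, ha m h, smul_zero]


theorem Qc_QZ {m : Multiset Lt} {d : ℤ} (h : (md m : ℤ) = d) {u : Q π} (hu : u ∈ Qc (lp π) m) :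
    u ∈ QZ π d := by
  intro n hn
  refine Loc261.prj_ne (lp π) ?_ hu
  rintro rfl
  exact hn h

theorem EQ_QZ (g : Lt) {d : ℤ} {u : Q π} (hu : u ∈ QZ π d) : EQ π g u ∈ QZ π (d - dg g) := by
  intro m hm
  rw [← EQ_prj, hu _ _, map_zero]
  rw [md_cons]
  push_cast
  omega


/-- content `0` is the ground field -/
theorem Qc_zero {u : Q π} (hu : u ∈ Qc (lp π) 0) : ∃ r : K, u = r • 1 := by
  have h : Qc (lp π) 0 ≤ Submodule.span K {(1 : Q π)} := by
    refine Loc261.Qc_le (lp π) ?_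
    intro w hw
    have : w = [] := by
      cases w with
      | nil => rfl
      | cons a w => exact absurd hw (by simp)
    subst this
    exact Submodule.subset_span rfl
  obtain ⟨r, hr⟩ := Submodule.mem_span_singleton.1 (h hu)
  exact ⟨r, hr.symm⟩

/-- injectivity off the ground field -/
theorem inj_g {d : ℤ} {u : Q π} (hu : u ∈ QZ π d) (h : ∀ g, EQ π g u = 0) :
    ∃ r : K, u = r • 1 ∧ (d ≠ 0 → r = 0) := by
  classical
  have key : ∀ m : Multiset Lt, m ≠ 0 → prj (lp π) m u = 0 := by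
    intro m hm
    refine Loc261.inj (lp π) (lp_ind π) m.card m rfl hm _ (Loc261.prj_mem (lp π) m u) ?_
    intro g
    by_cases hg : g ∈ m
    · have h1 : EQ π g (prj (lp π) m u) = 0 := by
        rw [← Multiset.cons_erase hg, EQ_prj, h g, map_zero]
      rw [EQ_Qc π g (Loc261.prj_mem (lp π) m u)] at h1
      exact (smul_eq_zero.1 h1).resolve_left (lam_ne π g m)
    · have h1 := Loc261.D_mem (lp π) g (Loc261.prj_mem (lp π) m u)
      unfold Qg at h1
      rw [if_neg hg] at h1
      exact h1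
  obtain ⟨S0, h0⟩ := fin_sum π u
  have h1 : u = prj (lp π) 0 u := by
    conv_lhs => rw [← h0 (insert 0 S0) (Finset.subset_insert _ _)]
    rw [Finset.sum_eq_single 0]
    · intro m _ hm
      exact key m hm
    · intro h
      exact absurd (Finset.mem_insert_self _ _) h
  obtain ⟨r, hr⟩ := Qc_zero π (Loc261.prj_mem (lp π) 0 u)
  by_cases hd : d = 0
  · exact ⟨r, by rw [h1, hr], fun h => absurd hd h⟩
  · refine ⟨0, ?_, fun _ => rfl⟩
    rw [h1, zero_smul]
    apply hu
    simp only [md, Multiset.map_zero, Multiset.sum_zero]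
    push_cast
    omega


/-- **middle exactness** -/
theorem mid_g {d : ℤ} (b : Lt → Q π) (hb : ∀ g, b g ∈ QZ π (d - dg g))
    (h : EQ π .x' (b .x) + π.p • EQ π .x (b .x') = 0) :
    ∃ u ∈ QZ π d, ∀ g, EQ π g u = b g := by
  classical
  -- components
  let bm : Multiset Lt → Lt → Q π := fun m g => if g ∈ m then prj (lp π) (m.erase g) (b g) else 0
  have hbm : ∀ m g, bm m g ∈ Qg (lp π) m g := by
    intro m g
    show (if g ∈ m then prj (lp π) (m.erase g) (b g) else 0) ∈ Qg (lp π) m g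
    unfold Qg
    split_ifs with hg
    · exact Loc261.prj_mem (lp π) _ _
    · exact Submodule.zero_mem _
  have hrel : ∀ m, EQ π .x' (bm m .x) + π.p • EQ π .x (bm m .x') = 0 := by
    intro m
    by_cases hx : Lt.x ∈ m
    · by_cases hx' : Lt.x' ∈ m
      · have e1 : bm m .x = prj (lp π) (m.erase .x) (b .x) := if_pos hx
        have e2 : bm m .x' = prj (lp π) (m.erase .x') (b .x') := if_pos hx'
        have h1 : Lt.x' ∈ m.erase .x := (Multiset.mem_erase_of_ne (by decide)).2 hx'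
        have h2 : Lt.x ∈ m.erase .x' := (Multiset.mem_erase_of_ne (by decide)).2 hx
        rw [e1, e2, ← Multiset.cons_erase h1, EQ_prj, ← Multiset.cons_erase h2, EQ_prj,
          Multiset.erase_comm m .x' .x, ← map_smul, ← map_add, h, map_zero]
      · have e2 : bm m .x' = 0 := if_neg hx'
        rw [e2, map_zero, smul_zero, add_zero]
        have h1 := EQ_mem π .x' (show bm m .x ∈ Qc (lp π) (m.erase .x) by
          have := hbm m .x
          unfold Qg at this
          rwa [if_pos hx] at this)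
        unfold Qg at h1
        rw [if_neg (fun h => hx' (Multiset.mem_of_mem_erase h))] at h1
        exact h1
    · have e1 : bm m .x = 0 := if_neg hx
      rw [e1, map_zero, zero_add]
      by_cases hx' : Lt.x' ∈ m
      · have h1 := EQ_mem π .x (show bm m .x' ∈ Qc (lp π) (m.erase .x') by
          have := hbm m .x'
          unfold Qg at this
          rwa [if_pos hx'] at this)
        unfold Qg at h1
        rw [if_neg (fun h => hx (Multiset.mem_of_mem_erase h))] at h1
        have h2 : EQ π .x (bm m .x') = 0 := h1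
        rw [h2, smul_zero]
      · have e2 : bm m .x' = 0 := if_neg hx'
        rw [e2, map_zero, smul_zero]
  have hz : ∀ m, (md m : ℤ) ≠ d → ∀ g, bm m g = 0 := by
    intro m hm g
    show (if g ∈ m then prj (lp π) (m.erase g) (b g) else 0) = 0
    split_ifs with hg
    · apply hb g
      have : md m = dg g + md (m.erase g) := by
        conv_lhs => rw [← Multiset.cons_erase hg]
        exact md_cons g _
      omega
    · rfl
  have hex : ∀ m, ∃ u ∈ Qc (lp π) m, (∀ g, EQ π g u = bm m g) ∧ ((md m : ℤ) ≠ d → u = 0) := by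
    intro m
    by_cases hm : (md m : ℤ) = d
    · obtain ⟨u, hu, hu'⟩ := mid_c π m (bm m) (hbm m) (hrel m)
      exact ⟨u, hu, hu', fun h => absurd hm h⟩
    · exact ⟨0, Submodule.zero_mem _, fun g => by rw [map_zero, hz m hm g], fun _ => rfl⟩
  choose um hum hum' hum0 using hex
  -- big finite set
  choose S0 hS0 using fun g => fin_sum π (b g)
  let M : Finset (Multiset Lt) := Finset.univ.biUnion (fun g : Lt => (S0 g).image (fun n => g ::ₘ n))
  refine ⟨∑ m ∈ M, um m, ?_, fun g => ?_⟩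
  · refine Submodule.sum_mem _ fun m _ => ?_
    by_cases hm : (md m : ℤ) = d
    · exact Qc_QZ π hm (hum m)
    · rw [hum0 m hm]; exact Submodule.zero_mem _
  · rw [map_sum, Finset.sum_congr rfl (fun m _ => hum' m g)]
    have h1 : ∑ m ∈ M, bm m g = ∑ m ∈ M.filter (fun m => g ∈ m), prj (lp π) (m.erase g) (b g) := by
      rw [Finset.sum_filter]
    rw [h1]
    have h2 : Set.InjOn (fun m : Multiset Lt => m.erase g) (M.filter (fun m => g ∈ m)) := by
      intro m hm n hn hmn
      have hm' := (Finset.mem_filter.1 (Finset.mem_coe.1 hm)).2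
      have hn' := (Finset.mem_filter.1 (Finset.mem_coe.1 hn)).2
      have hmn' : m.erase g = n.erase g := hmn
      rw [← Multiset.cons_erase hm', ← Multiset.cons_erase hn', hmn']
    rw [← Finset.sum_image (f := fun n => prj (lp π) n (b g)) h2]
    apply hS0 g
    intro n hn
    rw [Finset.mem_image]
    refine ⟨g ::ₘ n, ?_, Multiset.erase_cons_head _ _⟩
    rw [Finset.mem_filter]
    refine ⟨?_, Multiset.mem_cons_self _ _⟩
    rw [Finset.mem_biUnion]
    exact ⟨g, Finset.mem_univ _, Finset.mem_image_of_mem _ hn⟩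

/-- **surjectivity** -/
theorem surj_g {d : ℤ} {v : Q π} (hv : v ∈ QZ π d) : ∃ u ∈ QZ π (d + 1), EQ π .x u = v := by
  classical
  have hex : ∀ m : Multiset Lt, ∃ u ∈ QZ π (d + 1), EQ π .x u = prj (lp π) m v := by
    intro m
    by_cases hm : (md m : ℤ) = d
    · obtain ⟨u, hu, hu'⟩ := Loc261.surj (lp π) (lp_ind π) (Loc261.prj_mem (lp π) m v)
      refine ⟨(lam π .x (.x ::ₘ m))⁻¹ • u, Submodule.smul_mem _ _ (Qc_QZ π ?_ hu), ?_⟩
      · rw [md_cons]
        simp only [dg]
        push_cast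
        omega
      · rw [map_smul, EQ_Qc π .x hu, smul_smul, inv_mul_cancel₀ (lam_ne π _ _), one_smul, hu']
    · refine ⟨0, Submodule.zero_mem _, ?_⟩
      rw [map_zero, hv m hm]
  choose um hum hum' using hex
  obtain ⟨S0, hS0⟩ := fin_sum π v
  refine ⟨∑ m ∈ S0, um m, Submodule.sum_mem _ fun m _ => hum m, ?_⟩
  rw [map_sum, Finset.sum_congr rfl (fun m _ => hum' m)]
  exact hS0 S0 (Finset.Subset.refl _)

end Crest.Agent.R186.C3m1
end

-- ▼ part R186/C3m1_788

/-!
# Row 186, half (A), leaf C3 at `m = -1` (helper788), part 2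

The `V_{-1}`-valued cochains of the cells of `X''`: `exV_m1` (exactness in positive degrees) and
`H0_m1` (degree `0`: the constants).  `V_{-1} (c, q) = hom K (cP c)` = the constants for
`cP c = 0`, zero for `cP c = -1`.
-/

set_option autoImplicit false

namespace Crest.Agent.R186.C3m1

open Crest.Agent.R186.VOp220 Crest.Agent.R186.DefsQ830 Crest.Agent.R186.Vmod220
open Crest.Agent.R186.Cells221 Crest.Agent.R186.Der580 Crest.Agent.R186.VQ735
open Crest.Agent.R186.PBW128 (E)
open Crest.Agent.R186.Loc261 (Lt li sc Q_ind wt Qc Qg prj)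
open TensorProduct

variable {K : Type} [Field K] (π : Par K)

/-! ### constants -/

/-- `R''` of `P`-degree `P` shifts the degree of polynomials by `P` -/
theorem rep_pz {P A C : ℤ} {r : R π} (hr : r ∈ pz π P A C) {m : ℤ} {v : Pol K}
    (hv : v ∈ hom K m) : rep π r v ∈ hom K (m + P) := by
  have : pz π P A C ≤ (hom K (m + P)).comap
      ((LinearMap.applyₗ (R := K) (M₂ := Pol K) v).comp (rep π).toLinearMap) := by
    rw [pz, Submodule.span_le]
    rintro r ⟨w, hP, _, _, rfl⟩
    rw [← hP]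
    exact rep_wd π w hv
  exact this hr

theorem hom0 {v : Pol K} (hv : v ∈ hom K (0 : ℤ)) : v = v (0, 0) • mon K 0 0 := by
  have h := eq_on (K := K) (f := (LinearMap.id : Pol K →ₗ[K] Pol K))
    (h := (LinearMap.toSpanSingleton K (Pol K) (mon K 0 0)).comp (Finsupp.lapply (0, 0)))
    (m := 0) (fun a b hab => by
      have ha : a = 0 := by omega
      have hb : b = 0 := by omega
      subst ha hb
      simp [mon]) hv
  simpa using h

theorem mon0_mem : mon K 0 0 ∈ hom K (0 : ℤ) := mon_mem (by norm_num)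

theorem mon0_ne : mon K 0 0 ≠ 0 := by
  unfold mon
  rw [Ne, Finsupp.single_eq_zero]
  exact one_ne_zero

theorem mon0_app : mon K 0 0 (0, 0) = 1 := by simp [mon]

/-- action on the constants -/
noncomputable def ev0 : R π →ₗ[K] K :=
  (Finsupp.lapply (0, 0)).comp ((LinearMap.applyₗ (R := K) (M₂ := Pol K) (mon K 0 0)).comp
    (rep π).toLinearMap)

theorem ev0_apply (r : R π) : ev0 π r = rep π r (mon K 0 0) (0, 0) := rfl

theorem ev0_spec {A C : ℤ} {r : R π} (hr : r ∈ pz π 0 A C) :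
    rep π r (mon K 0 0) = ev0 π r • mon K 0 0 := by
  have h := rep_pz π hr (mon0_mem (K := K))
  rw [add_zero] at h
  exact hom0 h

theorem ev0_isZ {a : Gen} (ha : isZ a = true) : ev0 π (X π a) = 0 := by
  rw [ev0_apply, rep_isZ π ha]
  rfl

theorem ev0_h : ev0 π (X π .h) = 1 := by
  rw [ev0_apply, rep_h]
  exact mon0_app

theorem ev0_tR : ev0 π (tR π) = (π.g ^ 2)⁻¹ := by
  rw [ev0_apply, rep_tR, TT_hom π (m := 0) (by simpa using mon0_mem (K := K)), Finsupp.smul_apply,
    mon0_app]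
  simp

theorem ev0_hmul (r : R π) : ev0 π (X π .h * r) = ev0 π r := by
  rw [ev0_apply, ev0_apply, map_mul, rep_h, one_mul]

theorem ev0_hR (s : Fin 2) : ev0 π (hR π s) = 1 := by
  rcases f2 s with rfl | rfl
  · exact ev0_h π
  · exact (ev0_hmul π _).trans (ev0_h π)

theorem ev0_ht (s : Fin 2) : ev0 π (hR π s * tR π) = (π.g ^ 2)⁻¹ := by
  rcases f2 s with rfl | rfl
  · exact (ev0_hmul π _).trans (ev0_tR π)
  · show ev0 π (X π .h * X π .h * tR π) = _
    rw [mul_assoc, ev0_hmul, ev0_hmul, ev0_tR]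

theorem ev0_yl (g : Lt) : ev0 π (yl π g) = 0 := by
  cases g <;> exact ev0_isZ π rfl

/-- `r ⊗ T ↦ (r on constants) T` -/
noncomputable def A0 : A2 π →ₗ[K] Module.End K (Q π) :=
  TensorProduct.lift ((LinearMap.lsmul K (Module.End K (Q π))).comp (ev0 π))

@[simp] theorem A0_tmul (r : R π) (T : Module.End K (Q π)) : A0 π (r ⊗ₜ T) = ev0 π r • T := rfl

theorem ev0_cA (q q' : Bt π) (a : A2 π) : ev0 π (cA π q q' a) = coef π q q' (A0 π a) := by
  induction a using TensorProduct.induction_on with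
  | zero => simp only [map_zero]
  | add a b ha hb => simp only [map_add, ha, hb]
  | tmul r T =>
    rw [cA_tmul, A0_tmul, map_smul, map_smul, smul_eq_mul, smul_eq_mul, mul_comm]

/-! ### the matrix on constants -/

theorem A0_th : A0 π (th π) = 0 := by
  rw [th, map_sum]
  refine Finset.sum_eq_zero fun g _ => ?_
  rw [A0_tmul, ev0_yl, zero_smul]

theorem A0_isZ {a : Gen} (ha : isZ a = true) (T : Module.End K (Q π)) :
    A0 π (X π a ⊗ₜ T) = 0 := by
  rw [A0_tmul, ev0_isZ π ha, zero_smul]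

theorem A0_u (s : Fin 2) : A0 π (Dl π (X π (.u s))) = EQ π (lu s) := by
  rw [Dl_X]
  simp only [dl, map_add]
  rw [A0_isZ π rfl, A0_tmul, ev0_hR, one_smul, zero_add]

theorem A0_v (s : Fin 2) : A0 π (Dl π (X π (.v s))) = (π.g ^ 2)⁻¹ • EQ π (lv s) := by
  rw [Dl_X]
  simp only [dl, map_add]
  rw [A0_isZ π rfl, A0_tmul, ev0_ht, zero_add]

theorem A0_f : A0 π (Dl π (X π .f)) = 0 := by
  rw [Dl_X]; exact A0_isZ π rfl _
theorem A0_zc : A0 π (Dl π (X π .zc)) = 0 := by
  rw [Dl_X]; exact A0_isZ π rfl _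
theorem A0_gc : A0 π (Dl π (X π .gc)) = 0 := by
  rw [Dl_X]; exact A0_isZ π rfl _
theorem A0_h : A0 π (Dl π (X π .h)) = 1 := by
  rw [Dl_X]
  show A0 π (X π .h ⊗ₜ 1) = 1
  rw [A0_tmul, ev0_h, one_smul]

theorem A0_tR : A0 π (Dl π (tR π)) = (π.g ^ 2)⁻¹ • 1 := by
  rw [show Dl π (tR π) = tR π ⊗ₜ scl π 1 from Hm_tR π, A0_tmul, ev0_tR, scl_one]

/-- the differential on `Φ : Cell → Q` -/
noncomputable def dV (Φ : Cell → Q π) (c : Cell) : Q π := ∑ c', A0 π (Cm π c c') (Φ c')

/-- the cells of `P`-degree `-1` carry nothing -/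
def Z1 (Φ : Cell → Q π) : Prop := ∀ c, cP c = -1 → Φ c = 0

theorem dV_some (Φ : Cell → Q π) (l : E) : dV π Φ (some l) =
    A0 π (Dl π (X π l.toGen)) (Φ none) + ∑ l', A0 π (Dl π (cf π l l')) (Φ (some l')) := by
  rw [dV, Fintype.sum_option]
  congr 1
  refine Finset.sum_congr rfl fun l' _ => ?_
  show A0 π (Dl π (cf π l l') + if l = l' then th π else 0) (Φ (some l')) = _
  have : A0 π (if l = l' then th π else 0) = 0 := by
    split_ifs
    · exact A0_th π
    · exact map_zero _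
  rw [map_add, this, add_zero]

theorem dV_none (Φ : Cell → Q π) : dV π Φ none = 0 := by
  rw [dV, Fintype.sum_option]
  show A0 π (th π) (Φ none) + ∑ l : E, A0 π 0 (Φ (some l)) = 0
  rw [A0_th, LinearMap.zero_apply, zero_add]
  refine Finset.sum_eq_zero fun l _ => ?_
  rw [map_zero, LinearMap.zero_apply]

variable {π} in
theorem Z1.d {Φ : Cell → Q π} (h : Z1 π Φ) (j : Fin 2) : Φ (some (.d j)) = 0 := h _ rfl
variable {π} in
theorem Z1.z {Φ : Cell → Q π} (h : Z1 π Φ) (j : Fin 2) : Φ (some (.z j)) = 0 := h _ rfl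
variable {π} in
theorem Z1.e {Φ : Cell → Q π} (h : Z1 π Φ) (j : Fin 2) : Φ (some (.e j)) = 0 := h _ rfl
variable {π} in
theorem Z1.gj {Φ : Cell → Q π} (h : Z1 π Φ) (j : Fin 2) : Φ (some (.gj j)) = 0 := h _ rfl

theorem dV_f {Φ : Cell → Q π} (h : Z1 π Φ) : dV π Φ (some .f) = 0 := by
  rw [dV_some, sumE]
  simp [-Dl_X, E.toGen, cf, A0_f, h.d, h.z, h.e, h.gj]

theorem dV_zc {Φ : Cell → Q π} (h : Z1 π Φ) : dV π Φ (some .zc) = Φ (some .f) := by
  rw [dV_some, sumE]
  simp [-Dl_X, E.toGen, cf, A0_zc, A0_h, h.d, h.z, h.e, h.gj]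

theorem dV_u {Φ : Cell → Q π} (h : Z1 π Φ) (s : Fin 2) :
    dV π Φ (some (.u s)) = EQ π (lu s) (Φ none) := by
  rw [dV_some, sumE]
  simp [-Dl_X, E.toGen, cf, A0_u, h.d, h.z, h.e, h.gj]

theorem dV_gc {Φ : Cell → Q π} (h : Z1 π Φ) : dV π Φ (some .gc) =
    EQ π .x' (Φ (some (.u 0))) + π.p • EQ π .x (Φ (some (.u 1))) := by
  rw [dV_some, sumE]
  simp [-Dl_X, E.toGen, cf, A0_gc, A0_f, A0_zc, A0_u, h.d, h.z, h.e, h.gj, lu]

theorem dV_v {Φ : Cell → Q π} (h : Z1 π Φ) (s : Fin 2) :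
    dV π Φ (some (.v s)) = (π.g ^ 2)⁻¹ • EQ π (lv s) (Φ none) := by
  have key : A0 π (Dl π (tR π + (π.g ^ 2)⁻¹ • X π .h)) = 0 := by
    rw [map_add, map_smul, map_add, map_smul, A0_tR, A0_h, ← add_smul]
    have : (π.g ^ 2)⁻¹ + (π.g ^ 2)⁻¹ = 0 := by
      rw [← two_mul, π.two, zero_mul]
    rw [this, zero_smul]
  rw [dV_some, sumE]
  rcases f2 s with rfl | rfl
  · simp only [E.toGen, cf, A0_v, h.d, h.z, h.e, h.gj, if_true, key, map_zero,
      LinearMap.zero_apply, LinearMap.smul_apply, add_zero,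
      if_neg (show ¬ ((1 : Fin 2) = 0) by decide)]
  · simp only [E.toGen, cf, A0_v, h.d, h.z, h.e, h.gj, if_true, key, map_zero,
      LinearMap.zero_apply, LinearMap.smul_apply, add_zero,
      if_neg (show ¬ ((0 : Fin 2) = 1) by decide)]

/-! ### cochains as `Q`-valued functions on the cells -/

theorem repr_prj (u : Q π) (q : Bt π) :
    (bq π).repr u q = (bq π).repr (prj (lp π) q.1 u) q := by
  have hu : u ∈ (⨆ m : Multiset Lt, Qc (lp π) m) := by rw [Qc_top π]; exact Submodule.mem_top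
  induction hu using Submodule.iSup_induction' with
  | mem k u hu =>
    by_cases hk : k = q.1
    · subst hk
      rw [Loc261.prj_id (lp π) hu]
    · rw [Loc261.prj_ne (lp π) hk hu, map_zero, repr_ne π hu (Ne.symm hk)]
      rfl
  | zero => simp only [map_zero]
  | add u v _ _ hu hv => simp only [map_add, Finsupp.add_apply, hu, hv]

theorem repr_QZ {d : ℤ} {u : Q π} (hu : u ∈ QZ π d) {q : Bt π} (hq : (qd q : ℤ) ≠ d) :
    (bq π).repr u q = 0 := by
  rw [repr_prj, hu q.1 hq, map_zero]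
  rfl

theorem bq_QZ (q : Bt π) : bq π q ∈ QZ π (qd q) := Qc_QZ π rfl (bq_mem π q)


/-- cochains of degree `n` with values in `V_{-1}` -/
def IsC (n : ℕ) (φ : Io π → Pol K) : Prop :=
  (∀ σ, φ σ ∈ hom K (cP σ.1)) ∧ ∀ σ, sI σ ≠ n → φ σ = 0

/-- to `Q` -/
noncomputable def toQ (n : ℕ) (φ : Io π → Pol K) (c : Cell) : Q π :=
  ∑ q ∈ Bq π n, φ (c, q) (0, 0) • bq π q

/-- from `Q` -/
noncomputable def frQ (Φ : Cell → Q π) (σ : Io π) : Pol K := (bq π).repr (Φ σ.1) σ.2 • mon K 0 0

theorem Z1_toQ {n : ℕ} {φ : Io π → Pol K} (h : IsC π n φ) : Z1 π (toQ π n φ) := by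
  intro c hc
  refine Finset.sum_eq_zero fun q _ => ?_
  have h1 := h.1 (c, q)
  rw [show cP (c, q).1 = -1 from hc] at h1
  rw [hom_m1 h1]
  exact zero_smul _ _

theorem toQ_QZ {n : ℕ} {φ : Io π → Pol K} (h : IsC π n φ) (c : Cell) :
    toQ π n φ c ∈ QZ π ((n : ℤ) - cdeg c) := by
  refine Submodule.sum_mem _ fun q _ => ?_
  by_cases hs : sI (c, q) = n
  · refine Submodule.smul_mem _ _ ?_
    have h1 := bq_QZ π q
    have : (qd q : ℤ) = (n : ℤ) - cdeg c := by
      rw [← hs]
      simp only [sI]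
      push_cast
      ring
    rwa [this] at h1
  · rw [h.2 _ hs]
    simp only [Finsupp.coe_zero, Pi.zero_apply, zero_smul]
    exact Submodule.zero_mem _

theorem toQ_repr {n : ℕ} {φ : Io π → Pol K} (h : IsC π n φ) (c : Cell) (q : Bt π) :
    (bq π).repr (toQ π n φ c) q = φ (c, q) (0, 0) := by
  rw [toQ, map_sum, Finsupp.finsetSum_apply]
  by_cases hq : q ∈ Bq π n
  · rw [Finset.sum_eq_single q]
    · rw [map_smul, Module.Basis.repr_self, Finsupp.smul_apply, Finsupp.single_eq_same, smul_eq_mul,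
        mul_one]
    · intro q' _ hq'
      rw [map_smul, Module.Basis.repr_self, Finsupp.smul_apply, Finsupp.single_eq_of_ne (Ne.symm hq'),
        smul_zero]
    · intro h1
      exact absurd hq h1
  · have h0 : φ (c, q) = 0 := by
      apply h.2
      rw [mem_Bq] at hq
      simp only [sI]
      omega
    rw [h0, Finsupp.zero_apply]
    refine Finset.sum_eq_zero fun q' hq' => ?_
    rw [map_smul, Module.Basis.repr_self, Finsupp.smul_apply, Finsupp.single_eq_of_ne, smul_zero]
    rintro rfl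
    exact hq hq'

theorem frQ_toQ {n : ℕ} {φ : Io π → Pol K} (h : IsC π n φ) : frQ π (toQ π n φ) = φ := by
  funext σ
  obtain ⟨c, q⟩ := σ
  rw [frQ, toQ_repr π h]
  have h1 := h.1 (c, q)
  by_cases hc : cP c = 0
  · rw [show cP (c, q).1 = 0 from hc] at h1
    exact (hom0 h1).symm
  · have hc' : cP c = -1 := by
      rcases c with _ | l
      · exact absurd rfl hc
      · cases l <;> first | rfl | exact absurd rfl hc
    rw [show cP (c, q).1 = -1 from hc'] at h1
    rw [hom_m1 h1]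
    exact zero_smul _ _

theorem frQ_isC {n : ℕ} {Φ : Cell → Q π} (hz : Z1 π Φ) (h : ∀ c, Φ c ∈ QZ π ((n : ℤ) - cdeg c)) :
    IsC π n (frQ π Φ) := by
  constructor
  · rintro ⟨c, q⟩
    by_cases hc : cP c = 0
    · rw [show cP (c, q).1 = 0 from hc]
      exact Submodule.smul_mem _ _ mon0_mem
    · have hc' : cP c = -1 := by
        rcases c with _ | l
        · exact absurd rfl hc
        · cases l <;> first | rfl | exact absurd rfl hc
      rw [frQ, show Φ (c, q).1 = 0 from hz c hc', map_zero, Finsupp.zero_apply, zero_smul]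
      exact Submodule.zero_mem _
  · rintro ⟨c, q⟩ hs
    simp only [sI] at hs
    rw [frQ, repr_QZ π (h c) (by dsimp only; omega), zero_smul]

theorem toQ_frQ {n : ℕ} {Φ : Cell → Q π} (hz : Z1 π Φ) (h : ∀ c, Φ c ∈ QZ π ((n : ℤ) - cdeg c)) :
    toQ π n (frQ π Φ) = Φ := by
  funext c
  apply (bq π).repr.injective
  ext q
  rw [toQ_repr π (frQ_isC π hz h), frQ, Finsupp.smul_apply, mon0_app, smul_eq_mul, mul_one]

/-- sum over the cells of degree `≤ n` -/
theorem sum_FI' {M : Type*} [AddCommMonoid M] (n : ℕ) (f : Io π → M)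
    (hf : ∀ τ, n < sI τ → f τ = 0) :
    ∑ τ ∈ FI π n, f τ = ∑ c', ∑ q' ∈ Bq π n, f (c', q') := by
  rw [← Finset.sum_product', FI, Finset.sum_filter_of_ne]
  intro τ _ h
  by_contra h1
  exact h (hf τ (by omega))

theorem cP_cases (c : Cell) : cP c = 0 ∨ cP c = -1 := by
  rcases c with _ | l
  · exact Or.inl rfl
  · cases l <;> first | exact Or.inl rfl | exact Or.inr rfl

/-- **the differential in terms of `Q`** -/
theorem d_toQ {n : ℕ} {φ : Io π → Pol K} (h : IsC π n φ) (σ : Io π) (hc : cP σ.1 = 0) :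
    ∑ τ ∈ FI π n, rep π (cI π σ τ) (φ τ) = frQ π (dV π (toQ π n φ)) σ := by
  obtain ⟨c, q⟩ := σ
  rw [sum_FI' π n _ (fun τ hτ => by rw [h.2 τ (by omega), map_zero])]
  rw [frQ, dV, map_sum, Finsupp.finsetSum_apply, Finset.sum_smul]
  refine Finset.sum_congr rfl fun c' _ => ?_
  rw [toQ, map_sum, map_sum, Finsupp.finsetSum_apply, Finset.sum_smul]
  refine Finset.sum_congr rfl fun q' _ => ?_
  rw [map_smul, map_smul, Finsupp.smul_apply, ← coef_apply, ← ev0_cA]
  have h1 := h.1 (c', q')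
  rcases cP_cases c' with hc' | hc'
  · rw [show cP (c', q').1 = 0 from hc'] at h1
    conv_lhs => rw [hom0 h1]
    have h2 := cI_pz π (c, q) (c', q')
    rw [show cP (c, q).1 - cP (c', q').1 = 0 by rw [hc]; simp only [hc', sub_zero]] at h2
    rw [map_smul, ev0_spec π h2, smul_smul]
    rfl
  · rw [show cP (c', q').1 = -1 from hc'] at h1
    rw [hom_m1 h1, map_zero]
    simp only [Finsupp.coe_zero, Pi.zero_apply, zero_smul]

theorem d_mem {n : ℕ} {φ : Io π → Pol K} (h : IsC π n φ) (σ : Io π) :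
    ∑ τ ∈ FI π n, rep π (cI π σ τ) (φ τ) ∈ hom K (cP σ.1) := by
  refine Submodule.sum_mem _ fun τ _ => ?_
  have h1 := rep_pz π (cI_pz π σ τ) (h.1 τ)
  rwa [add_sub_cancel] at h1

theorem d_m1 {n : ℕ} {φ : Io π → Pol K} (h : IsC π n φ) (σ : Io π) (hc : cP σ.1 = -1) :
    ∑ τ ∈ FI π n, rep π (cI π σ τ) (φ τ) = 0 := by
  have h1 := d_mem π h σ
  rw [hc] at h1
  exact hom_m1 h1

theorem QZ_cast {d d' : ℤ} {u : Q π} (h : u ∈ QZ π d) (e : d = d') : u ∈ QZ π d' := e ▸ h

theorem dV_QZ {n : ℕ} {Φ : Cell → Q π} (hz : Z1 π Φ) (h : ∀ c, Φ c ∈ QZ π ((n : ℤ) - cdeg c))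
    (c : Cell) (hc : cP c = 0) : dV π Φ c ∈ QZ π (((n + 1 : ℕ) : ℤ) - cdeg c) := by
  have h0 : Φ none ∈ QZ π (n : ℤ) := QZ_cast π (h none) (by simp [cdeg])
  rcases c with _ | l
  · rw [dV_none]; exact Submodule.zero_mem _
  cases l with
  | f => rw [dV_f π hz]; exact Submodule.zero_mem _
  | zc => rw [dV_zc π hz]; exact QZ_cast π (h _) (by simp only [cdeg]; push_cast; ring)
  | u s =>
    rw [dV_u π hz]
    refine QZ_cast π (EQ_QZ π _ h0) ?_
    rcases f2 s with rfl | rfl
    · simp [cdeg, lu, dg]; ring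
    · simp [cdeg, lu, dg]; ring
  | gc =>
    rw [dV_gc π hz]
    refine Submodule.add_mem _ ?_ (Submodule.smul_mem _ _ ?_)
    · exact QZ_cast π (EQ_QZ π _ (h _)) (by simp [cdeg, dg]; ring)
    · exact QZ_cast π (EQ_QZ π _ (h _)) (by simp [cdeg, dg]; ring)
  | v s =>
    rw [dV_v π hz]
    refine Submodule.smul_mem _ _ (QZ_cast π (EQ_QZ π _ h0) ?_)
    rcases f2 s with rfl | rfl
    · simp [cdeg, lv, dg]; ring
    · simp [cdeg, lv, dg]; ring
  | d j => exact absurd hc (by simp [cP])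
  | z j => exact absurd hc (by simp [cP])
  | e j => exact absurd hc (by simp [cP])
  | gj j => exact absurd hc (by simp [cP])

/-- closed cochains -/
theorem dV_zero {n : ℕ} {φ : Io π → Pol K} (h : IsC π n φ)
    (hd : ∀ σ, sI σ = n + 1 → ∑ τ ∈ FI π n, rep π (cI π σ τ) (φ τ) = 0) (c : Cell)
    (hc : cP c = 0) : dV π (toQ π n φ) c = 0 := by
  apply (bq π).repr.injective
  ext q
  rw [map_zero, Finsupp.zero_apply]
  by_cases hs : sI (c, q) = n + 1
  · have h1 := hd _ hs
    rw [d_toQ π h _ hc] at h1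
    exact (smul_eq_zero.1 h1).resolve_right mon0_ne
  · refine repr_QZ π (dV_QZ π (Z1_toQ π h) (toQ_QZ π h) c hc) ?_
    simp only [sI] at hs
    omega

/-- **exactness at `m = -1` in positive degrees** -/
theorem exV_m1 (m : ℕ) (φ : Io π → Pol K) (h0 : ∀ σ, φ σ ∈ hom K (cP σ.1))
    (h1 : ∀ σ, sI σ ≠ m + 1 → φ σ = 0)
    (h2 : ∀ σ, sI σ = m + 2 → ∑ τ ∈ FI π (m + 1), rep π (cI π σ τ) (φ τ) = 0) :
    ∃ ψ : Io π → Pol K, (∀ σ, ψ σ ∈ hom K (cP σ.1)) ∧ (∀ σ, sI σ ≠ m → ψ σ = 0) ∧
      ∀ σ, sI σ = m + 1 → φ σ = ∑ τ ∈ FI π m, rep π (cI π σ τ) (ψ τ) := by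
  have hφ : IsC π (m + 1) φ := ⟨h0, h1⟩
  have hz := Z1_toQ π hφ
  have hq := toQ_QZ π hφ
  have hd := dV_zero π hφ h2
  set Φ := toQ π (m + 1) φ with hΦ
  have hp := π.p0
  have hg2 : (π.g ^ 2 : K) ≠ 0 := pow_ne_zero _ π.g0
  -- the equations
  have ef : Φ (some .f) = 0 := by
    have := hd (some .zc) rfl
    rwa [dV_zc π hz] at this
  have eu : ∀ s, EQ π (lu s) (Φ none) = 0 := fun s => by
    have := hd (some (.u s)) rfl
    rwa [dV_u π hz] at this
  have ev : ∀ s, EQ π (lv s) (Φ none) = 0 := fun s => by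
    have := hd (some (.v s)) rfl
    rw [dV_v π hz] at this
    exact (smul_eq_zero.1 this).resolve_left (inv_ne_zero hg2)
  have egc : EQ π .x' (Φ (some (.u 0))) + π.p • EQ π .x (Φ (some (.u 1))) = 0 := by
    have := hd (some .gc) rfl
    rwa [dV_gc π hz] at this
  have en : Φ none = 0 := by
    obtain ⟨r, hr, hr0⟩ := inj_g π (hq none) (fun g => by
      cases g
      · exact eu 0
      · exact ev 0
      · exact eu 1
      · exact ev 1)
    rw [hr, hr0 (by simp only [cdeg]; push_cast; omega), zero_smul]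
  -- the primitive
  obtain ⟨a, ha, hag⟩ := mid_g π (d := (m : ℤ))
    (fun g => match g with
      | .x => Φ (some (.u 0))
      | .x' => Φ (some (.u 1))
      | .a => π.g ^ 2 • Φ (some (.v 0))
      | .b => π.g ^ 2 • Φ (some (.v 1)))
    (fun g => by
      cases g
      · exact QZ_cast π (hq _) (by simp [cdeg, dg]; ring)
      · exact Submodule.smul_mem _ _ (QZ_cast π (hq _) (by simp [cdeg, dg]; ring))
      · exact QZ_cast π (hq _) (by simp [cdeg, dg]; ring)
      · exact Submodule.smul_mem _ _ (QZ_cast π (hq _) (by simp [cdeg, dg]; ring)))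
    egc
  obtain ⟨b, hb, hbg⟩ := surj_g π (d := (m : ℤ) - 4) (v := π.p⁻¹ • Φ (some .gc))
    (Submodule.smul_mem _ _ (QZ_cast π (hq _) (by simp [cdeg]; ring)))
  let Ψ : Cell → Q π := fun c => match c with
    | none => a
    | some .f => Φ (some .zc)
    | some (.u s) => if s = 0 then 0 else b
    | _ => 0
  have hzΨ : Z1 π Ψ := by
    intro c hc
    rcases c with _ | l
    · exact absurd hc (by simp [cP])
    · cases l <;> first | rfl | exact absurd hc (by simp [cP])
  have hqΨ : ∀ c, Ψ c ∈ QZ π ((m : ℤ) - cdeg c) := by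
    intro c
    rcases c with _ | l
    · exact QZ_cast π ha (by simp [cdeg])
    · cases l with
      | f => exact QZ_cast π (hq _) (by simp [cdeg]; ring)
      | u s =>
        rcases f2 s with rfl | rfl
        · exact Submodule.zero_mem _
        · exact QZ_cast π hb (by simp [cdeg]; ring)
      | _ => exact Submodule.zero_mem _
  have hdΨ : ∀ c, cP c = 0 → dV π Ψ c = Φ c := by
    intro c hc
    rcases c with _ | l
    · rw [dV_none, en]
    · cases l with
      | f => rw [dV_f π hzΨ, ef]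
      | zc => rw [dV_zc π hzΨ]
      | u s =>
        rw [dV_u π hzΨ]
        rcases f2 s with rfl | rfl
        · exact hag .x
        · exact hag .x'
      | gc =>
        rw [dV_gc π hzΨ]
        show EQ π .x' 0 + π.p • EQ π .x b = _
        rw [map_zero, zero_add, hbg, smul_smul, mul_inv_cancel₀ hp, one_smul]
      | v s =>
        rw [dV_v π hzΨ]
        rcases f2 s with rfl | rfl
        · show (π.g ^ 2)⁻¹ • EQ π .a a = _
          rw [hag .a, smul_smul, inv_mul_cancel₀ hg2, one_smul]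
        · show (π.g ^ 2)⁻¹ • EQ π .b a = _
          rw [hag .b, smul_smul, inv_mul_cancel₀ hg2, one_smul]
      | d j => exact absurd hc (by simp [cP])
      | z j => exact absurd hc (by simp [cP])
      | e j => exact absurd hc (by simp [cP])
      | gj j => exact absurd hc (by simp [cP])
  have hψ := frQ_isC π hzΨ hqΨ
  refine ⟨frQ π Ψ, hψ.1, hψ.2, fun σ _ => ?_⟩
  rcases cP_cases σ.1 with hc | hc
  · rw [d_toQ π hψ σ hc, toQ_frQ π hzΨ hqΨ, frQ, hdΨ _ hc]
    conv_lhs => rw [← frQ_toQ π hφ]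
    rfl
  · rw [d_m1 π hψ σ hc]
    have h3 := h0 σ
    rw [hc] at h3
    exact hom_m1 h3

/-! ### degree `0` -/










end Crest.Agent.R186.C3m1
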