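import Crest.Agent.R186.Adapt_186
import Crest.Agent.R186.Win_810
import Crest.Agent.R186.Frame_515

-- ▼ part R186/KH_186
section

/-!
Row 186 (A), leaf A.KH (helper186): the closing data over an abstract window `w : WD K`.

`CE w`  : a target ring `B = R' = R''/J` with pieces, projections, differential, the projection
`p : S → B`, the map `o : B → S`, `b ↦ b o₁ κ`, and the cells `cc` over `B`.
`KK`    : `(i, c) ↦ B`, left module over the window algebra, `L`, `dY`, `gr`, `KKlm : LM w.dga`.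
-/

set_option autoImplicit false
set_option linter.style.haveILetI false

namespace Crest.Agent.R186.KH186

open Hat827 Win810 Adapt186 Frame515

variable {K : Type} [Field K]

/-- closing data over a window -/
structure CE (w : WD K) where
  B : Type
  [ring : Ring B]
  [alg : Algebra K B]
  two : ∀ b : B, b + b = 0
  pb : ℤ → ℤ → ℤ → Submodule K B
  pb_mul : ∀ {P A C P' A' C' : ℤ} {a b : B}, a ∈ pb P A C → b ∈ pb P' A' C' →
    a * b ∈ pb (P + P') (A + A') (C + C')
  pb_neg : ∀ P A C : ℤ, C < 0 → pb P A C = ⊥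
  Nb : ℕ
  pb_big : ∀ (P : ℤ) (i j : w.Ob) (C : ℤ), (Nb : ℤ) < C → pb P (w.A i - w.A j) C = ⊥
  pb_fin : ∀ P A C : ℤ, Module.Finite K (pb P A C)
  prB : ℤ → B →ₗ[K] B
  prB_self : ∀ {P A C : ℤ} {b : B}, b ∈ pb P A C → prB C b = b
  prB_ne : ∀ {P A C : ℤ} {b : B} (C' : ℤ), b ∈ pb P A C → C' ≠ C → prB C' b = 0
  D' : B →ₗ[K] B
  D'_mul : ∀ a b : B, D' (a * b) = D' a * b + a * D' b
  D'_D' : ∀ a, D' (D' a) = 0
  D'_mem : ∀ {P A C : ℤ} {b : B}, b ∈ pb P A C → D' b ∈ pb P A (C - 1)
  p : w.S →ₐ[K] B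
  p_mem : ∀ {P A C : ℤ} {a : w.S}, a ∈ w.pc P A C → p a ∈ pb P A C
  p_D : ∀ a, p (w.D a) = D' (p a)
  /-- `b ↦ b o₁ κ` -/
  o : B →ₗ[K] w.S
  s0 : ℤ
  o_mem : ∀ {P A C : ℤ} {b : B}, b ∈ pb P A C → o b ∈ w.pc (P - 1) A (C + s0)
  mul_o : ∀ (a : w.S) (b : B), a * o b = o (p a * b)
  o_mul : ∀ (b : B) (a : w.S), o b * a = o (b * p a)
  D_o : ∀ b, w.D (o b) = o (D' b)
  p_o : ∀ b, p (o b) = 0
  /-- cells -/
  κ : Type
  [fκ : Fintype κ]
  [dκ : DecidableEq κ]
  oc : κ → w.Ob
  cd : κ → ℕ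
  cd_le : ∀ c, (cd c : ℤ) ≤ s0
  cc : κ → κ → B
  cc_mem : ∀ c c', cc c c' ∈ pb (w.P (oc c) - w.P (oc c')) (w.A (oc c) - w.A (oc c'))
    ((cd c : ℤ) - cd c' - 1)
  mc : ∀ c c', D' (cc c c') + ∑ c'', cc c c'' * cc c'' c' = 0

attribute [instance] CE.ring CE.alg CE.fκ CE.dκ

namespace CE

variable {w : WD K} (E : CE w)

/-- all cohomological degrees -/
def EB (P A : ℤ) : Submodule K E.B := ⨆ C : ℤ, E.pb P A C

theorem pb_le (P A C : ℤ) : E.pb P A C ≤ E.EB P A := le_iSup (fun C => E.pb P A C) C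

theorem EB_cast {P A P' A' : ℤ} {b : E.B} (h : b ∈ E.EB P A) (h1 : P = P') (h2 : A = A') :
    b ∈ E.EB P' A' := by
  subst h1 h2
  exact h

theorem EB_mul {P A P' A' : ℤ} {a b : E.B} (ha : a ∈ E.EB P A) (hb : b ∈ E.EB P' A') :
    a * b ∈ E.EB (P + P') (A + A') := by
  have key : E.EB P A * E.EB P' A' ≤ E.EB (P + P') (A + A') := by
    unfold EB
    rw [Submodule.iSup_mul]
    refine iSup_le fun C => ?_
    rw [Submodule.mul_iSup]
    refine iSup_le fun C' => ?_
    refine Submodule.mul_le.2 fun a ha b hb => ?_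
    exact E.pb_le _ _ (C + C') (E.pb_mul ha hb)
  exact key (Submodule.mul_mem_mul ha hb)

theorem EB_D {P A : ℤ} {a : E.B} (ha : a ∈ E.EB P A) : E.D' a ∈ E.EB P A := by
  have key : E.EB P A ≤ (E.EB P A).comap E.D' := by
    refine iSup_le fun C => ?_
    intro x hx
    exact E.pb_le P A (C - 1) (E.D'_mem hx)
  exact key ha

theorem prB_EB {P A : ℤ} {b : E.B} (C : ℤ) (hb : b ∈ E.EB P A) : E.prB C b ∈ E.pb P A C := by
  have key : E.EB P A ≤ (E.pb P A C).comap (E.prB C) := by
    refine iSup_le fun C1 => ?_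
    intro x hx
    rw [Submodule.mem_comap]
    by_cases h : C = C1
    · subst h
      rw [E.prB_self hx]
      exact hx
    · rw [E.prB_ne C hx h]
      exact Submodule.zero_mem _
  exact key hb

theorem prB_tot (P : ℤ) (i j : w.Ob) (t : ℤ) (ht : 0 ≤ t) (N : ℕ) (hN : (E.Nb : ℤ) + t ≤ N)
    {b : E.B} (hb : b ∈ E.EB P (w.A i - w.A j)) :
    ∑ k : Fin (N + 1), E.prB (((k : ℕ) : ℤ) - t) b = b := by
  have key : E.EB P (w.A i - w.A j) ≤
      LinearMap.ker ((∑ k : Fin (N + 1), E.prB (((k : ℕ) : ℤ) - t)) - LinearMap.id) := by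
    refine iSup_le fun C1 => ?_
    intro x hx
    rw [LinearMap.mem_ker, LinearMap.sub_apply, LinearMap.sum_apply, LinearMap.id_apply,
      sub_eq_zero]
    by_cases h0 : C1 < 0
    · rw [E.pb_neg _ _ _ h0] at hx
      rw [(Submodule.mem_bot K).1 hx]
      simp
    by_cases h1 : (E.Nb : ℤ) < C1
    · rw [E.pb_big _ _ _ _ h1] at hx
      rw [(Submodule.mem_bot K).1 hx]
      simp
    have h2 : (C1 + t).toNat < N + 1 := by omega
    rw [Finset.sum_eq_single (⟨(C1 + t).toNat, h2⟩ : Fin (N + 1))]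
    · have h3 : (((C1 + t).toNat : ℕ) : ℤ) - t = C1 := by omega
      change E.prB ((((C1 + t).toNat : ℕ) : ℤ) - t) x = x
      rw [h3]
      exact E.prB_self hx
    · intro k _ hk
      apply E.prB_ne _ hx
      intro h4
      apply hk
      apply Fin.ext
      change (k : ℕ) = (C1 + t).toNat
      omega
    · intro h
      exact absurd (Finset.mem_univ _) h
  have := key hb
  rw [LinearMap.mem_ker, LinearMap.sub_apply, LinearMap.sum_apply, LinearMap.id_apply,
    sub_eq_zero] at this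
  exact this

theorem p_E {i j : w.Ob} {a : w.S} (ha : a ∈ w.E i j) :
    E.p a ∈ E.EB (w.P i - w.P j) (w.A i - w.A j) := by
  have key : w.E i j ≤ (E.EB (w.P i - w.P j) (w.A i - w.A j)).comap E.p.toLinearMap := by
    refine iSup_le fun C => ?_
    intro x hx
    exact E.pb_le _ _ C (E.p_mem hx)
  exact key ha

theorem cc_EB (c c' : E.κ) :
    E.cc c c' ∈ E.EB (w.P (E.oc c) - w.P (E.oc c')) (w.A (E.oc c) - w.A (E.oc c')) :=
  E.pb_le _ _ _ (E.cc_mem c c')

theorem EB_eq (P : ℤ) (i j : w.Ob) :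
    E.EB P (w.A i - w.A j) = ⨆ C : Fin (E.Nb + 1), E.pb P (w.A i - w.A j) ((C : ℕ) : ℤ) := by
  apply le_antisymm
  · refine iSup_le fun C => ?_
    by_cases h0 : C < 0
    · rw [E.pb_neg _ _ _ h0]
      exact bot_le
    · by_cases h1 : (E.Nb : ℤ) < C
      · rw [E.pb_big _ _ _ _ h1]
        exact bot_le
      · obtain ⟨m, rfl⟩ : ∃ m : ℕ, C = m := ⟨C.toNat, by omega⟩
        exact le_iSup (fun C : Fin (E.Nb + 1) => E.pb P (w.A i - w.A j) ((C : ℕ) : ℤ))
          ⟨m, by omega⟩
  · exact iSup_le fun C => E.pb_le _ _ _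

theorem finEB (P : ℤ) (i j : w.Ob) : Module.Finite K (E.EB P (w.A i - w.A j)) := by
  rw [EB_eq]
  haveI : ∀ C : Fin (E.Nb + 1), Module.Finite K (E.pb P (w.A i - w.A j) ((C : ℕ) : ℤ)) :=
    fun C => E.pb_fin _ _ _
  exact Submodule.finite_iSup _

/-! ### the left module `KK` -/

/-- the left module of the cells -/
def KK : Submodule K (w.Ob → E.κ → E.B) where
  carrier := {x | ∀ i c, x i c ∈ E.EB (w.P i - w.P (E.oc c)) (w.A i - w.A (E.oc c))}
  add_mem' ha hb i c := Submodule.add_mem _ (ha i c) (hb i c)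
  zero_mem' i c := Submodule.zero_mem _
  smul_mem' r x hx i c := Submodule.smul_mem _ _ (hx i c)

variable {E}


instance finKK : Module.Finite K E.KK := by
  haveI : ∀ (i : w.Ob) (c : E.κ),
      Module.Finite K (E.EB (w.P i - w.P (E.oc c)) (w.A i - w.A (E.oc c))) :=
    fun i c => E.finEB _ _ _
  let f : E.KK →ₗ[K] ((i : w.Ob) → (c : E.κ) →
      E.EB (w.P i - w.P (E.oc c)) (w.A i - w.A (E.oc c))) :=
    { toFun := fun x i c => ⟨x.1 i c, x.2 i c⟩
      map_add' := fun _ _ => rfl
      map_smul' := fun _ _ => rfl }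
  refine Module.Finite.of_injective f ?_
  intro a b hab
  apply Subtype.ext
  funext i c
  exact congrArg Subtype.val (congrFun (congrFun hab i) c)

variable (E)

/-- left action -/
def L : w.Win →ₗ[K] E.KK →ₗ[K] E.KK where
  toFun m :=
    { toFun := fun x => ⟨fun i c => ∑ j, E.p (m.1 i j) * x.1 j c, fun i c =>
        Submodule.sum_mem _ fun j _ => E.EB_cast (E.EB_mul (E.p_E (m.2 i j)) (x.2 j c))
          (by ring) (by ring)⟩
      map_add' := fun x y => by
        apply Subtype.ext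
        funext i c
        change ∑ j, E.p (m.1 i j) * (x.1 j c + y.1 j c) =
          ∑ j, E.p (m.1 i j) * x.1 j c + ∑ j, E.p (m.1 i j) * y.1 j c
        rw [← Finset.sum_add_distrib]
        exact Finset.sum_congr rfl fun j _ => mul_add _ _ _
      map_smul' := fun r x => by
        apply Subtype.ext
        funext i c
        change ∑ j, E.p (m.1 i j) * (r • x.1 j c) = r • ∑ j, E.p (m.1 i j) * x.1 j c
        rw [Finset.smul_sum]
        exact Finset.sum_congr rfl fun j _ => mul_smul_comm _ _ _ }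
  map_add' m n := by
    apply LinearMap.ext
    intro x
    apply Subtype.ext
    funext i c
    change ∑ j, E.p (m.1 i j + n.1 i j) * x.1 j c =
      ∑ j, E.p (m.1 i j) * x.1 j c + ∑ j, E.p (n.1 i j) * x.1 j c
    rw [← Finset.sum_add_distrib]
    exact Finset.sum_congr rfl fun j _ => by rw [map_add, add_mul]
  map_smul' r m := by
    apply LinearMap.ext
    intro x
    apply Subtype.ext
    funext i c
    change ∑ j, E.p (r • m.1 i j) * x.1 j c = r • ∑ j, E.p (m.1 i j) * x.1 j c
    rw [Finset.smul_sum]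
    exact Finset.sum_congr rfl fun j _ => by rw [map_smul, smul_mul_assoc]

variable {E}

theorem L_apply (m : w.Win) (x : E.KK) (i : w.Ob) (c : E.κ) :
    (E.L m x).1 i c = ∑ j, E.p (m.1 i j) * x.1 j c := rfl

theorem L_one (x : E.KK) : E.L 1 x = x := by
  apply Subtype.ext
  funext i c
  rw [L_apply, Finset.sum_eq_single i]
  · change E.p ((1 : Matrix w.Ob w.Ob w.S) i i) * _ = _
    rw [Matrix.one_apply_eq, map_one, one_mul]
  · intro j _ hj
    change E.p ((1 : Matrix w.Ob w.Ob w.S) i j) * _ = _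
    rw [Matrix.one_apply_ne (Ne.symm hj), map_zero, zero_mul]
  · intro h
    exact absurd (Finset.mem_univ _) h

theorem L_mul (a b : w.Win) (x : E.KK) : E.L (a * b) x = E.L a (E.L b x) := by
  apply Subtype.ext
  funext i c
  rw [L_apply, L_apply]
  simp_rw [L_apply]
  change ∑ j, E.p ((a.1 * b.1) i j) * _ = _
  simp_rw [Matrix.mul_apply, map_sum, map_mul, Finset.sum_mul, Finset.mul_sum]
  rw [Finset.sum_comm]
  exact Finset.sum_congr rfl fun j _ => Finset.sum_congr rfl fun l _ => mul_assoc _ _ _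

variable (E)

/-- the differential -/
def dY : E.KK →ₗ[K] E.KK where
  toFun x := ⟨fun i c => E.D' (x.1 i c) + ∑ c', x.1 i c' * E.cc c' c, fun i c =>
    Submodule.add_mem _ (E.EB_D (x.2 i c)) (Submodule.sum_mem _ fun c' _ =>
      E.EB_cast (E.EB_mul (x.2 i c') (E.cc_EB c' c)) (by ring) (by ring))⟩
  map_add' x y := by
    apply Subtype.ext
    funext i c
    change E.D' (x.1 i c + y.1 i c) + ∑ c', (x.1 i c' + y.1 i c') * E.cc c' c =
      (E.D' (x.1 i c) + ∑ c', x.1 i c' * E.cc c' c) +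
        (E.D' (y.1 i c) + ∑ c', y.1 i c' * E.cc c' c)
    simp_rw [add_mul]
    rw [Finset.sum_add_distrib, map_add]
    abel
  map_smul' r x := by
    apply Subtype.ext
    funext i c
    change E.D' (r • x.1 i c) + ∑ c', (r • x.1 i c') * E.cc c' c =
      r • (E.D' (x.1 i c) + ∑ c', x.1 i c' * E.cc c' c)
    simp_rw [smul_mul_assoc]
    rw [smul_add, map_smul, Finset.smul_sum]

variable {E}

theorem dY_apply (x : E.KK) (i : w.Ob) (c : E.κ) :
    (E.dY x).1 i c = E.D' (x.1 i c) + ∑ c', x.1 i c' * E.cc c' c := rfl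

theorem dYY (x : E.KK) : E.dY (E.dY x) = 0 := by
  apply Subtype.ext
  funext i c
  rw [dY_apply]
  simp_rw [dY_apply]
  change _ = (0 : E.B)
  rw [map_add, E.D'_D', zero_add, map_sum]
  simp_rw [E.D'_mul, add_mul, Finset.sum_mul]
  rw [Finset.sum_add_distrib, Finset.sum_add_distrib]
  have h1 : ∑ c', x.1 i c' * E.D' (E.cc c' c) + ∑ c', ∑ c'', x.1 i c'' * E.cc c'' c' * E.cc c' c
      = 0 := by
    rw [Finset.sum_comm, ← Finset.sum_add_distrib]
    refine Finset.sum_eq_zero fun c' _ => ?_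
    have := E.mc c' c
    calc _ = x.1 i c' * (E.D' (E.cc c' c) + ∑ c'', E.cc c' c'' * E.cc c'' c) := by
          rw [mul_add, Finset.mul_sum]
          congr 1
          exact Finset.sum_congr rfl fun c'' _ => mul_assoc _ _ _
      _ = 0 := by rw [this, mul_zero]
  have h2 := E.two (∑ c', E.D' (x.1 i c') * E.cc c' c)
  calc _ = (∑ c', E.D' (x.1 i c') * E.cc c' c + ∑ c', E.D' (x.1 i c') * E.cc c' c) +
        (∑ c', x.1 i c' * E.D' (E.cc c' c) +
          ∑ c', ∑ c'', x.1 i c'' * E.cc c'' c' * E.cc c' c) := by abel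
    _ = 0 := by rw [h1, h2, add_zero]

theorem L_D (a : w.Win) (x : E.KK) :
    E.L (w.DW a) x = E.dY (E.L a x) + E.L a (E.dY x) := by
  apply Subtype.ext
  funext i c
  change (E.L (w.DW a) x).1 i c = (E.dY (E.L a x)).1 i c + (E.L a (E.dY x)).1 i c
  rw [dY_apply, L_apply, L_apply]
  simp_rw [L_apply, dY_apply, WD.DW_apply, E.p_D, map_sum, E.D'_mul, mul_add, Finset.sum_mul,
    Finset.mul_sum]
  rw [Finset.sum_add_distrib, Finset.sum_add_distrib]
  have h1 := E.two (∑ j, E.p (a.1 i j) * E.D' (x.1 j c))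
  have h2 : ∑ c', ∑ j, E.p (a.1 i j) * x.1 j c' * E.cc c' c =
      ∑ j, ∑ c', E.p (a.1 i j) * (x.1 j c' * E.cc c' c) := by
    rw [Finset.sum_comm]
    exact Finset.sum_congr rfl fun j _ => Finset.sum_congr rfl fun l _ => mul_assoc _ _ _
  have h3 := E.two (∑ j, ∑ c', E.p (a.1 i j) * (x.1 j c' * E.cc c' c))
  rw [h2]
  calc _ = ∑ j, E.D' (E.p (a.1 i j)) * x.1 j c + (∑ j, E.p (a.1 i j) * E.D' (x.1 j c) +
        ∑ j, E.p (a.1 i j) * E.D' (x.1 j c)) +
        (∑ j, ∑ c', E.p (a.1 i j) * (x.1 j c' * E.cc c' c) +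
          ∑ j, ∑ c', E.p (a.1 i j) * (x.1 j c' * E.cc c' c)) := by rw [h1, h3, add_zero, add_zero]
    _ = _ := by abel

/-! ### grading -/

variable (E)

/-- bound of the degrees of the cells -/
def mx : ℕ := Finset.univ.sup E.cd

theorem cd_le_mx (c : E.κ) : E.cd c ≤ E.mx := Finset.le_sup (Finset.mem_univ c)

/-- projection of `KK` -/
def prK (k : ℤ) : E.KK →ₗ[K] E.KK where
  toFun x := ⟨fun i c => E.prB (k - E.cd c) (x.1 i c), fun i c =>
    E.pb_le _ _ _ (E.prB_EB _ (x.2 i c))⟩
  map_add' x y := by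
    apply Subtype.ext
    funext i c
    exact map_add _ _ _
  map_smul' r x := by
    apply Subtype.ext
    funext i c
    exact map_smul _ _ _

variable {E}

theorem prK_apply (k : ℤ) (x : E.KK) (i : w.Ob) (c : E.κ) :
    (E.prK k x).1 i c = E.prB (k - E.cd c) (x.1 i c) := rfl

variable (E)

/-- the grading of `KK` -/
def gr : GS K E.KK where
  N := E.Nb + E.mx
  pr := E.prK
  pr_pr k x := by
    apply Subtype.ext
    funext i c
    rw [prK_apply, prK_apply]
    exact E.prB_self (E.prB_EB _ (x.2 i c))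
  pr_ne k l x h := by
    apply Subtype.ext
    funext i c
    rw [prK_apply, prK_apply]
    exact E.prB_ne _ (E.prB_EB _ (x.2 i c)) (by omega)
  total x := by
    apply Subtype.ext
    funext i c
    have h : ∀ (s : Finset (Fin (E.Nb + E.mx + 1))),
        (∑ k ∈ s, E.prK ((k : ℕ) : ℤ) x).1 i c =
          ∑ k ∈ s, E.prB (((k : ℕ) : ℤ) - E.cd c) (x.1 i c) := by
      intro s
      classical
      induction s using Finset.induction_on with
      | empty => rfl
      | insert a s ha ih =>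
        rw [Finset.sum_insert ha, Finset.sum_insert ha, ← ih]
        rfl
    rw [h]
    exact E.prB_tot _ _ _ _ (by positivity) _ (by have := E.cd_le_mx c; push_cast; omega)
      (x.2 i c)

variable {E}

theorem mem_gr {k : ℤ} {x : E.KK} : x ∈ E.gr.G k ↔
    ∀ i c, x.1 i c ∈ E.pb (w.P i - w.P (E.oc c)) (w.A i - w.A (E.oc c)) (k - E.cd c) := by
  rw [GS.mem_G]
  constructor
  · intro h i c
    have h1 := congrFun (congrFun (congrArg Subtype.val h) i) c
    rw [← h1]
    exact E.prB_EB _ (x.2 i c)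
  · intro h
    apply Subtype.ext
    funext i c
    exact E.prB_self (h i c)

theorem pb_cast {P A C P' A' C' : ℤ} {b : E.B} (h : b ∈ E.pb P A C) (h1 : P = P') (h2 : A = A')
    (h3 : C = C') : b ∈ E.pb P' A' C' := by
  subst h1 h2 h3
  exact h

theorem L_deg {m k : ℤ} {a : w.Win} {x : E.KK} (ha : a ∈ w.G m) (hx : x ∈ E.gr.G k) :
    E.L a x ∈ E.gr.G (k + m) := by
  rw [mem_gr] at hx ⊢
  intro i c
  rw [L_apply]
  exact Submodule.sum_mem _ fun j _ => pb_cast (E.pb_mul (E.p_mem (ha i j)) (hx j c))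
    (by ring) (by ring) (by ring)

theorem dY_deg {k : ℤ} {x : E.KK} (hx : x ∈ E.gr.G k) : E.dY x ∈ E.gr.G (k - 1) := by
  rw [mem_gr] at hx ⊢
  intro i c
  rw [dY_apply]
  refine Submodule.add_mem _ (pb_cast (E.D'_mem (hx i c)) rfl rfl (by ring)) ?_
  exact Submodule.sum_mem _ fun c' _ => pb_cast (E.pb_mul (hx i c') (E.cc_mem c' c))
    (by ring) (by ring) (by ring)

/-! ### `KK` as a dg module -/

instance : SMul w.Win E.KK := ⟨fun m x => E.L m x⟩


instance modKK : Module w.Win E.KK where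
  one_smul x := L_one x
  mul_smul a b x := L_mul a b x
  smul_zero a := map_zero (E.L a)
  smul_add a x y := map_add (E.L a) x y
  add_smul a b x := by
    change E.L (a + b) x = E.L a x + E.L b x
    rw [map_add, LinearMap.add_apply]
  zero_smul x := by
    change E.L 0 x = 0
    rw [map_zero, LinearMap.zero_apply]

instance towKK : IsScalarTower K w.Win E.KK where
  smul_assoc r a x := by
    change E.L (r • a) x = r • E.L a x
    rw [map_smul, LinearMap.smul_apply]



variable (E)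


end CE

end Crest.Agent.R186.KH186
end

-- ▼ part R186/KHr_302

/-!
Row 186 (A), leaf A.KH (helper302): on 186's `KH186.CE w`, the right dg module `H = Hom_L(KK, L(+1))`,
the evaluation `ev : KK ⊗ H → Γ`, `CE.toIn : Adapt186.In w.dga`, `CE.data : ConeAlg462.Data w.dga`,
`CE.Hrm : RM w.dga`.
-/

set_option autoImplicit false
set_option linter.style.haveILetI false

namespace Crest.Agent.R186.KH186

open Hat827 Win810 Adapt186 Frame515

variable {K : Type} [Field K]

namespace CE

variable {w : WD K} {E : CE w}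

/-! ### the right module `H` -/

variable (E)

/-- `H = Hom_L(KK, L(+1))` -/
def H : Submodule K (E.κ → w.Ob → E.B) where
  carrier := {η | ∀ c j, η c j ∈ E.EB (w.P (E.oc c) - w.P j + 1) (w.A (E.oc c) - w.A j)}
  add_mem' hx hy c j := Submodule.add_mem _ (hx c j) (hy c j)
  zero_mem' _ _ := Submodule.zero_mem _
  smul_mem' r _ hx c j := Submodule.smul_mem _ r (hx c j)

variable {E}


instance finH : Module.Finite K E.H := by
  haveI : ∀ (c : E.κ) (j : w.Ob),
      Module.Finite K (E.EB (w.P (E.oc c) - w.P j + 1) (w.A (E.oc c) - w.A j)) :=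
    fun c j => E.finEB _ _ _
  let f : E.H →ₗ[K] (∀ (c : E.κ) (j : w.Ob),
      E.EB (w.P (E.oc c) - w.P j + 1) (w.A (E.oc c) - w.A j)) :=
    { toFun := fun η c j => ⟨η.1 c j, η.2 c j⟩
      map_add' := fun _ _ => rfl
      map_smul' := fun _ _ => rfl }
  refine Module.Finite.of_injective f ?_
  intro a b hab
  apply Subtype.ext
  funext c j
  exact congrArg Subtype.val (congrFun (congrFun hab c) j)

/-- entries of homogeneous elements of `H` of degree `k` -/
def hH (k : ℤ) (η : E.H) : Prop := ∀ c j, η.1 c j ∈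
  E.pb (w.P (E.oc c) - w.P j + 1) (w.A (E.oc c) - w.A j) (k - E.s0 + E.cd c)

/-- the projections of `H` -/
def prH (k : ℤ) : E.H →ₗ[K] E.H where
  toFun η := ⟨fun c j => E.prB (k - E.s0 + E.cd c) (η.1 c j),
    fun c j => E.pb_le _ _ _ (E.prB_EB _ (η.2 c j))⟩
  map_add' x y := by
    apply Subtype.ext
    funext c j
    exact map_add (E.prB _) _ _
  map_smul' r x := by
    apply Subtype.ext
    funext c j
    exact map_smul (E.prB _) _ _

theorem prH_apply (k : ℤ) (η : E.H) (c : E.κ) (j : w.Ob) :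
    (prH k η).1 c j = E.prB (k - E.s0 + E.cd c) (η.1 c j) := rfl

variable (E)

theorem s0_nn (c : E.κ) : 0 ≤ E.s0 := le_trans (by positivity) (E.cd_le c)

/-- the grading of `H` -/
def gs : GS K E.H where
  N := E.Nb + E.s0.toNat
  pr := prH
  pr_pr k η := by
    apply Subtype.ext
    funext c j
    rw [prH_apply, prH_apply]
    exact E.prB_self (E.prB_EB _ (η.2 c j))
  pr_ne k l η h := by
    apply Subtype.ext
    funext c j
    rw [prH_apply, prH_apply]
    exact E.prB_ne _ (E.prB_EB _ (η.2 c j)) (by omega)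
  total η := by
    apply Subtype.ext
    rw [AddSubmonoidClass.coe_finsetSum]
    funext c j
    rw [Finset.sum_apply, Finset.sum_apply]
    have h1 := E.cd_le c
    have h2 := E.s0_nn c
    have h := E.prB_tot (w.P (E.oc c) - w.P j + 1) (E.oc c) j (E.s0 - E.cd c) (by omega)
      (E.Nb + E.s0.toNat) (by push_cast; omega) (η.2 c j)
    conv_rhs => rw [← h]
    refine Finset.sum_congr rfl fun k _ => ?_
    rw [prH_apply, show ((k : ℕ) : ℤ) - E.s0 + E.cd c = ((k : ℕ) : ℤ) - (E.s0 - E.cd c) by ring]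

variable {E}

theorem mem_gs {k : ℤ} {η : E.H} : η ∈ E.gs.G k ↔ hH k η := by
  rw [GS.mem_G]
  constructor
  · intro h c j
    rw [← h]
    exact E.prB_EB _ (η.2 c j)
  · intro h
    apply Subtype.ext
    funext c j
    exact E.prB_self (h c j)

/-- the right action -/
def RH : w.Win →ₗ[K] E.H →ₗ[K] E.H where
  toFun m :=
    { toFun := fun η => ⟨fun c j => ∑ i, η.1 c i * E.p (m.1 i j), by
        intro c j
        refine Submodule.sum_mem _ fun i _ => ?_
        have h := E.EB_mul (η.2 c i) (E.p_E (m.2 i j))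
        rwa [show w.P (E.oc c) - w.P i + 1 + (w.P i - w.P j) = w.P (E.oc c) - w.P j + 1 by ring,
          show w.A (E.oc c) - w.A i + (w.A i - w.A j) = w.A (E.oc c) - w.A j by ring] at h⟩
      map_add' := by
        intro x y
        apply Subtype.ext
        funext c j
        change ∑ i, (x.1 c i + y.1 c i) * E.p (m.1 i j) = _ + _
        rw [← Finset.sum_add_distrib]
        exact Finset.sum_congr rfl fun i _ => add_mul _ _ _
      map_smul' := by
        intro r x
        apply Subtype.ext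
        funext c j
        change ∑ i, (r • x.1 c i) * E.p (m.1 i j) = r • ∑ i, x.1 c i * E.p (m.1 i j)
        rw [Finset.smul_sum]
        exact Finset.sum_congr rfl fun i _ => smul_mul_assoc _ _ _ }
  map_add' a b := by
    apply LinearMap.ext
    intro η
    apply Subtype.ext
    funext c j
    change ∑ i, η.1 c i * E.p (a.1 i j + b.1 i j) =
      ∑ i, η.1 c i * E.p (a.1 i j) + ∑ i, η.1 c i * E.p (b.1 i j)
    rw [← Finset.sum_add_distrib]
    exact Finset.sum_congr rfl fun i _ => by rw [map_add, mul_add]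
  map_smul' r a := by
    apply LinearMap.ext
    intro η
    apply Subtype.ext
    funext c j
    change ∑ i, η.1 c i * E.p (r • a.1 i j) = r • ∑ i, η.1 c i * E.p (a.1 i j)
    rw [Finset.smul_sum]
    exact Finset.sum_congr rfl fun i _ => by rw [map_smul, mul_smul_comm]

@[simp] theorem RH_apply (m : w.Win) (η : E.H) (c : E.κ) (j : w.Ob) :
    (RH m η).1 c j = ∑ i, η.1 c i * E.p (m.1 i j) := rfl

theorem RH_one (η : E.H) : RH (E := E) 1 η = η := by
  apply Subtype.ext
  funext c j
  rw [RH_apply, Finset.sum_eq_single j]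
  · change η.1 c j * E.p ((1 : Matrix w.Ob w.Ob w.S) j j) = _
    rw [Matrix.one_apply_eq, map_one, mul_one]
  · intro i _ hi
    change η.1 c i * E.p ((1 : Matrix w.Ob w.Ob w.S) i j) = _
    rw [Matrix.one_apply_ne hi, map_zero, mul_zero]
  · intro h
    exact absurd (Finset.mem_univ _) h

theorem RH_mul (a b : w.Win) (η : E.H) : RH (a * b) η = RH b (RH a η) := by
  apply Subtype.ext
  funext c j
  rw [RH_apply, RH_apply]
  simp only [RH_apply]
  change ∑ i, η.1 c i * E.p ((a.1 * b.1) i j) = _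
  simp only [Matrix.mul_apply, map_sum, map_mul, Finset.mul_sum, Finset.sum_mul]
  rw [Finset.sum_comm]
  exact Finset.sum_congr rfl fun i _ => Finset.sum_congr rfl fun l _ => by rw [mul_assoc]

theorem RH_deg {m k : ℤ} {a : w.Win} {η : E.H} (ha : a ∈ w.G m) (hη : η ∈ E.gs.G k) :
    RH a η ∈ E.gs.G (k + m) := by
  rw [mem_gs] at hη ⊢
  intro c j
  rw [RH_apply]
  refine Submodule.sum_mem _ fun i _ => ?_
  have h := E.pb_mul (hη c i) (E.p_mem (ha i j))
  rwa [show w.P (E.oc c) - w.P i + 1 + (w.P i - w.P j) = w.P (E.oc c) - w.P j + 1 by ring,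
    show w.A (E.oc c) - w.A i + (w.A i - w.A j) = w.A (E.oc c) - w.A j by ring,
    show k - E.s0 + E.cd c + m = k + m - E.s0 + E.cd c by ring] at h

/-- the differential of `H` -/
def dH : E.H →ₗ[K] E.H where
  toFun η := ⟨fun c j => E.D' (η.1 c j) + ∑ c', E.cc c c' * η.1 c' j, by
    intro c j
    refine Submodule.add_mem _ (E.EB_D (η.2 c j)) (Submodule.sum_mem _ fun c' _ => ?_)
    have h := E.EB_mul (E.pb_le _ _ _ (E.cc_mem c c')) (η.2 c' j)
    rwa [show w.P (E.oc c) - w.P (E.oc c') + (w.P (E.oc c') - w.P j + 1) =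
        w.P (E.oc c) - w.P j + 1 by ring,
      show w.A (E.oc c) - w.A (E.oc c') + (w.A (E.oc c') - w.A j) = w.A (E.oc c) - w.A j by
        ring] at h⟩
  map_add' x y := by
    apply Subtype.ext
    funext c j
    change E.D' (x.1 c j + y.1 c j) + ∑ c', E.cc c c' * (x.1 c' j + y.1 c' j) =
      (E.D' (x.1 c j) + ∑ c', E.cc c c' * x.1 c' j) + (E.D' (y.1 c j) + ∑ c', E.cc c c' * y.1 c' j)
    simp only [map_add, mul_add, Finset.sum_add_distrib]
    abel
  map_smul' r x := by
    apply Subtype.ext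
    funext c j
    change E.D' (r • x.1 c j) + ∑ c', E.cc c c' * (r • x.1 c' j) =
      r • (E.D' (x.1 c j) + ∑ c', E.cc c c' * x.1 c' j)
    simp only [map_smul, mul_smul_comm, ← Finset.smul_sum, smul_add]

@[simp] theorem dH_apply (η : E.H) (c : E.κ) (j : w.Ob) :
    (dH η).1 c j = E.D' (η.1 c j) + ∑ c', E.cc c c' * η.1 c' j := rfl

theorem dH_deg {k : ℤ} {η : E.H} (hη : η ∈ E.gs.G k) : dH η ∈ E.gs.G (k - 1) := by
  rw [mem_gs] at hη ⊢
  intro c j
  rw [dH_apply]
  refine Submodule.add_mem _ ?_ (Submodule.sum_mem _ fun c' _ => ?_)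
  · have h := E.D'_mem (hη c j)
    rwa [show k - E.s0 + E.cd c - 1 = k - 1 - E.s0 + E.cd c by ring] at h
  · have h := E.pb_mul (E.cc_mem c c') (hη c' j)
    rwa [show w.P (E.oc c) - w.P (E.oc c') + (w.P (E.oc c') - w.P j + 1) =
        w.P (E.oc c) - w.P j + 1 by ring,
      show w.A (E.oc c) - w.A (E.oc c') + (w.A (E.oc c') - w.A j) = w.A (E.oc c) - w.A j by
        ring,
      show (E.cd c : ℤ) - E.cd c' - 1 + (k - E.s0 + E.cd c') = k - 1 - E.s0 + E.cd c by ring] at h


theorem dH_dH (η : E.H) : dH (dH η) = 0 := by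
  apply Subtype.ext
  funext c j
  rw [dH_apply]
  simp only [dH_apply, map_add, map_sum, E.D'_D', E.D'_mul, zero_add, mul_add,
    Finset.sum_add_distrib, Finset.mul_sum]
  have h : ∑ c', E.D' (E.cc c c') * η.1 c' j + ∑ c', ∑ c'', E.cc c c' * (E.cc c' c'' * η.1 c'' j) =
      0 := by
    rw [Finset.sum_comm (f := fun c' c'' => E.cc c c' * (E.cc c' c'' * η.1 c'' j)),
      ← Finset.sum_add_distrib]
    refine Finset.sum_eq_zero fun c' _ => ?_
    have h1 := congrArg (· * η.1 c' j) (E.mc c c')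
    simp only [add_mul, zero_mul, Finset.sum_mul] at h1
    rw [← h1]
    congr 1
    exact Finset.sum_congr rfl fun i _ => by rw [mul_assoc]
  have h2 := E.two (∑ c', E.cc c c' * E.D' (η.1 c' j))
  change _ = (0 : E.B)
  calc _ = (∑ c', E.D' (E.cc c c') * η.1 c' j +
        ∑ c', ∑ c'', E.cc c c' * (E.cc c' c'' * η.1 c'' j)) +
        (∑ c', E.cc c c' * E.D' (η.1 c' j) + ∑ c', E.cc c c' * E.D' (η.1 c' j)) := by abel
    _ = 0 := by rw [h, h2, add_zero]

theorem RH_D (a : w.Win) (η : E.H) : RH (w.DW a) η = dH (RH a η) + RH a (dH η) := by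
  apply Subtype.ext
  funext c j
  change (RH (w.DW a) η).1 c j = (dH (RH a η)).1 c j + (RH a (dH η)).1 c j
  simp only [dH_apply, RH_apply, WD.DW_apply, E.p_D, map_sum, E.D'_mul, add_mul,
    Finset.sum_add_distrib, Finset.sum_mul, Finset.mul_sum, mul_assoc]
  rw [Finset.sum_comm (f := fun c' i => E.cc c c' * (η.1 c' i * E.p (a.1 i j)))]
  have h1 := E.two (∑ i, E.D' (η.1 c i) * E.p (a.1 i j))
  have h2 := E.two (∑ i, ∑ c', E.cc c c' * (η.1 c' i * E.p (a.1 i j)))
  calc _ = (∑ i, η.1 c i * E.D' (E.p (a.1 i j))) +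
        (∑ i, E.D' (η.1 c i) * E.p (a.1 i j) + ∑ i, E.D' (η.1 c i) * E.p (a.1 i j)) +
        (∑ i, ∑ c', E.cc c c' * (η.1 c' i * E.p (a.1 i j)) +
          ∑ i, ∑ c', E.cc c c' * (η.1 c' i * E.p (a.1 i j))) := by rw [h1, h2, add_zero, add_zero]
    _ = _ := by abel

/-! ### the evaluation -/

theorem o_EB {i j : w.Ob} {b : E.B} (hb : b ∈ E.EB (w.P i - w.P j + 1) (w.A i - w.A j)) :
    E.o b ∈ w.E i j := by
  have key : E.EB (w.P i - w.P j + 1) (w.A i - w.A j) ≤ (w.E i j).comap E.o := by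
    refine iSup_le fun C => ?_
    intro x hx
    have h := E.o_mem hx
    rw [show w.P i - w.P j + 1 - 1 = w.P i - w.P j by ring] at h
    exact WD.q_le i j (C + E.s0) h
  exact key hb

/-- the pairing before `o` -/
def pq (x : E.KK) (η : E.H) (i j : w.Ob) : E.B := ∑ c, x.1 i c * η.1 c j

theorem pq_mem (x : E.KK) (η : E.H) (i j : w.Ob) :
    pq x η i j ∈ E.EB (w.P i - w.P j + 1) (w.A i - w.A j) := by
  refine Submodule.sum_mem _ fun c _ => ?_
  have h := E.EB_mul (x.2 i c) (η.2 c j)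
  rwa [show w.P i - w.P (E.oc c) + (w.P (E.oc c) - w.P j + 1) = w.P i - w.P j + 1 by ring,
    show w.A i - w.A (E.oc c) + (w.A (E.oc c) - w.A j) = w.A i - w.A j by ring] at h

/-- the evaluation -/
def evK : E.KK →ₗ[K] E.H →ₗ[K] w.Win :=
  LinearMap.mk₂ K (fun x η => ⟨Matrix.of fun i j => E.o (pq x η i j),
      fun i j => o_EB (pq_mem x η i j)⟩)
    (by
      intro x x' η
      apply Subtype.ext
      ext i j
      change E.o (pq (x + x') η i j) = E.o (pq x η i j) + E.o (pq x' η i j)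
      rw [← map_add]
      congr 1
      unfold pq
      rw [← Finset.sum_add_distrib]
      exact Finset.sum_congr rfl fun c _ => add_mul _ _ _)
    (by
      intro r x η
      apply Subtype.ext
      ext i j
      change E.o (pq (r • x) η i j) = r • E.o (pq x η i j)
      rw [← map_smul]
      congr 1
      unfold pq
      rw [Finset.smul_sum]
      exact Finset.sum_congr rfl fun c _ => smul_mul_assoc _ _ _)
    (by
      intro x η η'
      apply Subtype.ext
      ext i j
      change E.o (pq x (η + η') i j) = E.o (pq x η i j) + E.o (pq x η' i j)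
      rw [← map_add]
      congr 1
      unfold pq
      rw [← Finset.sum_add_distrib]
      exact Finset.sum_congr rfl fun c _ => mul_add _ _ _)
    (by
      intro r x η
      apply Subtype.ext
      ext i j
      change E.o (pq x (r • η) i j) = r • E.o (pq x η i j)
      rw [← map_smul]
      congr 1
      unfold pq
      rw [Finset.smul_sum]
      exact Finset.sum_congr rfl fun c _ => mul_smul_comm _ _ _)

@[simp] theorem evK_apply (x : E.KK) (η : E.H) (i j : w.Ob) :
    (evK x η).1 i j = E.o (∑ c, x.1 i c * η.1 c j) := rfl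

theorem evK_l (a : w.Win) (x : E.KK) (η : E.H) : evK (E.L a x) η = a * evK x η := by
  apply Subtype.ext
  ext i j
  change (evK (E.L a x) η).1 i j = (a.1 * (evK x η).1) i j
  rw [evK_apply, Matrix.mul_apply]
  simp only [evK_apply, E.mul_o, L_apply, Finset.sum_mul, Finset.mul_sum, map_sum, mul_assoc]
  rw [Finset.sum_comm]

theorem evK_r (a : w.Win) (x : E.KK) (η : E.H) : evK x (RH a η) = evK x η * a := by
  apply Subtype.ext
  ext i j
  change (evK x (RH a η)).1 i j = ((evK x η).1 * a.1) i j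
  rw [evK_apply, Matrix.mul_apply]
  simp only [evK_apply, E.o_mul, RH_apply, Finset.sum_mul, Finset.mul_sum, map_sum, mul_assoc]
  rw [Finset.sum_comm]

theorem evK_D (x : E.KK) (η : E.H) : w.DW (evK x η) = evK (E.dY x) η + evK x (dH η) := by
  apply Subtype.ext
  ext i j
  change w.D ((evK x η).1 i j) = (evK (E.dY x) η).1 i j + (evK x (dH η)).1 i j
  rw [evK_apply, evK_apply, evK_apply, E.D_o, ← map_add]
  congr 1
  simp only [dY_apply, dH_apply, map_sum, E.D'_mul, add_mul, mul_add, Finset.sum_add_distrib,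
    Finset.sum_mul, Finset.mul_sum, mul_assoc]
  rw [Finset.sum_comm (f := fun c c' => x.1 i c' * (E.cc c' c * η.1 c j))]
  have h1 := E.two (∑ c, ∑ c', x.1 i c * (E.cc c c' * η.1 c' j))
  calc _ = (∑ c, E.D' (x.1 i c) * η.1 c j + ∑ c, x.1 i c * E.D' (η.1 c j)) +
        (∑ c, ∑ c', x.1 i c * (E.cc c c' * η.1 c' j) +
          ∑ c, ∑ c', x.1 i c * (E.cc c c' * η.1 c' j)) := by rw [h1, add_zero]
    _ = _ := by abel

theorem evK_deg {k l : ℤ} {x : E.KK} {η : E.H} (hx : x ∈ E.gr.G k) (hη : η ∈ E.gs.G l) :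
    evK x η ∈ w.G (k + l) := by
  rw [mem_gr] at hx
  rw [mem_gs] at hη
  intro i j
  rw [evK_apply, map_sum]
  refine Submodule.sum_mem _ fun c _ => ?_
  have h := E.o_mem (E.pb_mul (hx i c) (hη c j))
  rwa [show w.P i - w.P (E.oc c) + (w.P (E.oc c) - w.P j + 1) - 1 = w.P i - w.P j by ring,
    show w.A i - w.A (E.oc c) + (w.A (E.oc c) - w.A j) = w.A i - w.A j by ring,
    show k - (E.cd c : ℤ) + (l - E.s0 + E.cd c) + E.s0 = k + l by ring] at h

theorem p_ev (x : E.KK) (η : E.H) (i j : w.Ob) : E.p ((evK x η).1 i j) = 0 := by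
  rw [evK_apply, E.p_o]

theorem evK_pL (x : E.KK) (η : E.H) (y : E.KK) : E.L (evK x η) y = 0 := by
  apply Subtype.ext
  funext i c
  rw [L_apply]
  exact Finset.sum_eq_zero fun j _ => by rw [p_ev, zero_mul]

theorem evK_pR (x : E.KK) (η : E.H) (η' : E.H) : RH (evK x η) η' = 0 := by
  apply Subtype.ext
  funext c j
  rw [RH_apply]
  exact Finset.sum_eq_zero fun i _ => by rw [p_ev, mul_zero]


/-! ### `H` as a right dg module -/

open MulOpposite in
instance : SMul (w.Win)ᵐᵒᵖ E.H := ⟨fun m η => RH m.unop η⟩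


instance modH : Module (w.Win)ᵐᵒᵖ E.H where
  one_smul η := RH_one η
  mul_smul a b η := RH_mul b.unop a.unop η
  smul_zero a := map_zero (RH a.unop)
  smul_add a x y := map_add (RH a.unop) x y
  add_smul a b x := by
    change RH (a.unop + b.unop) x = RH a.unop x + RH b.unop x
    rw [map_add, LinearMap.add_apply]
  zero_smul x := by
    change RH 0 x = 0
    rw [map_zero, LinearMap.zero_apply]

instance towH : IsScalarTower K (w.Win)ᵐᵒᵖ E.H where
  smul_assoc r a x := by
    change RH (r • a.unop) x = r • RH a.unop x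
    rw [map_smul, LinearMap.smul_apply]

theorem H_two (y : E.H) : y + y = 0 := by
  apply Subtype.ext
  funext c j
  exact E.two _

theorem dH_RH (a : w.Win) (η : E.H) : dH (RH a η) = RH (w.DW a) η + RH a (dH η) := by
  rw [RH_D, add_assoc, H_two, add_zero]

variable (E)

/-- `H` as a right dg module over the window algebra -/
noncomputable def Hrm : RM w.dga where
  X := E.H
  gr := E.gs.G
  d := dH
  d_mem := dH_deg
  d_d := dH_dH
  act := inferInstanceAs (Module (w.Win)ᵐᵒᵖ E.H)
  tower := inferInstanceAs (IsScalarTower K (w.Win)ᵐᵒᵖ E.H)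
  smul_mem {k l a x} ha hx := by
    have := RH_deg (E := E) (m := k) (k := l) (a := a) (η := x) ha hx
    rw [add_comm] at this
    exact this
  leib a x := dH_RH (E := E) a x

variable {E}

variable (E)

/-- **the input of the adapter** -/
def toIn : In w.dga where
  Y := E.KK
  Z := E.H
  gr := E.gr
  gs := E.gs
  L := E.L
  L_one := L_one
  L_mul := L_mul
  Rr := RH
  R_one := RH_one
  R_mul := RH_mul
  L_deg := L_deg
  R_deg := RH_deg
  dY := E.dY
  dZ := dH
  dY_deg := dY_deg
  dZ_deg := dH_deg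
  dYY := dYY
  dZZ := dH_dH
  L_D := L_D
  R_D := RH_D
  ev := evK
  ev_l := evK_l
  ev_r := evK_r
  ev_D := evK_D
  ev_deg := evK_deg
  pL := evK_pL
  pR := evK_pR

/-- **the cone data over the window algebra** -/
noncomputable def data : ConeAlg462.Data w.dga := E.toIn.data

end CE

end Crest.Agent.R186.KH186
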