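import Crest.Agent.R186.HB_362
import Crest.Agent.R186.KHevB_302
import Crest.Agent.R186.KHr_302
import Crest.Agent.R186.FinV_988

/-!
Row 186 (A), leaf A.KH (helper247): the bridge between the two closing data
`KH186.CE w` (186, the official one) and `KHev302.CE w` (302, used by HB_362).
-/

set_option autoImplicit false
set_option linter.style.haveILetI false

namespace Crest.Agent.R186.CEbr247

open Hat827 Win810 Adapt186 Frame515

variable {K : Type} [Field K] {w : WD K}

/-- 302's form of 186's closing data -/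
def ev (E : KH186.CE w) : KHev302.CE w where
  B := E.B
  rB := E.ring
  aB := E.alg
  two := E.two
  pb := E.pb
  pb_mul := E.pb_mul
  pb_neg := E.pb_neg
  nb := E.Nb
  pb_big i j P C h := E.pb_big P i j C h
  pb_fin := E.pb_fin
  prB := E.prB
  pr_same h := E.prB_self h
  pr_diff h h' := E.prB_ne _ h h'
  DB := E.D'
  DB_mul := E.D'_mul
  DB_DB := E.D'_D'
  DB_mem := E.D'_mem
  p := E.p
  p_mem := E.p_mem
  p_D := E.p_D
  o := E.o
  s0 := E.s0
  o_mem := E.o_mem
  mul_o := E.mul_o
  o_mul := E.o_mul
  D_o := E.D_o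
  p_o := E.p_o
  ka := E.κ
  fka := E.fκ
  oc := E.oc
  cd := E.cd
  cd_le := E.cd_le
  cc := E.cc
  cc_mem := E.cc_mem
  mc := E.mc


variable (E : KH186.CE w)










variable {E}

/-- acyclicity transported -/
theorem ac_H {X : LCells w.dga} (h : Ac (tG (HB362.HM (ev E)) X)) : Ac (tG E.Hrm X) := h


end Crest.Agent.R186.CEbr247
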