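import Crest.Agent.R186.LinkK4_721
import Mathlib
import Crest.Prelude.Def_GorProjVanishing
import Crest.Agent.R186.Sym_234
import Crest.Agent.R186.Spine_700
import Crest.Agent.R186.Cell_580
import Crest.Agent.R186.Dual_700

-- ▼ part R186/LinkK5_721
section

/-!
Row 186, S0281, block LINK (helper721), part 5: `Ext_A(Gam, N)`, `Ext_A(N, Gam)` on both sides, and
the two (co)induced modules.
-/

set_option autoImplicit false
set_option linter.unusedSectionVars false
set_option linter.style.haveILetI false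
set_option linter.unusedVariables false

universe u

open CategoryTheory CategoryTheory.Abelian MulOpposite

namespace Crest.Agent.R186.LinkK721

open ExtRes700 Dual700

section seq

variable {k : Type u} [Field k] {A : Type u} [Ring A] [Algebra k A]
  {J Y : Type u} [AddCommGroup J] [Module k J] [Module A J] [IsScalarTower k A J]
  [AddCommGroup Y] [Module k Y] [Module A Y] [IsScalarTower k A Y]
  {Jq Yq : Type u} [AddCommGroup Jq] [Module k Jq] [Module A Jq] [IsScalarTower k A Jq]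
  [AddCommGroup Yq] [Module k Yq] [Module A Yq] [IsScalarTower k A Yq]
  (πJ : J →ₗ[A] Jq) (πY : Y →ₗ[A] Yq)
  [Module.Finite k J] [Module.Finite k Y] [Module.Finite k Jq] [Module.Finite k Yq]

/-- the ring `Gam` -/
abbrev GG (πJ : J →ₗ[A] Jq) (πY : Y →ₗ[A] Yq) : Type u :=
  Gam k A (LinearMap.ker πJ) (LinearMap.ker πY)

variable (k) in
/-- the inclusion of `A` -/
abbrev phi (πJ : J →ₗ[A] Jq) (πY : Y →ₗ[A] Yq) : A →+* GG (k := k) πJ πY :=
  (inc (k := k) (A := A) (U := LinearMap.ker πJ) (P := LinearMap.ker πY)).toRingHom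

variable (k) in
/-- the inclusion of `A^op` -/
abbrev phiOp (πJ : J →ₗ[A] Jq) (πY : Y →ₗ[A] Yq) : Aᵐᵒᵖ →+* (GG (k := k) πJ πY)ᵐᵒᵖ :=
  RingHom.op (phi k πJ πY)

/-- `Y^n → Gam` -/
noncomputable def alL : (Fin (Module.finrank k Jq) → Y) →ₗ[A] RA (phi k πJ πY) (GG (k := k) πJ πY)
    where
  toFun y := toRA _ (el (∑ i, a1 πJ πY ((Module.finBasis k Jq).coord i) (y i)))
  map_add' y y' := by
    refine Gam.ext (add_zero (0 : A)).symm fun j => ?_
    show (∑ i, a1 πJ πY ((Module.finBasis k Jq).coord i) ((y + y') i)).1 j =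
      (∑ i, a1 πJ πY ((Module.finBasis k Jq).coord i) (y i)).1 j +
      (∑ i, a1 πJ πY ((Module.finBasis k Jq).coord i) (y' i)).1 j
    simp only [KK.sum_apply, ← Finset.sum_add_distrib, Pi.add_apply, a1_add, KK.add_apply]
  map_smul' a y := by
    refine Gam.ext (mul_zero a).symm fun j => ?_
    show (∑ i, a1 πJ πY ((Module.finBasis k Jq).coord i) ((a • y) i)).1 j =
      a • (∑ i, a1 πJ πY ((Module.finBasis k Jq).coord i) (y i)).1 j + (0 : Y)
    rw [add_zero]
    simp only [KK.sum_apply, Finset.smul_sum, Pi.smul_apply, a1_smul, lK_apply]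

/-- `Gam → A × P^n` -/
noncomputable def beL : RA (phi k πJ πY) (GG (k := k) πJ πY) →ₗ[A]
    A × (Fin (Module.finrank k (LinearMap.ker πJ)) → LinearMap.ker πY) where
  toFun g := (g.1, fun i => ⟨g.2.1 (bS k (LinearMap.ker πJ) i : J),
    g.2.2 _ (bS k (LinearMap.ker πJ) i).2⟩)
  map_add' g g' := rfl
  map_smul' a g := by
    refine Prod.ext rfl (funext fun i => Subtype.ext ?_)
    show a • g.2.1 (bS k (LinearMap.ker πJ) i : J) + (0 : Y) = a • g.2.1 _
    rw [add_zero]

variable (hJ : Function.Surjective πJ) (hY : Function.Surjective πY)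

theorem alL_inj (hJ : Function.Surjective πJ) : Function.Injective (alL (k := k) πJ πY) := by
  rw [injective_iff_map_eq_zero]
  intro y hy
  funext j
  have h1 : (∑ i, a1 πJ πY ((Module.finBasis k Jq).coord i) (y i)).1
      (Function.surjInv hJ (Module.finBasis k Jq j)) = 0 := by
    have h2 : (alL (k := k) πJ πY y : GG (k := k) πJ πY).2 = 0 := congrArg Prod.snd hy
    exact congrArg (fun f : KK k (LinearMap.ker πJ) (LinearMap.ker πY) =>
      f.1 (Function.surjInv hJ (Module.finBasis k Jq j))) h2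
  rw [KK.sum_apply] at h1
  simp only [a1_apply, Function.surjInv_eq hJ, Module.Basis.coord_apply,
    Module.Basis.repr_self, Finsupp.single_apply, ite_smul, one_smul, zero_smul,
    Finset.sum_ite_eq, Finset.mem_univ, if_true] at h1
  exact h1

theorem beL_surj : Function.Surjective (beL (k := k) πJ πY) := by
  rintro ⟨a, p⟩
  refine ⟨toRA _ ((a, ∑ i, a2 πJ πY (xiS k (LinearMap.ker πJ) i) (p i)) : GG πJ πY), ?_⟩
  refine Prod.ext rfl (funext fun j => Subtype.ext ?_)
  show (∑ i, a2 πJ πY (xiS k (LinearMap.ker πJ) i) (p i)).1 (bS k (LinearMap.ker πJ) j : J) = _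
  rw [KK.sum_apply]
  simp only [a2_apply, xiS_apply, Module.Basis.coord_apply,
    Module.Basis.repr_self, Finsupp.single_apply, ite_smul, one_smul, zero_smul,
    Finset.sum_ite_eq, Finset.mem_univ, if_true]

include hJ in
theorem exL : Function.Exact (alL (k := k) πJ πY) (beL (k := k) πJ πY) := by
  intro g
  constructor
  · intro hg
    have h1 : g.1 = 0 := congrArg Prod.fst hg
    have h2 : ∀ i, g.2.1 (bS k (LinearMap.ker πJ) i : J) = 0 := fun i =>
      congrArg (fun p : LinearMap.ker πY => (p : Y)) (congrFun (congrArg Prod.snd hg) i)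
    have h3 : ∀ u ∈ LinearMap.ker πJ, g.2.1 u = 0 := by
      intro u hu
      have h4 := sum_bS (k := k) (LinearMap.ker πJ) ⟨u, hu⟩
      have h5 : u = _ := h4.symm
      rw [h5, map_sum]
      refine Finset.sum_eq_zero fun i _ => ?_
      rw [map_smul, h2, smul_zero]
    refine ⟨fun i => g.2.1 (Function.surjInv hJ (Module.finBasis k Jq i)), ?_⟩
    refine Prod.ext h1.symm ?_
    exact (dec1 hJ g.2 h3).symm
  · rintro ⟨y, rfl⟩
    refine Prod.ext rfl (funext fun j => Subtype.ext ?_)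
    show (∑ i, a1 πJ πY ((Module.finBasis k Jq).coord i) (y i)).1
      (bS k (LinearMap.ker πJ) j : J) = 0
    rw [KK.sum_apply]
    refine Finset.sum_eq_zero fun i _ => ?_
    have h1 : πJ (bS k (LinearMap.ker πJ) j : J) = 0 := (bS k (LinearMap.ker πJ) j).2
    rw [a1_apply, h1, map_zero, zero_smul]

include hJ in
/-- `Ext_A(N, Gam) = 0` -/
theorem e0_left {N : Type u} [AddCommGroup N] [Module A N] (i : ℕ) (h1 : E0 A N A i)
    (h2 : E0 A N Y i) (h3 : E0 A N (LinearMap.ker πY) i) :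
    E0 A N (RA (phi k πJ πY) (GG (k := k) πJ πY)) i :=
  cmid (alL (k := k) πJ πY) (beL (k := k) πJ πY) (alL_inj πJ πY hJ) (beL_surj πJ πY)
    (exL πJ πY hJ) i (pi_right i _ h2) (prod_right i h1 (pi_right i _ h3))

include hJ in
/-- `Ext_A(Gam, N) = 0` -/
theorem e0_left' {N : Type u} [AddCommGroup N] [Module A N] (i : ℕ)
    (h2 : E0 A Y N (i + 1)) (h3 : E0 A (LinearMap.ker πY) N (i + 1)) :
    E0 A (RA (phi k πJ πY) (GG (k := k) πJ πY)) N (i + 1) :=
  mid (alL (k := k) πJ πY) (beL (k := k) πJ πY) (alL_inj πJ πY hJ) (beL_surj πJ πY)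
    (exL πJ πY hJ) (i + 1) (pi_left _ _ h2) (prod_left _ (proj i) (pi_left _ _ h3))

/-- `(DJ)^n → Gam` -/
noncomputable def alR : (Fin (Module.finrank k (LinearMap.ker πY)) → Dl k J) →ₗ[Aᵐᵒᵖ]
    RA (phiOp k πJ πY) (GG (k := k) πJ πY)ᵐᵒᵖ where
  toFun ξ := toRA _ (op (el (∑ i, a2 πJ πY (ξ i) (bS k (LinearMap.ker πY) i))))
  map_add' ξ ξ' := by
    refine congrArg op (Gam.ext (add_zero (0 : A)).symm fun j => ?_)
    show (∑ i, a2 πJ πY ((ξ + ξ') i) (bS k (LinearMap.ker πY) i)).1 j =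
      (∑ i, a2 πJ πY (ξ i) (bS k (LinearMap.ker πY) i)).1 j +
      (∑ i, a2 πJ πY (ξ' i) (bS k (LinearMap.ker πY) i)).1 j
    simp only [KK.sum_apply, ← Finset.sum_add_distrib]
    exact Finset.sum_congr rfl fun i _ => add_smul _ _ _
  map_smul' a ξ := by
    refine congrArg op (Gam.ext (zero_mul a.unop).symm fun j => ?_)
    show (∑ i, a2 πJ πY ((a • ξ) i) (bS k (LinearMap.ker πY) i)).1 j =
      (0 : A) • (0 : Y) +
      (∑ i, a2 πJ πY (ξ i) (bS k (LinearMap.ker πY) i)).1 (a.unop • j)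
    rw [smul_zero, zero_add]
    simp only [KK.sum_apply]
    rfl

/-- `Gam → A × (D Jq)^n` -/
noncomputable def beR (hJ : Function.Surjective πJ) :
    RA (phiOp k πJ πY) (GG (k := k) πJ πY)ᵐᵒᵖ →ₗ[Aᵐᵒᵖ]
    Aᵐᵒᵖ × (Fin (Module.finrank k Yq) → Dl k Jq) where
  toFun g := (op g.unop.1, fun i => (Module.finBasis k Yq).coord i ∘ₗ bar hJ g.unop.2)
  map_add' g g' := by
    refine Prod.ext rfl (funext fun i => Dl.ext fun x => ?_)
    show (Module.finBasis k Yq).coord i (bar hJ (g.unop.2 + g'.unop.2) x) =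
      (Module.finBasis k Yq).coord i (bar hJ g.unop.2 x) +
      (Module.finBasis k Yq).coord i (bar hJ g'.unop.2 x)
    rw [bar_add, map_add]
  map_smul' a g := by
    refine Prod.ext rfl (funext fun i => Dl.ext fun x => ?_)
    show (Module.finBasis k Yq).coord i (bar hJ (g.unop * inc a.unop).2 x) =
      (Module.finBasis k Yq).coord i (bar hJ g.unop.2 (a.unop • x))
    rw [← bar_rK]
    congr 1
    congr 1
    congr 1
    refine KK.ext' fun j => ?_
    show g.unop.1 • (0 : Y) + _ = _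
    rw [smul_zero, zero_add]
    rfl

theorem alR_inj : Function.Injective (alR (k := k) πJ πY) := by
  rw [injective_iff_map_eq_zero]
  intro ξ hξ
  have h0 : (∑ i, a2 πJ πY (ξ i) (bS k (LinearMap.ker πY) i)) = 0 :=
    congrArg (fun g : (GG (k := k) πJ πY)ᵐᵒᵖ => g.unop.2) hξ
  funext j
  refine Dl.ext fun x => ?_
  have h1 : (∑ i, (ξ i) x • (bS k (LinearMap.ker πY) i : LinearMap.ker πY)) = 0 := by
    apply Subtype.ext
    have h2 := congrArg (fun f : KK k (LinearMap.ker πJ) (LinearMap.ker πY) => f.1 x) h0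
    simp only [KK.sum_apply] at h2
    rw [Submodule.coe_sum]
    exact h2
  exact Fintype.linearIndependent_iff.1 (bS k (LinearMap.ker πY)).linearIndependent
    (fun i => ξ i x) h1 j

include hY in
theorem beR_surj : Function.Surjective (beR (k := k) πJ πY hJ) := by
  rintro ⟨a, p⟩
  refine ⟨toRA _ (op ((a.unop, ∑ i, a1 πJ πY (p i)
    (Function.surjInv hY (Module.finBasis k Yq i))) : GG πJ πY)), ?_⟩
  refine Prod.ext rfl (funext fun j => Dl.ext fun x => ?_)
  show (Module.finBasis k Yq).coord j (bar hJ (∑ i, a1 πJ πY (p i)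
    (Function.surjInv hY (Module.finBasis k Yq i))) x) = p j x
  obtain ⟨x, rfl⟩ := hJ x
  rw [bar_apply, KK.sum_apply, map_sum, map_sum]
  have h : ∀ i, (Module.finBasis k Yq).coord j (πY ((a1 πJ πY (p i)
      (Function.surjInv hY (Module.finBasis k Yq i))).1 x)) =
      if i = j then (p i) (πJ x) else 0 := by
    intro i
    have h2 : πY ((a1 πJ πY (p i) (Function.surjInv hY (Module.finBasis k Yq i))).1 x) =
        (p i) (πJ x) • Module.finBasis k Yq i := by
      have h3 : (a1 πJ πY (p i) (Function.surjInv hY (Module.finBasis k Yq i))).1 x =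
        (p i) (πJ x) • (Function.surjInv hY (Module.finBasis k Yq i)) := rfl
      rw [h3, LinearMap.map_smul_of_tower, Function.surjInv_eq hY]
    rw [h2, map_smul, Module.Basis.coord_apply, Module.Basis.repr_self, Finsupp.single_apply,
      smul_eq_mul, mul_ite, mul_one, mul_zero]
  refine (Finset.sum_congr rfl fun i _ => h i).trans ?_
  rw [Finset.sum_ite_eq']
  simp

theorem exR : Function.Exact (alR (k := k) πJ πY) (beR (k := k) πJ πY hJ) := by
  intro g
  constructor
  · intro hg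
    have h1 : g.unop.1 = 0 := congrArg unop (congrArg Prod.fst hg)
    have h2 : ∀ i x, (Module.finBasis k Yq).coord i (bar hJ g.unop.2 x) = 0 := fun i x =>
      congrArg (fun p : Dl k Jq => p x) (congrFun (congrArg Prod.snd hg) i)
    have h3 : ∀ x, πY (g.unop.2.1 x) = 0 := by
      intro x
      rw [← bar_apply hJ]
      exact (Module.finBasis k Yq).ext_elem fun i => by
        rw [map_zero]
        exact h2 i _
    refine ⟨fun i => (bS k (LinearMap.ker πY)).coord i ∘ₗ
      (g.unop.2.1.codRestrict ((LinearMap.ker πY).restrictScalars k) h3), ?_⟩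
    refine congrArg op (Prod.ext h1.symm ?_)
    exact (dec3 g.unop.2 h3).symm
  · rintro ⟨ξ, rfl⟩
    refine Prod.ext rfl (funext fun j => Dl.ext fun x => ?_)
    show (Module.finBasis k Yq).coord j (bar hJ
      (∑ i, a2 πJ πY (ξ i) (bS k (LinearMap.ker πY) i)) x) = 0
    obtain ⟨x, rfl⟩ := hJ x
    rw [bar_apply, KK.sum_apply, map_sum]
    have h1 : (∑ i, πY ((a2 πJ πY (ξ i) (bS k (LinearMap.ker πY) i)).1 x)) = 0 := by
      refine Finset.sum_eq_zero fun i _ => ?_
      have h2 : πY (bS k (LinearMap.ker πY) i : Y) = 0 := (bS k (LinearMap.ker πY) i).2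
      have h3 : (a2 πJ πY (ξ i) (bS k (LinearMap.ker πY) i)).1 x =
        (ξ i) x • (bS k (LinearMap.ker πY) i : Y) := rfl
      rw [h3, LinearMap.map_smul_of_tower, h2, smul_zero]
    rw [h1, map_zero]

include hJ hY in
/-- `Ext(N, Gam) = 0`, right modules -/
theorem e0_right {N : Type u} [AddCommGroup N] [Module Aᵐᵒᵖ N] (i : ℕ) (h1 : E0 Aᵐᵒᵖ N Aᵐᵒᵖ i)
    (h2 : E0 Aᵐᵒᵖ N (Dl k J) i) (h3 : E0 Aᵐᵒᵖ N (Dl k Jq) i) :
    E0 Aᵐᵒᵖ N (RA (phiOp k πJ πY) (GG (k := k) πJ πY)ᵐᵒᵖ) i :=
  cmid (alR (k := k) πJ πY) (beR (k := k) πJ πY hJ) (alR_inj πJ πY) (beR_surj πJ πY hJ hY)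
    (exR πJ πY hJ) i (pi_right i _ h2) (prod_right i h1 (pi_right i _ h3))

include hJ hY in
/-- `Ext(Gam, N) = 0`, right modules -/
theorem e0_right' {N : Type u} [AddCommGroup N] [Module Aᵐᵒᵖ N] (i : ℕ)
    (h2 : E0 Aᵐᵒᵖ (Dl k J) N (i + 1)) (h3 : E0 Aᵐᵒᵖ (Dl k Jq) N (i + 1)) :
    E0 Aᵐᵒᵖ (RA (phiOp k πJ πY) (GG (k := k) πJ πY)ᵐᵒᵖ) N (i + 1) :=
  mid (alR (k := k) πJ πY) (beR (k := k) πJ πY hJ) (alR_inj πJ πY) (beR_surj πJ πY hJ hY)
    (exR πJ πY hJ) (i + 1) (pi_left _ _ h2) (prod_left _ (proj i) (pi_left _ _ h3))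

end seq

end Crest.Agent.R186.LinkK721
end

-- ▼ part R186/LinkK6_721
section

/-!
Row 186, S0281, block LINK (helper721), part 6: the coinduced module `M` and the dual of the
induced module `V`.
-/

set_option autoImplicit false
set_option linter.unusedSectionVars false
set_option linter.style.haveILetI false
set_option linter.unusedVariables false

universe u

open CategoryTheory CategoryTheory.Abelian MulOpposite

namespace Crest.Agent.R186.LinkK721

open ExtRes700 Dual700

section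

variable {k : Type u} [Field k] {A : Type u} [Ring A] [Algebra k A]
  {J Y : Type u} [AddCommGroup J] [Module k J] [Module A J] [IsScalarTower k A J]
  [AddCommGroup Y] [Module k Y] [Module A Y] [IsScalarTower k A Y]
  {Jq Yq : Type u} [AddCommGroup Jq] [Module k Jq] [Module A Jq] [IsScalarTower k A Jq]
  [AddCommGroup Yq] [Module k Yq] [Module A Yq] [IsScalarTower k A Yq]
  {πJ : J →ₗ[A] Jq} {πY : Y →ₗ[A] Yq}
  [Module.Finite k A] [Module.Finite k J] [Module.Finite k Y] [Module.Finite k Jq]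
  [Module.Finite k Yq]

instance : IsNoetherianRing (GG (k := k) πJ πY) :=
  isNoetherian_of_tower k (inferInstance : IsNoetherian k (GG (k := k) πJ πY))

instance : IsNoetherianRing (GG (k := k) πJ πY)ᵐᵒᵖ :=
  isNoetherian_of_tower k (inferInstance : IsNoetherian k (GG (k := k) πJ πY)ᵐᵒᵖ)

/-- a functional not vanishing -/
theorem exists_fun {X : Type u} [AddCommGroup X] [Module k X] (x : X) (hx : x ≠ 0) :
    ∃ ξ : X →ₗ[k] k, ξ x = 1 := by
  by_contra h
  push Not at h
  apply hx
  rw [← Module.forall_dual_apply_eq_zero_iff k]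
  intro φ
  by_contra h1
  apply h ((φ x)⁻¹ • φ)
  show (φ x)⁻¹ * φ x = 1
  exact inv_mul_cancel₀ h1

/-! ### the right-hand side -/

section M

variable {W : Type u} [AddCommGroup W] [Module k W] [Module A W] [IsScalarTower k A W]
  (ϖ : LinearMap.ker πY →ₗ[A] W)

/-- the action on `(U ; W)` -/
def actM : Act k (LinearMap.ker πJ) (LinearMap.ker πY) (LinearMap.ker πJ) W :=
  actP LinearMap.id ϖ


/-- `f ↦ g (0, f)` is compatible with the left action -/
theorem left_lin (g : RA (phi k πJ πY) (GG (k := k) πJ πY) →ₗ[A] W) (a : A)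
    (f : KK k (LinearMap.ker πJ) (LinearMap.ker πY)) :
    g (toRA _ (el (lK a f))) = a • g (toRA _ (el f)) := by
  rw [← map_smul, RA.smul_def]
  congr 1
  exact (inc_mul_el a f).symm

/-- `M = Hom_A(Gam, W)` -/
noncomputable def coiM (hJ : Function.Surjective πJ) (hϖ : ϖ ≠ 0)
    (hPW : ∀ g : LinearMap.ker πY →ₗ[A] W, ∃ c : k, ∀ p, g p = c • ϖ p)
    (hYW : ∀ i, E0 A Y W i) (hP : ∀ i, E0 A (LinearMap.ker πY) W (i + 1)) :
    CoI (phi k πJ πY) (GM (actM (k := k) (πJ := πJ) ϖ)) W where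
  pr := (LinearMap.snd A (LinearMap.ker πJ) W) ∘ₗ
    (raGM (actM (k := k) (πJ := πJ) ϖ)).toLinearMap
  uni m hm := by
    have h1 : ∀ g : GG (k := k) πJ πY,
        ϖ ⟨g.2.1 (m.1 : LinearMap.ker πJ), g.2.2 _ (m.1 : LinearMap.ker πJ).2⟩ + g.1 • m.2 = 0 :=
      hm
    have h2 : m.2 = 0 := by
      have h3 := h1 (inc 1)
      have h4 : (⟨((inc 1 : GG (k := k) πJ πY).2.1 (m.1 : LinearMap.ker πJ) : Y),
        (inc 1 : GG (k := k) πJ πY).2.2 _ (m.1 : LinearMap.ker πJ).2⟩ : LinearMap.ker πY) = 0 :=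
        Subtype.ext rfl
      rw [h4, map_zero, zero_add, inc_fst, one_smul] at h3
      exact h3
    refine Prod.ext ?_ h2
    show (m.1 : LinearMap.ker πJ) = 0
    by_contra h3
    have h3' : ((m.1 : LinearMap.ker πJ) : J) ≠ 0 := fun h => h3 (Subtype.ext h)
    obtain ⟨ξ, hξ⟩ := exists_fun (k := k) _ h3'
    obtain ⟨p, hp⟩ : ∃ p, ϖ p ≠ 0 := by
      by_contra h4
      push Not at h4
      exact hϖ (LinearMap.ext h4)
    have h5 := h1 (el (a2 πJ πY ξ p))
    rw [el_fst, zero_smul, add_zero] at h5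
    apply hp
    have h6 : (⟨(a2 πJ πY ξ p).1 (m.1 : LinearMap.ker πJ),
        (a2 πJ πY ξ p).2 _ (m.1 : LinearMap.ker πJ).2⟩ : LinearMap.ker πY) = p := by
      apply Subtype.ext
      show ξ (m.1 : LinearMap.ker πJ) • (p : Y) = p
      rw [hξ, one_smul]
    rw [← h6]
    exact h5
  exi g := by
    -- `g` on `K`
    have hadd : ∀ f f' : KK k (LinearMap.ker πJ) (LinearMap.ker πY),
        g (toRA _ (el (f + f'))) = g (toRA _ (el f)) + g (toRA _ (el f')) := by
      intro f f'
      rw [← map_add]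
      congr 1
      exact el_add f f'
    let h : KK k (LinearMap.ker πJ) (LinearMap.ker πY) →+ W :=
      AddMonoidHom.mk' (fun f => g (toRA _ (el f))) hadd
    have hlin : ∀ (a : A) f, h (lK a f) = a • h f := fun a f => left_lin g a f
    -- step 1
    have s1 : ∀ f : KK k (LinearMap.ker πJ) (LinearMap.ker πY),
        (∀ u ∈ LinearMap.ker πJ, f.1 u = 0) → h f = 0 := by
      intro f hf
      rw [dec1 hJ f hf, map_sum]
      refine Finset.sum_eq_zero fun i _ => ?_
      let h' : Y →ₗ[A] W :=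
        { toFun := fun y => h (a1 πJ πY ((Module.finBasis k Jq).coord i) y)
          map_add' := fun y y' => by rw [a1_add, map_add]
          map_smul' := fun a y => by rw [a1_smul, hlin]; rfl }
      have h2 : h' = 0 := zero_iff.1 (hYW 0) h'
      exact LinearMap.congr_fun h2 _
    -- step 2
    have s2 : ∀ i, ∃ c : k, ∀ p : LinearMap.ker πY,
        h (a2 πJ πY (xiS k (LinearMap.ker πJ) i) p) = c • ϖ p := by
      intro i
      exact hPW
        { toFun := fun y => h (a2 πJ πY (xiS k (LinearMap.ker πJ) i) y)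
          map_add' := fun y y' => by rw [a2_add, map_add]
          map_smul' := fun a y => by rw [a2_smul, hlin]; rfl }
    choose c hc using s2
    let u : LinearMap.ker πJ := ∑ i, c i • bS k (LinearMap.ker πJ) i
    refine ⟨((u, g (toRA _ (inc 1))) : LinearMap.ker πJ × W), fun x => ?_⟩
    show ϖ ⟨x.2.1 u, x.2.2 _ u.2⟩ + x.1 • g (toRA _ (inc 1)) = g (toRA _ x)
    have h3 : h x.2 = ϖ ⟨x.2.1 u, x.2.2 _ u.2⟩ := by
      have h4 := s1 _ (fun u hu => dec2 x.2 u hu)
      rw [map_sub, sub_eq_zero, map_sum] at h4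
      rw [h4]
      simp only [hc]
      have h5 : (⟨x.2.1 u, x.2.2 _ u.2⟩ : LinearMap.ker πY) =
          ∑ i, c i • (⟨x.2.1 (bS k (LinearMap.ker πJ) i : J),
            x.2.2 _ (bS k (LinearMap.ker πJ) i).2⟩ : LinearMap.ker πY) := by
        apply Subtype.ext
        have h6 : ((∑ i, c i • (⟨x.2.1 (bS k (LinearMap.ker πJ) i : J),
            x.2.2 _ (bS k (LinearMap.ker πJ) i).2⟩ : LinearMap.ker πY) : LinearMap.ker πY) : Y) =
            ∑ i, c i • x.2.1 (bS k (LinearMap.ker πJ) i : J) := by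
          rw [Submodule.coe_sum]
          rfl
        refine Eq.trans ?_ h6.symm
        show x.2.1 ((∑ i, c i • bS k (LinearMap.ker πJ) i : LinearMap.ker πJ) : J) =
          ∑ i, c i • x.2.1 (bS k (LinearMap.ker πJ) i : J)
        rw [Submodule.coe_sum, map_sum]
        exact Finset.sum_congr rfl fun i _ => x.2.1.map_smul _ _
      rw [h5, map_sum]
      exact Finset.sum_congr rfl fun i _ => (LinearMap.map_smul_of_tower ϖ _ _).symm
    have h6 : g (toRA _ x) = g (toRA _ (inc x.1)) + h x.2 := by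
      show _ = g (toRA _ (inc x.1)) + g (toRA _ (el x.2))
      rw [← map_add]
      congr 1
      exact inc_add_el x
    have h7 : g (toRA _ (inc x.1)) = x.1 • g (toRA _ (inc 1)) := by
      rw [← map_smul, RA.smul_def]
      congr 1
      show (inc x.1 : GG (k := k) πJ πY) = inc x.1 * inc 1
      rw [map_one, mul_one]
    rw [h6, h7, h3, add_comm]
  ac i := e0_left' πJ πY hJ i (hYW (i + 1)) (hP i)

end M

end

end Crest.Agent.R186.LinkK721
end

-- ▼ part R186/LinkK7_721
section

/-!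
Row 186, S0281, block LINK (helper721), part 7: duality and (co)induction; the induced module `V`.
-/

set_option autoImplicit false
set_option linter.unusedSectionVars false
set_option linter.style.haveILetI false
set_option linter.unusedVariables false

universe u

open CategoryTheory CategoryTheory.Abelian MulOpposite

namespace Crest.Agent.R186.LinkK721

open ExtRes700 Dual700

/-! ### duality for restricted modules -/

section gen

variable {k : Type u} [Field k] {A G : Type u} [Ring A] [Algebra k A] [Ring G] [Algebra k G]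

instance (φ : A →+* G) (X : Type u) [AddCommGroup X] [Module k X] : Module k (RA φ X) :=
  inferInstanceAs (Module k X)

instance (φ : A →+* G) (X : Type u) [AddCommGroup X] [Module k X] [Module.Finite k X] :
    Module.Finite k (RA φ X) :=
  inferInstanceAs (Module.Finite k X)

variable (φ : A →ₐ[k] G)

instance (X : Type u) [AddCommGroup X] [Module k X] [Module G X] [IsScalarTower k G X] :
    IsScalarTower k A (RA φ.toRingHom X) := ⟨fun r a x => by
  show (φ (r • a) • (show X from x) : X) = r • (φ a • (show X from x) : X)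
  rw [map_smul, smul_assoc]⟩

/-- restriction and duals commute -/
def raDl (Z : Type u) [AddCommGroup Z] [Module k Z] [Module G Z] [IsScalarTower k G Z] :
    RA (RingHom.op φ.toRingHom) (Dl k Z) ≃ₗ[Aᵐᵒᵖ] Dl k (RA φ.toRingHom Z) where
  toFun x := x
  invFun x := x
  map_add' _ _ := rfl
  map_smul' a x := rfl
  left_inv _ := rfl
  right_inv _ := rfl

/-- the dual of a right module -/
def Dr (k : Type u) [Field k] (X : Type u) [AddCommGroup X] [Module k X] : Type u := X →ₗ[k] k

variable {X : Type u} [AddCommGroup X] [Module k X] [Module Gᵐᵒᵖ X] [IsScalarTower k Gᵐᵒᵖ X]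

instance : AddCommGroup (Dr k X) := inferInstanceAs (AddCommGroup (X →ₗ[k] k))
instance : Module k (Dr k X) := inferInstanceAs (Module k (X →ₗ[k] k))
instance [Module.Finite k X] : Module.Finite k (Dr k X) :=
  inferInstanceAs (Module.Finite k (X →ₗ[k] k))
instance [Module.Finite k X] : Module.Finite k (Dl k X) :=
  inferInstanceAs (Module.Finite k (X →ₗ[k] k))
instance : FunLike (Dr k X) X k := inferInstanceAs (FunLike (X →ₗ[k] k) X k)

instance : Module G (Dr k X) where
  smul a φ := (show X →ₗ[k] k from φ) ∘ₗ lm (A := Gᵐᵒᵖ) X (op a)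
  one_smul φ := LinearMap.ext fun x => by
    show φ ((1 : Gᵐᵒᵖ) • x) = φ x
    rw [one_smul]
  mul_smul a b φ := LinearMap.ext fun x => by
    show φ ((op (a * b)) • x) = φ (op b • (op a • x))
    rw [MulOpposite.op_mul, mul_smul]
  smul_zero a := LinearMap.ext fun x => rfl
  smul_add a φ ψ := LinearMap.ext fun x => rfl
  add_smul a b φ := LinearMap.ext fun x => by
    show φ (op (a + b) • x) = φ (op a • x) + φ (op b • x)
    rw [MulOpposite.op_add, add_smul]
    exact LinearMap.map_add φ _ _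
  zero_smul φ := LinearMap.ext fun x => by
    show φ (op (0 : G) • x) = 0
    rw [MulOpposite.op_zero, zero_smul]
    exact LinearMap.map_zero φ

theorem Dr.smul_apply (a : G) (φ : Dr k X) (x : X) : (a • φ) x = φ (op a • x) := rfl

instance : IsScalarTower k G (Dr k X) where
  smul_assoc c a φ := LinearMap.ext fun x => by
    show φ (op (c • a) • x) = c • φ (op a • x)
    rw [MulOpposite.op_smul, smul_assoc]
    exact LinearMap.map_smul φ _ _

variable [Module.Finite k X]

/-- biduality -/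
noncomputable def bid : X ≃ₗ[Gᵐᵒᵖ] Dl k (Dr k X) :=
  { Module.evalEquiv k X with
    map_smul' := fun a x => Dl.ext fun φ => rfl }

/-- biduality and restriction -/
noncomputable def bidR : RA (RingHom.op φ.toRingHom) X ≃ₗ[Aᵐᵒᵖ]
    Dl k (RA φ.toRingHom (Dr k X)) :=
  { Module.evalEquiv k X with
    map_smul' := fun a x => Dl.ext fun φ => rfl }

variable [Module.Finite k A] [Module.Finite k G]

theorem finiteG (Z : Type u) [AddCommGroup Z] [Module k Z] [Module G Z] [IsScalarTower k G Z]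
    [Module.Finite k Z] : Module.Finite G Z := Module.Finite.of_restrictScalars_finite k G Z

theorem noethG (k : Type u) [Field k] (G : Type u) [Ring G] [Algebra k G] [Module.Finite k G] :
    IsNoetherianRing G := isNoetherian_of_tower k (inferInstance : IsNoetherian k G)

/-- **induction**: `Ext_G(V, Z) = 0` from `Ext_A(V0, Z) = 0` -/
theorem ind {V V0 : Type u} [AddCommGroup V] [Module k V] [Module G V] [IsScalarTower k G V]
    [Module.Finite k V] [AddCommGroup V0] [Module k V0] [Module A V0] [IsScalarTower k A V0]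
    [Module.Finite k V0] (c : CoI (RingHom.op φ.toRingHom) (Dl k V) (Dl k V0))
    (Z : Type u) [AddCommGroup Z] [Module k Z] [Module G Z] [IsScalarTower k G Z]
    [Module.Finite k Z] (i : ℕ) (h : E0 A V0 (RA φ.toRingHom Z) i) : E0 G V Z i := by
  haveI : IsNoetherianRing A := noethG k A
  haveI : IsNoetherianRing G := noethG k G
  haveI : IsNoetherianRing Gᵐᵒᵖ := noethG k Gᵐᵒᵖ
  haveI : Module.Finite G V := finiteG (k := k) V
  haveI : Module.Finite A V0 := finiteG (k := k) V0
  haveI : Module.Finite Gᵐᵒᵖ (Dl k Z) := finiteG (k := k) (G := Gᵐᵒᵖ) (Dl k Z)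
  rw [dual_iff (K := k) V Z i]
  refine c.coind i ⟨Dl k Z⟩ ?_
  exact iso_left (raDl φ Z).symm i ((dual_iff (K := k) V0 (RA φ.toRingHom Z) i).1 h)

/-- **coinduction, right modules**: `Ext(DM, X) = 0` from `Ext(DW, X) = 0` -/
theorem coindR {M W : Type u} [AddCommGroup M] [Module k M] [Module G M] [IsScalarTower k G M]
    [Module.Finite k M] [AddCommGroup W] [Module k W] [Module A W] [IsScalarTower k A W]
    [Module.Finite k W] (c : CoI φ.toRingHom M W) (i : ℕ)
    (h : E0 Aᵐᵒᵖ (Dl k W) (RA (RingHom.op φ.toRingHom) X) i) : E0 Gᵐᵒᵖ (Dl k M) X i := by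
  haveI : IsNoetherianRing A := noethG k A
  haveI : IsNoetherianRing G := noethG k G
  haveI : Module.Finite G (Dr k X) := finiteG (k := k) (Dr k X)
  haveI : Module.Finite A (RA φ.toRingHom (Dr k X)) :=
    finiteG (k := k) (G := A) (RA φ.toRingHom (Dr k X))
  refine iso_right (bid (k := k) (G := G) (X := X)).symm i ?_
  rw [← dual_iff (K := k) (Dr k X) M i]
  refine c.coind i ⟨Dr k X⟩ ?_
  rw [dual_iff (K := k) (RA φ.toRingHom (Dr k X)) W i]
  exact iso_right (bidR φ) i h

end gen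

end Crest.Agent.R186.LinkK721
end

-- ▼ part R186/LinkK8_721
section

/-!
Row 186, S0281, block LINK (helper721), part 8: the induced module `V`.
-/

set_option autoImplicit false
set_option linter.unusedSectionVars false
set_option linter.style.haveILetI false
set_option linter.unusedVariables false

universe u

open CategoryTheory CategoryTheory.Abelian MulOpposite

namespace Crest.Agent.R186.LinkK721

open ExtRes700 Dual700

section

variable {k : Type u} [Field k] {A : Type u} [Ring A] [Algebra k A]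
  {J Y : Type u} [AddCommGroup J] [Module k J] [Module A J] [IsScalarTower k A J]
  [AddCommGroup Y] [Module k Y] [Module A Y] [IsScalarTower k A Y]
  {Jq Yq : Type u} [AddCommGroup Jq] [Module k Jq] [Module A Jq] [IsScalarTower k A Jq]
  [AddCommGroup Yq] [Module k Yq] [Module A Yq] [IsScalarTower k A Yq]
  {πJ : J →ₗ[A] Jq} {πY : Y →ₗ[A] Yq}
  [Module.Finite k A] [Module.Finite k J] [Module.Finite k Y] [Module.Finite k Jq]
  [Module.Finite k Yq]
  {V0 : Type u} [AddCommGroup V0] [Module k V0] [Module A V0] [IsScalarTower k A V0]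
  [Module.Finite k V0] (hJ : Function.Surjective πJ) (hY : Function.Surjective πY)
  (ι : V0 →ₗ[A] Jq)

/-- the action on `(V0 ; Y/P)` -/
noncomputable def actV : Act k (LinearMap.ker πJ) (LinearMap.ker πY) V0 Yq :=
  actQ hJ ι LinearMap.id


/-- `v ↦ (v, 0)` -/
noncomputable def sV : V0 →ₗ[A] RA (phi k πJ πY) (GM (actV (k := k) (πY := πY) hJ ι)) :=
  (raGM (actV (k := k) (πY := πY) hJ ι)).symm.toLinearMap ∘ₗ (LinearMap.inl A V0 Yq)

/-- the element `(v, y)` -/
def prV (v : V0) (y : Yq) : GM (actV (k := k) (πY := πY) hJ ι) := ((v, y) : V0 × Yq)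

theorem smul_prV (g : GG (k := k) πJ πY) (v : V0) :
    g • prV (k := k) (πY := πY) hJ ι v 0 = prV hJ ι (g.1 • v) (bar hJ g.2 (ι v)) :=
  Prod.ext rfl (by
    show bar hJ g.2 (ι v) + g.1 • (0 : Yq) = bar hJ g.2 (ι v)
    rw [smul_zero, add_zero])

theorem right_lin {W : Type u} [AddCommGroup W] [Module Aᵐᵒᵖ W]
    (g : RA (phiOp k πJ πY) (GG (k := k) πJ πY)ᵐᵒᵖ →ₗ[Aᵐᵒᵖ] W) (a : A)
    (f : KK k (LinearMap.ker πJ) (LinearMap.ker πY)) :
    g (toRA _ (op (el (rK f a)))) = op a • g (toRA _ (op (el f))) := by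
  rw [← map_smul, RA.smul_def]
  congr 1
  exact congrArg op (el_mul_inc a f).symm

include hY in
/-- `DV = Hom(Gam, DV0)` -/
theorem exi_V (hVJ : ∀ f : V0 →ₗ[A] J, f = 0)
    (hVq : ∀ f : V0 →ₗ[A] Jq, ∃ c : k, ∀ v, f v = c • ι v)
    (g : RA (phiOp k πJ πY) (GG (k := k) πJ πY)ᵐᵒᵖ →ₗ[Aᵐᵒᵖ] Dl k V0) :
    ∃ m : Dl k (GM (actV (k := k) (πY := πY) hJ ι)), ∀ (x : GG (k := k) πJ πY) (v : V0),
      m (prV hJ ι (x.1 • v) (bar hJ x.2 (ι v))) = g (toRA _ (op x)) v := by
  have hadd : ∀ f f' : KK k (LinearMap.ker πJ) (LinearMap.ker πY),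
      g (toRA _ (op (el (f + f')))) = g (toRA _ (op (el f))) + g (toRA _ (op (el f'))) := by
    intro f f'
    rw [← map_add]
    congr 1
    exact congrArg op (el_add f f')
  let h : KK k (LinearMap.ker πJ) (LinearMap.ker πY) →+ Dl k V0 :=
    AddMonoidHom.mk' (fun f => g (toRA _ (op (el f)))) hadd
  have hlin : ∀ (a : A) f, h (rK f a) = op a • h f := fun a f => right_lin g a f
  -- step 1
  have s1 : ∀ f : KK k (LinearMap.ker πJ) (LinearMap.ker πY),
      (∀ x, πY (f.1 x) = 0) → h f = 0 := by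
    intro f hf
    rw [dec3 f hf, map_sum]
    refine Finset.sum_eq_zero fun i _ => ?_
    let F : Dl k J →ₗ[Aᵐᵒᵖ] Dl k V0 :=
      { toFun := fun ξ => h (a2 πJ πY ξ (bS k (LinearMap.ker πY) i))
        map_add' := fun ξ ξ' => by
          rw [← map_add]
          exact congrArg h (a2_add' _ _ _)
        map_smul' := fun a ξ => by
          show h (a2 πJ πY (show J →ₗ[k] k from op a.unop • ξ) _) = _
          rw [a2_smul', hlin]
          rfl }
    obtain ⟨f0, hf0⟩ := dm_surjective F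
    have h2 : F = 0 := by
      rw [← hf0, hVJ f0]
      exact dm_zero
    exact LinearMap.congr_fun h2 _
  -- step 2
  have s2 : ∀ i, ∃ c : k, ∀ (ξ : Jq →ₗ[k] k) (v : V0),
      h (a1 πJ πY ξ (Function.surjInv hY (Module.finBasis k Yq i))) v = c * ξ (ι v) := by
    intro i
    let F : Dl k Jq →ₗ[Aᵐᵒᵖ] Dl k V0 :=
      { toFun := fun ξ => h (a1 πJ πY ξ (Function.surjInv hY (Module.finBasis k Yq i)))
        map_add' := fun ξ ξ' => by
          rw [← map_add]
          exact congrArg h (a1_add' _ _ _)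
        map_smul' := fun a ξ => by
          show h (a1 πJ πY (show Jq →ₗ[k] k from op a.unop • ξ) _) = _
          rw [a1_smul', hlin]
          rfl }
    obtain ⟨f0, hf0⟩ := dm_surjective F
    obtain ⟨c, hc⟩ := hVq f0
    refine ⟨c, fun ξ v => ?_⟩
    have h2 : (dm k f0 (show Dl k Jq from ξ)) v = (F ξ) v := by rw [hf0]
    have h3 : (dm k f0 (show Dl k Jq from ξ)) v = ξ (f0 v) := rfl
    rw [hc, map_smul, smul_eq_mul] at h3
    exact (h2.symm.trans h3)
  choose c hc using s2
  let lam : Yq →ₗ[k] k := ∑ i, c i • (Module.finBasis k Yq).coord i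
  have hlam : ∀ y, lam y = ∑ i, c i * (Module.finBasis k Yq).coord i y := by
    intro y
    show (∑ i, c i • (Module.finBasis k Yq).coord i) y = _
    rw [LinearMap.sum_apply]
    rfl
  let g1 : V0 →ₗ[k] k := g (toRA _ (op (inc 1)))
  let m : V0 × Yq →ₗ[k] k := LinearMap.coprod g1 lam
  refine ⟨m, fun x v => ?_⟩
  have e1 : (show Dl k (GM (actV (k := k) (πY := πY) hJ ι)) from m)
      (prV hJ ι (x.1 • v) (bar hJ x.2 (ι v))) = g1 (x.1 • v) + lam (bar hJ x.2 (ι v)) :=
    LinearMap.coprod_apply _ _ _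
  rw [e1]
  have h3 : h x.2 v = lam (bar hJ x.2 (ι v)) := by
    have h4 := s1 _ (fun u => dec4 hJ hY x.2 u)
    rw [map_sub, sub_eq_zero, map_sum] at h4
    rw [h4, hlam]
    have h5 : ∀ (s : Finset (Fin (Module.finrank k Yq))) (F : Fin (Module.finrank k Yq) → Dl k V0),
        (∑ i ∈ s, F i) v = ∑ i ∈ s, (F i) v := by
      intro s F
      exact LinearMap.sum_apply s (fun i => (show V0 →ₗ[k] k from F i)) v
    rw [h5]
    exact Finset.sum_congr rfl fun i _ => hc i _ v
  have h6 : g (toRA _ (op x)) = g (toRA _ (op (inc x.1))) + h x.2 := by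
    show _ = g (toRA _ (op (inc x.1))) + g (toRA _ (op (el x.2)))
    rw [← map_add]
    congr 1
    exact congrArg op (inc_add_el x)
  have h7 : g (toRA _ (op (inc x.1))) = op x.1 • g (toRA _ (op (inc 1))) := by
    rw [← map_smul, RA.smul_def]
    congr 1
    refine congrArg op ?_
    show (inc x.1 : GG (k := k) πJ πY) = inc 1 * inc x.1
    rw [map_one, one_mul]
  rw [h6, h7, Dl.add_apply, h3]
  rfl

/-- `DV = Hom(Gam, DV0)` -/
noncomputable def coiV (hY : Function.Surjective πY) (hι : ι ≠ 0)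
    (hVq : ∀ f : V0 →ₗ[A] Jq, ∃ c : k, ∀ v, f v = c • ι v)
    (hVJ : ∀ i, E0 A V0 J i) (hVJq : ∀ i, E0 A V0 Jq (i + 1)) :
    CoI (phiOp k πJ πY) (Dl k (GM (actV (k := k) (πY := πY) hJ ι))) (Dl k V0) where
  pr := dm k (sV (k := k) (πY := πY) hJ ι) ∘ₗ
    (raDl (inc (k := k) (A := A) (U := LinearMap.ker πJ) (P := LinearMap.ker πY))
      (GM (actV (k := k) (πY := πY) hJ ι))).toLinearMap
  uni m hm := by
    have h1 : ∀ (g : GG (k := k) πJ πY) (v : V0),
        m (prV hJ ι (g.1 • v) (bar hJ g.2 (ι v))) = 0 := by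
      intro g v
      rw [← smul_prV]
      exact congrArg (fun χ : Dl k V0 => χ v) (hm (op g))
    obtain ⟨v, hv⟩ : ∃ v, ι v ≠ 0 := by
      by_contra h4
      push Not at h4
      exact hι (LinearMap.ext h4)
    obtain ⟨ξ, hξ⟩ := exists_fun (k := k) _ hv
    refine Dl.ext fun x => ?_
    have h2 : m (prV hJ ι x.1 0) = 0 := by
      have h3 := h1 1 x.1
      have h4 : bar hJ (1 : GG (k := k) πJ πY).2 (ι x.1) = 0 := by
        obtain ⟨j, hj⟩ := hJ (ι x.1)
        rw [← hj, bar_apply]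
        exact map_zero πY
      rw [h4, one_fst, one_smul] at h3
      exact h3
    have h5 : m (prV hJ ι 0 x.2) = 0 := by
      obtain ⟨y, hy⟩ := hY x.2
      have h3 := h1 (el (a1 πJ πY ξ y)) v
      rw [el_fst, zero_smul, el_snd, bar_a1, hξ, one_smul, hy] at h3
      exact h3
    have h6 : x = prV hJ ι x.1 0 + prV hJ ι 0 x.2 :=
      Prod.ext (add_zero _).symm (zero_add _).symm
    rw [h6, Dl.map_add, h2, h5, add_zero]
    rfl
  exi g := by
    obtain ⟨m, hm⟩ := exi_V hJ hY ι (zero_iff.1 (hVJ 0)) hVq g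
    refine ⟨m, fun x => Dl.ext fun v => ?_⟩
    have h1 := hm x.unop v
    rw [← smul_prV] at h1
    exact h1
  ac i := by
    haveI : IsNoetherianRing A := noethG k A
    haveI : Module.Finite A V0 := finiteG (k := k) V0
    haveI : Module.Finite A J := finiteG (k := k) J
    exact e0_right' πJ πY hJ hY i ((dual_iff (K := k) V0 J (i + 1)).1 (hVJ (i + 1)))
      ((dual_iff (K := k) V0 Jq (i + 1)).1 (hVJq i))

end

end Crest.Agent.R186.LinkK721
end

-- ▼ part R186/Glue_355
section

/-!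
Row 186, S0281 (helper355): the abstract cell structure on a ring `L` over a ring `G`
(`L = {(g, f) : G × Hom_k(M, E1) | p f = g s - s g}`), and its passage to the opposite rings.

The left presentation `0 → V → E1 → E2 → M → 0` (over `G`) and the right presentation
`0 → VR → F1 → F2 → MR → 0` (over `Gᵐᵒᵖ`) are linked by balanced pairings
`A : E1 × F2 → K`, `B : E2 × F1 → K` (= a morphism of 2-extensions from the first one to the
dual of the second one), with `VR = DM`, `MR = DV`.
-/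

set_option autoImplicit false
set_option linter.unusedSectionVars false

open MulOpposite

namespace Crest.Agent.R186.Glue355

universe v u₁ u₂ u₃ u₄ u₅ u₆ u₇ u₈ u₉ u₁₀ u₁₁

/-- an abstract cell: a ring `L` which is identified with
`{(g, f) | ∀ m, p (f m) = g • s m - s (g • m)}` and the product
`(g, f) (g', f') = (g g', g f' + f g')`. -/
structure CellStr (K : Type v) (G : Type u₁) (L : Type u₂) {M : Type u₃} {E1 : Type u₄}
    {E2 : Type u₅} [Field K] [Ring G] [Algebra K G] [Ring L] [Algebra K L]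
    [AddCommGroup M] [Module K M] [Module G M] [AddCommGroup E1] [Module K E1] [Module G E1]
    [AddCommGroup E2] [Module K E2] [Module G E2]
    (p : E1 →ₗ[G] E2) (s : M →ₗ[K] E2) where
  /-- the projection to `G` -/
  pi : L →ₐ[K] G
  /-- the second component -/
  F : L →ₗ[K] (M →ₗ[K] E1)
  mul : ∀ x y m, F (x * y) m = pi x • F y m + F x (pi y • m)
  inj : ∀ x, pi x = 0 → F x = 0 → x = 0
  rel : ∀ x m, p (F x m) = pi x • s m - s (pi x • m)
  surj : ∀ (g : G) (f : M →ₗ[K] E1), (∀ m, p (f m) = g • s m - s (g • m)) →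
    ∃ x, pi x = g ∧ F x = f

/-- the data of a left and of a right presentation, linked by balanced pairings -/
structure Link (K : Type v) (G : Type u₁) {V : Type u₂} {E1 : Type u₃} {E2 : Type u₄}
    {M : Type u₅} {VR : Type u₆} {F1 : Type u₇} {F2 : Type u₈} {MR : Type u₉}
    [Field K] [Ring G] [Algebra K G]
    [AddCommGroup V] [Module K V] [Module G V]
    [AddCommGroup E1] [Module K E1] [Module G E1]
    [AddCommGroup E2] [Module K E2] [Module G E2]
    [AddCommGroup M] [Module K M] [Module G M]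
    [AddCommGroup VR] [Module K VR] [Module Gᵐᵒᵖ VR]
    [AddCommGroup F1] [Module K F1] [Module Gᵐᵒᵖ F1]
    [AddCommGroup F2] [Module K F2] [Module Gᵐᵒᵖ F2]
    [AddCommGroup MR] [Module K MR] [Module Gᵐᵒᵖ MR]
    (i : V →ₗ[G] E1) (p : E1 →ₗ[G] E2) (q : E2 →ₗ[G] M) (s : M →ₗ[K] E2)
    (iR : VR →ₗ[Gᵐᵒᵖ] F1) (pR : F1 →ₗ[Gᵐᵒᵖ] F2) (qR : F2 →ₗ[Gᵐᵒᵖ] MR) (sR : MR →ₗ[K] F2) where
  ker_p : ∀ x, p x = 0 → ∃ v, i v = x
  ker_q : ∀ e, q e = 0 → ∃ x, p x = e
  pi0 : ∀ v, p (i v) = 0
  qs : ∀ m, q (s m) = m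
  ker_pR : ∀ x, pR x = 0 → ∃ v, iR v = x
  ker_qR : ∀ e, qR e = 0 → ∃ x, pR x = e
  piR0 : ∀ v, pR (iR v) = 0
  qsR : ∀ m, qR (sR m) = m
  /-- `VR = DM` -/
  PM : M →ₗ[K] VR →ₗ[K] K
  /-- `MR = DV` -/
  PV : V →ₗ[K] MR →ₗ[K] K
  A : E1 →ₗ[K] F2 →ₗ[K] K
  B : E2 →ₗ[K] F1 →ₗ[K] K
  bA : ∀ (g : G) x y, A (g • x) y = A x (op g • y)
  bB : ∀ (g : G) x y, B (g • x) y = B x (op g • y)
  hA : ∀ v y, A (i v) y = PV v (qR y)
  hAB : ∀ x z, A x (pR z) = B (p x) z
  hB : ∀ e w, B e (iR w) = PM (q e) w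
  PMsurj : ∀ φ : M →ₗ[K] K, ∃ w, ∀ m, PM m w = φ m
  PMinj : ∀ w, (∀ m, PM m w = 0) → w = 0
  PVsurj : ∀ φ : MR →ₗ[K] K, ∃ v, ∀ n, PV v n = φ n
  PVinj : ∀ v, (∀ n, PV v n = 0) → v = 0

section

variable {K : Type v} {G : Type u₁} {V : Type u₂} {E1 : Type u₃} {E2 : Type u₄}
    {M : Type u₅} {VR : Type u₆} {F1 : Type u₇} {F2 : Type u₈} {MR : Type u₉} {L : Type u₁₀}
    [Field K] [Ring G] [Algebra K G] [Ring L] [Algebra K L]
    [AddCommGroup V] [Module K V] [Module G V] [IsScalarTower K G V]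
    [AddCommGroup E1] [Module K E1] [Module G E1] [IsScalarTower K G E1]
    [AddCommGroup E2] [Module K E2] [Module G E2] [IsScalarTower K G E2]
    [AddCommGroup M] [Module K M] [Module G M] [IsScalarTower K G M]
    [AddCommGroup VR] [Module K VR] [Module Gᵐᵒᵖ VR] [IsScalarTower K Gᵐᵒᵖ VR]
    [AddCommGroup F1] [Module K F1] [Module Gᵐᵒᵖ F1] [IsScalarTower K Gᵐᵒᵖ F1]
    [AddCommGroup F2] [Module K F2] [Module Gᵐᵒᵖ F2] [IsScalarTower K Gᵐᵒᵖ F2]
    [AddCommGroup MR] [Module K MR] [Module Gᵐᵒᵖ MR] [IsScalarTower K Gᵐᵒᵖ MR]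
    {i : V →ₗ[G] E1} {p : E1 →ₗ[G] E2} {q : E2 →ₗ[G] M} {s : M →ₗ[K] E2}
    {iR : VR →ₗ[Gᵐᵒᵖ] F1} {pR : F1 →ₗ[Gᵐᵒᵖ] F2} {qR : F2 →ₗ[Gᵐᵒᵖ] MR} {sR : MR →ₗ[K] F2}

theorem Link.uniq (D : Link K G i p q s iR pR qR sR) (z : F1) (h : pR z = 0)
    (h' : ∀ m, D.B (s m) z = 0) : z = 0 := by
  obtain ⟨w, rfl⟩ := D.ker_pR z h
  have : w = 0 := D.PMinj w fun m => by
    rw [← D.qs m, ← D.hB, h']
  rw [this, map_zero]

theorem Link.uniqL (D : Link K G i p q s iR pR qR sR) (x : E1) (h : p x = 0)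
    (h' : ∀ n, D.A x (sR n) = 0) : x = 0 := by
  obtain ⟨w, rfl⟩ := D.ker_p x h
  have : w = 0 := D.PVinj w fun m => by
    rw [← D.qsR m, ← D.hA, h']
  rw [this, map_zero]

theorem Link.exists_z (D : Link K G i p q s iR pR qR sR) (c : CellStr K G L p s) (x : L)
    (n : MR) : ∃ z : F1, pR z = op (c.pi x) • sR n - sR (op (c.pi x) • n) ∧
      ∀ m, D.B (s m) z = D.A (c.F x m) (sR n) := by
  have h1 : qR (op (c.pi x) • sR n - sR (op (c.pi x) • n)) = 0 := by
    rw [map_sub, map_smul, D.qsR, D.qsR, sub_self]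
  obtain ⟨z, hz⟩ := D.ker_qR _ h1
  obtain ⟨w, hw⟩ := D.PMsurj
    ((D.A.flip (sR n)) ∘ₗ (c.F x) - (D.B.flip z) ∘ₗ s)
  refine ⟨z + iR w, ?_, fun m => ?_⟩
  · rw [map_add, D.piR0, add_zero, hz]
  · rw [map_add, D.hB, D.qs, hw]
    simp

theorem Link.exists_x (D : Link K G i p q s iR pR qR sR) (g : G) (fR : MR →ₗ[K] F1)
    (m : M) : ∃ z : E1, p z = g • s m - s (g • m) ∧
      ∀ n, D.A z (sR n) = D.B (s m) (fR n) := by
  have h1 : q (g • s m - s (g • m)) = 0 := by
    rw [map_sub, map_smul, D.qs, D.qs, sub_self]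
  obtain ⟨z, hz⟩ := D.ker_q _ h1
  obtain ⟨w, hw⟩ := D.PVsurj
    ((D.B (s m)) ∘ₗ fR - (D.A z) ∘ₗ sR)
  refine ⟨z + i w, ?_, fun n => ?_⟩
  · rw [map_add, D.pi0, add_zero, hz]
  · rw [map_add, LinearMap.add_apply, D.hA, D.qsR, hw]
    simp

/-- the value of the right component -/
noncomputable def Link.z (D : Link K G i p q s iR pR qR sR) (c : CellStr K G L p s) (x : L)
    (n : MR) : F1 := (D.exists_z c x n).choose

theorem Link.z_rel (D : Link K G i p q s iR pR qR sR) (c : CellStr K G L p s) (x : L)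
    (n : MR) : pR (D.z c x n) = op (c.pi x) • sR n - sR (op (c.pi x) • n) :=
  (D.exists_z c x n).choose_spec.1

theorem Link.z_B (D : Link K G i p q s iR pR qR sR) (c : CellStr K G L p s) (x : L)
    (n : MR) (m : M) : D.B (s m) (D.z c x n) = D.A (c.F x m) (sR n) :=
  (D.exists_z c x n).choose_spec.2 m

theorem Link.z_ext (D : Link K G i p q s iR pR qR sR) (c : CellStr K G L p s) (x : L)
    (n : MR) (z : F1) (h : pR z = op (c.pi x) • sR n - sR (op (c.pi x) • n))
    (h' : ∀ m, D.B (s m) z = D.A (c.F x m) (sR n)) : D.z c x n = z := by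
  rw [← sub_eq_zero]
  apply D.uniq
  · rw [map_sub, D.z_rel, h, sub_self]
  · intro m
    rw [map_sub, D.z_B, h', sub_self]

/-- the right component -/
noncomputable def Link.FR (D : Link K G i p q s iR pR qR sR) (c : CellStr K G L p s) :
    Lᵐᵒᵖ →ₗ[K] (MR →ₗ[K] F1) where
  toFun x :=
    { toFun := fun n => D.z c (unop x) n
      map_add' := fun n n' => by
        apply D.z_ext
        · rw [map_add, D.z_rel, D.z_rel, map_add, smul_add, smul_add, map_add]
          abel
        · intro m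
          rw [map_add, D.z_B, D.z_B, map_add, map_add]
      map_smul' := fun a n => by
        apply D.z_ext
        · rw [RingHom.id_apply, LinearMap.map_smul_of_tower pR, D.z_rel, sR.map_smul a n,
            smul_comm (op (c.pi (unop x))) a n, sR.map_smul a, smul_sub,
            smul_comm (op (c.pi (unop x))) a]
        · intro m
          rw [RingHom.id_apply, map_smul, D.z_B, sR.map_smul a n, map_smul] }
  map_add' x y := by
    refine LinearMap.ext fun n => ?_
    show D.z c (unop x + unop y) n = D.z c (unop x) n + D.z c (unop y) n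
    apply D.z_ext
    · rw [map_add, D.z_rel, D.z_rel, map_add, op_add, add_smul, add_smul, map_add]
      abel
    · intro m
      rw [map_add, D.z_B, D.z_B, map_add, LinearMap.add_apply, map_add, LinearMap.add_apply]
  map_smul' a x := by
    refine LinearMap.ext fun n => ?_
    show D.z c (a • unop x) n = a • D.z c (unop x) n
    apply D.z_ext
    · rw [LinearMap.map_smul_of_tower pR, D.z_rel, map_smul c.pi, op_smul, smul_assoc, smul_assoc,
        sR.map_smul a, smul_sub]
    · intro m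
      rw [map_smul, D.z_B, map_smul c.F, LinearMap.smul_apply, map_smul, LinearMap.smul_apply]

theorem Link.FR_apply (D : Link K G i p q s iR pR qR sR) (c : CellStr K G L p s) (x : Lᵐᵒᵖ)
    (n : MR) : D.FR c x n = D.z c (unop x) n := rfl

/-- **Glue**: a cell over `G` for the left presentation is a cell over `Gᵐᵒᵖ` for the right
presentation. -/
noncomputable def CellStr.mop (c : CellStr K G L p s) (D : Link K G i p q s iR pR qR sR) :
    CellStr K Gᵐᵒᵖ Lᵐᵒᵖ pR sR where
  pi := AlgHom.op c.pi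
  F := D.FR c
  mul x y n := by
    have hx : AlgHom.op c.pi x = op (c.pi (unop x)) := rfl
    have hy : AlgHom.op c.pi y = op (c.pi (unop y)) := rfl
    rw [D.FR_apply, D.FR_apply, D.FR_apply, hx, hy, unop_mul]
    apply D.z_ext
    · rw [map_add, map_smul, D.z_rel, D.z_rel, map_mul, op_mul, mul_smul, mul_smul, smul_sub]
      abel
    · intro m
      have e1 : D.B (s m) (op (c.pi (unop x)) • D.z c (unop y) n) =
          D.B (c.pi (unop x) • s m) (D.z c (unop y) n) := (D.bB _ _ _).symm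
      have e2 : D.B (s m) (D.z c (unop x) (op (c.pi (unop y)) • n)) =
          D.A (c.F (unop x) m) (sR (op (c.pi (unop y)) • n)) := D.z_B _ _ _ _
      have e3 : D.A (c.pi (unop y) • c.F (unop x) m) (sR n) =
          D.A (c.F (unop x) m) (op (c.pi (unop y)) • sR n) := D.bA _ _ _
      have e4 : D.A (c.F (unop y) (c.pi (unop x) • m)) (sR n) =
          D.B (s (c.pi (unop x) • m)) (D.z c (unop y) n) := (D.z_B _ _ _ _).symm
      have e5 : D.A (c.F (unop x) m) (op (c.pi (unop y)) • sR n) -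
          D.A (c.F (unop x) m) (sR (op (c.pi (unop y)) • n)) =
          D.B (c.pi (unop x) • s m) (D.z c (unop y) n) -
          D.B (s (c.pi (unop x) • m)) (D.z c (unop y) n) := by
        rw [← map_sub, ← D.z_rel, D.hAB, c.rel, map_sub, LinearMap.sub_apply]
      rw [map_add, e1, e2, c.mul, map_add, LinearMap.add_apply, e3, e4]
      linear_combination -e5
  inj x h h' := by
    have h1 : c.pi (unop x) = 0 := by
      have : op (c.pi (unop x)) = 0 := h
      exact (op_eq_zero_iff _).1 this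
    have h2 : c.F (unop x) = 0 := by
      refine LinearMap.ext fun m => ?_
      apply D.uniqL
      · rw [c.rel, h1, zero_smul, zero_smul, map_zero, sub_zero]
      · intro n
        have h3 : D.z c (unop x) n = 0 := LinearMap.congr_fun h' n
        rw [← D.z_B, h3, map_zero]
    have h4 := c.inj _ h1 h2
    exact (unop_eq_zero_iff _).1 h4
  rel x n := D.z_rel c (unop x) n
  surj g fR hfR := by
    choose f hf hf' using fun m => D.exists_x (unop g) fR m
    have hlin : ∀ m z, p z = unop g • s m - s (unop g • m) →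
        (∀ n, D.A z (sR n) = D.B (s m) (fR n)) → f m = z := by
      intro m z h h'
      rw [← sub_eq_zero]
      apply D.uniqL
      · rw [map_sub, hf, h, sub_self]
      · intro n
        rw [map_sub, LinearMap.sub_apply, hf', h', sub_self]
    let f' : M →ₗ[K] E1 :=
      { toFun := f
        map_add' := fun m m' => by
          apply hlin
          · rw [map_add, hf, hf, map_add, smul_add, smul_add, map_add]
            abel
          · intro n
            rw [map_add, LinearMap.add_apply, hf', hf', map_add, map_add, LinearMap.add_apply]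
        map_smul' := fun a m => by
          apply hlin
          · rw [RingHom.id_apply, LinearMap.map_smul_of_tower p, hf, s.map_smul a m,
              smul_comm (unop g) a m, s.map_smul a, smul_sub, smul_comm (unop g) a]
          · intro n
            rw [RingHom.id_apply, map_smul, LinearMap.smul_apply, hf', s.map_smul a m, map_smul,
              LinearMap.smul_apply] }
    obtain ⟨x, hx, hx'⟩ := c.surj (unop g) f' hf
    refine ⟨op x, ?_, LinearMap.ext fun n => ?_⟩
    · show op (c.pi x) = g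
      rw [hx, op_unop]
    · show D.z c x n = fR n
      apply D.z_ext
      · rw [hx, op_unop]
        exact hfR n
      · intro m
        rw [hx']
        exact (hf' m n).symm

end

end Crest.Agent.R186.Glue355
end

-- ▼ part R186/GP_355
section

/-!
Row 186 (helper355): a module in perfect duality with a right module, both with vanishing
positive `Ext` against the ring, is Gorenstein-projective (in the literal sense of the prelude).
-/

set_option autoImplicit false
set_option linter.unusedSectionVars false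
set_option linter.style.haveILetI false

universe v u

open CategoryTheory CategoryTheory.Abelian Crest.AlgebraR MulOpposite

namespace Crest.Agent.R186.GP355

open Syz700 Sym234

section two

variable {A : Type u} [Ring A]

theorem gproj_two (t : Two A)
    (hE : ∀ (n : ℤ) (φ : t.X (n + 1) →ₗ[A] A), ∃ ψ : t.P n →ₗ[A] A, ∀ x, ψ (t.f n x) = φ x) :
    IsGorensteinProjective A (t.X 0) := by
  refine ⟨t.P, t.gP, t.mP, fun n => t.f n ∘ₗ t.g (n + 1), fun n => ⟨t.fin n, t.proj n⟩, ?_, ?_, ?_⟩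
  · intro n y
    constructor
    · intro hy
      have h1 : t.g (n + 1) y = 0 := by
        apply t.fi n
        rw [map_zero]
        exact hy
      obtain ⟨x, rfl⟩ := (t.ex (n + 1) y).1 h1
      obtain ⟨z, rfl⟩ := t.gs (n + 1 + 1) x
      exact ⟨z, rfl⟩
    · rintro ⟨z, rfl⟩
      show t.f n (t.g (n + 1) (t.f (n + 1) (t.g (n + 1 + 1) z))) = 0
      rw [(t.ex (n + 1) _).2 ⟨_, rfl⟩, map_zero]
  · intro n φ
    constructor
    · intro hφ
      have h0 : φ ∘ₗ (t.f (n + 1) ∘ₗ t.g (n + 1 + 1)) = 0 := hφ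
      have h1 : ∀ x, φ (t.f (n + 1) x) = 0 := by
        intro x
        obtain ⟨z, rfl⟩ := t.gs (n + 1 + 1) x
        exact LinearMap.congr_fun h0 z
      have hker : LinearMap.ker (t.g (n + 1)) ≤ LinearMap.ker φ := by
        intro y hy
        obtain ⟨x, rfl⟩ := (t.ex (n + 1) y).1 hy
        exact h1 x
      let e := LinearMap.quotKerEquivOfSurjective (t.g (n + 1)) (t.gs (n + 1))
      let φ' : t.X (n + 1) →ₗ[A] A := ((LinearMap.ker (t.g (n + 1))).liftQ φ hker) ∘ₗ
        e.symm.toLinearMap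
      have h2 : ∀ y, φ' (t.g (n + 1) y) = φ y := by
        intro y
        have h3 : e.symm (t.g (n + 1) y) = Submodule.Quotient.mk y := by
          rw [LinearEquiv.symm_apply_eq]
          rfl
        show (LinearMap.ker (t.g (n + 1))).liftQ φ hker (e.symm (t.g (n + 1) y)) = φ y
        rw [h3]
        rfl
      obtain ⟨ψ, hψ⟩ := hE n φ'
      refine ⟨ψ, LinearMap.ext fun y => ?_⟩
      show ψ (t.f n (t.g (n + 1) y)) = φ y
      rw [hψ, h2]
    · rintro ⟨ψ, rfl⟩
      refine LinearMap.ext fun z => ?_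
      show ψ (t.f n (t.g (n + 1) (t.f (n + 1) (t.g (n + 1 + 1) z)))) = 0
      rw [(t.ex (n + 1) _).2 ⟨_, rfl⟩, map_zero, map_zero]
  · have hk : LinearMap.range (t.f 0 ∘ₗ t.g (0 + 1)) = LinearMap.ker (t.g 0) := by
      ext y
      constructor
      · rintro ⟨z, rfl⟩
        exact (t.ex 0 _).2 ⟨_, rfl⟩
      · intro hy
        obtain ⟨x, rfl⟩ := (t.ex 0 y).1 hy
        obtain ⟨z, rfl⟩ := t.gs (0 + 1) x
        exact ⟨z, rfl⟩
    exact ⟨((Submodule.quotEquivOfEq _ _ hk).trans
      (LinearMap.quotKerEquivOfSurjective (t.g 0) (t.gs 0))).symm⟩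

end two

section syz

variable {A : Type u} [Ring A] [IsNoetherianRing A]

/-- the inclusion of the next syzygy, with syntactically better types -/
noncomputable def incO (M : FM A) (j : ℕ) : (Om M (j + 1)).X →ₗ[A] (Fin (Om M j).n → A) :=
  (Om M j).inc

theorem incO_inj (M : FM A) (j : ℕ) : Function.Injective (incO M j) := (Om M j).inc_inj

theorem cov_incO (M : FM A) (j : ℕ) (x : (Om M (j + 1)).X) : (Om M j).cov (incO M j x) = 0 :=
  LinearMap.congr_fun (Om M j).cov_inc x

theorem exists_incO (M : FM A) (j : ℕ) (y : Fin (Om M j).n → A) (hy : (Om M j).cov y = 0) :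
    ∃ x, incO M j x = y := (Om M j).exists_inc y hy

theorem lift_incO (M : FM A) (Y : Type u) [AddCommGroup Y] [Module A Y]
    (h : ∀ i : ℕ, 0 < i → Subsingleton (Ext (ModuleCat.of A M.X) (ModuleCat.of A Y) i)) (j : ℕ)
    (g : (Om M (j + 1)).X →ₗ[A] Y) :
    ∃ f : (Fin (Om M j).n → A) →ₗ[A] Y, ∀ x, f (incO M j x) = g x := by
  obtain ⟨f, hf⟩ := lift_Om M Y h j g
  exact ⟨f, fun x => LinearMap.congr_fun hf x⟩

/-- factor a map through the free cover -/
theorem desc (M : FM A) (j : ℕ) (Y : Type u) [AddCommGroup Y] [Module A Y]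
    (ψ : (Fin (Om M j).n → A) →ₗ[A] Y) (hψ : ∀ x, ψ (incO M j x) = 0) :
    ∃ χ : (Om M j).X →ₗ[A] Y, ∀ q, χ ((Om M j).cov q) = ψ q := by
  have hker : LinearMap.ker (Om M j).cov ≤ LinearMap.ker ψ := by
    intro q hq
    obtain ⟨x, rfl⟩ := exists_incO M j q hq
    exact hψ x
  let e := LinearMap.quotKerEquivOfSurjective (Om M j).cov (Om M j).cov_surj
  refine ⟨((LinearMap.ker (Om M j).cov).liftQ ψ hker) ∘ₗ e.symm.toLinearMap, fun q => ?_⟩
  have h3 : e.symm ((Om M j).cov q) = Submodule.Quotient.mk q := by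
    rw [LinearEquiv.symm_apply_eq]
    rfl
  show (LinearMap.ker (Om M j).cov).liftQ ψ hker (e.symm ((Om M j).cov q)) = ψ q
  rw [h3]
  rfl

end syz

section dual

variable {A : Type u} [Ring A]

/-- precomposition, as an `A`-linear map between duals of right modules -/
def pre {M N : Type u} [AddCommGroup M] [AddCommGroup N] [Module Aᵐᵒᵖ M] [Module Aᵐᵒᵖ N]
    (h : N →ₗ[Aᵐᵒᵖ] M) : (M →ₗ[Aᵐᵒᵖ] A) →ₗ[A] (N →ₗ[Aᵐᵒᵖ] A) where
  toFun φ := φ ∘ₗ h
  map_add' _ _ := rfl
  map_smul' _ _ := rfl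

theorem pre_apply {M N : Type u} [AddCommGroup M] [AddCommGroup N] [Module Aᵐᵒᵖ M]
    [Module Aᵐᵒᵖ N] (h : N →ₗ[Aᵐᵒᵖ] M) (φ : M →ₗ[Aᵐᵒᵖ] A) (x : N) : pre h φ x = φ (h x) := rfl

/-- evaluation -/
def ev {M : Type u} [AddCommGroup M] [Module Aᵐᵒᵖ M] (x : M) : (M →ₗ[Aᵐᵒᵖ] A) →ₗ[A] A where
  toFun φ := φ x
  map_add' _ _ := rfl
  map_smul' _ _ := rfl


/-- the coordinate functionals -/
def eps {n : ℕ} (i : Fin n) : (Fin n → Aᵐᵒᵖ) →ₗ[Aᵐᵒᵖ] A where
  toFun q := unop (q i)
  map_add' _ _ := rfl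
  map_smul' _ _ := rfl

theorem eps_apply {n : ℕ} (i : Fin n) (q : Fin n → Aᵐᵒᵖ) : eps i q = unop (q i) := rfl

theorem dual_eq {n : ℕ} (ψ : (Fin n → Aᵐᵒᵖ) →ₗ[Aᵐᵒᵖ] A) :
    ψ = ∑ i, ψ (Pi.single i 1) • eps (A := A) i := by
  refine (Pi.basisFun Aᵐᵒᵖ (Fin n)).ext fun j => ?_
  rw [LinearMap.sum_apply, Pi.basisFun_apply]
  rw [Finset.sum_eq_single j]
  · rw [LinearMap.smul_apply, eps_apply, Pi.single_eq_same]
    simp
  · intro i _ hi
    rw [LinearMap.smul_apply, eps_apply, Pi.single_eq_of_ne hi]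
    simp
  · intro h
    exact absurd (Finset.mem_univ j) h

/-- free right modules are reflexive -/
theorem free_refl {n : ℕ} (Φ : ((Fin n → Aᵐᵒᵖ) →ₗ[Aᵐᵒᵖ] A) →ₗ[A] A) :
    ∃ q : Fin n → Aᵐᵒᵖ, ∀ ψ, Φ ψ = ψ q := by
  refine ⟨fun i => op (Φ (eps i)), fun ψ => ?_⟩
  conv_lhs => rw [dual_eq ψ]
  conv_rhs => rw [dual_eq ψ]
  rw [map_sum, LinearMap.sum_apply]
  refine Finset.sum_congr rfl fun i _ => ?_
  rw [map_smul, LinearMap.smul_apply, eps_apply, unop_op]

/-- the dual of a free right module of finite rank is a free left module -/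
noncomputable def dualEquiv (n : ℕ) :
    (Fin n → A) ≃ₗ[A] ((Fin n → Aᵐᵒᵖ) →ₗ[Aᵐᵒᵖ] A) :=
  (Pi.basisFun Aᵐᵒᵖ (Fin n)).constr A

theorem finite_dual (n : ℕ) : Module.Finite A ((Fin n → Aᵐᵒᵖ) →ₗ[Aᵐᵒᵖ] A) :=
  Module.Finite.equiv (dualEquiv (A := A) n)

theorem projective_dual (n : ℕ) : Module.Projective A ((Fin n → Aᵐᵒᵖ) →ₗ[Aᵐᵒᵖ] A) :=
  Module.Projective.of_equiv (dualEquiv (A := A) n)

end dual

section main

variable {A : Type u} [Ring A] [IsNoetherianRing A] [IsNoetherianRing Aᵐᵒᵖ]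

variable (Z : FM A) (Y : FM Aᵐᵒᵖ) (β : Z.X →ₗ[A] (Y.X →ₗ[Aᵐᵒᵖ] A))

/-- reflexivity of all syzygies of `Y` -/
theorem refl_Om (hs : Function.Surjective β)
    (hf : ∀ φ : Z.X →ₗ[A] A, ∃ y, ∀ z, φ z = β z y)
    (hi : ∀ y, (∀ z, β z y = 0) → y = 0)
    (eY : ∀ i : ℕ, 0 < i → Subsingleton (Ext (ModuleCat.of Aᵐᵒᵖ Y.X) (ModuleCat.of Aᵐᵒᵖ A) i))
    (j : ℕ) :
    (∀ φ : ((Om Y j).X →ₗ[Aᵐᵒᵖ] A) →ₗ[A] A, ∃ x, ∀ χ, φ χ = χ x) ∧
      (∀ x : (Om Y j).X, (∀ χ : (Om Y j).X →ₗ[Aᵐᵒᵖ] A, χ x = 0) → x = 0) := by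
  induction j with
  | zero =>
    constructor
    · intro φ
      obtain ⟨y, hy⟩ := hf (φ ∘ₗ β)
      refine ⟨y, fun χ => ?_⟩
      obtain ⟨z, rfl⟩ := hs χ
      exact hy z
    · intro y hy
      exact hi y fun z => hy (β z)
  | succ j ih =>
    obtain ⟨iha, ihb⟩ := ih
    constructor
    · intro φ
      obtain ⟨q, hq⟩ := free_refl (φ ∘ₗ pre (incO Y j))
      have h1 : (Om Y j).cov q = 0 := by
        apply ihb
        intro χ
        have h2 := hq (χ ∘ₗ (Om Y j).cov)
        have h3 : pre (incO Y j) (χ ∘ₗ (Om Y j).cov) = 0 := by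
          refine LinearMap.ext fun x => ?_
          rw [pre_apply]
          show χ ((Om Y j).cov (incO Y j x)) = 0
          rw [cov_incO, map_zero]
        rw [LinearMap.comp_apply, h3, map_zero] at h2
        exact h2.symm
      obtain ⟨x, hx⟩ := exists_incO Y j q h1
      refine ⟨x, fun χ => ?_⟩
      obtain ⟨ψ, hψ⟩ := lift_incO Y A eY j χ
      have h2 := hq ψ
      have h3 : pre (incO Y j) ψ = χ := LinearMap.ext hψ
      rw [LinearMap.comp_apply, h3] at h2
      rw [h2, ← hx, hψ]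
    · intro x hx
      apply incO_inj Y j
      rw [map_zero]
      funext i
      have h1 := hx (eps i ∘ₗ incO Y j)
      have h2 : unop (incO Y j x i) = 0 := h1
      exact (unop_eq_zero_iff _).1 h2

/-- the modules of the complete resolution -/
def XX : ℤ → Type u
  | Int.ofNat j => (Om Z j).X
  | Int.negSucc j => ((Om Y (j + 1)).X →ₗ[Aᵐᵒᵖ] A)

/-- the projectives of the complete resolution -/
def PP : ℤ → Type u
  | Int.ofNat j => Fin (Om Z j).n → A
  | Int.negSucc j => ((Fin (Om Y j).n → Aᵐᵒᵖ) →ₗ[Aᵐᵒᵖ] A)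

noncomputable instance gXX : ∀ j, AddCommGroup (XX Z Y j)
  | Int.ofNat j => inferInstanceAs (AddCommGroup (Om Z j).X)
  | Int.negSucc j => inferInstanceAs (AddCommGroup ((Om Y (j + 1)).X →ₗ[Aᵐᵒᵖ] A))

noncomputable instance mXX : ∀ j, Module A (XX Z Y j)
  | Int.ofNat j => inferInstanceAs (Module A (Om Z j).X)
  | Int.negSucc j => inferInstanceAs (Module A ((Om Y (j + 1)).X →ₗ[Aᵐᵒᵖ] A))

noncomputable instance gPP : ∀ j, AddCommGroup (PP Z Y j)
  | Int.ofNat j => inferInstanceAs (AddCommGroup (Fin (Om Z j).n → A))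
  | Int.negSucc j => inferInstanceAs (AddCommGroup ((Fin (Om Y j).n → Aᵐᵒᵖ) →ₗ[Aᵐᵒᵖ] A))

noncomputable instance mPP : ∀ j, Module A (PP Z Y j)
  | Int.ofNat j => inferInstanceAs (Module A (Fin (Om Z j).n → A))
  | Int.negSucc j => inferInstanceAs (Module A ((Fin (Om Y j).n → Aᵐᵒᵖ) →ₗ[Aᵐᵒᵖ] A))

theorem finPP : ∀ j, Module.Finite A (PP Z Y j)
  | Int.ofNat j => inferInstanceAs (Module.Finite A (Fin (Om Z j).n → A))
  | Int.negSucc j => finite_dual (A := A) (Om Y j).n

theorem projPP : ∀ j, Module.Projective A (PP Z Y j)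
  | Int.ofNat j => inferInstanceAs (Module.Projective A (Fin (Om Z j).n → A))
  | Int.negSucc j => projective_dual (A := A) (Om Y j).n

/-- the injections -/
noncomputable def ff : ∀ n : ℤ, XX Z Y (n + 1) →ₗ[A] PP Z Y n
  | Int.ofNat j => incO Z j
  | Int.negSucc 0 => pre Y.cov ∘ₗ β
  | Int.negSucc (j + 1) => pre (Om Y (j + 1)).cov

/-- the surjections -/
noncomputable def gg : ∀ n : ℤ, PP Z Y n →ₗ[A] XX Z Y n
  | Int.ofNat j => (Om Z j).cov
  | Int.negSucc j => pre (incO Y j)

/-- surjectivity of precomposition detects zero -/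
theorem pre_cov_inj (j : ℕ) : Function.Injective (pre (A := A) (Om Y j).cov) := by
  intro χ χ' h
  refine LinearMap.ext fun y => ?_
  obtain ⟨q, rfl⟩ := (Om Y j).cov_surj y
  exact LinearMap.congr_fun h q

theorem ff_inj (hβ : Function.Injective β) : ∀ n : ℤ, Function.Injective (ff Z Y β n)
  | Int.ofNat j => incO_inj Z j
  | Int.negSucc 0 => fun _ _ h => hβ (pre_cov_inj Y 0 h)
  | Int.negSucc (j + 1) => pre_cov_inj Y (j + 1)

theorem gg_surj
    (eY : ∀ i : ℕ, 0 < i → Subsingleton (Ext (ModuleCat.of Aᵐᵒᵖ Y.X) (ModuleCat.of Aᵐᵒᵖ A) i)) :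
    ∀ n : ℤ, Function.Surjective (gg Z Y n)
  | Int.ofNat j => (Om Z j).cov_surj
  | Int.negSucc j => fun χ => by
    obtain ⟨ψ, hψ⟩ := lift_incO Y A eY j χ
    exact ⟨ψ, LinearMap.ext hψ⟩

theorem ex_fg (hs : Function.Surjective β) :
    ∀ (n : ℤ) (y : PP Z Y n), gg Z Y n y = 0 ↔ ∃ x, ff Z Y β n x = y
  | Int.ofNat j => fun y => ⟨fun h => exists_incO Z j y h, by
      rintro ⟨x, rfl⟩
      exact cov_incO Z j x⟩
  | Int.negSucc 0 => fun (y : (Fin (Om Y 0).n → Aᵐᵒᵖ) →ₗ[Aᵐᵒᵖ] A) => ⟨fun h => by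
      obtain ⟨χ, hχ⟩ := desc Y 0 A y (fun x => LinearMap.congr_fun h x)
      obtain ⟨z, rfl⟩ := hs χ
      exact ⟨z, LinearMap.ext hχ⟩, by
      rintro ⟨z, rfl⟩
      refine LinearMap.ext fun x => ?_
      show β z ((Om Y 0).cov (incO Y 0 x)) = 0
      rw [cov_incO]
      exact map_zero _⟩
  | Int.negSucc (j + 1) => fun (y : (Fin (Om Y (j + 1)).n → Aᵐᵒᵖ) →ₗ[Aᵐᵒᵖ] A) => ⟨fun h => by
      obtain ⟨χ, hχ⟩ := desc Y (j + 1) A y (fun x => LinearMap.congr_fun h x)
      exact ⟨χ, LinearMap.ext hχ⟩, by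
      rintro ⟨z, rfl⟩
      refine LinearMap.ext fun x => ?_
      let z' : (Om Y (j + 1)).X →ₗ[Aᵐᵒᵖ] A := z
      show z' ((Om Y (j + 1)).cov (incO Y (j + 1) x)) = 0
      rw [cov_incO]
      exact map_zero _⟩

theorem hE_ff (hs : Function.Surjective β)
    (hf : ∀ φ : Z.X →ₗ[A] A, ∃ y, ∀ z, φ z = β z y)
    (hi : ∀ y, (∀ z, β z y = 0) → y = 0)
    (eZ : ∀ i : ℕ, 0 < i → Subsingleton (Ext (ModuleCat.of A Z.X) (ModuleCat.of A A) i))
    (eY : ∀ i : ℕ, 0 < i → Subsingleton (Ext (ModuleCat.of Aᵐᵒᵖ Y.X) (ModuleCat.of Aᵐᵒᵖ A) i)) :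
    ∀ (n : ℤ) (φ : XX Z Y (n + 1) →ₗ[A] A), ∃ ψ : PP Z Y n →ₗ[A] A, ∀ x, ψ (ff Z Y β n x) = φ x
  | Int.ofNat j => fun φ => lift_incO Z A eZ j φ
  | Int.negSucc 0 => fun φ => by
    obtain ⟨y, hy⟩ := hf φ
    obtain ⟨q, hq⟩ := (Om Y 0).cov_surj y
    refine ⟨ev (A := A) q, fun x => ?_⟩
    have h1 : φ x = (β x : Y.X →ₗ[Aᵐᵒᵖ] A) y := hy x
    rw [h1, ← hq]
    rfl
  | Int.negSucc (j + 1) => fun φ => by
    obtain ⟨y, hy⟩ := (refl_Om Z Y β hs hf hi eY (j + 1)).1 φ
    obtain ⟨q, hq⟩ := (Om Y (j + 1)).cov_surj y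
    refine ⟨ev (A := A) q, fun x => ?_⟩
    let x' : (Om Y (j + 1)).X →ₗ[Aᵐᵒᵖ] A := x
    have h1 : φ x = x' y := hy x
    rw [h1, ← hq]
    rfl

/-- the complete resolution, as a two-sided system of short exact sequences -/
noncomputable def two (hβ : Function.Injective β) (hs : Function.Surjective β)
    (eY : ∀ i : ℕ, 0 < i → Subsingleton (Ext (ModuleCat.of Aᵐᵒᵖ Y.X) (ModuleCat.of Aᵐᵒᵖ A) i)) :
    Two A where
  X := XX Z Y
  P := PP Z Y
  gX := gXX Z Y
  mX := mXX Z Y
  gP := gPP Z Y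
  mP := mPP Z Y
  fin := finPP Z Y
  proj := projPP Z Y
  f := ff Z Y β
  g := gg Z Y
  fi := ff_inj Z Y β hβ
  gs := gg_surj Z Y eY
  ex := ex_fg Z Y β hs

/-- **Perfect duality and `Ext` vanishing on both sides give Gorenstein-projectivity.** -/
theorem gproj_of_pairing (hβ : Function.Injective β) (hs : Function.Surjective β)
    (hf : ∀ φ : Z.X →ₗ[A] A, ∃ y, ∀ z, φ z = β z y)
    (hi : ∀ y, (∀ z, β z y = 0) → y = 0)
    (eZ : ∀ i : ℕ, 0 < i → Subsingleton (Ext (ModuleCat.of A Z.X) (ModuleCat.of A A) i))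
    (eY : ∀ i : ℕ, 0 < i → Subsingleton (Ext (ModuleCat.of Aᵐᵒᵖ Y.X) (ModuleCat.of Aᵐᵒᵖ A) i)) :
    IsGorensteinProjective A Z.X :=
  gproj_two (two Z Y β hβ hs eY) (hE_ff Z Y β hs hf hi eZ eY)

end main

section fd

/-- `gproj_of_pairing` for a finite-dimensional algebra, unbundled -/
theorem gproj_of_pairing' (K : Type v) [Field K] (A : Type u) [Ring A] [Algebra K A]
    [Module.Finite K A] (V Y : Type u) [AddCommGroup V] [Module A V] [Module.Finite A V]
    [AddCommGroup Y] [Module Aᵐᵒᵖ Y] [Module.Finite Aᵐᵒᵖ Y] (β : V →ₗ[A] (Y →ₗ[Aᵐᵒᵖ] A))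
    (hβ : Function.Injective β) (hs : Function.Surjective β)
    (hf : ∀ φ : V →ₗ[A] A, ∃ y, ∀ z, φ z = β z y)
    (hi : ∀ y, (∀ z, β z y = 0) → y = 0)
    (eZ : ∀ i : ℕ, 0 < i → Subsingleton (Ext (ModuleCat.of A V) (ModuleCat.of A A) i))
    (eY : ∀ i : ℕ, 0 < i → Subsingleton (Ext (ModuleCat.of Aᵐᵒᵖ Y) (ModuleCat.of Aᵐᵒᵖ A) i)) :
    IsGorensteinProjective A V := by
  have h1 : IsNoetherianRing A := isNoetherian_of_tower K inferInstance
  have h2 : Module.Finite K Aᵐᵒᵖ := Module.Finite.equiv (opLinearEquiv K : A ≃ₗ[K] Aᵐᵒᵖ)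
  have h3 : IsNoetherianRing Aᵐᵒᵖ := isNoetherian_of_tower K inferInstance
  exact gproj_of_pairing (⟨V⟩ : FM A) (⟨Y⟩ : FM Aᵐᵒᵖ) β hβ hs hf hi eZ eY

end fd

end Crest.Agent.R186.GP355
end

-- ▼ part R186/Glue2_355
section

/-!
Row 186, S0281 (helper355): the concrete cell ring, the duality pairing of a cell, and the final
assembly `IsGorensteinProjective L V` from the two one-sided `Ext` statements.
-/

set_option autoImplicit false
set_option linter.unusedSectionVars false

open MulOpposite CategoryTheory CategoryTheory.Abelian Crest.AlgebraR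

namespace Crest.Agent.R186.Glue2

open Glue355

universe v u w u₁ u₂ u₃ u₄ u₅ u₆ u₇ u₈ u₉ u₁₀ u₁₁

/-! ### the concrete cell ring -/

section concrete

variable (K : Type v) (G : Type u₁) {M : Type u₂} {E1 : Type u₃} {E2 : Type u₄}
  [Field K] [Ring G] [Algebra K G]
  [AddCommGroup E1] [Module K E1] [Module G E1] [IsScalarTower K G E1]
  [AddCommGroup E2] [Module K E2] [Module G E2] [IsScalarTower K G E2]
  [AddCommGroup M] [Module K M] [Module G M] [IsScalarTower K G M]
  (p : E1 →ₗ[G] E2) (s : M →ₗ[K] E2)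

/-- the concrete cell, as a subalgebra of `G × End_K (E1 × M)` -/
def cellSub : Subalgebra K (G × Module.End K (E1 × M)) where
  carrier := {x | (∀ e, x.2 (e, 0) = (x.1 • e, 0)) ∧ (∀ m, (x.2 (0, m)).2 = x.1 • m) ∧
    (∀ m, p (x.2 (0, m)).1 = x.1 • s m - s (x.1 • m))}
  mul_mem' := by
    rintro x y ⟨hx1, hx2, hx3⟩ ⟨hy1, hy2, hy3⟩
    have key : ∀ m, x.2 (y.2 (0, m)) = (x.1 • (y.2 (0, m)).1 + (x.2 (0, y.1 • m)).1,
        x.1 • y.1 • m) := by
      intro m
      have h1 : y.2 (0, m) = ((y.2 (0, m)).1, 0) + (0, y.1 • m) := by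
        ext
        · simp
        · simp [hy2]
      rw [h1, map_add, hx1]
      ext
      · simp
      · simp [hx2]
    refine ⟨fun e => ?_, fun m => ?_, fun m => ?_⟩
    · show x.2 (y.2 (e, 0)) = ((x.1 * y.1) • e, 0)
      rw [hy1, hx1, mul_smul]
    · show (x.2 (y.2 (0, m))).2 = (x.1 * y.1) • m
      rw [key, mul_smul]
    · show p (x.2 (y.2 (0, m))).1 = (x.1 * y.1) • s m - s ((x.1 * y.1) • m)
      rw [key]
      show p (x.1 • (y.2 (0, m)).1 + (x.2 (0, y.1 • m)).1) = _
      rw [map_add, map_smul, hy3, hx3, mul_smul, mul_smul, smul_sub]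
      abel
  add_mem' := by
    rintro x y ⟨hx1, hx2, hx3⟩ ⟨hy1, hy2, hy3⟩
    refine ⟨fun e => ?_, fun m => ?_, fun m => ?_⟩
    · show x.2 (e, 0) + y.2 (e, 0) = ((x.1 + y.1) • e, 0)
      rw [hx1, hy1, add_smul]
      simp
    · show (x.2 (0, m) + y.2 (0, m)).2 = (x.1 + y.1) • m
      rw [Prod.snd_add, hx2, hy2, add_smul]
    · show p (x.2 (0, m) + y.2 (0, m)).1 = (x.1 + y.1) • s m - s ((x.1 + y.1) • m)
      rw [Prod.fst_add, map_add, hx3, hy3, add_smul, add_smul, map_add]
      abel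
  algebraMap_mem' a := by
    refine ⟨fun e => ?_, fun m => ?_, fun m => ?_⟩
    · show a • ((e, 0) : E1 × M) = (algebraMap K G a • e, 0)
      rw [algebraMap_smul]
      simp
    · show (a • ((0, m) : E1 × M)).2 = algebraMap K G a • m
      rw [algebraMap_smul]
      simp
    · show p (a • ((0, m) : E1 × M)).1 = algebraMap K G a • s m - s (algebraMap K G a • m)
      rw [algebraMap_smul, algebraMap_smul, s.map_smul]
      simp

/-- the endomorphism `(e, m) ↦ (g e + f m, g m)` -/
def endo (g : G) (f : M →ₗ[K] E1) : Module.End K (E1 × M) where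
  toFun x := (g • x.1 + f x.2, g • x.2)
  map_add' x y := by
    ext
    · simp only [Prod.fst_add, Prod.snd_add, smul_add, map_add]
      abel
    · simp
  map_smul' a x := by
    ext
    · simp only [Prod.smul_fst, Prod.smul_snd, map_smul, smul_add, RingHom.id_apply]
      rw [smul_comm g a]
    · simp only [Prod.smul_snd, RingHom.id_apply]
      rw [smul_comm g a]

/-- the cell structure of the concrete cell -/
def cellStr : CellStr K G (cellSub K G p s) p s where
  pi := (AlgHom.fst K G _).comp (cellSub K G p s).val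
  F :=
    { toFun := fun x => (LinearMap.fst K E1 M) ∘ₗ (x : G × Module.End K (E1 × M)).2 ∘ₗ
        (LinearMap.inr K E1 M)
      map_add' := fun _ _ => rfl
      map_smul' := fun _ _ => rfl }
  mul := by
    rintro ⟨x, hx1, hx2, hx3⟩ ⟨y, hy1, hy2, hy3⟩ m
    show (x.2 (y.2 (0, m))).1 = x.1 • (y.2 (0, m)).1 + (x.2 (0, y.1 • m)).1
    have h1 : y.2 (0, m) = ((y.2 (0, m)).1, 0) + (0, y.1 • m) := by
      ext
      · simp
      · simp [hy2]
    conv_lhs => rw [h1, map_add, hx1]
    rfl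
  inj := by
    rintro ⟨x, hx1, hx2, hx3⟩ h h'
    have h0 : x.1 = 0 := h
    apply Subtype.ext
    apply Prod.ext h0
    refine LinearMap.ext fun em => ?_
    obtain ⟨e, m⟩ := em
    have h1 : ((e, m) : E1 × M) = (e, 0) + (0, m) := by simp
    have h2 : (x.2 (0, m)).1 = 0 := LinearMap.congr_fun h' m
    show x.2 (e, m) = 0
    rw [h1, map_add, hx1, h0, zero_smul]
    ext
    · simpa using h2
    · simp [hx2, h0]
  rel := by
    rintro ⟨x, hx1, hx2, hx3⟩ m
    exact hx3 m
  surj g f hf := by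
    refine ⟨⟨⟨g, endo K G g f⟩, ?_, ?_, ?_⟩, rfl, ?_⟩
    · intro e
      show (g • e + f 0, g • (0 : M)) = (g • e, 0)
      simp
    · intro m
      rfl
    · intro m
      show p (g • (0 : E1) + f m) = g • s m - s (g • m)
      rw [smul_zero, zero_add, hf]
    · refine LinearMap.ext fun m => ?_
      show g • (0 : E1) + f m = f m
      rw [smul_zero, zero_add]

theorem finite_cellSub [Module.Finite K G] [Module.Finite K E1] [Module.Finite K M] :
    Module.Finite K (cellSub K G p s) :=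
  FiniteDimensional.finiteDimensional_subalgebra (cellSub K G p s)

end concrete

/-! ### properties of a cell -/

section cell

variable {K : Type v} {G : Type u₁} {V : Type u₂} {E1 : Type u₃} {E2 : Type u₄}
    {M : Type u₅} {VR : Type u₆} {F1 : Type u₇} {F2 : Type u₈} {MR : Type u₉} {L : Type u₁₀}
    [Field K] [Ring G] [Algebra K G] [Ring L] [Algebra K L]
    [AddCommGroup V] [Module K V] [Module G V] [IsScalarTower K G V]
    [AddCommGroup E1] [Module K E1] [Module G E1] [IsScalarTower K G E1]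
    [AddCommGroup E2] [Module K E2] [Module G E2] [IsScalarTower K G E2]
    [AddCommGroup M] [Module K M] [Module G M] [IsScalarTower K G M]
    [AddCommGroup VR] [Module K VR] [Module Gᵐᵒᵖ VR] [IsScalarTower K Gᵐᵒᵖ VR]
    [AddCommGroup F1] [Module K F1] [Module Gᵐᵒᵖ F1] [IsScalarTower K Gᵐᵒᵖ F1]
    [AddCommGroup F2] [Module K F2] [Module Gᵐᵒᵖ F2] [IsScalarTower K Gᵐᵒᵖ F2]
    [AddCommGroup MR] [Module K MR] [Module Gᵐᵒᵖ MR] [IsScalarTower K Gᵐᵒᵖ MR]
    {i : V →ₗ[G] E1} {p : E1 →ₗ[G] E2} {q : E2 →ₗ[G] M} {s : M →ₗ[K] E2}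
    {iR : VR →ₗ[Gᵐᵒᵖ] F1} {pR : F1 →ₗ[Gᵐᵒᵖ] F2} {qR : F2 →ₗ[Gᵐᵒᵖ] MR} {sR : MR →ₗ[K] F2}

/-- the projection of a cell is surjective -/
theorem pi_surj (c : CellStr K G L p s) (hq : ∀ e, q e = 0 → ∃ x, p x = e)
    (hs : ∀ m, q (s m) = m) : Function.Surjective c.pi := by
  intro g
  let P : E1 →ₗ[K] LinearMap.range (p.restrictScalars K) := (p.restrictScalars K).rangeRestrict
  let δ : M →ₗ[K] E2 :=
    { toFun := fun m => g • s m - s (g • m)
      map_add' := fun m m' => by
        rw [map_add, smul_add, smul_add, map_add]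
        abel
      map_smul' := fun a m => by
        rw [s.map_smul a m, smul_comm g a, smul_comm g a, s.map_smul a, smul_sub,
          RingHom.id_apply] }
  have hδ : ∀ m, δ m ∈ LinearMap.range (p.restrictScalars K) := by
    intro m
    obtain ⟨x, hx⟩ := hq (g • s m - s (g • m)) (by rw [map_sub, map_smul, hs, hs, sub_self])
    exact ⟨x, hx⟩
  obtain ⟨f, hf⟩ := Module.projective_lifting_property P (δ.codRestrict _ hδ)
    (LinearMap.surjective_rangeRestrict _)
  obtain ⟨x, hx, -⟩ := c.surj g f fun m => by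
    have h1 := LinearMap.congr_fun hf m
    have h2 := congrArg Subtype.val h1
    exact h2
  exact ⟨x, hx⟩

/-- the kernel is square zero -/
theorem mul_eq_zero (c : CellStr K G L p s) (x y : L) (hx : c.pi x = 0) (hy : c.pi y = 0) :
    x * y = 0 := by
  apply c.inj
  · rw [map_mul, hx, zero_mul]
  · refine LinearMap.ext fun m => ?_
    rw [c.mul, hx, hy, zero_smul, zero_smul, map_zero, add_zero]
    rfl

theorem simples (c : CellStr K G L p s) (hs : Function.Surjective c.pi) {n : ℕ}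
    (h : Spine700.Simples K G n) : Spine700.Simples K L n := by
  obtain ⟨Q, hQ, hQ'⟩ := h
  refine ⟨Q.comp c.pi, hQ.comp hs, fun x hx => ?_⟩
  obtain ⟨m, hm⟩ := hQ' (c.pi x) hx
  refine ⟨m + m, ?_⟩
  rw [pow_add]
  apply mul_eq_zero c <;> rw [map_pow, hm]

theorem i_inj (D : Link K G i p q s iR pR qR sR) (v : V) (h : i v = 0) : v = 0 := by
  apply D.PVinj
  intro n
  rw [← D.qsR n, ← D.hA, h, map_zero, LinearMap.zero_apply]

theorem PM_bal (D : Link K G i p q s iR pR qR sR) (g : G) (m : M) (w : VR) :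
    D.PM (g • m) w = D.PM m (op g • w) := by
  have h1 : D.PM (g • m) w = D.B (g • s m) (iR w) := by rw [D.hB, q.map_smul, D.qs]
  rw [h1, D.bB, ← iR.map_smul, D.hB, D.qs]


theorem exists_elt (D : Link K G i p q s iR pR qR sR) (c : CellStr K G L p s) (v : V) (w : VR) :
    ∃ x : L, c.pi x = 0 ∧ ∀ m, c.F x m = D.PM m w • i v := by
  obtain ⟨x, hx, hx'⟩ := c.surj 0 ((D.PM.flip w).smulRight (i v)) fun m => by
    rw [LinearMap.smulRight_apply, LinearMap.map_smul_of_tower, D.pi0, zero_smul, zero_smul,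
      map_zero, smul_zero, sub_zero]
  refine ⟨x, hx, fun m => ?_⟩
  rw [hx']
  rfl

/-- the element `v ⊗ w` of the cell -/
noncomputable def elt (D : Link K G i p q s iR pR qR sR) (c : CellStr K G L p s) (v : V)
    (w : VR) : L := (exists_elt D c v w).choose

theorem pi_elt (D : Link K G i p q s iR pR qR sR) (c : CellStr K G L p s) (v : V) (w : VR) :
    c.pi (elt D c v w) = 0 := (exists_elt D c v w).choose_spec.1

theorem F_elt (D : Link K G i p q s iR pR qR sR) (c : CellStr K G L p s) (v : V) (w : VR)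
    (m : M) : c.F (elt D c v w) m = D.PM m w • i v := (exists_elt D c v w).choose_spec.2 m

theorem elt_ext (D : Link K G i p q s iR pR qR sR) (c : CellStr K G L p s) (v : V) (w : VR)
    (x : L) (h : c.pi x = 0) (h' : ∀ m, c.F x m = D.PM m w • i v) : elt D c v w = x := by
  rw [← sub_eq_zero]
  apply c.inj
  · rw [map_sub, pi_elt, h, sub_zero]
  · refine LinearMap.ext fun m => ?_
    rw [map_sub, LinearMap.sub_apply, F_elt, h', sub_self, LinearMap.zero_apply]

variable [Module L V] [Module Lᵐᵒᵖ VR]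

/-- the duality pairing of a cell -/
noncomputable def beta (D : Link K G i p q s iR pR qR sR) (c : CellStr K G L p s)
    (hV : ∀ (x : L) (v : V), x • v = c.pi x • v)
    (hVR : ∀ (x : L) (w : VR), op x • w = op (c.pi x) • w) :
    V →ₗ[L] (VR →ₗ[Lᵐᵒᵖ] L) where
  toFun v :=
    { toFun := fun w => elt D c v w
      map_add' := fun w w' => by
        apply elt_ext
        · rw [map_add, pi_elt, pi_elt, add_zero]
        · intro m
          rw [map_add, LinearMap.add_apply, F_elt, F_elt, map_add, add_smul]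
      map_smul' := fun x w => by
        apply elt_ext
        · rw [RingHom.id_apply]
          show c.pi (elt D c v w * unop x) = 0
          rw [map_mul, pi_elt, zero_mul]
        · intro m
          rw [RingHom.id_apply]
          show c.F (elt D c v w * unop x) m = _
          rw [c.mul, pi_elt, zero_smul, zero_add, F_elt, PM_bal, ← hVR, op_unop] }
  map_add' v v' := by
    refine LinearMap.ext fun w => ?_
    show elt D c (v + v') w = elt D c v w + elt D c v' w
    apply elt_ext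
    · rw [map_add, pi_elt, pi_elt, add_zero]
    · intro m
      rw [map_add, LinearMap.add_apply, F_elt, F_elt, map_add, smul_add]
  map_smul' x v := by
    refine LinearMap.ext fun w => ?_
    show elt D c (x • v) w = x * elt D c v w
    apply elt_ext
    · rw [map_mul, pi_elt, mul_zero]
    · intro m
      rw [c.mul, pi_elt, zero_smul, map_zero, add_zero, F_elt, hV, map_smul, smul_comm]

theorem beta_apply (D : Link K G i p q s iR pR qR sR) (c : CellStr K G L p s)
    (hV : ∀ (x : L) (v : V), x • v = c.pi x • v)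
    (hVR : ∀ (x : L) (w : VR), op x • w = op (c.pi x) • w) (v : V) (w : VR) :
    beta D c hV hVR v w = elt D c v w := rfl

theorem beta_inj (D : Link K G i p q s iR pR qR sR) (c : CellStr K G L p s)
    (hV : ∀ (x : L) (v : V), x • v = c.pi x • v)
    (hVR : ∀ (x : L) (w : VR), op x • w = op (c.pi x) • w) [Nontrivial M] :
    Function.Injective (beta D c hV hVR) := by
  rw [injective_iff_map_eq_zero]
  intro v hv
  obtain ⟨m₀, hm₀⟩ := exists_ne (0 : M)
  obtain ⟨φ, hφ⟩ : ∃ φ : M →ₗ[K] K, φ m₀ ≠ 0 := by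
    by_contra h
    push Not at h
    exact hm₀ ((Module.forall_dual_apply_eq_zero_iff K m₀).1 h)
  obtain ⟨w, hw⟩ := D.PMsurj φ
  have h1 : elt D c v w = 0 := LinearMap.congr_fun hv w
  have h2 := F_elt D c v w m₀
  rw [h1, map_zero, LinearMap.zero_apply, hw] at h2
  apply i_inj D
  rcases smul_eq_zero.1 h2.symm with h | h
  · exact absurd h hφ
  · exact h

/-- a map `V → L` lands in the kernel -/
theorem pi_phi (c : CellStr K G L p s) (hπ : Function.Surjective c.pi)
    (hV : ∀ (x : L) (v : V), x • v = c.pi x • v) (hV0 : ∀ φ : V →ₗ[G] G, φ = 0)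
    (φ : V →ₗ[L] L) (v : V) : c.pi (φ v) = 0 := by
  let φ' : V →ₗ[G] G :=
    { toFun := fun v => c.pi (φ v)
      map_add' := fun v v' => by rw [map_add, map_add]
      map_smul' := fun g v => by
        obtain ⟨x, rfl⟩ := hπ g
        rw [← hV, map_smul, smul_eq_mul, map_mul, RingHom.id_apply, smul_eq_mul] }
  exact LinearMap.congr_fun (hV0 φ') v

theorem pi_psi (c : CellStr K G L p s) (hπ : Function.Surjective c.pi)
    (hVR : ∀ (x : L) (w : VR), op x • w = op (c.pi x) • w)
    (hVR0 : ∀ φ : VR →ₗ[Gᵐᵒᵖ] Gᵐᵒᵖ, φ = 0)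
    (ψ : VR →ₗ[Lᵐᵒᵖ] L) (w : VR) : c.pi (ψ w) = 0 := by
  let ψ' : VR →ₗ[Gᵐᵒᵖ] Gᵐᵒᵖ :=
    { toFun := fun w => op (c.pi (ψ w))
      map_add' := fun v v' => by rw [map_add, map_add, MulOpposite.op_add]
      map_smul' := fun g w => by
        obtain ⟨x, hx⟩ := hπ (unop g)
        have hg : g = op (c.pi x) := by rw [hx, op_unop]
        have h1 : ψ (op x • w) = ψ w * x := by
          rw [map_smul]
          rfl
        rw [hg, ← hVR, h1, map_mul, RingHom.id_apply, op_mul, smul_eq_mul] }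
  have h2 : op (c.pi (ψ w)) = 0 := LinearMap.congr_fun (hVR0 ψ') w
  exact (op_eq_zero_iff _).1 h2

theorem beta_f (D : Link K G i p q s iR pR qR sR) (c : CellStr K G L p s)
    (hπ : Function.Surjective c.pi)
    (hV : ∀ (x : L) (v : V), x • v = c.pi x • v)
    (hVR : ∀ (x : L) (w : VR), op x • w = op (c.pi x) • w) [Nontrivial V]
    (hV0 : ∀ φ : V →ₗ[G] G, φ = 0) (eV : ∀ T : V →ₗ[G] V, ∃ a : K, ∀ v, T v = a • v)
    (φ : V →ₗ[L] L) : ∃ w, ∀ v, φ v = beta D c hV hVR v w := by
  have h0 : ∀ v, c.pi (φ v) = 0 := pi_phi c hπ hV hV0 φ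
  choose t ht using fun m v => D.ker_p (c.F (φ v) m) (by
    rw [c.rel, h0, zero_smul, zero_smul, map_zero, sub_zero])
  have hi : ∀ v v', i v = i v' → v = v' := fun v v' h => by
    rw [← sub_eq_zero]
    exact i_inj D _ (by rw [map_sub, h, sub_self])
  let T : M → (V →ₗ[G] V) := fun m =>
    { toFun := t m
      map_add' := fun v v' => by
        apply hi
        rw [map_add, ht, ht, ht, map_add, map_add, LinearMap.add_apply]
      map_smul' := fun g v => by
        apply hi
        obtain ⟨x, rfl⟩ := hπ g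
        rw [RingHom.id_apply, i.map_smul, ht, ht, ← hV, φ.map_smul, smul_eq_mul, c.mul, h0,
          zero_smul, map_zero, add_zero] }
  choose a ha using fun m => eV (T m)
  have ha' : ∀ m v, t m v = a m • v := ha
  obtain ⟨v₀, hv₀⟩ := exists_ne (0 : V)
  have hcancel : ∀ a b : K, a • v₀ = b • v₀ → a = b := fun a b h => by
    rw [← sub_eq_zero, ← sub_smul] at h
    rcases smul_eq_zero.1 h with h | h
    · exact sub_eq_zero.1 h
    · exact absurd h hv₀
  let lam : M →ₗ[K] K :=
    { toFun := a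
      map_add' := fun m m' => by
        apply hcancel
        apply hi
        rw [← ha', ht, map_add, add_smul, map_add, ← ha', ← ha', ht, ht]
      map_smul' := fun b m => by
        apply hcancel
        apply hi
        rw [← ha', ht, (c.F (φ v₀)).map_smul, RingHom.id_apply, smul_eq_mul, mul_smul, ← ha',
          LinearMap.map_smul_of_tower i, ht] }
  obtain ⟨w, hw⟩ := D.PMsurj lam
  refine ⟨w, fun v => ?_⟩
  rw [beta_apply]
  symm
  apply elt_ext
  · exact h0 v
  · intro m
    rw [hw, ← ht, ha', LinearMap.map_smul_of_tower i]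
    rfl

theorem beta_surj (D : Link K G i p q s iR pR qR sR) (c : CellStr K G L p s)
    (hπ : Function.Surjective c.pi)
    (hV : ∀ (x : L) (v : V), x • v = c.pi x • v)
    (hVR : ∀ (x : L) (w : VR), op x • w = op (c.pi x) • w) [Nontrivial VR]
    (hVR0 : ∀ φ : VR →ₗ[Gᵐᵒᵖ] Gᵐᵒᵖ, φ = 0)
    (eVR : ∀ T : VR →ₗ[Gᵐᵒᵖ] VR, ∃ a : K, ∀ v, T v = a • v) :
    Function.Surjective (beta D c hV hVR) := by
  intro ψ
  have h0 : ∀ v, c.pi (ψ v) = 0 := pi_psi c hπ hVR hVR0 ψ
  choose t ht using fun w m => D.ker_p (c.F (ψ w) m) (by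
    rw [c.rel, h0, zero_smul, zero_smul, map_zero, sub_zero])
  have hi : ∀ v v', i v = i v' → v = v' := fun v v' h => by
    rw [← sub_eq_zero]
    exact i_inj D _ (by rw [map_sub, h, sub_self])
  have tadd : ∀ w m m', t w (m + m') = t w m + t w m' := fun w m m' => by
    apply hi
    rw [map_add, ht, ht, ht, map_add]
  have tsmul : ∀ w (b : K) m, t w (b • m) = b • t w m := fun w b m => by
    apply hi
    rw [LinearMap.map_smul_of_tower i, ht, ht, (c.F (ψ w)).map_smul]
  have tadd' : ∀ w w' m, t (w + w') m = t w m + t w' m := fun w w' m => by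
    apply hi
    rw [map_add, ht, ht, ht, map_add, map_add, LinearMap.add_apply]
  have tact : ∀ (g : G) w m, t (op g • w) m = t w (g • m) := fun g w m => by
    apply hi
    obtain ⟨x, rfl⟩ := hπ g
    have h1 : ψ (op x • w) = ψ w * x := by
      rw [map_smul]
      rfl
    rw [ht, ht, ← hVR, h1, c.mul, h0, zero_smul, zero_add]
  have hM : ∀ w w', (∀ m, D.PM m w = D.PM m w') → w = w' := fun w w' h => by
    rw [← sub_eq_zero]
    exact D.PMinj _ fun m => by rw [map_sub, h, sub_self]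
  choose S hS using fun (n : MR) (w : VR) => D.PMsurj
    { toFun := fun m => D.PV (t w m) n
      map_add' := fun m m' => by rw [tadd, map_add, LinearMap.add_apply]
      map_smul' := fun b m => by rw [tsmul, map_smul, LinearMap.smul_apply, RingHom.id_apply] }
  have hS' : ∀ n w m, D.PM m (S n w) = D.PV (t w m) n := hS
  let S' : MR → (VR →ₗ[Gᵐᵒᵖ] VR) := fun n =>
    { toFun := S n
      map_add' := fun w w' => by
        apply hM
        intro m
        rw [hS', map_add, hS', hS', tadd', map_add, LinearMap.add_apply]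
      map_smul' := fun g w => by
        apply hM
        intro m
        have hg : g = op (unop g) := (op_unop g).symm
        rw [RingHom.id_apply, hS', hg, tact, ← PM_bal, hS'] }
  choose b hb using fun n => eVR (S' n)
  have hb' : ∀ n w, S n w = b n • w := hb
  obtain ⟨w₀, hw₀⟩ := exists_ne (0 : VR)
  have hcancel : ∀ a b : K, a • w₀ = b • w₀ → a = b := fun a b h => by
    rw [← sub_eq_zero, ← sub_smul] at h
    rcases smul_eq_zero.1 h with h | h
    · exact sub_eq_zero.1 h
    · exact absurd h hw₀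
  let mu : MR →ₗ[K] K :=
    { toFun := b
      map_add' := fun n n' => by
        apply hcancel
        apply hM
        intro m
        rw [← hb', hS', map_add, add_smul, map_add, ← hb', ← hb', hS', hS']
      map_smul' := fun a n => by
        apply hcancel
        apply hM
        intro m
        rw [← hb', hS', map_smul, RingHom.id_apply, smul_assoc, map_smul, ← hb', hS'] }
  obtain ⟨v, hv⟩ := D.PVsurj mu
  refine ⟨v, LinearMap.ext fun w => ?_⟩
  rw [beta_apply]
  apply elt_ext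
  · exact h0 w
  · intro m
    rw [← ht, ← LinearMap.map_smul_of_tower i]
    congr 1
    rw [← sub_eq_zero]
    apply D.PVinj
    intro n
    have h3 : mu n = b n := rfl
    rw [map_sub, LinearMap.sub_apply, ← hS', hb', map_smul, map_smul, LinearMap.smul_apply, hv,
      h3, smul_eq_mul, smul_eq_mul, mul_comm, sub_self]

theorem beta_i (D : Link K G i p q s iR pR qR sR) (c : CellStr K G L p s)
    (hV : ∀ (x : L) (v : V), x • v = c.pi x • v)
    (hVR : ∀ (x : L) (w : VR), op x • w = op (c.pi x) • w) [Nontrivial V] (w : VR)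
    (h : ∀ v, beta D c hV hVR v w = 0) : w = 0 := by
  obtain ⟨v₀, hv₀⟩ := exists_ne (0 : V)
  apply D.PMinj
  intro m
  have h1 : elt D c v₀ w = 0 := h v₀
  have h2 := F_elt D c v₀ w m
  rw [h1, map_zero, LinearMap.zero_apply] at h2
  rcases smul_eq_zero.1 h2.symm with h3 | h3
  · exact h3
  · exact absurd (i_inj D _ h3) hv₀

theorem not_proj (c : CellStr K G L p s) (hπ : Function.Surjective c.pi)
    (hV : ∀ (x : L) (v : V), x • v = c.pi x • v) [Nontrivial V] [Module.Finite L V]
    (hV0 : ∀ φ : V →ₗ[G] G, φ = 0) : ¬ Module.Projective L V := by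
  intro hp
  obtain ⟨n, u, hu⟩ := Module.Finite.exists_fin' L V
  obtain ⟨σ, hσ⟩ := Module.projective_lifting_property u LinearMap.id hu
  obtain ⟨v, hv⟩ := exists_ne (0 : V)
  apply hv
  have h1 : u (σ v) = v := LinearMap.congr_fun hσ v
  rw [← h1, LinearMap.pi_apply_eq_sum_univ u (σ v)]
  refine Finset.sum_eq_zero fun j _ => ?_
  have h2 : c.pi (σ v j) = 0 := pi_phi c hπ hV hV0 ((LinearMap.proj j) ∘ₗ σ) v
  rw [hV, h2, zero_smul]

end cell

/-! ### the final assembly -/

section final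

/-- `L` is isomorphic to `Lᵐᵒᵖ` as a right `L`-module -/
def opEquiv (L : Type u) [Ring L] : Lᵐᵒᵖ ≃ₗ[Lᵐᵒᵖ] L where
  toFun x := unop x
  invFun x := op x
  map_add' _ _ := rfl
  map_smul' _ _ := rfl
  left_inv _ := rfl
  right_inv _ := rfl

variable {K : Type v} {G : Type u} {V : Type u} {E1 : Type u} {E2 : Type u}
    {M : Type u} {VR : Type u} {F1 : Type u} {F2 : Type u} {MR : Type u} {L : Type u}
    [Field K] [Ring G] [Algebra K G] [Ring L] [Algebra K L] [Module.Finite K L]
    [AddCommGroup V] [Module K V] [Module G V] [IsScalarTower K G V]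
    [AddCommGroup E1] [Module K E1] [Module G E1] [IsScalarTower K G E1]
    [AddCommGroup E2] [Module K E2] [Module G E2] [IsScalarTower K G E2]
    [AddCommGroup M] [Module K M] [Module G M] [IsScalarTower K G M]
    [AddCommGroup VR] [Module K VR] [Module Gᵐᵒᵖ VR] [IsScalarTower K Gᵐᵒᵖ VR]
    [AddCommGroup F1] [Module K F1] [Module Gᵐᵒᵖ F1] [IsScalarTower K Gᵐᵒᵖ F1]
    [AddCommGroup F2] [Module K F2] [Module Gᵐᵒᵖ F2] [IsScalarTower K Gᵐᵒᵖ F2]
    [AddCommGroup MR] [Module K MR] [Module Gᵐᵒᵖ MR] [IsScalarTower K Gᵐᵒᵖ MR]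
    {i : V →ₗ[G] E1} {p : E1 →ₗ[G] E2} {q : E2 →ₗ[G] M} {s : M →ₗ[K] E2}
    {iR : VR →ₗ[Gᵐᵒᵖ] F1} {pR : F1 →ₗ[Gᵐᵒᵖ] F2} {qR : F2 →ₗ[Gᵐᵒᵖ] MR} {sR : MR →ₗ[K] F2}
    [Module L V] [Module Lᵐᵒᵖ VR]

/-- **The socle module of a two-sided cell is Gorenstein-projective.** -/
theorem gproj_of_cell (D : Link K G i p q s iR pR qR sR) (c : CellStr K G L p s)
    (hV : ∀ (x : L) (v : V), x • v = c.pi x • v)
    (hVR : ∀ (x : L) (w : VR), op x • w = op (c.pi x) • w)
    [Nontrivial V] [Nontrivial VR] [Nontrivial M] [Module.Finite L V] [Module.Finite Lᵐᵒᵖ VR]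
    (hV0 : ∀ φ : V →ₗ[G] G, φ = 0) (hVR0 : ∀ φ : VR →ₗ[Gᵐᵒᵖ] Gᵐᵒᵖ, φ = 0)
    (eV : ∀ T : V →ₗ[G] V, ∃ a : K, ∀ v, T v = a • v)
    (eVR : ∀ T : VR →ₗ[Gᵐᵒᵖ] VR, ∃ a : K, ∀ v, T v = a • v)
    (xV : ∀ j : ℕ, 0 < j → Subsingleton (Ext (ModuleCat.of L V) (ModuleCat.of L L) j))
    (xVR : ∀ j : ℕ, 0 < j →
      Subsingleton (Ext (ModuleCat.of Lᵐᵒᵖ VR) (ModuleCat.of Lᵐᵒᵖ Lᵐᵒᵖ) j)) :
    IsGorensteinProjective L V := by
  have hπ := pi_surj c D.ker_q D.qs
  refine GP355.gproj_of_pairing' K L V VR (beta D c hV hVR) (beta_inj D c hV hVR)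
    (beta_surj D c hπ hV hVR hVR0 eVR) (beta_f D c hπ hV hVR hV0 eV) (beta_i D c hV hVR) xV ?_
  intro j hj
  exact Frame234.ext_iso_right ((opEquiv L).toModuleIso) j (xVR j hj)

end final

end Crest.Agent.R186.Glue2
end

-- ▼ part R186/CellFin_355

/-!
Row 186, S0281 (helper355): the complete CELL theorem, in terms of left modules over `G` only:
from a 2-extension `0 → V → E1 → E2 → M → 0` with `RHom(V, G) = 0`, `RHom(V, E2) = 0`,
`RHom(V, E1) = K i`, `RHom(D G, M) = 0`, `RHom(E1, M) = 0`, `RHom(E2, M) = K q` to `C0281`.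
-/

set_option autoImplicit false
set_option linter.unusedSectionVars false
set_option linter.style.haveILetI false

open MulOpposite CategoryTheory CategoryTheory.Abelian Crest.AlgebraR

namespace Crest.Agent.R186.CellFin

open Glue355 Glue2 Cell580 Syz700

universe v u w

/-! ### the structural input of the one-sided cell -/

section cellIn

variable {K : Type v} {G L : Type u} {V E1 E2 M : Type u}
    [Field K] [Ring G] [Algebra K G] [Ring L] [Algebra K L]
    [AddCommGroup V] [Module K V] [Module G V] [IsScalarTower K G V]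
    [AddCommGroup E1] [Module K E1] [Module G E1] [IsScalarTower K G E1]
    [AddCommGroup E2] [Module K E2] [Module G E2] [IsScalarTower K G E2]
    [AddCommGroup M] [Module K M] [Module G M] [IsScalarTower K G M]
    {p : E1 →ₗ[G] E2} {s : M →ₗ[K] E2}

/-- the module `Y = E1 × M` over the cell -/
def YY (_c : CellStr K G L p s) : Type u := E1 × M

instance (c : CellStr K G L p s) : AddCommGroup (YY c) := inferInstanceAs (AddCommGroup (E1 × M))

theorem F_one (c : CellStr K G L p s) : c.F 1 = 0 := by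
  refine LinearMap.ext fun m => ?_
  have h1 := c.mul 1 1 m
  rw [mul_one, map_one c.pi, one_smul, one_smul] at h1
  exact left_eq_add.1 h1

instance (c : CellStr K G L p s) : Module L (YY c) where
  smul x y := ((c.pi x • y.1 + c.F x y.2, c.pi x • y.2) : E1 × M)
  one_smul y := by
    show ((c.pi 1 • y.1 + c.F 1 y.2, c.pi 1 • y.2) : E1 × M) = y
    rw [F_one, map_one, one_smul, one_smul, LinearMap.zero_apply, add_zero]
    rfl
  mul_smul x y z := by
    show ((c.pi (x * y) • z.1 + c.F (x * y) z.2, c.pi (x * y) • z.2) : E1 × M) =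
      (c.pi x • (c.pi y • z.1 + c.F y z.2) + c.F x (c.pi y • z.2), c.pi x • c.pi y • z.2)
    rw [c.mul, map_mul, mul_smul, mul_smul, smul_add]
    congr 1
    abel
  smul_zero x := by
    show ((c.pi x • (0 : E1) + c.F x (0 : M), c.pi x • (0 : M)) : E1 × M) = 0
    simp
  smul_add x y z := by
    show ((c.pi x • (y.1 + z.1) + c.F x (y.2 + z.2), c.pi x • (y.2 + z.2)) : E1 × M) =
      (c.pi x • y.1 + c.F x y.2, c.pi x • y.2) + (c.pi x • z.1 + c.F x z.2, c.pi x • z.2)
    rw [smul_add, map_add, smul_add, Prod.mk_add_mk]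
    congr 1
    abel
  add_smul x y z := by
    show ((c.pi (x + y) • z.1 + c.F (x + y) z.2, c.pi (x + y) • z.2) : E1 × M) =
      (c.pi x • z.1 + c.F x z.2, c.pi x • z.2) + (c.pi y • z.1 + c.F y z.2, c.pi y • z.2)
    rw [map_add, map_add, add_smul, add_smul, LinearMap.add_apply, Prod.mk_add_mk]
    congr 1
    abel
  zero_smul y := by
    show ((c.pi 0 • y.1 + c.F 0 y.2, c.pi 0 • y.2) : E1 × M) = 0
    rw [map_zero, map_zero, zero_smul, zero_smul, LinearMap.zero_apply, add_zero]
    rfl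

/-- a pair -/
def mk (c : CellStr K G L p s) (e : E1) (m : M) : YY c := ((e, m) : E1 × M)

/-- the first component -/
def fs (c : CellStr K G L p s) (y : YY c) : E1 := (show E1 × M from y).1

/-- the second component -/
def sn (c : CellStr K G L p s) (y : YY c) : M := (show E1 × M from y).2

theorem mk_add (c : CellStr K G L p s) (e e' : E1) (m m' : M) :
    mk c (e + e') (m + m') = mk c e m + mk c e' m' := rfl

theorem smul_mk (c : CellStr K G L p s) (x : L) (e : E1) (m : M) :
    x • mk c e m = mk c (c.pi x • e + c.F x m) (c.pi x • m) := rfl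

theorem mk_inj (c : CellStr K G L p s) {e e' : E1} {m m' : M} (h : mk c e m = mk c e' m') :
    e = e' ∧ m = m' := ⟨congrArg Prod.fst h, congrArg Prod.snd h⟩


/-- the projection as a ring homomorphism -/
def ph (c : CellStr K G L p s) : L →+* G := c.pi.toRingHom


variable (i : V →ₗ[G] E1) [Module.Finite K M]

theorem exists_hh (c : CellStr K G L p s) (pi0 : ∀ v, p (i v) = 0)
    (x : Fin (Module.finrank K M) → V) :
    ∃ l : L, c.pi l = 0 ∧ ∀ m, c.F l m = ∑ k, (Module.finBasis K M).repr m k • i (x k) := by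
  obtain ⟨l, hl, hl'⟩ := c.surj 0
    (∑ k, ((Module.finBasis K M).coord k).smulRight (i (x k))) fun m => by
      rw [LinearMap.sum_apply, map_sum, zero_smul, zero_smul, map_zero, sub_zero]
      refine Finset.sum_eq_zero fun k _ => ?_
      rw [LinearMap.smulRight_apply, LinearMap.map_smul_of_tower, pi0, smul_zero]
  refine ⟨l, hl, fun m => ?_⟩
  rw [hl', LinearMap.sum_apply]
  rfl

/-- the element of the kernel with components `x` -/
noncomputable def hh (c : CellStr K G L p s) (pi0 : ∀ v, p (i v) = 0)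
    (x : Fin (Module.finrank K M) → V) : L := (exists_hh i c pi0 x).choose

theorem pi_hh (c : CellStr K G L p s) (pi0 : ∀ v, p (i v) = 0)
    (x : Fin (Module.finrank K M) → V) : c.pi (hh i c pi0 x) = 0 :=
  (exists_hh i c pi0 x).choose_spec.1

theorem F_hh (c : CellStr K G L p s) (pi0 : ∀ v, p (i v) = 0)
    (x : Fin (Module.finrank K M) → V) (m : M) :
    c.F (hh i c pi0 x) m = ∑ k, (Module.finBasis K M).repr m k • i (x k) :=
  (exists_hh i c pi0 x).choose_spec.2 m

theorem F_hh_basis (c : CellStr K G L p s) (pi0 : ∀ v, p (i v) = 0)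
    (x : Fin (Module.finrank K M) → V) (k : Fin (Module.finrank K M)) :
    c.F (hh i c pi0 x) (Module.finBasis K M k) = i (x k) := by
  rw [F_hh, Finset.sum_eq_single k]
  · rw [Module.Basis.repr_self, Finsupp.single_eq_same, one_smul]
  · intro j _ hj
    rw [Module.Basis.repr_self, Finsupp.single_eq_of_ne hj, zero_smul]
  · intro h
    exact absurd (Finset.mem_univ k) h

theorem hh_ext (c : CellStr K G L p s) (pi0 : ∀ v, p (i v) = 0)
    (x : Fin (Module.finrank K M) → V) (l : L) (h : c.pi l = 0)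
    (h' : ∀ k, c.F l (Module.finBasis K M k) = i (x k)) : hh i c pi0 x = l := by
  rw [← sub_eq_zero]
  apply c.inj
  · rw [map_sub, pi_hh, h, sub_zero]
  · refine (Module.finBasis K M).ext fun k => ?_
    rw [map_sub, LinearMap.sub_apply, F_hh_basis, h', sub_self, LinearMap.zero_apply]

variable [IsNoetherianRing G] [Module.Finite G V]

/-- the kernel as a power of `V` -/
noncomputable def hlin (c : CellStr K G L p s) (pi0 : ∀ v, p (i v) = 0) :
    (Fin (Module.finrank K M) → Res (ph c) V) →ₗ[L] L where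
  toFun x := hh i c pi0 (fun k => ofRes (ph c) (x k))
  map_add' x y := by
    apply hh_ext
    · rw [map_add, pi_hh, pi_hh, add_zero]
    · intro k
      rw [map_add, LinearMap.add_apply, F_hh_basis, F_hh_basis, Pi.add_apply, map_add, map_add]
  map_smul' l x := by
    apply hh_ext
    · rw [RingHom.id_apply, smul_eq_mul, map_mul, pi_hh, mul_zero]
    · intro k
      rw [RingHom.id_apply, smul_eq_mul, c.mul, F_hh_basis, pi_hh, zero_smul, map_zero, add_zero,
        Pi.smul_apply, ofRes_smul, map_smul]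
      rfl

theorem hlin_apply (c : CellStr K G L p s) (pi0 : ∀ v, p (i v) = 0)
    (x : Fin (Module.finrank K M) → Res (ph c) V) :
    hlin i c pi0 x = hh i c pi0 (fun k => ofRes (ph c) (x k)) := rfl

variable {i} in
/-- **the structural input of the one-sided cell, from a cell structure** -/
noncomputable def cellIn (c : CellStr K G L p s) (ii : Function.Injective i)
    (eip : Function.Exact i p) {q : E2 →ₗ[G] M} (epq : Function.Exact p q)
    (qs : ∀ m, q (s m) = m) [Nontrivial V]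
    (hom : ∀ φ : V →ₗ[G] E1, ∃ a : K, ∀ v, φ v = a • i v) :
    CellIn (ph c) (⟨V⟩ : FM G) E1 E2 where
  hπ := pi_surj (q := q) c (fun e he => (epq e).1 he) qs
  m := Module.finrank K M
  h := hlin i c eip.apply_apply_eq_zero
  hi := by
    rw [← LinearMap.ker_eq_bot, LinearMap.ker_eq_bot']
    intro x hx
    rw [hlin_apply] at hx
    funext k
    have h1 := F_hh_basis i c eip.apply_apply_eq_zero (fun k => ofRes (ph c) (x k)) k
    rw [hx, map_zero, LinearMap.zero_apply] at h1
    exact ii (h1.symm.trans (map_zero i).symm)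
  hr := fun l => by
    constructor
    · intro hl
      have hl' : c.pi l = 0 := hl
      have h1 : ∀ k, ∃ v, i v = c.F l (Module.finBasis K M k) := fun k => (eip _).1 (by
        rw [c.rel, hl', zero_smul, zero_smul, map_zero, sub_zero])
      choose x hx using h1
      exact ⟨fun k => toRes (ph c) (x k),
        hh_ext i c eip.apply_apply_eq_zero _ l hl' fun k => (hx k).symm⟩
    · rintro ⟨x, rfl⟩
      exact pi_hh i c eip.apply_apply_eq_zero _
  Y := YY c
  a :=
    { toFun := fun v => mk c (i (ofRes (ph c) v)) 0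
      map_add' := fun v v' => by
        rw [map_add, map_add, ← mk_add, add_zero]
      map_smul' := fun l v => by
        rw [RingHom.id_apply, smul_mk, map_zero, add_zero, smul_zero, ofRes_smul, map_smul]
        rfl }
  b :=
    { toFun := fun y => toRes (ph c) (p (fs c y) + s (sn c y))
      map_add' := fun y z => by
        show toRes (ph c) (p (fs c y + fs c z) + s (sn c y + sn c z)) =
          toRes (ph c) ((p (fs c y) + s (sn c y)) + (p (fs c z) + s (sn c z)))
        refine congrArg (toRes (ph c)) ?_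
        rw [map_add, map_add]
        abel
      map_smul' := fun l y => by
        show toRes (ph c) (p (c.pi l • fs c y + c.F l (sn c y)) + s (c.pi l • sn c y)) =
          toRes (ph c) (c.pi l • (p (fs c y) + s (sn c y)))
        refine congrArg (toRes (ph c)) ?_
        rw [map_add, c.rel, map_smul, smul_add]
        abel }
  ai := fun v v' h => ii (mk_inj c h).1
  bs := fun e => by
    obtain ⟨x, hx⟩ := (epq (ofRes (ph c) e - s (q (ofRes (ph c) e)))).1 (by
      rw [map_sub, qs, sub_self])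
    refine ⟨mk c x (q (ofRes (ph c) e)), ?_⟩
    show toRes (ph c) (p x + s (q (ofRes (ph c) e))) = e
    rw [hx, sub_add_cancel]
    rfl
  ex := fun y => by
    constructor
    · intro h
      have h1 : p (fs c y) + s (sn c y) = 0 := h
      have h2 : sn c y = 0 := by
        have h3 := congrArg q h1
        rw [map_add, qs, map_zero, epq.apply_apply_eq_zero, zero_add] at h3
        exact h3
      rw [h2, map_zero, add_zero] at h1
      obtain ⟨v, hv⟩ := (eip _).1 h1
      refine ⟨toRes (ph c) v, ?_⟩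
      show mk c (i v) 0 = y
      rw [hv, ← h2]
      rfl
    · rintro ⟨v, rfl⟩
      show toRes (ph c) (p (i (ofRes (ph c) v)) + s 0) = 0
      rw [eip.apply_apply_eq_zero, map_zero, add_zero, map_zero]
  j :=
    { toFun := fun e => mk c (ofRes (ph c) e) 0
      map_add' := fun v v' => by
        rw [map_add, ← mk_add, add_zero]
      map_smul' := fun l v => by
        rw [RingHom.id_apply, smul_mk, map_zero, add_zero, smul_zero, ofRes_smul]
        rfl }
  ji := fun v v' h => (mk_inj c h).1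
  hj := fun y hy => by
    have hm : sn c y = 0 := by
      rw [← Module.forall_dual_apply_eq_zero_iff K (sn c y)]
      intro φ
      obtain ⟨v₀, hv₀⟩ := exists_ne (0 : V)
      obtain ⟨l, hl, hl'⟩ := c.surj 0 (φ.smulRight (i v₀)) fun m => by
        rw [LinearMap.smulRight_apply, LinearMap.map_smul_of_tower,
          eip.apply_apply_eq_zero, zero_smul, zero_smul, map_zero, smul_zero, sub_zero]
      have h2 : c.pi l • fs c y + c.F l (sn c y) = 0 := congrArg Prod.fst (hy l hl)
      rw [hl, zero_smul, zero_add, hl', LinearMap.smulRight_apply] at h2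
      rcases smul_eq_zero.1 h2 with h3 | h3
      · exact h3
      · exact absurd (ii (h3.trans (map_zero i).symm)) hv₀
    refine ⟨toRes (ph c) (fs c y), ?_⟩
    show mk c (fs c y) 0 = y
    rw [← hm]
    rfl
  α := fun φ => by
    -- the values of `φ` lie in `E1`
    have hsn : ∀ x, sn c (φ x) = 0 := by
      intro x
      rw [← Module.forall_dual_apply_eq_zero_iff K (sn c (φ x))]
      intro ψ
      obtain ⟨v₀, hv₀⟩ := exists_ne (0 : V)
      obtain ⟨l, hl, hl'⟩ := c.surj 0 (ψ.smulRight (i v₀)) fun m => by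
        rw [LinearMap.smulRight_apply, LinearMap.map_smul_of_tower,
          eip.apply_apply_eq_zero, zero_smul, zero_smul, map_zero, smul_zero, sub_zero]
      have h0 : l • x = 0 := by
        funext k
        show l • x k = 0
        have h1 : l • x k = toRes (ph c) (c.pi l • ofRes (ph c) (x k)) := rfl
        rw [h1, hl, zero_smul, map_zero]
      have h1 : l • φ x = 0 := by rw [← map_smul, h0, map_zero]
      have h2 : c.pi l • fs c (φ x) + c.F l (sn c (φ x)) = 0 := congrArg Prod.fst h1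
      rw [hl, zero_smul, zero_add, hl', LinearMap.smulRight_apply] at h2
      rcases smul_eq_zero.1 h2 with h3 | h3
      · exact h3
      · exact absurd (ii (h3.trans (map_zero i).symm)) hv₀
    have hπ := pi_surj (q := q) c (fun e he => (epq e).1 he) qs
    let φk : Fin (Module.finrank K M) → (V →ₗ[G] E1) := fun k =>
      { toFun := fun v => fs c (φ (Pi.single k (toRes (ph c) v)))
        map_add' := fun v v' => by
          rw [map_add, Pi.single_add, map_add]
          rfl
        map_smul' := fun g v => by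
          obtain ⟨l, rfl⟩ := hπ g
          have h1 : toRes (ph c) (c.pi l • v) = l • toRes (ph c) v := rfl
          rw [h1, Pi.single_smul, map_smul, RingHom.id_apply]
          show c.pi l • fs c _ + c.F l (sn c _) = _
          rw [hsn, map_zero, add_zero] }
    choose a ha using fun k => hom (φk k)
    refine ⟨mk c 0 (∑ k, a k • Module.finBasis K M k), fun x => ?_⟩
    have h1 : φ x = ∑ k, φ (Pi.single k (x k)) := by
      conv_lhs => rw [← Finset.univ_sum_single x]
      rw [map_sum]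
    have h2 : ∀ k, φ (Pi.single k (x k)) = mk c (a k • i (ofRes (ph c) (x k))) 0 := by
      intro k
      have h3 : fs c (φ (Pi.single k (x k))) = a k • i (ofRes (ph c) (x k)) :=
        ha k (ofRes (ph c) (x k))
      rw [← h3, ← hsn (Pi.single k (x k))]
      rfl
    have h3 : ∀ t : Finset (Fin (Module.finrank K M)), ∀ f : Fin (Module.finrank K M) → E1,
        (∑ k ∈ t, mk c (f k) 0) = mk c (∑ k ∈ t, f k) 0 := by
      intro t f
      induction t using Finset.induction_on with
      | empty => rfl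
      | insert k t hk ih => rw [Finset.sum_insert hk, Finset.sum_insert hk, ih, ← mk_add, add_zero]
    rw [h1, Finset.sum_congr rfl (fun k _ => h2 k), h3, hlin_apply, smul_mk, pi_hh, zero_smul,
      zero_smul, zero_add, map_sum]
    congr 1
    refine Finset.sum_congr rfl fun k _ => ?_
    rw [map_smul, F_hh_basis]

end cellIn

/-! ### the dual link -/

section link

open Dual700

variable {K : Type u} {G : Type u} {V E1 E2 M : Type u}
    [Field K] [Ring G] [Algebra K G]
    [AddCommGroup V] [Module K V] [Module G V] [IsScalarTower K G V]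
    [AddCommGroup E1] [Module K E1] [Module G E1] [IsScalarTower K G E1]
    [AddCommGroup E2] [Module K E2] [Module G E2] [IsScalarTower K G E2]
    [AddCommGroup M] [Module K M] [Module G M] [IsScalarTower K G M]

/-- evaluation -/
def evP (K : Type u) [Field K] (X : Type u) [AddCommGroup X] [Module K X] :
    X →ₗ[K] (Dl K X →ₗ[K] K) := Module.Dual.eval K X


/-- the link of a 2-extension of finite-dimensional modules with its dual -/
noncomputable def dualLink [FiniteDimensional K V] (i : V →ₗ[G] E1) (p : E1 →ₗ[G] E2)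
    (q : E2 →ₗ[G] M)
    (s : M →ₗ[K] E2) (sR : Dl K V →ₗ[K] Dl K E1)
    (ii : Function.Injective i) (eip : Function.Exact i p) (epq : Function.Exact p q)
    (hq : Function.Surjective q) (qs : ∀ m, q (s m) = m)
    (qsR : ∀ φ, dm K i (sR φ) = φ) :
    Link K G i p q s (dm K q) (dm K p) (dm K i) sR where
  ker_p x hx := (eip x).1 hx
  ker_q x hx := (epq x).1 hx
  pi0 := eip.apply_apply_eq_zero
  qs := qs
  ker_pR x hx := (dm_exact epq x).1 hx
  ker_qR x hx := (dm_exact eip x).1 hx
  piR0 := (dm_exact epq).apply_apply_eq_zero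
  qsR := qsR
  PM := evP K M
  PV := evP K V
  A := evP K E1
  B := evP K E2
  bA _ _ _ := rfl
  bB _ _ _ := rfl
  hA _ _ := rfl
  hAB _ _ := rfl
  hB _ _ := rfl
  PMsurj φ := ⟨φ, fun _ => rfl⟩
  PMinj w h := Dl.ext h
  PVsurj φ := by
    refine ⟨(Module.evalEquiv K V).symm φ, fun n => ?_⟩
    have h1 : Module.evalEquiv K V ((Module.evalEquiv K V).symm φ) = φ :=
      LinearEquiv.apply_symm_apply _ _
    exact LinearMap.congr_fun h1 n
  PVinj v h := (Module.forall_dual_apply_eq_zero_iff K v).1 h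

end link

/-! ### the final theorem -/

section final

open Dual700 ExtRes700

/-- **the cell theorem.** -/
theorem cell {K : Type u} {G : Type u} [Field K] [Ring G] [Algebra K G] [FiniteDimensional K G]
    (V E1 E2 M : Type u)
    [AddCommGroup V] [Module K V] [Module G V] [IsScalarTower K G V] [FiniteDimensional K V]
    [AddCommGroup E1] [Module K E1] [Module G E1] [IsScalarTower K G E1] [FiniteDimensional K E1]
    [AddCommGroup E2] [Module K E2] [Module G E2] [IsScalarTower K G E2] [FiniteDimensional K E2]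
    [AddCommGroup M] [Module K M] [Module G M] [IsScalarTower K G M] [FiniteDimensional K M]
    [Nontrivial V] [Nontrivial M]
    (i : V →ₗ[G] E1) (p : E1 →ₗ[G] E2) (q : E2 →ₗ[G] M)
    (ii : Function.Injective i) (eip : Function.Exact i p) (epq : Function.Exact p q)
    (hq : Function.Surjective q)
    (hG : ∀ j, E0 G V G j) (hE2 : ∀ j, E0 G V E2 j) (hE1 : ∀ j, 0 < j → E0 G V E1 j)
    (hi : ∀ φ : V →ₗ[G] E1, ∃ a : K, ∀ v, φ v = a • i v)
    (hM : ∀ j, E0 Gᵐᵒᵖ (Dl K M) Gᵐᵒᵖ j) (kE1 : ∀ j, E0 G E1 M j)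
    (kE2 : ∀ j, 0 < j → E0 G E2 M j)
    (hhq : ∀ φ : E2 →ₗ[G] M, ∃ a : K, ∀ e, φ e = a • q e)
    {n : ℕ} (hn : Spine700.Simples K G n) :
    ∃ (L : Type u) (_ : Ring L) (_ : Algebra K L) (Z : Type u) (_ : AddCommGroup Z)
      (_ : Module L Z), FiniteDimensional K L ∧ Module.Finite L Z ∧ Spine700.Simples K L n ∧
      ¬ Module.Projective L Z ∧ IsGorensteinProjective L Z ∧
      (∀ j, 0 < j → E0 L Z Z j) ∧ (∀ j, 0 < j → E0 L Z L j) := by
  haveI : IsNoetherianRing G := isNoetherian_of_tower K (inferInstance : IsNoetherian K G)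
  haveI : Module.Finite K Gᵐᵒᵖ := Module.Finite.equiv (opLinearEquiv K : G ≃ₗ[K] Gᵐᵒᵖ)
  haveI : IsNoetherianRing Gᵐᵒᵖ := isNoetherian_of_tower K (inferInstance : IsNoetherian K Gᵐᵒᵖ)
  haveI : Module.Finite G V := Module.Finite.of_restrictScalars_finite K G V
  haveI : Module.Finite G E1 := Module.Finite.of_restrictScalars_finite K G E1
  haveI : Module.Finite G E2 := Module.Finite.of_restrictScalars_finite K G E2
  haveI : Module.Finite K (Dl K M) := inferInstanceAs (Module.Finite K (M →ₗ[K] K))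
  haveI : Module.Finite K (Dl K V) := inferInstanceAs (Module.Finite K (V →ₗ[K] K))
  haveI : Module.Finite Gᵐᵒᵖ (Dl K M) := Module.Finite.of_restrictScalars_finite K Gᵐᵒᵖ (Dl K M)
  haveI : Nontrivial (Dl K M) := inferInstanceAs (Nontrivial (Module.Dual K M))
  -- sections
  obtain ⟨s, hs⟩ := Module.projective_lifting_property (kl K q) LinearMap.id hq
  have qs : ∀ m, q (s m) = m := fun m => LinearMap.congr_fun hs m
  obtain ⟨sR, hsR⟩ := Module.projective_lifting_property (kl (A := Gᵐᵒᵖ) K (dm K i))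
    (LinearMap.id : Dl K V →ₗ[K] Dl K V) (dm_surj ii)
  have qsR : ∀ φ, dm K i (sR φ) = φ := fun φ => LinearMap.congr_fun hsR φ
  let D := dualLink i p q s sR ii eip epq hq qs qsR
  let L := cellSub K G p s
  let c : CellStr K G L p s := cellStr K G p s
  haveI fdL : Module.Finite K L := finite_cellSub K G p s
  let cR : CellStr K Gᵐᵒᵖ Lᵐᵒᵖ (dm K p) sR := c.mop D
  have hπ : Function.Surjective c.pi := pi_surj c D.ker_q D.qs
  let inL := cellIn c ii eip epq qs hi
  have homR : ∀ φ : Dl K M →ₗ[Gᵐᵒᵖ] Dl K E2, ∃ a : K, ∀ v, φ v = a • dm K q v := by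
    intro φ
    obtain ⟨f, rfl⟩ := dm_surjective φ
    obtain ⟨a, ha⟩ := hhq f
    refine ⟨a, fun v => Dl.ext fun e => ?_⟩
    rw [dm_apply, ha, Dl.map_ksmul, Dl.ksmul_apply, dm_apply]
  let inR := cellIn cR (dm_inj hq) (dm_exact epq) (dm_exact eip) qsR homR
  -- the modules over the cell
  letI mV : Module L V := Module.compHom V (ph c)
  letI mVR : Module Lᵐᵒᵖ (Dl K M) := Module.compHom (Dl K M) (ph cR)
  have hV : ∀ (x : L) (v : V), x • v = c.pi x • v := fun _ _ => rfl
  have hVR : ∀ (x : L) (w : Dl K M), op x • w = op (c.pi x) • w := fun _ _ => rfl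
  haveI : IsScalarTower K L V := ⟨fun a x v => by
    rw [hV, hV, map_smul, smul_assoc]⟩
  haveI : Module.Finite L V := Module.Finite.of_restrictScalars_finite K L V
  haveI : IsScalarTower K Lᵐᵒᵖ (Dl K M) := ⟨fun a x v => by
    have h1 : (a • x) • v = op (c.pi (unop (a • x))) • v := rfl
    have h2 : x • v = op (c.pi (unop x)) • v := rfl
    rw [h1, h2, unop_smul, map_smul, op_smul, smul_assoc]⟩
  haveI : Module.Finite Lᵐᵒᵖ (Dl K M) :=
    Module.Finite.of_restrictScalars_finite K Lᵐᵒᵖ (Dl K M)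
  have hV0 : ∀ φ : V →ₗ[G] G, φ = 0 := zero_iff.1 (hG 0)
  have hVR0 : ∀ φ : Dl K M →ₗ[Gᵐᵒᵖ] Gᵐᵒᵖ, φ = 0 := zero_iff.1 (hM 0)
  have eV : ∀ T : V →ₗ[G] V, ∃ a : K, ∀ v, T v = a • v := by
    intro T
    obtain ⟨a, ha⟩ := hi (i ∘ₗ T)
    refine ⟨a, fun v => ii ?_⟩
    rw [LinearMap.map_smul_of_tower, ← ha]
    rfl
  have eVR : ∀ T : Dl K M →ₗ[Gᵐᵒᵖ] Dl K M, ∃ a : K, ∀ v, T v = a • v := by
    intro T
    obtain ⟨a, ha⟩ := homR (dm K q ∘ₗ T)
    refine ⟨a, fun v => dm_inj (K := K) hq ?_⟩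
    rw [LinearMap.map_smul_of_tower, ← ha]
    rfl
  have kE1' : ∀ j, E0 Gᵐᵒᵖ (Dl K M) (Dl K E1) j := fun j => (dual_iff E1 M j).1 (kE1 j)
  have kE2' : ∀ j, 0 < j → E0 Gᵐᵒᵖ (Dl K M) (Dl K E2) j := fun j hj =>
    (dual_iff E2 M j).1 (kE2 j hj)
  have xVV : ∀ j, 0 < j → E0 L V V j := fun j hj => inL.ext_self hE2 hE1 j hj
  have xVL : ∀ j, 0 < j → E0 L V L j := fun j hj => inL.ext_ring hE2 hE1 hG j hj
  have xVR : ∀ j, 0 < j → E0 Lᵐᵒᵖ (Dl K M) Lᵐᵒᵖ j := fun j hj =>
    inR.ext_ring kE1' kE2' hM j hj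
  exact ⟨L, inferInstance, inferInstance, V, inferInstance, mV, fdL, inferInstance,
    simples c hπ hn, not_proj c hπ hV hV0,
    gproj_of_cell D c hV hVR hV0 hVR0 eV eVR xVL xVR, xVV, xVL⟩

/-- **S0281 (over `K`) from the cell input.** -/
theorem c0281_cell {K : Type} {G : Type} [Field K] [Ring G] [Algebra K G]
    [FiniteDimensional K G] (V E1 E2 M : Type)
    [AddCommGroup V] [Module K V] [Module G V] [IsScalarTower K G V] [FiniteDimensional K V]
    [AddCommGroup E1] [Module K E1] [Module G E1] [IsScalarTower K G E1] [FiniteDimensional K E1]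
    [AddCommGroup E2] [Module K E2] [Module G E2] [IsScalarTower K G E2] [FiniteDimensional K E2]
    [AddCommGroup M] [Module K M] [Module G M] [IsScalarTower K G M] [FiniteDimensional K M]
    [Nontrivial V] [Nontrivial M]
    (i : V →ₗ[G] E1) (p : E1 →ₗ[G] E2) (q : E2 →ₗ[G] M)
    (ii : Function.Injective i) (eip : Function.Exact i p) (epq : Function.Exact p q)
    (hq : Function.Surjective q)
    (hG : ∀ j, E0 G V G j) (hE2 : ∀ j, E0 G V E2 j) (hE1 : ∀ j, 0 < j → E0 G V E1 j)
    (hi : ∀ φ : V →ₗ[G] E1, ∃ a : K, ∀ v, φ v = a • i v)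
    (hM : ∀ j, E0 Gᵐᵒᵖ (Dl K M) Gᵐᵒᵖ j) (kE1 : ∀ j, E0 G E1 M j)
    (kE2 : ∀ j, 0 < j → E0 G E2 M j)
    (hhq : ∀ φ : E2 →ₗ[G] M, ∃ a : K, ∀ e, φ e = a • q e)
    {n : ℕ} (hn7 : n ≤ 7) (hn : Spine700.Simples K G n) : Spine700.C0281.{w} K := by
  obtain ⟨L, i1, i2, Z, i3, i4, f1, f2, hs, hp, hgp, hzz, -⟩ :=
    cell V E1 E2 M i p q ii eip epq hq hG hE2 hE1 hi hM kE1 kE2 hhq hn
  exact Spine700.c0281_gp L (Or.inl ⟨n, hn7, hs⟩) Z hp hgp hzz

end final

end Crest.Agent.R186.CellFin
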