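import Crest.Agent.R186.Res_255
import Crest.Agent.R186.Col_921

-- ▼ part R186/ColS_790
section

/-!
Row 186 (A), leaf V3 (helper790): the start of the column induction, mirror of `TRin_772`.

If `Y → G` is a right cell resolution and `th : A e_i → A e_j` (right multiplication by a degree
zero element) has an acyclic cone `G e_i → G e_j`, then it has an acyclic cone on the columns of `Y`.
-/

set_option autoImplicit false
set_option linter.style.haveILetI false
set_option linter.unusedSectionVars false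

open MulOpposite

namespace Crest.Agent.R186.ColS790

open Hat827 Hat827.DGA Frame515 Res255

variable {K : Type} [Field K] {A : DGA K}

/-- the differential of the cells -/
noncomputable def dY (Y : RCells A) : (Y.ι →₀ A.C) →ₗ[K] (Y.ι →₀ A.C) := (tY Y (selfL A)).d

/-- the grading of the cells -/
noncomputable def gY (Y : RCells A) (k : ℤ) : Submodule K (Y.ι →₀ A.C) := (tY Y (selfL A)).gr k


/-- right multiplication on the cells -/
noncomputable def rY (Y : RCells A) (a : A.C) : (Y.ι →₀ A.C) →ₗ[K] (Y.ι →₀ A.C) :=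
  Finsupp.mapRange.linearMap (LinearMap.mulRight K a)

@[simp] theorem rY_apply (Y : RCells A) (a : A.C) (x : Y.ι →₀ A.C) (σ : Y.ι) :
    rY Y a x σ = x σ * a := rfl

theorem rY_mul (Y : RCells A) (a b : A.C) (x : Y.ι →₀ A.C) : rY Y a (rY Y b x) = rY Y (b * a) x := by
  ext σ
  simp [mul_assoc]

theorem rY_mem (Y : RCells A) {a : A.C} {k l : ℤ} (ha : a ∈ A.G l) {x : Y.ι →₀ A.C}
    (hx : x ∈ gY Y k) : rY Y a x ∈ gY Y (k + l) := by
  intro σ
  obtain ⟨h1, h2⟩ := hx σ
  refine ⟨?_, ?_⟩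
  · change x σ * a ∈ A.G (k + l - Y.s σ)
    have := A.mul_mem h1 ha
    rwa [show (k - (Y.s σ : ℤ)) + l = k + l - Y.s σ by ring] at this
  · change Y.e σ * (x σ * a) = x σ * a
    change Y.e σ * x σ = x σ at h2
    rw [← mul_assoc, h2]

theorem rY_mem0 (Y : RCells A) {a : A.C} {k : ℤ} (ha : a ∈ A.G 0) {x : Y.ι →₀ A.C}
    (hx : x ∈ gY Y k) : rY Y a x ∈ gY Y k := by
  have := rY_mem Y ha hx
  rwa [add_zero] at this

theorem d_apply (Y : RCells A) (x : Y.ι →₀ A.C) (τ : Y.ι) :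
    dY Y x τ = A.D (x τ) + x.sum fun σ g => Y.c τ σ * g :=
  (twY Y (selfL A)).dd_apply x τ

/-- degree zero elements are cycles -/
theorem D_zero {a : A.C} (ha : a ∈ A.G 0) : A.D a = 0 := D_neg ha (by omega)

theorem rY_d (Y : RCells A) {a : A.C} (ha : a ∈ A.G 0) (x : Y.ι →₀ A.C) :
    dY Y (rY Y a x) = rY Y a (dY Y x) := by
  ext τ
  rw [d_apply, rY_apply, rY_apply, d_apply, A.D_mul, D_zero ha, mul_zero, add_zero, add_mul]
  congr 1
  rw [Finsupp.sum_of_support_subset (s := x.support) _ ?_ _ (fun σ _ => mul_zero _), Finsupp.sum,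
    Finset.sum_mul]
  · refine Finset.sum_congr rfl fun σ _ => ?_
    rw [rY_apply, mul_assoc]
  · intro σ hσ
    rw [Finsupp.mem_support_iff] at hσ ⊢
    intro h
    apply hσ
    rw [rY_apply, h, zero_mul]

theorem aug_rY (Y : RCells A) (G : RM A) (v : Y.ι → G.X) (a : A.C) (x : Y.ι →₀ A.C) :
    augR Y G v (rY Y a x) = op a • augR Y G v x := by
  have h : augR Y G v ∘ₗ rY Y a = rmul G a ∘ₗ augR Y G v := by
    refine Finsupp.lhom_ext fun σ b => ?_
    rw [LinearMap.comp_apply, LinearMap.comp_apply, augR_single, rmul_apply]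
    have : rY Y a (Finsupp.single σ b) = Finsupp.single σ (b * a) := by
      simp [rY]
    rw [this, augR_single, op_mul, mul_smul]
  exact LinearMap.congr_fun h x

theorem dblG (G : RM A) (n : G.X) : n + n = 0 := by
  have h : n = (1 : A.Cᵐᵒᵖ) • n := by rw [one_smul]
  have h2 : (1 : A.Cᵐᵒᵖ) + 1 = 0 := by
    apply unop_injective
    exact A.two 1
  rw [h, ← add_smul, h2, zero_smul]

theorem dblY (Y : RCells A) (x : Y.ι →₀ A.C) : x + x = 0 := by
  ext σ
  exact A.two _

theorem aug_mem (Y : RCells A) (G : RM A) (r : RAug Y G) {k : ℤ} {x : Y.ι →₀ A.C}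
    (hx : x ∈ gY Y k) : augR Y G r.v x ∈ G.gr (r.lo + k) := by
  have e : augR Y G r.v x = x.sum fun σ a => op a • r.v σ := by
    simp [augR, Finsupp.lsum_apply]
  rw [e]
  refine Submodule.sum_mem _ fun σ _ => ?_
  have := G.smul_mem (hx σ).1 (r.v_mem σ)
  rwa [show k - (Y.s σ : ℤ) + (r.lo + Y.s σ) = r.lo + k by ring] at this

theorem aug_d (Y : RCells A) (G : RM A) (r : RAug Y G) (x : Y.ι →₀ A.C) :
    augR Y G r.v (dY Y x) = G.d (augR Y G r.v x) := by
  have h : augR Y G r.v ∘ₗ dY Y = G.d ∘ₗ augR Y G r.v := by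
    refine Finsupp.lhom_ext fun σ b => ?_
    rw [LinearMap.comp_apply, LinearMap.comp_apply, augR_single, G.leib, r.v_d]
    have h1 : dY Y (Finsupp.single σ b) = Finsupp.single σ (A.D b) +
        ∑ τ ∈ Y.F (Y.s σ), Finsupp.single τ (Y.c τ σ * b) := (twY Y (selfL A)).dd_single σ b
    rw [h1, map_add, map_sum, augR_single, Finset.smul_sum]
    congr 1
    refine Finset.sum_congr rfl fun τ _ => ?_
    rw [augR_single, op_mul, mul_smul]
  exact LinearMap.congr_fun h x

theorem res_ex (Y : RCells A) (G : RM A) (r : RRes Y G) (k : ℤ) (x : Y.ι →₀ A.C) (n : G.X)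
    (hx : x ∈ gY Y (k - 1)) (hd : dY Y x = 0) (hn : n ∈ G.gr (r.lo + k))
    (h : augR Y G r.v x + G.d n = 0) :
    ∃ y ∈ gY Y k, ∃ n' ∈ G.gr (r.lo + k + 1), dY Y y = x ∧ n = augR Y G r.v y + G.d n' :=
  r.ex k x n hx hd hn h

/-- **the start of the column induction** -/
theorem startR {Y : RCells A} {G : RM A} (r : RRes Y G) {th ei ej : A.C} (hth : th ∈ A.G 0)
    (hei : ei ∈ A.G 0) (hej : ej ∈ A.G 0) (hii : ei * ei = ei) (hjj : ej * ej = ej)
    (hl : th * ej = th)
    (hN : ∀ (k : ℤ) (n n1 : G.X), n ∈ G.gr k → op ei • n = n → G.d n = 0 → n1 ∈ G.gr (k + 1) →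
      op ej • n1 = n1 → op th • n = G.d n1 →
      ∃ n' ∈ G.gr (k + 1), op ei • n' = n' ∧ ∃ n1' ∈ G.gr (k + 2), op ej • n1' = n1' ∧
        n = G.d n' ∧ n1 = op th • n' + G.d n1')
    (k : ℤ) (x y : Y.ι →₀ A.C) (hx : x ∈ gY Y k) (hxi : ∀ σ, x σ * ei = x σ)
    (hdx : dY Y x = 0) (hy : y ∈ gY Y (k + 1))
    (hyj : ∀ σ, y σ * ej = y σ) (hxy : rY Y th x = dY Y y) :
    ∃ x' ∈ gY Y (k + 1), (∀ σ, x' σ * ei = x' σ) ∧
      ∃ y' ∈ gY Y (k + 2), (∀ σ, y' σ * ej = y' σ) ∧
        x = dY Y x' ∧ y = rY Y th x' + dY Y y' := by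
  have hxi' : rY Y ei x = x := by ext σ; exact hxi σ
  have hyj' : rY Y ej y = y := by ext σ; exact hyj σ
  have e1 : op ei • augR Y G r.v x = augR Y G r.v x := by rw [← aug_rY, hxi']
  have e2 : op ej • augR Y G r.v y = augR Y G r.v y := by rw [← aug_rY, hyj']
  obtain ⟨n', hn', hn'i, n1', hn1', hn1'j, h1, h2⟩ := hN (r.lo + k) (augR Y G r.v x)
    (augR Y G r.v y) (aug_mem Y G r.toRAug hx) e1
    (by rw [← aug_d, hdx, map_zero])
    (by
      have := aug_mem Y G r.toRAug hy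
      rwa [← add_assoc] at this) e2
    (by rw [← aug_rY, hxy, aug_d])
  -- lift of `n'`
  obtain ⟨x0, hx0, n'', hn'', h3, h4⟩ := res_ex Y G r (k + 1) x n'
    (by rwa [add_sub_cancel_right]) hdx
    (by rwa [← add_assoc]) (by rw [h1]; exact dblG G _)
  have hx0' : rY Y ei x0 ∈ gY Y (k + 1) := rY_mem0 Y hei hx0
  have h3' : dY Y (rY Y ei x0) = x := by rw [rY_d Y hei, h3, hxi']
  have h4' : n' = augR Y G r.v (rY Y ei x0) + G.d (op ei • n'') := by
    rw [aug_rY, G.leib, D_zero hei, op_zero, zero_smul, zero_add, ← smul_add, ← h4, hn'i]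
  -- the cycle `z`
  have hz : y + rY Y th (rY Y ei x0) ∈ gY Y (k + 1) :=
    Submodule.add_mem _ hy (rY_mem0 Y hth hx0')
  have hdz : dY Y (y + rY Y th (rY Y ei x0)) = 0 := by
    rw [map_add, rY_d Y hth, h3', ← hxy]
    exact dblY Y _
  have haz : augR Y G r.v (y + rY Y th (rY Y ei x0)) + G.d (n1' + op th • (op ei • n'')) = 0 := by
    rw [map_add, h2, aug_rY, map_add G.d, G.leib th, D_zero hth, op_zero, zero_smul, zero_add]
    have h5 : op th • n' = op th • augR Y G r.v (rY Y ei x0) + op th • G.d (op ei • n'') := by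
      rw [← smul_add, ← h4']
    rw [h5]
    have h6 := dblG G (op th • augR Y G r.v (rY Y ei x0))
    have h7 := dblG G (op th • G.d (op ei • n''))
    have h8 := dblG G (G.d n1')
    calc op th • augR Y G r.v (rY Y ei x0) + op th • G.d (op ei • n'') + G.d n1' +
          op th • augR Y G r.v (rY Y ei x0) + (G.d n1' + op th • G.d (op ei • n''))
        = (op th • augR Y G r.v (rY Y ei x0) + op th • augR Y G r.v (rY Y ei x0)) +
          (op th • G.d (op ei • n'') + op th • G.d (op ei • n'')) + (G.d n1' + G.d n1') := by abel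
      _ = 0 := by rw [h6, h7, h8, add_zero, add_zero]
  have hmm : n1' + op th • (op ei • n'') ∈ G.gr (r.lo + (k + 2)) := by
    refine Submodule.add_mem _ ?_ ?_
    · rwa [← add_assoc]
    · have h9 := G.smul_mem hth (G.smul_mem hei hn'')
      rw [zero_add, zero_add] at h9
      rwa [show r.lo + (k + 1) + 1 = r.lo + (k + 2) by ring] at h9
  obtain ⟨y0, hy0, n3, -, h10, -⟩ := res_ex Y G r (k + 2) (y + rY Y th (rY Y ei x0))
    (n1' + op th • (op ei • n'')) (by rwa [show k + 2 - 1 = k + 1 by ring]) hdz hmm haz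
  have hthj : rY Y ej (rY Y th (rY Y ei x0)) = rY Y th (rY Y ei x0) := by rw [rY_mul Y ej th, hl]
  refine ⟨rY Y ei x0, hx0', fun σ => ?_, rY Y ej y0, rY_mem0 Y hej hy0, fun σ => ?_, h3'.symm, ?_⟩
  · rw [rY_apply, mul_assoc, hii]
  · rw [rY_apply, mul_assoc, hjj]
  · rw [rY_d Y hej, h10, map_add, hyj', hthj]
    rw [add_comm y, ← add_assoc, dblY, zero_add]

/-- the hypothesis for an honest module in one degree -/
theorem honestR (G : RM A) (hd : ∀ n, G.d n = 0) (h0 : ∀ k : ℤ, k ≠ 0 → G.gr k = ⊥) {th ei ej : A.C}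
    (hinj : ∀ n ∈ G.gr 0, op ei • n = n → op th • n = 0 → n = 0)
    (hsur : ∀ n ∈ G.gr 0, op ej • n = n → ∃ n' ∈ G.gr 0, op ei • n' = n' ∧ op th • n' = n)
    (k : ℤ) (n n1 : G.X) (hn : n ∈ G.gr k) (hni : op ei • n = n) (_ : G.d n = 0)
    (hn1 : n1 ∈ G.gr (k + 1)) (hn1j : op ej • n1 = n1) (h : op th • n = G.d n1) :
    ∃ n' ∈ G.gr (k + 1), op ei • n' = n' ∧ ∃ n1' ∈ G.gr (k + 2), op ej • n1' = n1' ∧
      n = G.d n' ∧ n1 = op th • n' + G.d n1' := by
  have hnz : n = 0 := by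
    by_cases hk : k = 0
    · subst hk
      exact hinj n hn hni (by rw [h, hd])
    · rw [h0 k hk] at hn
      exact (Submodule.mem_bot K).1 hn
  by_cases hk : k + 1 = 0
  · rw [hk] at hn1 ⊢
    obtain ⟨n', hn', h1, h2⟩ := hsur n1 hn1 hn1j
    refine ⟨n', hn', h1, 0, Submodule.zero_mem _, smul_zero _, ?_, ?_⟩
    · rw [hnz, hd]
    · rw [h2, map_zero, add_zero]
  · have : n1 = 0 := by
      rw [h0 _ hk] at hn1
      exact (Submodule.mem_bot K).1 hn1
    refine ⟨0, Submodule.zero_mem _, smul_zero _, 0, Submodule.zero_mem _, smul_zero _, ?_, ?_⟩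
    · rw [hnz, map_zero]
    · rw [this, smul_zero, map_zero, add_zero]

/-- one column, no cone -/
theorem startR0 {Y : RCells A} {G : RM A} (r : RRes Y G) {ei : A.C}
    (hei : ei ∈ A.G 0) (hii : ei * ei = ei)
    (hN : ∀ (k : ℤ) (n : G.X), n ∈ G.gr k → op ei • n = n → G.d n = 0 →
      ∃ n' ∈ G.gr (k + 1), op ei • n' = n' ∧ n = G.d n')
    (k : ℤ) (x : Y.ι →₀ A.C) (hx : x ∈ gY Y k) (hxi : ∀ σ, x σ * ei = x σ)
    (hdx : dY Y x = 0) :
    ∃ x' ∈ gY Y (k + 1), (∀ σ, x' σ * ei = x' σ) ∧ x = dY Y x' := by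
  obtain ⟨x', hx', e, y', -, -, h, -⟩ := startR (th := 0) (ei := ei) (ej := 0) r
    (Submodule.zero_mem _) hei (Submodule.zero_mem _) hii (mul_zero _) (mul_zero _)
    (fun k n n1 hn hni hdn _ h1 _ => by
      obtain ⟨n', hn', a, b⟩ := hN k n hn hni hdn
      rw [op_zero, zero_smul] at h1
      refine ⟨n', hn', a, 0, Submodule.zero_mem _, smul_zero _, b, ?_⟩
      rw [← h1, op_zero, zero_smul, map_zero, add_zero])
    k x 0 hx hxi hdx (Submodule.zero_mem _) (fun σ => by rw [Finsupp.zero_apply, zero_mul])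
    (by
      rw [map_zero]
      ext σ
      rw [rY_apply, mul_zero, Finsupp.zero_apply])
  exact ⟨x', hx', e, h⟩

end Crest.Agent.R186.ColS790
end

-- ▼ part R186/ColB_790

/-!
Row 186 (A), leaf V3 (helper790): the base of the column induction in 921's form.

`selfLB w` : the algebra of a window datum as a tri-graded left module; `base`, `base0` : for a right
cell resolution `Y → G` the columns `Y ⊗ (S e_o)` are acyclic when `G e_o` is, and right
multiplication by `θ` between two columns is a quasi-isomorphism when `G e_o → G e_o'` is.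
-/

set_option autoImplicit false
set_option linter.style.haveILetI false
set_option linter.unusedSectionVars false

open MulOpposite

namespace Crest.Agent.R186.ColB790

open Hat827 Hat827.DGA Frame515 Res255 Win810 TR810 Col921 ColS790

variable {K : Type} [Field K] {w : WD K}

/-- the algebra as a left module -/
abbrev selfLB (w : WD K) : LB w where
  B := w.S
  pb := w.pc
  smul_mem ha hb := w.mul_mem ha hb
  d := w.D
  d_smul a b := w.D_mul a b
  d_d := w.D_D
  d_mem h := w.D_mem h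

/-! ### columns of the window algebra -/

theorem mc_mem {o : w.Ob} {f : w.Ob → w.S} {c : ℤ} (h : ∀ i, f i ∈ w.q i o c) :
    (Matrix.of fun i j => if j = o then f i else 0 : Matrix w.Ob w.Ob w.S) ∈ w.Win := by
  intro i j
  change (if j = o then f i else 0) ∈ _
  split_ifs with hj
  · subst hj
    exact WD.q_le _ _ c (h i)
  · exact Submodule.zero_mem _

/-- the element of the window algebra with one column -/
def wcl (o : w.Ob) (f : w.Ob → w.S) (c : ℤ) (h : ∀ i, f i ∈ w.q i o c) : w.Win :=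
  ⟨Matrix.of fun i j => if j = o then f i else 0, mc_mem h⟩

theorem wcl_val (o : w.Ob) (f : w.Ob → w.S) (c : ℤ) (h : ∀ i, f i ∈ w.q i o c) (i j : w.Ob) :
    (wcl o f c h).1 i j = if j = o then f i else 0 := rfl

theorem wcl_G (o : w.Ob) (f : w.Ob → w.S) (c : ℤ) (h : ∀ i, f i ∈ w.q i o c) :
    wcl o f c h ∈ w.G c := by
  intro i j
  rw [wcl_val]
  split_ifs with hj
  · subst hj
    exact h i
  · exact Submodule.zero_mem _

theorem mul_ws (a b : w.Ob) (s : w.S) (h : s ∈ w.E a b) (m : w.Win) (i j : w.Ob) :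
    (m * WD.ws a b s h).1 i j = if b = j then m.1 i a * s else 0 := by
  change (m.1 * Matrix.single a b s) i j = _
  rw [Matrix.mul_apply]
  split_ifs with hj
  · subst hj
    rw [Finset.sum_eq_single a]
    · rw [Matrix.single_apply, if_pos ⟨rfl, rfl⟩]
    · intro l _ hl
      rw [Matrix.single_apply, if_neg (fun h => hl h.1.symm), mul_zero]
    · intro h
      exact absurd (Finset.mem_univ _) h
  · refine Finset.sum_eq_zero fun l _ => ?_
    rw [Matrix.single_apply, if_neg (fun h => hj h.2), mul_zero]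

/-- the idempotent of an object -/
def we (o : w.Ob) : w.dga.C := WD.ws o o 1 (WD.q_le o o 0 (WD.q_one o))

theorem th_E (θ : Th w) {o o' : w.Ob} (hP : w.P o' = w.P o) (hA : w.A o' + 1 = w.A o) :
    θ.t ∈ w.E o o' :=
  WD.q_le o o' 0 (pc_cast θ.mem (by rw [hP]; ring) (by rw [← hA]; ring) rfl)

/-- the one entry matrix of `θ` -/
def wth (θ : Th w) (o o' : w.Ob) (hP : w.P o' = w.P o) (hA : w.A o' + 1 = w.A o) : w.dga.C :=
  WD.ws o o' θ.t (th_E θ hP hA)

theorem we_G (o : w.Ob) : we o ∈ w.dga.G 0 := by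
  intro i j
  change Matrix.single o o (1 : w.S) i j ∈ _
  rw [Matrix.single_apply]
  split_ifs with h
  · obtain ⟨rfl, rfl⟩ := h
    exact WD.q_one _
  · exact Submodule.zero_mem _

theorem wth_G (θ : Th w) {o o' : w.Ob} (hP : w.P o' = w.P o) (hA : w.A o' + 1 = w.A o) :
    wth θ o o' hP hA ∈ w.dga.G 0 := by
  intro i j
  change Matrix.single o o' θ.t i j ∈ _
  rw [Matrix.single_apply]
  split_ifs with h
  · obtain ⟨rfl, rfl⟩ := h
    exact pc_cast θ.mem (by rw [hP]; ring) (by rw [← hA]; ring) rfl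
  · exact Submodule.zero_mem _

theorem mul_we (o : w.Ob) (m : w.dga.C) (i j : w.Ob) :
    ((m * we o : w.dga.C) : w.Win).1 i j = if o = j then (m : w.Win).1 i o else 0 := by
  have h := mul_ws o o 1 (WD.q_le o o 0 (WD.q_one o)) m i j
  rw [mul_one] at h
  exact h

theorem mul_wth (θ : Th w) {o o' : w.Ob} (hP : w.P o' = w.P o) (hA : w.A o' + 1 = w.A o)
    (m : w.dga.C) (i j : w.Ob) :
    ((m * wth θ o o' hP hA : w.dga.C) : w.Win).1 i j =
      if o' = j then (m : w.Win).1 i o * θ.t else 0 :=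
  mul_ws o o' θ.t (th_E θ hP hA) m i j

theorem we_we (o : w.Ob) : we o * we o = we o := by
  apply Subtype.ext
  ext i j
  refine (mul_we o (we o) i j).trans ?_
  change (if o = j then Matrix.single o o (1 : w.S) i o else 0) = Matrix.single o o (1 : w.S) i j
  rw [Matrix.single_apply, Matrix.single_apply]
  by_cases h1 : o = i <;> by_cases h2 : o = j <;> simp [h1, h2]

theorem wth_we (θ : Th w) {o o' : w.Ob} (hP : w.P o' = w.P o) (hA : w.A o' + 1 = w.A o) :
    wth θ o o' hP hA * we o' = wth θ o o' hP hA := by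
  apply Subtype.ext
  ext i j
  refine (mul_we o' (wth θ o o' hP hA) i j).trans ?_
  change (if o' = j then Matrix.single o o' θ.t i o' else 0) = Matrix.single o o' θ.t i j
  rw [Matrix.single_apply, Matrix.single_apply]
  by_cases h1 : o = i <;> by_cases h2 : o' = j <;> simp [h1, h2]

/-! ### the translation -/

section tr

variable {Y : RCells w.dga} {o o' : w.Ob}

/-- the column `o` of an element of the window algebra -/
def cO (o : w.Ob) : w.dga.C →ₗ[K] Cv (selfLB w) where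
  toFun m := fun i => (m : w.Win).1 i o
  map_add' _ _ := rfl
  map_smul' _ _ := rfl

theorem cO_apply (o : w.Ob) (m : w.dga.C) (i : w.Ob) : cO o m i = (m : w.Win).1 i o := rfl

theorem cO_mul (o : w.Ob) (c m : w.dga.C) : cO o (c * m) = c • cO o m := by
  ext i
  rw [Cv.act_apply]
  change ((c : w.Win).1 * (m : w.Win).1) i o = _
  rw [Matrix.mul_apply]
  rfl

theorem eq_zero_of_cO {m : w.dga.C} (h : m * we o = m) (h0 : cO o m = 0) : m = 0 := by
  rw [← h]
  apply Subtype.ext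
  ext i j
  refine (mul_we o m i j).trans ?_
  split_ifs with hj
  · exact congrFun h0 i
  · rfl

/-- columns of a family -/
noncomputable def cF (Y : RCells w.dga) (o : w.Ob) : (Y.ι →₀ w.dga.C) →ₗ[K] (Y.ι →₀ Cv (selfLB w)) :=
  Finsupp.mapRange.linearMap (cO o)

theorem cF_apply (o : w.Ob) (u : Y.ι →₀ w.dga.C) (σ : Y.ι) : cF Y o u σ = cO o (u σ) := by
  rw [cF, Finsupp.mapRange.linearMap_apply, Finsupp.mapRange_apply]

theorem cF_gr {u : Y.ι →₀ w.dga.C} {n : ℤ} (hu : u ∈ gY Y n) :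
    cF Y o u ∈ (Sc Y (selfLB w) (w.P o) (w.A o)).gr n := by
  rw [mem_Sc]
  intro σ
  rw [cF_apply]
  refine ⟨fun i => (hu σ).1 i o, ?_⟩
  rw [← cO_mul]
  exact congrArg (cO o) (hu σ).2

theorem cF_d (u : Y.ι →₀ w.dga.C) (p a : ℤ) :
    (Sc Y (selfLB w) p a).d (cF Y o u) = cF Y o (dY Y u) := by
  refine Finsupp.ext fun τ => ?_
  have hs : (cF Y o u).support ⊆ u.support := by
    intro σ hσ
    rw [Finsupp.mem_support_iff] at hσ ⊢
    intro h
    apply hσ
    rw [cF_apply, h, map_zero]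
  have e1 := Sc_d (Y := Y) (B := selfLB w) p a (cF Y o u) u.support hs τ
  have e2 : dY Y u τ = w.dga.D (u τ) + ∑ σ ∈ u.support, Y.c τ σ * u σ :=
    (twY Y (selfL w.dga)).dd_apply' u u.support (Finset.Subset.refl _) τ
  refine (show (show Y.ι →₀ Cv (selfLB w) from (Sc Y (selfLB w) p a).d (cF Y o u)) τ =
    cF Y o (dY Y u) τ from ?_)
  rw [e1, cF_apply, cF_apply, e2, map_add, map_sum]
  refine congrArg₂ (· + ·) rfl (Finset.sum_congr rfl fun σ _ => ?_)
  rw [cF_apply, cO_mul]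

theorem lift_c {x : Y.ι →₀ Cv (selfLB w)} {n : ℤ}
    (hx : x ∈ (Sc Y (selfLB w) (w.P o) (w.A o)).gr n) :
    ∃ u ∈ gY Y n, (∀ σ, u σ * we o = u σ) ∧ cF Y o u = x := by
  classical
  have hx' := mem_Sc.1 hx
  let u : Y.ι →₀ w.dga.C := Finsupp.onFinset x.support
    (fun σ => wcl o (fun i => x σ i) _ (hx' σ).1) (by
      intro σ hσ
      rw [Finsupp.mem_support_iff]
      intro h
      apply hσ
      apply Subtype.ext
      ext i j
      change (if j = o then (show w.S from x σ i) else 0) = 0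
      have e0 : (show w.S from x σ i) = 0 := congrFun h i
      rw [e0, ite_self])
  have hu : ∀ σ i j, (u σ : w.Win).1 i j = if j = o then (show w.S from x σ i) else 0 :=
    fun σ i j => rfl
  refine ⟨u, ?_, ?_, ?_⟩
  · intro σ
    refine ⟨wcl_G _ _ _ (hx' σ).1, ?_⟩
    change Y.e σ * u σ = u σ
    apply Subtype.ext
    ext i j
    have e1 : ((Y.e σ * u σ : w.dga.C) : w.Win).1 i j = ∑ l, (Y.e σ : w.Win).1 i l * (u σ : w.Win).1 l j := by
      change ((Y.e σ : w.Win).1 * (u σ : w.Win).1) i j = _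
      rw [Matrix.mul_apply]
    rw [e1, hu]
    by_cases hj : j = o
    · rw [if_pos hj]
      have e2 := congrFun (hx' σ).2 i
      rw [Cv.act_apply] at e2
      rw [← e2]
      refine Finset.sum_congr rfl fun l _ => ?_
      rw [hu, if_pos hj]
      rfl
    · rw [if_neg hj]
      refine Finset.sum_eq_zero fun l _ => ?_
      rw [hu, if_neg hj]
      exact mul_zero _
  · intro σ
    apply Subtype.ext
    ext i j
    refine (mul_we o (u σ) i j).trans ?_
    rw [hu, hu, if_pos rfl]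
    by_cases hj : o = j
    · subst hj
      rfl
    · exact (if_neg hj).trans (if_neg (fun h => hj h.symm)).symm
  · refine Finsupp.ext fun σ => ?_
    ext i
    rw [cF_apply, cO_apply, hu, if_pos rfl]

theorem eq_of_cF {u v : Y.ι →₀ w.dga.C} (hu : ∀ σ, u σ * we o = u σ) (hv : ∀ σ, v σ * we o = v σ)
    (h : cF Y o u = cF Y o v) : u = v := by
  refine Finsupp.ext fun σ => ?_
  rw [← sub_eq_zero]
  refine eq_zero_of_cO (o := o) (by rw [sub_mul, hu, hv]) ?_
  rw [map_sub, ← cF_apply, ← cF_apply, h, sub_self]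

/-- right multiplication by `θ` on families of columns -/
noncomputable def hF (Y : RCells w.dga) (t : w.S) :
    (Y.ι →₀ Cv (selfLB w)) →ₗ[K] (Y.ι →₀ Cv (selfLB w)) :=
  mp Y (B := selfLB w) (B' := selfLB w)
    (show (selfLB w).B →ₗ[K] (selfLB w).B from (LinearMap.mulRight K t : w.S →ₗ[K] w.S))

theorem hF_apply (t : w.S) (x : Y.ι →₀ Cv (selfLB w)) (σ : Y.ι) (i : w.Ob) :
    hF Y t x σ i = (show w.S from x σ i) * t := by
  refine (mp_apply (Y := Y) (B := selfLB w) (B' := selfLB w) _ x σ i).trans ?_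
  rfl

theorem cF_th (θ : Th w) (hP : w.P o' = w.P o) (hA : w.A o' + 1 = w.A o) (u : Y.ι →₀ w.dga.C) :
    cF Y o' (rY Y (wth θ o o' hP hA) u) = hF Y θ.t (cF Y o u) := by
  refine Finsupp.ext fun σ => ?_
  ext i
  rw [hF_apply, cF_apply, cF_apply, cO_apply, rY_apply]
  refine (mul_wth θ hP hA (u σ) i o').trans ?_
  rw [if_pos rfl]
  rfl

theorem rY_we (o : w.Ob) {u : Y.ι →₀ w.dga.C} (hu : ∀ σ, u σ * we o = u σ) : rY Y (we o) u = u := by
  ext σ
  exact hu σ

theorem dY_we {u : Y.ι →₀ w.dga.C} (hu : ∀ σ, u σ * we o = u σ) (σ : Y.ι) :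
    dY Y u σ * we o = dY Y u σ := by
  have h := rY_d Y (we_G o) u
  rw [rY_we o hu] at h
  exact (congrArg (fun z => z σ) h).symm

/-- **base of the column induction, with a cone** -/
theorem base (θ : Th w) {G : RM w.dga} (r : RRes Y G) (hP : w.P o' = w.P o)
    (hA : w.A o' + 1 = w.A o)
    (hN : ∀ (k : ℤ) (n n1 : G.X), n ∈ G.gr k → op (we o) • n = n → G.d n = 0 → n1 ∈ G.gr (k + 1) →
      op (we o') • n1 = n1 → op (wth θ o o' hP hA) • n = G.d n1 →
      ∃ n' ∈ G.gr (k + 1), op (we o) • n' = n' ∧ ∃ n1' ∈ G.gr (k + 2), op (we o') • n1' = n1' ∧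
        n = G.d n' ∧ n1 = op (wth θ o o' hP hA) • n' + G.d n1')
    (k : ℤ) (x y : Y.ι →₀ Cv (selfLB w)) (hx : x ∈ (Sc Y (selfLB w) (w.P o) (w.A o)).gr k)
    (hdx : (Sc Y (selfLB w) (w.P o) (w.A o)).d x = 0)
    (hy : y ∈ (Sc Y (selfLB w) (w.P o') (w.A o')).gr (k + 1))
    (hxy : hF Y θ.t x = (Sc Y (selfLB w) (w.P o') (w.A o')).d y) :
    ∃ x' ∈ (Sc Y (selfLB w) (w.P o) (w.A o)).gr (k + 1),
      ∃ y' ∈ (Sc Y (selfLB w) (w.P o') (w.A o')).gr (k + 2),
        x = (Sc Y (selfLB w) (w.P o) (w.A o)).d x' ∧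
        y = hF Y θ.t x' + (Sc Y (selfLB w) (w.P o') (w.A o')).d y' := by
  obtain ⟨u, hu, hu2, rfl⟩ := lift_c hx
  obtain ⟨v, hv, hv2, rfl⟩ := lift_c hy
  have hdu : dY Y u = 0 := by
    refine eq_of_cF (o := o) (dY_we hu2) (fun σ => ?_) ?_
    · rw [Finsupp.zero_apply, zero_mul]
    · rw [map_zero, ← cF_d u (w.P o) (w.A o)]
      exact hdx
  have huv : rY Y (wth θ o o' hP hA) u = dY Y v := by
    refine eq_of_cF (o := o') (fun σ => ?_) (dY_we hv2) ?_
    · rw [rY_apply, mul_assoc, wth_we]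
    · rw [cF_th, ← cF_d v (w.P o') (w.A o')]
      exact hxy
  obtain ⟨x', hx', -, y', hy', -, e1, e2⟩ := startR r (wth_G θ hP hA) (we_G o) (we_G o')
    (we_we o) (we_we o') (wth_we θ hP hA) hN k u v hu hu2 hdu hv hv2 huv
  refine ⟨cF Y o x', cF_gr hx', cF Y o' y', cF_gr hy', ?_, ?_⟩
  · rw [e1]
    exact (cF_d x' (w.P o) (w.A o)).symm
  · rw [e2, map_add, cF_th]
    congr 1
    exact (cF_d y' (w.P o') (w.A o')).symm

/-- **base of the column induction** -/
theorem base0 {G : RM w.dga} (r : RRes Y G)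
    (hN : ∀ (k : ℤ) (n : G.X), n ∈ G.gr k → op (we o) • n = n → G.d n = 0 →
      ∃ n' ∈ G.gr (k + 1), op (we o) • n' = n' ∧ n = G.d n') :
    Ac (Sc Y (selfLB w) (w.P o) (w.A o)) := by
  intro k x hx hdx
  obtain ⟨u, hu, hu2, e⟩ := lift_c (Y := Y) (o := o) (x := x) hx
  have hdu : dY Y u = 0 := by
    refine eq_of_cF (o := o) (dY_we hu2) (fun σ => ?_) ?_
    · rw [Finsupp.zero_apply, zero_mul]
    · rw [map_zero, ← cF_d u (w.P o) (w.A o), e]
      exact hdx
  obtain ⟨x', hx', -, e1⟩ := startR0 r (we_G o) (we_we o) hN k u hu hu2 hdu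
  refine ⟨cF Y o x', cF_gr hx', ?_⟩
  rw [← e, e1]
  exact cF_d x' (w.P o) (w.A o)

end tr

end Crest.Agent.R186.ColB790
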