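import Crest.Agent.R186.ColB_790
import Crest.Agent.R186.C1R_808
import Crest.Agent.R186.KOSM_296

/-!
Row 186 (A), leaf V3 (helper790): the window bimodule `M` as a tri-graded left module in 921's form,
and its socle filtration by copies of `R'' / J`.
-/

set_option autoImplicit false
set_option linter.style.haveILetI false
set_option linter.unusedSectionVars false

open MulOpposite

namespace Crest.Agent.R186.ColM790

open Hat827 Hat827.DGA Frame515 Res255 Win810 TR810 Col921 ColB790
open DefsQ830 DefsQ830.Gen PBW128 SM890 C2b362 C1R808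

variable {K : Type} [Field K] (π : Par K)

/-- level of a `W`-letter -/
def lev : Wb → ℕ
  | .one => 0
  | .y _ => 1
  | .yb _ => 1
  | .pi => 2

theorem lev_one {q : Wb} (h : lev q = 0) : q = .one := by
  cases q <;> simp [lev] at h ⊢

theorem dk2_lev (w q : Wb) (h : dk2 π w q ≠ 0) : lev (dt2 w q) + lev w = lev q := by
  cases w with
  | one => rfl
  | y a =>
    rcases fin2 a with rfl | rfl <;> cases q <;> simp_all [dk2, dk, dt2, dt, lev]
  | yb a =>
    rcases fin2 a with rfl | rfl <;> cases q <;> simp_all [dk2, dk, dt2, dt, lev]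
  | pi =>
    cases q <;> simp_all [dk2, dt2, lev]

/-- the coordinates of 808, on `MM` -/
noncomputable def mM (q : Wb) : MM π →ₗ[K] R π := mc π q

theorem mM_mem (q : Wb) (m : MM π) : mM π q m ∈ Z0 π := mc_mem π q m

/-- coordinates of `r • o_q` -/
theorem mM_oM (q q' : Wb) (r : R π) : mM π q' (oM π q r) =
    ∑ w, dk2 π w q • (if dt2 w q = q' then zc π w r else 0) := by
  have e : mc π q' (repM π r (oo K q)) =
      ∑ w, dk2 π w q • (if dt2 w q = q' then zc π w r else 0) := by
    rw [repM_eq, map_sum]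
    refine Finset.sum_congr rfl fun w _ => ?_
    rw [map_smul, mc_repM π q' (dt2 w q) (zc_mem π w r)]
  exact e

/-- high coordinates vanish -/
theorem mM_oM_hi {q q' : Wb} (h : lev q < lev q') (r : R π) : mM π q' (oM π q r) = 0 := by
  rw [mM_oM]
  refine Finset.sum_eq_zero fun w _ => ?_
  by_cases hk : dk2 π w q = 0
  · rw [hk, zero_smul]
  · rw [if_neg, smul_zero]
    intro he
    have := dk2_lev π w q hk
    rw [he] at this
    omega

theorem mM_oM_eq {q q' : Wb} (h : lev q = lev q') (r : R π) :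
    mM π q' (oM π q r) = if q = q' then zc π .one r else 0 := by
  rw [mM_oM, Finset.sum_eq_single Wb.one]
  · change (1 : K) • (if q = q' then zc π .one r else 0) = _
    rw [one_smul]
  · intro w _ hw
    by_cases hk : dk2 π w q = 0
    · rw [hk, zero_smul]
    · rw [if_neg, smul_zero]
      intro he
      have h2 := dk2_lev π w q hk
      rw [he] at h2
      exact hw (lev_one (by omega))
  · intro hh
    exact absurd (Finset.mem_univ _) hh

theorem mM_oM_J {q q' : Wb} (h : lev q ≤ lev q') {r : R π} (hr : r ∈ J π) :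
    mM π q' (oM π q r) = 0 := by
  rcases Nat.lt_or_ge (lev q) (lev q') with h1 | h1
  · exact mM_oM_hi π h1 r
  · rw [mM_oM_eq π (le_antisymm h h1), (mem_J_iff_zc π).1 hr, ite_self]

theorem sum_mM (m : MM π) : m = ∑ q, oM π q (mM π q m) := (mc_sum π m).symm

/-- **the socle filtration** -/
def FM (n : ℕ) : Submodule K (MM π) where
  carrier := {m | ∀ q, n ≤ lev q → mM π q m = 0}
  zero_mem' := fun q _ => map_zero (mM π q)
  add_mem' := by
    intro a b ha hb q hq
    rw [map_add, ha q hq, hb q hq, add_zero]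
  smul_mem' := by
    intro r a ha q hq
    rw [map_smul, ha q hq, smul_zero]


theorem FM_zero : FM π 0 = ⊥ := by
  rw [eq_bot_iff]
  intro m hm
  rw [Submodule.mem_bot, sum_mM π m]
  refine Finset.sum_eq_zero fun q _ => ?_
  rw [hm q (Nat.zero_le _), map_zero]

theorem FM_three : FM π 3 = ⊤ := by
  rw [eq_top_iff]
  intro m _ q hq
  exfalso
  cases q <;> simp [lev] at hq

theorem FM_mono {n m : ℕ} (h : n ≤ m) : FM π n ≤ FM π m := fun _ hx q hq => hx q (h.trans hq)

theorem oM_FM {q : Wb} {n : ℕ} (h : lev q < n) (r : R π) : oM π q r ∈ FM π n :=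
  fun _ hq => mM_oM_hi π (lt_of_lt_of_le h hq) r

theorem FM_op {n : ℕ} (T : R π → R π) {m : MM π} (hm : m ∈ FM π n) :
    ∑ q, oM π q (T (mM π q m)) ∈ FM π n ∨ ∃ q, n ≤ lev q ∧ T 0 ≠ 0 := by
  by_cases h0 : T 0 = 0
  · left
    refine Submodule.sum_mem _ fun q _ => ?_
    by_cases hq : n ≤ lev q
    · rw [hm q hq, h0, map_zero]
      exact Submodule.zero_mem _
    · exact oM_FM π (by omega) _
  · by_cases hn : ∃ q : Wb, n ≤ lev q
    · obtain ⟨q, hq⟩ := hn
      exact Or.inr ⟨q, hq, h0⟩
    · left
      refine Submodule.sum_mem _ fun q _ => ?_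
      exact oM_FM π (by
        by_contra hc
        exact hn ⟨q, by omega⟩) _

theorem FM_smul {n : ℕ} (a : R π) {m : MM π} (hm : m ∈ FM π n) : a • m ∈ FM π n := by
  have e : a • m = ∑ q, oM π q (a * mM π q m) := by
    conv_lhs => rw [sum_mM π m]
    rw [Finset.smul_sum]
    exact Finset.sum_congr rfl fun q _ => smul_oM π q a _
  rw [e]
  rcases FM_op π (fun z => a * z) hm with h | ⟨q, _, h⟩
  · exact h
  · exact absurd (mul_zero a) h

theorem FM_d {n : ℕ} {m : MM π} (hm : m ∈ FM π n) : dMM π m ∈ FM π n := by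
  have e : dMM π m = ∑ q, oM π q (Der580.D π (mM π q m)) := by
    conv_lhs => rw [sum_mM π m]
    rw [map_sum]
    exact Finset.sum_congr rfl fun q _ => dMM_oM π q _
  rw [e]
  rcases FM_op π (fun z => Der580.D π z) hm with h | ⟨q, _, h⟩
  · exact h
  · exact absurd (map_zero _) h

theorem mc_eq_cM (q : Wb) (m : MM π) : mM π q m = KOSM296.cM π q m := by
  have h : mc π q = KOSM296.cN π q := by
    refine Finsupp.lhom_ext fun ν c => ?_
    have e : (Finsupp.single ν c : N K) = c • bv K ν.1 ν.2.1 ν.2.2.1 ν.2.2.2.1 ν.2.2.2.2 := by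
      simp [bv]
    rw [e, map_smul, map_smul, mc_bv, KOSM296.cN_bv]
    rfl
  exact LinearMap.congr_fun h m

theorem mc_mem_pcZ (s : ℕ) {P A C : ℤ} {m : MM π} (hm : m ∈ pcM π s P A C) (q : Wb) :
    mM π q m ∈ pcZ π (P + 1) A (C - s + wC q.word) := by
  rw [mc_eq_cM, KOS296.pcZ_eq_pz]
  exact KOSM296.cM_mem π s hm q

/-! ### the module -/

/-- `M` as a tri-graded left module -/
noncomputable abbrev MB (s : ℕ) : LB (WR π) where
  B := MM π
  act := (inferInstance : Module (R π) (MM π))
  tower := (inferInstance : IsScalarTower K (R π) (MM π))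
  pb := pcM π s
  smul_mem ha hb := pcM_left π s ha hb
  d := dMM π
  d_smul a b := by
    exact dMM_left π a b
  d_d b := dM_dM π b
  d_mem h := pcM_D π s h

/-- the algebra `R''` as a tri-graded left module -/
noncomputable abbrev RB : LB (WR π) := selfLB (WR π)

theorem stM (s n : ℕ) : Stab (MB π s) (FM π n) where
  smul a _ hb := FM_smul π a hb
  d hb := FM_d π hb

/-- right multiplication onto `o_q` -/
noncomputable def uM (s : ℕ) (q : Wb) : LH (RB π) (MB π s) (-1) ((s : ℤ) - wC q.word) where
  f := (oM π q : R π →ₗ[K] MM π)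
  smul a b := (smul_oM π q a b).symm
  comm b := dMM_oM π q b
  mem {P A C b} hb := mem_pcM π s q (C' := C) (by
    rw [show P + -1 + 1 = P by ring]
    exact hb) (by ring)

theorem uniqM (n : ℕ) (z : {q : Wb // lev q = n} → R π) (hz : ∑ k, oM π k.1 (z k) ∈ FM π n)
    (q : {q : Wb // lev q = n}) : z q ∈ J π := by
  refine (mem_J_iff_zc π).2 ?_
  have h := hz q.1 (by rw [q.2])
  rw [map_sum, Finset.sum_eq_single q] at h
  · rw [mM_oM_eq π rfl, if_pos rfl] at h
    exact h
  · intro k _ hk
    rw [mM_oM_eq π (k.2.trans q.2.symm), if_neg]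
    intro he
    exact hk (Subtype.ext he)
  · intro hh
    exact absurd (Finset.mem_univ _) hh

/-- **the three layers of `M`** -/
noncomputable def copM (s n : ℕ) :
    Cop (RB π) (J π) (MB π s) (FM π (n + 1)) (FM π n) (-1) where
  κ := {q : Wb // lev q = n}
  uC q := (s : ℤ) - wC q.1.word
  u q := uM π s q.1
  st := stM π s n
  u_F q z := oM_FM π (by rw [q.2]; omega) z
  u_J q z hz := fun q' hq' => mM_oM_J π (by rw [q.2]; exact hq') hz
  gen {P A C x} hx hxP := by
    refine ⟨fun q => mM π q.1 x, fun q => ?_, fun q' hq' => ?_⟩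
    · have h := mc_mem_pcZ π s hxP q.1
      have e1 : P - -1 = P + 1 := by ring
      have e2 : C - ((s : ℤ) - wC q.1.word) = C - s + wC q.1.word := by ring
      change mM π q.1 x ∈ pcZ π (P - -1) A (C - ((s : ℤ) - wC q.1.word))
      rw [e1, e2]
      exact h
    · change mM π q' (x - ∑ q : {q : Wb // lev q = n}, oM π q.1 (mM π q.1 x)) = 0
      rw [map_sub, map_sum]
      rcases Nat.lt_or_ge n (lev q') with h1 | h1
      · rw [hx q' h1, Finset.sum_eq_zero, sub_zero]
        intro q _
        exact mM_oM_hi π (by rw [q.2]; exact h1) _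
      · have h2 : lev q' = n := le_antisymm h1 hq'
        rw [Finset.sum_eq_single (⟨q', h2⟩ : {q : Wb // lev q = n})]
        · rw [mM_oM_eq π rfl, if_pos rfl, zc_Z0 π .one (mM_mem π q' x), if_pos rfl, sub_self]
        · intro q _ hq
          rw [mM_oM_eq π (by rw [q.2, h2]), if_neg]
          intro he
          exact hq (Subtype.ext he)
        · intro hh
          exact absurd (Finset.mem_univ _) hh
  uniq z hz q := uniqM π n z hz q

end Crest.Agent.R186.ColM790
private theorem rz_ca6ef30c78 : type_of% @_root_.Crest.Agent.R186.ColM790.lev.eq_1 := @_root_.Crest.Agent.R186.ColM790.lev.eq_1 -- L24
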