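import Crest.Agent.R186.Res_255

/-!
Row 186 (A), helper255: cell resolutions in the form of `Res_255` from 515's `Pre` (modules in
degree zero) and from 84's `PreDG` (dg modules).
-/

set_option autoImplicit false
set_option linter.style.haveILetI false
set_option linter.unusedSectionVars false

open MulOpposite

namespace Crest.Agent.R186.Res255

open Hat827 Hat827.DGA Frame515 SemiFree515 PreDG84

variable {K : Type} [Field K] {A : DGA K}

/-! ### finitely supported families -/


theorem tG_self_d (X : LCells A) (x : X.ι →₀ A.C) (S : Finset X.ι) (hS : x.support ⊆ S) (τ : X.ι) :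
    (show X.ι →₀ A.C from (tG (selfR A) X).d x) τ = A.D (x τ) + ∑ σ ∈ S, x σ * X.c σ τ :=
  (twG (selfR A) X).dd_apply' x S hS τ

/-- a function with `y σ = 0` for `m < s σ` as a finitely supported function -/
noncomputable def mkF {M : Type} [AddCommGroup M] (X : LCells A) (m : ℕ) (y : X.ι → M)
    (h : ∀ σ, m < X.s σ → y σ = 0) : X.ι →₀ M :=
  Finsupp.onFinset (X.F m) y fun σ hσ => (X.mem_F m σ).2 (by
    by_contra hc
    exact hσ (h σ (by omega)))


theorem mkF_supp {M : Type} [AddCommGroup M] (X : LCells A) (m : ℕ) (y : X.ι → M)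
    (h : ∀ σ, m < X.s σ → y σ = 0) : (mkF X m y h).support ⊆ X.F m :=
  Finsupp.support_onFinset_subset

theorem supp_gr {X : LCells A} {m : ℕ} {x : X.ι →₀ A.C}
    (hx : x ∈ (tG (selfR A) X).gr m) : x.support ⊆ X.F m := by
  intro σ hσ
  rw [X.mem_F]
  by_contra hc
  have h1 : x σ ∈ A.G ((m : ℤ) - X.s σ) := (hx σ).1
  exact (Finsupp.mem_support_iff.1 hσ) (neg h1 (by omega))

theorem gr_neg {X : LCells A} {k : ℤ} (hk : k < 0) {x : X.ι →₀ A.C}
    (hx : x ∈ (tG (selfR A) X).gr k) : x = 0 := by
  ext σ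
  have h1 : x σ ∈ A.G (k - X.s σ) := (hx σ).1
  exact neg h1 (by omega)

theorem augL_sum (X : LCells A) (N : LM A) (v : X.ι → N.X) (x : X.ι →₀ A.C) (S : Finset X.ι)
    (hS : x.support ⊆ S) : augL X N v x = ∑ σ ∈ S, x σ • v σ := by
  rw [augL_apply]
  exact Finsupp.sum_of_support_subset _ hS _ fun σ _ => zero_smul _ _

/-! ### modules in degree zero -/

/-- an honest module as a dg module in degree `0` -/
def honL (A : DGA K) (V : Type) [AddCommGroup V] [Module K V] [Module A.C V]
    [IsScalarTower K A.C V] (hpos : ∀ k : ℤ, 0 < k → ∀ a ∈ A.G k, ∀ w : V, a • w = 0)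
    (hD : ∀ (a : A.C) (w : V), A.D a • w = 0) : LM A where
  X := V
  gr k := if k = 0 then ⊤ else ⊥
  d := 0
  d_mem _ := Submodule.zero_mem _
  d_d _ := rfl
  smul_mem := by
    intro k l a x ha hx
    by_cases hl : l = 0
    · by_cases hk : k = 0
      · rw [if_pos (by omega)]; exact Submodule.mem_top
      · by_cases hk' : 0 < k
        · rw [hpos k hk' a ha x]; exact Submodule.zero_mem _
        · rw [neg ha (by omega), zero_smul]; exact Submodule.zero_mem _
    · rw [if_neg hl] at hx
      rw [(Submodule.mem_bot K).1 hx, smul_zero]; exact Submodule.zero_mem _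
  leib a x := by
    change (0 : V) = A.D a • x + a • (0 : V)
    rw [hD, smul_zero, add_zero]

section pre

variable {V : Type} [AddCommGroup V] [Module K V] [Module A.C V]

/-- the cells of 515's resolution -/
def lcPre (R : Pre A V) : LCells A where
  ι := R.ι
  s := R.s
  F := R.F
  mem_F := R.mem_F
  e := R.e
  e_mem := R.e_mem
  e_idem := R.e_idem
  c := R.c
  c_mem := R.c_mem
  c_left := R.c_left
  c_right := R.c_right
  mc := R.mc

variable [IsScalarTower K A.C V] (hpos : ∀ k : ℤ, 0 < k → ∀ a ∈ A.G k, ∀ w : V, a • w = 0)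
  (hD : ∀ (a : A.C) (w : V), A.D a • w = 0)

/-- the augmentation vectors -/
noncomputable def vPre (R : Pre A V) : (lcPre R).ι → (honL A V hpos hD).X := R.v

theorem mem_hon {k : ℤ} (hk : k ≠ 0) {x : V} (hx : x ∈ (honL A V hpos hD).gr k) : x = 0 := by
  change x ∈ (if k = 0 then (⊤ : Submodule K V) else ⊥) at hx
  rw [if_neg hk] at hx
  exact (Submodule.mem_bot K).1 hx

/-- **515's resolution of a module in degree zero, in the form of the frame** -/
noncomputable def lresPre (R : Pre A V) : LRes (lcPre R) (honL A V hpos hD) where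
  lo := 0
  v := vPre hpos hD R
  v_mem σ := by
    change R.v σ ∈ (if (0 : ℤ) + (R.s σ : ℤ) = 0 then (⊤ : Submodule K V) else ⊥)
    by_cases h : R.s σ = 0
    · rw [if_pos (by omega)]; exact Submodule.mem_top
    · rw [R.v_zero σ h]; exact Submodule.zero_mem _
  v_e := R.v_e
  v_d σ := by
    change (0 : V) = ∑ τ ∈ R.F (R.s σ), R.c σ τ • R.v τ
    symm
    rcases Nat.lt_trichotomy (R.s σ) 1 with h | h | h
    · refine Finset.sum_eq_zero fun τ _ => ?_
      rw [neg (R.c_mem σ τ) (by omega), zero_smul]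
    · rw [← R.v_aug σ h]
      symm
      refine Finset.sum_subset (fun τ hτ => ?_) fun τ _ hτ => ?_
      · rw [R.mem_F] at hτ ⊢; omega
      · rw [R.v_zero τ (by intro h0; exact hτ ((R.mem_F 0 τ).2 (by omega))), smul_zero]
    · refine Finset.sum_eq_zero fun τ _ => ?_
      by_cases h0 : R.s τ = 0
      · exact hpos _ (by omega) _ (R.c_mem σ τ) _
      · rw [R.v_zero τ h0, smul_zero]
  ex := by
    intro k x n hx hd hn hsum
    -- the augmentation kills positive degree
    have haug : ∀ (m : ℤ), m ≠ 0 → ∀ y : R.ι →₀ A.C, y ∈ (tG (selfR A) (lcPre R)).gr m →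
        augL (lcPre R) (honL A V hpos hD) (vPre hpos hD R) y = 0 := by
      intro m hm y hy
      rw [augL_apply]
      refine Finset.sum_eq_zero fun σ _ => ?_
      change y σ • R.v σ = 0
      by_cases h0 : R.s σ = 0
      · have h1 : y σ ∈ A.G (m - (R.s σ : ℤ)) := (hy σ).1
        by_cases hm' : 0 < m
        · exact hpos _ (by omega) _ h1 _
        · rw [neg h1 (by omega), zero_smul]
      · rw [R.v_zero σ h0, smul_zero]
    by_cases hk : k < 0
    · refine ⟨0, Submodule.zero_mem _, 0, Submodule.zero_mem _, ?_, ?_⟩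
      · exact (map_zero _).trans (gr_neg (by omega) hx).symm
      · refine (mem_hon hpos hD (by omega) hn).trans ?_
        exact ((congrArg₂ (· + ·) (map_zero (augL (lcPre R) (honL A V hpos hD)
          (vPre hpos hD R))) (map_zero (honL A V hpos hD).d)).trans (add_zero _)).symm
    · by_cases hk0 : k = 0
      · obtain ⟨g, hg, hgs⟩ := R.gen n
        have hz : ∀ σ, 0 < R.s σ → g σ * R.e σ = 0 := by
          intro σ hσ
          rw [neg (hg σ) (by omega), zero_mul]
        let y : R.ι →₀ A.C := mkF (lcPre R) 0 (fun σ => g σ * R.e σ) hz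
        have hy : y ∈ (tG (selfR A) (lcPre R)).gr k := by
          intro σ
          refine ⟨?_, ?_⟩
          · change g σ * R.e σ ∈ A.G (k - (R.s σ : ℤ))
            have := A.mul_mem (hg σ) (R.e_mem σ)
            rwa [show -(R.s σ : ℤ) + 0 = k - (R.s σ : ℤ) by omega] at this
          · change (g σ * R.e σ) * R.e σ = g σ * R.e σ
            rw [mul_assoc, R.e_idem]
        refine ⟨y, hy, 0, Submodule.zero_mem _, ?_, ?_⟩
        · have h1 := (tG (selfR A) (lcPre R)).d_mem hy
          rw [gr_neg (by omega) h1, gr_neg (by omega) hx]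
        · refine Eq.trans ?_ (add_zero _).symm
          refine Eq.trans ?_ (augL_sum (lcPre R) (honL A V hpos hD) (vPre hpos hD R) y (R.F 0)
            (mkF_supp (lcPre R) 0 _ hz)).symm
          change n = ∑ σ ∈ R.F 0, (g σ * R.e σ) • R.v σ
          rw [← hgs]
          refine Finset.sum_congr rfl fun σ _ => ?_
          rw [mul_smul, R.v_e]
      · have hn0 : n = 0 := mem_hon hpos hD (by omega) hn
        by_cases hk1 : k = 1
        · subst hk1
          have hx0 : ∀ σ, x σ ∈ A.G (-(R.s σ : ℤ)) := fun σ => by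
            have := (hx σ).1
            change x σ ∈ A.G ((1 : ℤ) - 1 - (R.s σ : ℤ)) at this
            rwa [show (1 : ℤ) - 1 - (R.s σ : ℤ) = -(R.s σ : ℤ) by ring] at this
          have hs : x.support ⊆ R.F 0 := supp_gr (X := lcPre R) (m := 0) (by simpa using hx)
          have ha : ∑ σ ∈ R.F 0, x σ • R.v σ = 0 := by
            have h1 : augL (lcPre R) (honL A V hpos hD) (vPre hpos hD R) x +
                (honL A V hpos hD).d n = 0 := hsum
            have h2 : (honL A V hpos hD).d n = 0 := rfl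
            rw [h2, add_zero] at h1
            exact (augL_sum (lcPre R) (honL A V hpos hD) (vPre hpos hD R) x (R.F 0) hs).symm.trans
              h1
          obtain ⟨y, hy1, hy2, hy3⟩ := R.exR0 x hx0 (fun σ => (hx σ).2) ha
          have hz : ∀ σ, 1 < R.s σ → y σ = 0 := fun σ hσ => neg (hy1 σ) (by omega)
          refine ⟨mkF (lcPre R) 1 y hz, fun σ => ⟨hy1 σ, hy2 σ⟩, 0, Submodule.zero_mem _, ?_, ?_⟩
          · refine Finsupp.ext fun τ => ?_
            exact (tG_self_d (lcPre R) _ (R.F 1) (mkF_supp (lcPre R) 1 y hz) τ).trans (hy3 τ).symm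
          · refine hn0.trans (Eq.trans ?_ (add_zero _).symm)
            exact (haug 1 (by omega) (mkF (lcPre R) 1 y hz) (fun σ => ⟨hy1 σ, hy2 σ⟩)).symm
        · obtain ⟨m, rfl⟩ : ∃ m : ℕ, k = m + 2 := ⟨(k - 2).toNat, by omega⟩
          have hx0 : ∀ σ, x σ ∈ A.G ((m : ℤ) + 1 - (R.s σ : ℤ)) := fun σ => by
            have := (hx σ).1
            change x σ ∈ A.G ((m : ℤ) + 2 - 1 - (R.s σ : ℤ)) at this
            rwa [show (m : ℤ) + 2 - 1 - (R.s σ : ℤ) = (m : ℤ) + 1 - (R.s σ : ℤ) by ring] at this
          have hs : x.support ⊆ R.F (m + 1) := supp_gr (X := lcPre R) (m := m + 1) (by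
            have h2 : ((m + 1 : ℕ) : ℤ) = (m : ℤ) + 2 - 1 := by push_cast; ring
            rw [h2]; exact hx)
          have hc : ∀ τ, A.D (x τ) + ∑ σ ∈ R.F (m + 1), x σ * R.c σ τ = 0 := by
            intro τ
            have h1 := tG_self_d (lcPre R) x (R.F (m + 1)) hs τ
            rw [hd] at h1
            exact h1.symm
          obtain ⟨y, hy1, hy2, hy3⟩ := R.exR m x hx0 (fun σ => (hx σ).2) hc
          have hz : ∀ σ, m + 2 < R.s σ → y σ = 0 := fun σ hσ => neg (hy1 σ) (by omega)
          have hgr : mkF (lcPre R) (m + 2) y hz ∈ (tG (selfR A) (lcPre R)).gr ((m : ℤ) + 2) :=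
            fun σ => ⟨hy1 σ, hy2 σ⟩
          refine ⟨mkF (lcPre R) (m + 2) y hz, hgr, 0, Submodule.zero_mem _, ?_, ?_⟩
          · refine Finsupp.ext fun τ => ?_
            exact (tG_self_d (lcPre R) _ (R.F (m + 2)) (mkF_supp (lcPre R) (m + 2) y hz) τ).trans
              (hy3 τ).symm
          · refine hn0.trans (Eq.trans ?_ (add_zero _).symm)
            exact (haug _ (by omega) _ hgr).symm

end pre

end Crest.Agent.R186.Res255
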