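import Crest.Agent.R186.HatA_827
import Crest.Agent.R186.Res2_255

-- ▼ part R186/CellsDG_830
section

/-!
Row 186 (helper830): dg modules over a strict dg algebra `A : Hat827.DGA K` (characteristic two),
the opposite dg algebra, and EXISTENCE OF CELLS: every left dg module `M` in homological degrees
`≥ 0` with finite dimensional pieces has a semi-free resolution by cells (after helper515's
`SemiFree_515`). Right modules = left modules over `A.op`.
-/

set_option autoImplicit false
set_option linter.style.haveILetI false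
set_option linter.unusedSectionVars false

namespace Crest.Agent.R186.CellsDG830

open Hat827 Hat827.DGA

variable {K : Type} [Field K]

/-- left dg module; `gr k` is the part of homological degree `k` -/
structure LM (A : DGA K) where
  Y : Type
  [grp : AddCommGroup Y]
  [modK : Module K Y]
  [modC : Module A.C Y]
  [tower : IsScalarTower K A.C Y]
  gr : ℤ → Submodule K Y
  smul_mem : ∀ {k l : ℤ} {a : A.C} {y : Y}, a ∈ A.G k → y ∈ gr l → a • y ∈ gr (k + l)
  d : Y →ₗ[K] Y
  d_smul : ∀ (a : A.C) (y : Y), d (a • y) = A.D a • y + a • d y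
  dd : ∀ y, d (d y) = 0
  d_mem : ∀ {k : ℤ} {y : Y}, y ∈ gr k → d y ∈ gr (k - 1)

attribute [instance] LM.grp LM.modK LM.modC LM.tower

theorem LM.two {A : DGA K} (M : LM A) (y : M.Y) : y + y = 0 := by
  have h : ((1 : A.C) + 1) • y = 0 := by rw [A.two, zero_smul]
  rwa [add_smul, one_smul] at h

/-- cells over a dg algebra with a map to a dg module -/
structure Res {A : DGA K} (M : LM A) where
  ι : Type
  s : ι → ℕ
  F : ℕ → Finset ι
  mem_F : ∀ m σ, σ ∈ F m ↔ s σ ≤ m
  c : ι → ι → A.C
  c_mem : ∀ σ τ, c σ τ ∈ A.G ((s σ : ℤ) - s τ - 1)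
  mc : ∀ σ τ, A.D (c σ τ) + ∑ ρ ∈ F (s σ), c σ ρ * c ρ τ = 0
  v : ι → M.Y
  v_mem : ∀ σ, v σ ∈ M.gr (s σ)
  v_d : ∀ σ, M.d (v σ) = ∑ τ ∈ F (s σ), c σ τ • v τ
  /-- the cone of `cells → M` is exact -/
  ex : ∀ (n : ℕ) (x : ι → A.C) (w : M.Y), (∀ σ, x σ ∈ A.G ((n : ℤ) - 1 - s σ)) → w ∈ M.gr n →
    (∀ τ, A.D (x τ) + ∑ σ ∈ F n, x σ * c σ τ = 0) → ∑ σ ∈ F n, x σ • v σ = M.d w →
    ∃ y : ι → A.C, (∀ σ, y σ ∈ A.G ((n : ℤ) - s σ)) ∧
      (∀ τ, A.D (y τ) + ∑ σ ∈ F n, y σ * c σ τ = x τ) ∧ ∑ σ ∈ F n, y σ • v σ = w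

section constr

variable {A : DGA K} (M : LM A)

/-- number of cells of level `< n` -/
noncomputable def S : ℕ → ℕ
  | 0 => 0
  | n + 1 => S n + (S n * Module.finrank K A.C + Module.finrank K (M.gr n))

/-- number of cells of level `n` -/
noncomputable def N (n : ℕ) : ℕ := S M n * Module.finrank K A.C + Module.finrank K (M.gr n)

/-- the cells -/
abbrev I : Type := Σ m : ℕ, Fin (N M m)

/-- cells of level `< n` -/
noncomputable def FF (n : ℕ) : Finset (I M) := (Finset.range n).sigma fun _ => Finset.univ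

variable {M}

theorem mem_FF (n : ℕ) (σ : I M) : σ ∈ FF M n ↔ σ.1 < n := by
  simp [FF]

theorem card_FF (n : ℕ) : (FF M n).card = S M n := by
  rw [FF, Finset.card_sigma]
  simp only [Finset.card_univ, Fintype.card_fin]
  induction n with
  | zero => rfl
  | succ n ih => rw [Finset.sum_range_succ, ih]; rfl

/-- data of cells -/
abbrev Q (M : LM A) : Type := I M → (I M → A.C) × M.Y

/-- cycles of the cone which give the cells of level `n` -/
noncomputable def Z (n : ℕ) (q : Q M) : Submodule K ((I M → A.C) × M.Y) where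
  carrier := {p | (∀ σ, p.1 σ ∈ A.G ((n : ℤ) - 1 - σ.1)) ∧ p.2 ∈ M.gr n ∧
    (∀ τ, A.D (p.1 τ) + ∑ σ ∈ FF M n, p.1 σ * (q σ).1 τ = 0) ∧
    ∑ σ ∈ FF M n, p.1 σ • (q σ).2 = M.d p.2}
  zero_mem' := by
    refine ⟨fun σ => Submodule.zero_mem _, Submodule.zero_mem _, fun τ => ?_, ?_⟩
    · simp
    · simp
  add_mem' := by
    rintro x y ⟨hx1, hx2, hx3, hx4⟩ ⟨hy1, hy2, hy3, hy4⟩
    refine ⟨fun σ => Submodule.add_mem _ (hx1 σ) (hy1 σ), Submodule.add_mem _ hx2 hy2,
      fun τ => ?_, ?_⟩
    · have := congrArg₂ (· + ·) (hx3 τ) (hy3 τ)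
      simp only [add_zero] at this
      rw [← this]
      simp only [Prod.fst_add, Pi.add_apply, map_add, add_mul, Finset.sum_add_distrib]
      abel
    · simp only [Prod.fst_add, Prod.snd_add, Pi.add_apply, add_smul, Finset.sum_add_distrib,
        hx4, hy4, map_add]
  smul_mem' := by
    rintro a x ⟨hx1, hx2, hx3, hx4⟩
    refine ⟨fun σ => Submodule.smul_mem _ a (hx1 σ), Submodule.smul_mem _ a hx2, fun τ => ?_, ?_⟩
    · simp only [Prod.smul_fst, Pi.smul_apply, map_smul, smul_mul_assoc, ← Finset.smul_sum,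
        ← smul_add]
      rw [hx3 τ, smul_zero]
    · simp only [Prod.smul_fst, Prod.smul_snd, Pi.smul_apply, smul_assoc, ← Finset.smul_sum,
        map_smul, hx4]

theorem Z_zero {n : ℕ} {q : Q M} {p : (I M → A.C) × M.Y} (hp : p ∈ Z n q)
    {σ : I M} (hσ : n ≤ σ.1) : p.1 σ = 0 :=
  neg (hp.1 σ) (by omega)

/-- restriction to the cells of level `< n` -/
noncomputable def res (n : ℕ) (q : Q M) : Z n q →ₗ[K] (FF M n → A.C) × M.gr n where
  toFun x := (fun σ => x.1.1 σ.1, ⟨x.1.2, x.2.2.1⟩)
  map_add' _ _ := rfl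
  map_smul' _ _ := rfl

theorem res_inj (n : ℕ) (q : Q M) : Function.Injective (res n q) := by
  intro x y hxy
  apply Subtype.ext
  refine Prod.ext ?_ ?_
  · funext σ
    by_cases hσ : σ.1 < n
    · exact congrFun (congrArg Prod.fst hxy) ⟨σ, (mem_FF n σ).2 hσ⟩
    · rw [Z_zero x.2 (by omega), Z_zero y.2 (by omega)]
  · exact congrArg Subtype.val (congrArg Prod.snd hxy)

variable [hfin : ∀ k : ℤ, Module.Finite K (M.gr k)]

theorem fin_Z (n : ℕ) (q : Q M) : Module.Finite K (Z n q) :=
  Module.Finite.of_injective (res n q) (res_inj n q)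

theorem finrank_Z (n : ℕ) (q : Q M) : Module.finrank K (Z n q) ≤ N M n := by
  refine (LinearMap.finrank_le_finrank_of_injective (res_inj n q)).trans ?_
  rw [Module.finrank_prod, Module.finrank_pi_fintype]
  simp only [Finset.sum_const, Finset.card_univ, Fintype.card_coe, smul_eq_mul, card_FF]
  exact le_rfl

/-- a subspace of small dimension is spanned by a family of prescribed length -/
theorem exists_fam {W : Type} [AddCommGroup W] [Module K W] [Module.Finite K W] {n : ℕ}
    (h : Module.finrank K W ≤ n) :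
    ∃ f : Fin n → W, ∀ x : W, ∃ a : Fin n → K, x = ∑ i, a i • f i := by
  classical
  have h1 : Submodule.span K (Set.range (Module.finBasis K W)) = ⊤ := (Module.finBasis K W).span_eq
  let f : Fin n → W := fun i =>
    if hi : i.val < Module.finrank K W then Module.finBasis K W ⟨i.val, hi⟩ else 0
  have hf : Submodule.span K (Set.range f) = ⊤ := by
    rw [eq_top_iff, ← h1]
    refine Submodule.span_mono ?_
    rintro _ ⟨j, rfl⟩
    exact ⟨⟨j.val, lt_of_lt_of_le j.2 h⟩, by simp [f]⟩
  refine ⟨f, fun x => ?_⟩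
  have hx : x ∈ Submodule.span K (Set.range f) := by rw [hf]; trivial
  obtain ⟨a, ha⟩ := (Submodule.mem_span_range_iff_exists_fun K).1 hx
  exact ⟨a, ha.symm⟩

theorem exists_fam_Z (n : ℕ) (q : Q M) :
    ∃ f : Fin (N M n) → (I M → A.C) × M.Y, (∀ i, f i ∈ Z n q) ∧
      ∀ x ∈ Z n q, ∃ a : Fin (N M n) → K, x = ∑ i, a i • f i := by
  haveI := fin_Z n q
  obtain ⟨f, hf⟩ := exists_fam (K := K) (finrank_Z n q)
  refine ⟨fun i => (f i).1, fun i => (f i).2, fun x hx => ?_⟩
  obtain ⟨a, ha⟩ := hf ⟨x, hx⟩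
  refine ⟨a, ?_⟩
  have h1 := congrArg (Submodule.subtype _) ha
  rw [map_sum] at h1
  simpa using h1

/-- the chosen spanning family of the cycles -/
noncomputable def fam (n : ℕ) (q : Q M) : Fin (N M n) → (I M → A.C) × M.Y :=
  Classical.choose (exists_fam_Z n q)



/-- one more level -/
noncomputable def step (n : ℕ) (q : Q M) : Q M :=
  fun σ => if h : σ.1 = n then fam n q (h ▸ σ.2) else q σ

/-- the data of level `< n` -/
noncomputable def qq (M : LM A) [∀ k : ℤ, Module.Finite K (M.gr k)] : ℕ → Q M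
  | 0 => fun _ => 0
  | n + 1 => step n (qq M n)



















end constr

/-! ### the opposite dg algebra -/

/-- the opposite dg algebra (characteristic two: no signs) -/
def op (A : DGA K) : DGA K where
  C := A.Cᵐᵒᵖ
  fin := Module.Finite.equiv (MulOpposite.opLinearEquiv K : A.C ≃ₗ[K] A.Cᵐᵒᵖ)
  two a := MulOpposite.unop_injective (by simpa using A.two a.unop)
  N := A.N
  G k := (A.G k).comap (MulOpposite.opLinearEquiv K : A.C ≃ₗ[K] A.Cᵐᵒᵖ).symm.toLinearMap
  G_neg k hk := by
    rw [A.G_neg k hk, Submodule.eq_bot_iff]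
    intro x hx
    exact MulOpposite.unop_injective ((Submodule.mem_bot K).1 hx)
  G_big k hk := by
    rw [A.G_big k hk, Submodule.eq_bot_iff]
    intro x hx
    exact MulOpposite.unop_injective ((Submodule.mem_bot K).1 hx)
  one_mem := A.one_mem
  mul_mem {k l a b} ha hb := by
    have h : b.unop * a.unop ∈ A.G (l + k) := A.mul_mem hb ha
    rw [add_comm] at h
    exact h
  D := (MulOpposite.opLinearEquiv K : A.C ≃ₗ[K] A.Cᵐᵒᵖ).toLinearMap ∘ₗ A.D ∘ₗ
    (MulOpposite.opLinearEquiv K : A.C ≃ₗ[K] A.Cᵐᵒᵖ).symm.toLinearMap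
  D_mul a b := by
    apply MulOpposite.unop_injective
    show A.D (b.unop * a.unop) = b.unop * A.D a.unop + A.D b.unop * a.unop
    rw [A.D_mul, add_comm]
  D_D a := by
    apply MulOpposite.unop_injective
    exact A.D_D a.unop
  D_mem {k a} ha := A.D_mem (a := a.unop) ha



end Crest.Agent.R186.CellsDG830
end

-- ▼ part R186/Res3_255

/-!
Row 186 (A), helper255: existence of cell resolutions in the frame, on both sides
(`exists_lres`, `exists_rres`), for bounded below, locally finite dg modules.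
-/

set_option autoImplicit false
set_option linter.style.haveILetI false
set_option linter.unusedSectionVars false

open MulOpposite

namespace Crest.Agent.R186.Res255

open Hat827 Hat827.DGA Frame515 SemiFree515 PreDG84

variable {K : Type} [Field K] {A : DGA K}

/-! ### left modules -/





/-! ### right modules -/

/-- a bounded below, locally finite right module in the form of `PreDG_84` over `A.op` -/
def dgmR (G : RM A) (lo : ℤ) (hlo : ∀ k : ℤ, k < lo → G.gr k = ⊥)
    (hfin : ∀ k : ℤ, Module.Finite K (G.gr k)) :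
    letI : Module (CellsDG830.op A).C G.X := G.act
    DGM (CellsDG830.op A) G.X :=
  letI : Module (CellsDG830.op A).C G.X := G.act
  { gr := G.gr
    d := G.d
    lo := lo
    lo_bot := hlo
    fin := hfin
    smul_mem := fun {_ _ a _} ha hx => G.smul_mem (a := a.unop) ha hx
    d_mem := G.d_mem
    leib := fun a x => G.leib a.unop x
    d_d := G.d_d }

theorem tY_self_d (Y : RCells A) (x : Y.ι →₀ A.C) (S : Finset Y.ι) (hS : x.support ⊆ S) (τ : Y.ι) :
    (show Y.ι →₀ A.C from (tY Y (selfL A)).d x) τ = A.D (x τ) + ∑ σ ∈ S, Y.c τ σ * x σ :=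
  (twY Y (selfL A)).dd_apply' x S hS τ

theorem grY_neg {Y : RCells A} {k : ℤ} (hk : k < 0) {x : Y.ι →₀ A.C}
    (hx : x ∈ (tY Y (selfL A)).gr k) : x = 0 := by
  ext σ
  have h1 : x σ ∈ A.G (k - Y.s σ) := (hx σ).1
  exact neg h1 (by omega)

theorem augR_apply (Y : RCells A) (G : RM A) (v : Y.ι → G.X) (x : Y.ι →₀ A.C) :
    augR Y G v x = x.sum fun σ a => MulOpposite.op a • v σ := by
  simp [augR, Finsupp.lsum_apply]

theorem augR_sum (Y : RCells A) (G : RM A) (v : Y.ι → G.X) (x : Y.ι →₀ A.C) (S : Finset Y.ι)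
    (hS : x.support ⊆ S) : augR Y G v x = ∑ σ ∈ S, MulOpposite.op (x σ) • v σ := by
  rw [augR_apply]
  exact Finsupp.sum_of_support_subset _ hS _ fun σ _ => by rw [op_zero, zero_smul]

section right

variable (G : RM A) (lo : ℤ) (hlo : ∀ k : ℤ, k < lo → G.gr k = ⊥)
    (hfin : ∀ k : ℤ, Module.Finite K (G.gr k))

/-- right cells from left cells over the opposite algebra -/
def rcPG (R : letI : Module (CellsDG830.op A).C G.X := G.act
      PreDG (CellsDG830.op A) G.X (dgmR G lo hlo hfin)) : RCells A :=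
  letI : Module (CellsDG830.op A).C G.X := G.act
  { ι := R.ι
    s := R.s
    F := R.F
    mem_F := R.mem_F
    e := fun _ => 1
    e_mem := fun _ => A.one_mem
    e_idem := fun _ => one_mul 1
    c := fun τ σ => (R.c σ τ).unop
    c_mem := fun τ σ => R.c_mem σ τ
    c_left := fun _ _ => one_mul _
    c_right := fun _ _ => mul_one _
    mc := fun τ σ => by
      have h := congrArg MulOpposite.unop (R.mc σ τ)
      have h2 : MulOpposite.unop ((CellsDG830.op A).D (R.c σ τ)) +
          MulOpposite.unop (∑ ρ ∈ R.F (R.s σ), R.c σ ρ * R.c ρ τ) = 0 := h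
      have h3 : MulOpposite.unop (∑ ρ ∈ R.F (R.s σ), R.c σ ρ * R.c ρ τ) =
          ∑ ρ ∈ R.F (R.s σ), (R.c ρ τ).unop * (R.c σ ρ).unop := by
        have := map_sum (opAddEquiv (α := A.C)).symm (fun ρ => R.c σ ρ * R.c ρ τ) (R.F (R.s σ))
        exact this
      rw [h3] at h2
      exact h2 }

/-- 84's resolution over the opposite algebra as `RRes` -/
noncomputable def rresPG (R : letI : Module (CellsDG830.op A).C G.X := G.act
      PreDG (CellsDG830.op A) G.X (dgmR G lo hlo hfin)) : RRes (rcPG G lo hlo hfin R) G :=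
  letI : Module (CellsDG830.op A).C G.X := G.act
  { lo := lo
    v := R.v
    v_mem := R.v_mem
    v_e := fun σ => one_smul A.Cᵐᵒᵖ (R.v σ)
    v_d := R.v_d
    ex := by
      intro k x n hx hd hn hsum
      by_cases hk : k < 0
      · refine ⟨0, Submodule.zero_mem _, 0, Submodule.zero_mem _, ?_, ?_⟩
        · exact (map_zero _).trans (grY_neg (by omega) hx).symm
        · rw [hlo _ (by omega)] at hn
          refine ((Submodule.mem_bot K).1 hn).trans ?_
          exact ((congrArg₂ (· + ·) (map_zero (augR (rcPG G lo hlo hfin R) G R.v))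
            (map_zero G.d)).trans (add_zero _)).symm
      · obtain ⟨m, rfl⟩ : ∃ m : ℕ, k = m := ⟨k.toNat, by omega⟩
        have hx0 : ∀ σ, x σ ∈ A.G ((m : ℤ) - 1 - (R.s σ : ℤ)) := fun σ => (hx σ).1
        have hs : x.support ⊆ R.F m := by
          intro σ hσ
          refine (R.mem_F m σ).2 ?_
          by_contra hc
          exact (Finsupp.mem_support_iff.1 hσ) (neg (hx0 σ) (by omega))
        let xo : R.ι → (CellsDG830.op A).C := fun σ => MulOpposite.op (x σ)
        have hc : ∀ τ, (CellsDG830.op A).D (xo τ) + ∑ σ ∈ R.F m, xo σ * R.c σ τ = 0 := by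
          intro τ
          have h1 := tY_self_d (rcPG G lo hlo hfin R) x (R.F m) hs τ
          rw [hd] at h1
          have h2 : MulOpposite.op (A.D (x τ)) +
              MulOpposite.op (∑ σ ∈ R.F m, (R.c σ τ).unop * x σ) = 0 := by
            rw [← op_add]
            exact (congrArg MulOpposite.op h1).symm
          have h3 : MulOpposite.op (∑ σ ∈ R.F m, (R.c σ τ).unop * x σ) =
              ∑ σ ∈ R.F m, xo σ * R.c σ τ := by
            have := map_sum (opAddEquiv (α := A.C)) (fun σ => (R.c σ τ).unop * x σ) (R.F m)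
            exact this
          rw [h3] at h2
          exact h2
        have ha : ∑ σ ∈ R.F m, xo σ • R.v σ + (dgmR G lo hlo hfin).d n = 0 := by
          refine Eq.trans ?_ hsum
          exact congrArg (· + G.d n) (augR_sum (rcPG G lo hlo hfin R) G R.v x (R.F m) hs).symm
        obtain ⟨y, hy1, hy2, hy3⟩ := R.ex m xo n hx0 hn hc ha
        have hz : ∀ σ, m < R.s σ → (y σ).unop = 0 := fun σ hσ =>
          neg (A := A) (hy1 σ) (by omega)
        let z : R.ι →₀ A.C := Finsupp.onFinset (R.F m) (fun σ => (y σ).unop) fun σ hσ =>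
          (R.mem_F m σ).2 (by
            by_contra hc
            exact hσ (hz σ (by omega)))
        have hzs : z.support ⊆ R.F m := Finsupp.support_onFinset_subset
        refine ⟨z, fun σ => ⟨hy1 σ, one_mul (y σ).unop⟩, 0, Submodule.zero_mem _, ?_, ?_⟩
        · refine Finsupp.ext fun τ => ?_
          refine (tY_self_d (rcPG G lo hlo hfin R) z (R.F m) hzs τ).trans ?_
          have h4 := congrArg MulOpposite.unop (hy2 τ)
          have h5 : x τ = MulOpposite.unop ((CellsDG830.op A).D (y τ)) +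
              MulOpposite.unop (∑ σ ∈ R.F m, y σ * R.c σ τ) := h4
          have h6 : MulOpposite.unop (∑ σ ∈ R.F m, y σ * R.c σ τ) =
              ∑ σ ∈ R.F m, (R.c σ τ).unop * (y σ).unop := by
            have := map_sum (opAddEquiv (α := A.C)).symm (fun σ => y σ * R.c σ τ) (R.F m)
            exact this
          rw [h6] at h5
          exact h5.symm
        · refine hy3.trans ?_
          refine Eq.trans ?_ (congrArg₂ (· + ·) rfl (map_zero G.d).symm)
          refine Eq.trans ?_ (add_zero _).symm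
          exact (augR_sum (rcPG G lo hlo hfin R) G R.v z (R.F m) hzs).symm }

include hlo hfin in
/-- **every bounded below, locally finite right dg module has a cell resolution** -/
theorem exists_rres :
    ∃ (Y : RCells A) (R : RRes Y G), R.lo = lo ∧ ∀ σ, Y.e σ = 1 := by
  letI : Module (CellsDG830.op A).C G.X := G.act
  haveI : IsScalarTower K (CellsDG830.op A).C G.X := G.tower
  obtain ⟨R⟩ := exists_preDG (dgmR G lo hlo hfin)
  exact ⟨rcPG G lo hlo hfin R, rresPG G lo hlo hfin R, rfl, fun _ => rfl⟩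

end right

end Crest.Agent.R186.Res255
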