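import Crest.Agent.R186.WinA_810
import Crest.Agent.R186.Frame_515
import Crest.Agent.R186.FinV_988
import Crest.Agent.R186.Res3_255

-- ▼ part R186/WBM_163
section

/-!
Row 186, half (A) (helper163): the GENERIC WINDOW FUNCTOR.

`TB w w'` : a tri-graded dg bimodule `B` over the (global) tri-graded dg algebras `w.S`, `w'.S`, with an
offset `(p0, a0)`.  Its window `T.X = Ob × Ob' → B` (all matrices), with the homogeneous parts
`T.gr k = {m | m i j ∈ pieces of B of degree (P i - P' j + p0, A i - A' j + a0, k)}`, is a dg bimodule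
over the window algebras `w.Win`, `w'.Win` (left action `(x m) i j = ∑ l, x i l · m l j`,
right action `(m y) i j = ∑ l, m i l · y l j`, entrywise differential).
`TL w`, `TR w` : the one-sided versions (`Ob → N`).
-/

set_option autoImplicit false
set_option linter.style.haveILetI false

open scoped MulOpposite

namespace Crest.Agent.R186.WBM163

open Hat827 Win810 Win810.WD Frame515

variable {K : Type} [Field K]

/-! ### left modules -/

/-- tri-graded left dg module over `w.S` -/
structure TL (w : WD K) where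
  B : Type
  [grp : AddCommGroup B]
  [mod : Module K B]
  l : w.S →ₐ[K] Module.End K B
  p : ℤ → ℤ → ℤ → Submodule K B
  lm : ∀ {P A C P' A' C' : ℤ} {a : w.S} {x : B}, a ∈ w.pc P A C → x ∈ p P' A' C' →
    l a x ∈ p (P + P') (A + A') (C + C')
  d : B →ₗ[K] B
  d_mem : ∀ {P A C : ℤ} {x : B}, x ∈ p P A C → d x ∈ p P A (C - 1)
  d_d : ∀ x : B, d (d x) = 0
  leib : ∀ (a : w.S) (x : B), d (l a x) = l (w.D a) x + l a (d x)
  p0 : ℤ
  a0 : ℤ

attribute [instance] TL.grp TL.mod

namespace TL

variable {w : WD K} (T : TL w)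

/-- the window -/
def X : Type := w.Ob → T.B

instance : AddCommGroup T.X := inferInstanceAs (AddCommGroup (w.Ob → T.B))
instance : Module K T.X := inferInstanceAs (Module K (w.Ob → T.B))

theorem ext {m m' : T.X} (h : ∀ i, m i = m' i) : m = m' := funext h
@[simp] theorem add_apply (m m' : T.X) (i : w.Ob) : (m + m') i = m i + m' i := rfl
@[simp] theorem zero_apply (i : w.Ob) : (0 : T.X) i = 0 := rfl
@[simp] theorem neg_apply (m : T.X) (i : w.Ob) : (-m) i = -(m i) := rfl
@[simp] theorem sub_apply (m m' : T.X) (i : w.Ob) : (m - m') i = m i - m' i := rfl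
@[simp] theorem ksmul_apply (c : K) (m : T.X) (i : w.Ob) : (c • m) i = c • m i := rfl
@[simp] theorem sum_apply {ι : Type} (s : Finset ι) (f : ι → T.X) (i : w.Ob) :
    (∑ a ∈ s, f a) i = ∑ a ∈ s, f a i := Finset.sum_apply i s f

/-- the pieces of an entry -/
def q (i : w.Ob) (k : ℤ) : Submodule K T.B := T.p (w.P i + T.p0) (w.A i + T.a0) k

/-- homogeneous elements -/
def gr (k : ℤ) : Submodule K T.X where
  carrier := {m | ∀ i, m i ∈ T.q i k}
  add_mem' ha hb i := Submodule.add_mem _ (ha i) (hb i)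
  zero_mem' _ := Submodule.zero_mem _
  smul_mem' c _ ha i := Submodule.smul_mem _ c (ha i)

theorem mem_gr {k : ℤ} {m : T.X} : m ∈ T.gr k ↔ ∀ i, m i ∈ T.q i k := Iff.rfl

instance : Module w.Win T.X where
  smul x m := fun i => ∑ l, T.l (x.1 i l) (m l)
  one_smul m := by
    funext i
    change ∑ l, T.l ((1 : Matrix w.Ob w.Ob w.S) i l) (m l) = m i
    rw [Finset.sum_eq_single i]
    · rw [Matrix.one_apply_eq, map_one]; rfl
    · intro l _ hl
      rw [Matrix.one_apply_ne (Ne.symm hl), map_zero]; rfl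
    · intro h
      exact absurd (Finset.mem_univ _) h
  mul_smul x y m := by
    funext i
    change ∑ l, T.l ((x.1 * y.1) i l) (m l) = ∑ l, T.l (x.1 i l) (∑ l', T.l (y.1 l l') (m l'))
    simp only [Matrix.mul_apply, map_sum, LinearMap.sum_apply, map_mul, Module.End.mul_apply]
    exact Finset.sum_comm
  smul_zero x := by
    funext i
    change ∑ l, T.l (x.1 i l) (0 : T.B) = 0
    simp
  smul_add x m m' := by
    funext i
    change ∑ l, T.l (x.1 i l) (m l + m' l) = _ + _
    simp only [map_add, Finset.sum_add_distrib]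
    rfl
  add_smul x y m := by
    funext i
    change ∑ l, T.l (x.1 i l + y.1 i l) (m l) = _
    simp only [map_add, LinearMap.add_apply, Finset.sum_add_distrib]
    rfl
  zero_smul m := by
    funext i
    change ∑ l, T.l (0 : w.S) (m l) = 0
    simp

theorem smul_apply (x : w.Win) (m : T.X) (i : w.Ob) : (x • m) i = ∑ l, T.l (x.1 i l) (m l) := rfl

instance : IsScalarTower K w.Win T.X where
  smul_assoc c x m := by
    funext i
    change ∑ l, T.l (c • x.1 i l) (m l) = c • ∑ l, T.l (x.1 i l) (m l)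
    simp only [map_smul, LinearMap.smul_apply, Finset.smul_sum]

/-- the differential -/
def dX : T.X →ₗ[K] T.X where
  toFun m := fun i => T.d (m i)
  map_add' m m' := by funext i; exact map_add T.d _ _
  map_smul' c m := by funext i; exact map_smul T.d _ _

@[simp] theorem dX_apply (m : T.X) (i : w.Ob) : T.dX m i = T.d (m i) := rfl

theorem dX_dX (m : T.X) : T.dX (T.dX m) = 0 := by
  funext i
  exact T.d_d _

theorem dX_mem {k : ℤ} {m : T.X} (h : m ∈ T.gr k) : T.dX m ∈ T.gr (k - 1) := fun i =>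
  T.d_mem (h i)

theorem q_l {i j : w.Ob} {k l : ℤ} {a : w.S} {x : T.B} (ha : a ∈ w.q i j k) (hx : x ∈ T.q j l) :
    T.l a x ∈ T.q i (k + l) := by
  have h := T.lm ha hx
  unfold q
  rwa [show w.P i - w.P j + (w.P j + T.p0) = w.P i + T.p0 by ring,
    show w.A i - w.A j + (w.A j + T.a0) = w.A i + T.a0 by ring] at h

theorem smul_mem {k l : ℤ} {x : w.Win} {m : T.X} (hx : x ∈ w.G k) (hm : m ∈ T.gr l) :
    x • m ∈ T.gr (k + l) := fun i =>
  Submodule.sum_mem _ fun j _ => T.q_l (hx i j) (hm j)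

theorem leibX (x : w.Win) (m : T.X) : T.dX (x • m) = w.DW x • m + x • T.dX m := by
  funext i
  change T.d (∑ l, T.l (x.1 i l) (m l)) = ∑ l, T.l (w.D (x.1 i l)) (m l) + ∑ l, T.l (x.1 i l) (T.d (m l))
  rw [map_sum, ← Finset.sum_add_distrib]
  exact Finset.sum_congr rfl fun l _ => T.leib _ _

theorem two (m : T.X) : m + m = 0 := by
  have h2 : ∀ x : T.B, x + x = 0 := fun x => by
    have h1 : T.l 1 x = x := by rw [map_one]; rfl
    have h3 : T.l (1 + 1) x = x + x := by rw [map_add, LinearMap.add_apply, h1]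
    rw [← h3, w.two, map_zero]; rfl
  funext i
  exact h2 _




/-- the window of a left module -/
def win : LM w.dga where
  X := T.X
  gr := T.gr
  d := T.dX
  d_mem := T.dX_mem
  d_d := T.dX_dX
  act := inferInstanceAs (Module w.Win T.X)
  tower := inferInstanceAs (IsScalarTower K w.Win T.X)
  smul_mem := T.smul_mem
  leib := T.leibX


/-- maps of tri-graded left modules, of degree zero relative to the offsets -/
structure Hom (T T' : TL w) where
  f : T.B →ₗ[K] T'.B
  f_l : ∀ (a : w.S) (x : T.B), f (T.l a x) = T'.l a (f x)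
  f_d : ∀ x : T.B, f (T.d x) = T'.d (f x)
  f_mem : ∀ {P A C : ℤ} {x : T.B}, x ∈ T.p (P + T.p0) (A + T.a0) C → f x ∈ T'.p (P + T'.p0) (A + T'.a0) C

variable {T}

/-- the induced linear map of windows -/
def Hom.fX {T' : TL w} (φ : Hom T T') : T.X →ₗ[K] T'.X where
  toFun := fun m => fun i => φ.f (m i)
  map_add' := fun m m' => by funext i; exact map_add φ.f _ _
  map_smul' := fun c m => by funext i; exact map_smul φ.f _ _

/-- the induced map of windows -/
def Hom.win {T' : TL w} (φ : Hom T T') : GCHom T.win.toGC T'.win.toGC where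
  f := φ.fX
  f_mem hx i := φ.f_mem (hx i)
  f_d x := by funext i; exact φ.f_d _

@[simp] theorem Hom.fX_apply {T' : TL w} (φ : Hom T T') (m : T.X) (i : w.Ob) : φ.fX m i = φ.f (m i) := rfl



variable (T)

theorem gr_finite [∀ P A C, Module.Finite K (T.p P A C)] (k : ℤ) : Module.Finite K (T.gr k) := by
  have : ∀ i : w.Ob, Module.Finite K (T.q i k) := fun i => by unfold q; infer_instance
  let f : T.gr k →ₗ[K] (∀ i : w.Ob, T.q i k) :=
    { toFun := fun m i => ⟨m.1 i, m.2 i⟩
      map_add' := fun _ _ => rfl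
      map_smul' := fun _ _ => rfl }
  refine Module.Finite.of_injective f fun a b h => ?_
  apply Subtype.ext
  funext i
  exact congrArg Subtype.val (congrFun h i)

end TL

/-! ### right modules -/

/-- tri-graded right dg module over `w.S` -/
structure TR (w : WD K) where
  B : Type
  [grp : AddCommGroup B]
  [mod : Module K B]
  r : (w.S)ᵐᵒᵖ →ₐ[K] Module.End K B
  p : ℤ → ℤ → ℤ → Submodule K B
  rm : ∀ {P A C P' A' C' : ℤ} {x : B} {b : w.S}, x ∈ p P A C → b ∈ w.pc P' A' C' →
    r (.op b) x ∈ p (P + P') (A + A') (C + C')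
  d : B →ₗ[K] B
  d_mem : ∀ {P A C : ℤ} {x : B}, x ∈ p P A C → d x ∈ p P A (C - 1)
  d_d : ∀ x : B, d (d x) = 0
  leib : ∀ (b : w.S) (x : B), d (r (.op b) x) = r (.op (w.D b)) x + r (.op b) (d x)
  p0 : ℤ
  a0 : ℤ

attribute [instance] TR.grp TR.mod

namespace TR

variable {w : WD K} (T : TR w)

/-- the window -/
def X : Type := w.Ob → T.B

instance : AddCommGroup T.X := inferInstanceAs (AddCommGroup (w.Ob → T.B))
instance : Module K T.X := inferInstanceAs (Module K (w.Ob → T.B))

theorem ext {m m' : T.X} (h : ∀ i, m i = m' i) : m = m' := funext h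
@[simp] theorem add_apply (m m' : T.X) (i : w.Ob) : (m + m') i = m i + m' i := rfl
@[simp] theorem zero_apply (i : w.Ob) : (0 : T.X) i = 0 := rfl
@[simp] theorem sub_apply (m m' : T.X) (i : w.Ob) : (m - m') i = m i - m' i := rfl
@[simp] theorem ksmul_apply (c : K) (m : T.X) (i : w.Ob) : (c • m) i = c • m i := rfl
@[simp] theorem sum_apply {ι : Type} (s : Finset ι) (f : ι → T.X) (i : w.Ob) :
    (∑ a ∈ s, f a) i = ∑ a ∈ s, f a i := Finset.sum_apply i s f

/-- the pieces of an entry -/
def q (j : w.Ob) (k : ℤ) : Submodule K T.B := T.p (T.p0 - w.P j) (T.a0 - w.A j) k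

/-- homogeneous elements -/
def gr (k : ℤ) : Submodule K T.X where
  carrier := {m | ∀ i, m i ∈ T.q i k}
  add_mem' ha hb i := Submodule.add_mem _ (ha i) (hb i)
  zero_mem' _ := Submodule.zero_mem _
  smul_mem' c _ ha i := Submodule.smul_mem _ c (ha i)

theorem mem_gr {k : ℤ} {m : T.X} : m ∈ T.gr k ↔ ∀ i, m i ∈ T.q i k := Iff.rfl

instance : Module (w.Win)ᵐᵒᵖ T.X where
  smul y m := fun j => ∑ l, T.r (.op (y.unop.1 l j)) (m l)
  one_smul m := by
    funext j
    change ∑ l, T.r (.op ((1 : Matrix w.Ob w.Ob w.S) l j)) (m l) = m j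
    rw [Finset.sum_eq_single j]
    · rw [Matrix.one_apply_eq, MulOpposite.op_one, map_one]; rfl
    · intro l _ hl
      rw [Matrix.one_apply_ne hl, MulOpposite.op_zero, map_zero]; rfl
    · intro h
      exact absurd (Finset.mem_univ _) h
  mul_smul x y m := by
    funext j
    change ∑ l, T.r (.op ((y.unop.1 * x.unop.1) l j)) (m l) =
      ∑ l, T.r (.op (x.unop.1 l j)) (∑ l', T.r (.op (y.unop.1 l' l)) (m l'))
    have hop : ∀ l, (MulOpposite.op ((y.unop.1 * x.unop.1) l j) : (w.S)ᵐᵒᵖ) =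
        ∑ l', MulOpposite.op (x.unop.1 l' j) * MulOpposite.op (y.unop.1 l l') := fun l => by
      rw [Matrix.mul_apply, Finset.op_sum]
      exact Finset.sum_congr rfl fun l' _ => MulOpposite.op_mul _ _
    simp only [hop, map_sum, LinearMap.sum_apply, map_mul, Module.End.mul_apply]
    exact Finset.sum_comm
  smul_zero y := by
    funext j
    change ∑ l, T.r (.op (y.unop.1 l j)) (0 : T.B) = 0
    simp
  smul_add y m m' := by
    funext j
    change ∑ l, T.r (.op (y.unop.1 l j)) (m l + m' l) = _ + _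
    simp only [map_add, Finset.sum_add_distrib]
    rfl
  add_smul x y m := by
    funext j
    change ∑ l, T.r (.op (x.unop.1 l j + y.unop.1 l j)) (m l) = _
    simp only [MulOpposite.op_add, map_add, LinearMap.add_apply, Finset.sum_add_distrib]
    rfl
  zero_smul m := by
    funext j
    change ∑ l, T.r (.op (0 : w.S)) (m l) = 0
    simp

theorem op_smul_apply (y : w.Win) (m : T.X) (j : w.Ob) :
    (MulOpposite.op y • m) j = ∑ l, T.r (.op (y.1 l j)) (m l) := rfl

instance : IsScalarTower K (w.Win)ᵐᵒᵖ T.X where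
  smul_assoc c y m := by
    funext j
    change ∑ l, T.r (.op (c • y.unop.1 l j)) (m l) = c • ∑ l, T.r (.op (y.unop.1 l j)) (m l)
    simp only [MulOpposite.op_smul, map_smul, LinearMap.smul_apply, Finset.smul_sum]

/-- the differential -/
def dX : T.X →ₗ[K] T.X where
  toFun m := fun i => T.d (m i)
  map_add' m m' := by funext i; exact map_add T.d _ _
  map_smul' c m := by funext i; exact map_smul T.d _ _

@[simp] theorem dX_apply (m : T.X) (i : w.Ob) : T.dX m i = T.d (m i) := rfl

theorem dX_dX (m : T.X) : T.dX (T.dX m) = 0 := by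
  funext i
  exact T.d_d _

theorem dX_mem {k : ℤ} {m : T.X} (h : m ∈ T.gr k) : T.dX m ∈ T.gr (k - 1) := fun i =>
  T.d_mem (h i)

theorem q_r {j j' : w.Ob} {k l : ℤ} {x : T.B} {b : w.S} (hx : x ∈ T.q j k)
    (hb : b ∈ w.q j j' l) : T.r (.op b) x ∈ T.q j' (k + l) := by
  have h := T.rm hx hb
  unfold q
  rwa [show T.p0 - w.P j + (w.P j - w.P j') = T.p0 - w.P j' by ring,
    show T.a0 - w.A j + (w.A j - w.A j') = T.a0 - w.A j' by ring] at h

theorem op_smul_mem {k l : ℤ} {y : w.Win} {m : T.X} (hy : y ∈ w.G k) (hm : m ∈ T.gr l) :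
    MulOpposite.op y • m ∈ T.gr (k + l) := fun j' =>
  Submodule.sum_mem _ fun j _ => by
    rw [add_comm k l]
    exact T.q_r (hm j) (hy j j')

theorem leibX (y : w.Win) (m : T.X) : T.dX (MulOpposite.op y • m) =
    MulOpposite.op (w.DW y) • m + MulOpposite.op y • T.dX m := by
  funext j
  change T.d (∑ l, T.r (.op (y.1 l j)) (m l)) =
    ∑ l, T.r (.op (w.D (y.1 l j))) (m l) + ∑ l, T.r (.op (y.1 l j)) (T.d (m l))
  rw [map_sum, ← Finset.sum_add_distrib]
  exact Finset.sum_congr rfl fun l _ => T.leib _ _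




/-- the window of a right module -/
def win : RM w.dga where
  X := T.X
  gr := T.gr
  d := T.dX
  d_mem := T.dX_mem
  d_d := T.dX_dX
  act := inferInstanceAs (Module (w.Win)ᵐᵒᵖ T.X)
  tower := inferInstanceAs (IsScalarTower K (w.Win)ᵐᵒᵖ T.X)
  smul_mem := T.op_smul_mem
  leib := T.leibX


/-- maps of tri-graded right modules, of degree zero relative to the offsets -/
structure Hom (T T' : TR w) where
  f : T.B →ₗ[K] T'.B
  f_r : ∀ (b : (w.S)ᵐᵒᵖ) (x : T.B), f (T.r b x) = T'.r b (f x)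
  f_d : ∀ x : T.B, f (T.d x) = T'.d (f x)
  f_mem : ∀ {P A C : ℤ} {x : T.B}, x ∈ T.p (T.p0 - P) (T.a0 - A) C → f x ∈ T'.p (T'.p0 - P) (T'.a0 - A) C

variable {T}

/-- the induced linear map of windows -/
def Hom.fX {T' : TR w} (φ : Hom T T') : T.X →ₗ[K] T'.X where
  toFun := fun m => fun i => φ.f (m i)
  map_add' := fun m m' => by funext i; exact map_add φ.f _ _
  map_smul' := fun c m => by funext i; exact map_smul φ.f _ _

/-- the induced map of windows -/
def Hom.win {T' : TR w} (φ : Hom T T') : GCHom T.win.toGC T'.win.toGC where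
  f := φ.fX
  f_mem hx i := φ.f_mem (hx i)
  f_d x := by funext i; exact φ.f_d _

@[simp] theorem Hom.fX_apply {T' : TR w} (φ : Hom T T') (m : T.X) (i : w.Ob) : φ.fX m i = φ.f (m i) := rfl



end TR

/-! ### bimodules -/

/-- tri-graded dg bimodule over `w.S`, `w'.S` -/
structure TB (w w' : WD K) where
  B : Type
  [grp : AddCommGroup B]
  [mod : Module K B]
  l : w.S →ₐ[K] Module.End K B
  r : (w'.S)ᵐᵒᵖ →ₐ[K] Module.End K B
  comm : ∀ (a : w.S) (b : (w'.S)ᵐᵒᵖ) (x : B), l a (r b x) = r b (l a x)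
  p : ℤ → ℤ → ℤ → Submodule K B
  lm : ∀ {P A C P' A' C' : ℤ} {a : w.S} {x : B}, a ∈ w.pc P A C → x ∈ p P' A' C' →
    l a x ∈ p (P + P') (A + A') (C + C')
  rm : ∀ {P A C P' A' C' : ℤ} {x : B} {b : w'.S}, x ∈ p P A C → b ∈ w'.pc P' A' C' →
    r (.op b) x ∈ p (P + P') (A + A') (C + C')
  d : B →ₗ[K] B
  d_mem : ∀ {P A C : ℤ} {x : B}, x ∈ p P A C → d x ∈ p P A (C - 1)
  d_d : ∀ x : B, d (d x) = 0
  leibl : ∀ (a : w.S) (x : B), d (l a x) = l (w.D a) x + l a (d x)
  leibr : ∀ (b : w'.S) (x : B), d (r (.op b) x) = r (.op (w'.D b)) x + r (.op b) (d x)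
  p0 : ℤ
  a0 : ℤ

attribute [instance] TB.grp TB.mod

namespace TB

variable {w w' : WD K} (T : TB w w')

/-- the window -/
def X : Type := w.Ob → w'.Ob → T.B

instance : AddCommGroup T.X := inferInstanceAs (AddCommGroup (w.Ob → w'.Ob → T.B))
instance : Module K T.X := inferInstanceAs (Module K (w.Ob → w'.Ob → T.B))

theorem ext {m m' : T.X} (h : ∀ i j, m i j = m' i j) : m = m' :=
  funext fun i => funext fun j => h i j
@[simp] theorem add_apply (m m' : T.X) (i : w.Ob) (j : w'.Ob) : (m + m') i j = m i j + m' i j := rfl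
@[simp] theorem zero_apply (i : w.Ob) (j : w'.Ob) : (0 : T.X) i j = 0 := rfl
@[simp] theorem neg_apply (m : T.X) (i : w.Ob) (j : w'.Ob) : (-m) i j = -(m i j) := rfl
@[simp] theorem ksmul_apply (c : K) (m : T.X) (i : w.Ob) (j : w'.Ob) : (c • m) i j = c • m i j := rfl
theorem sum_apply {ι : Type} (s : Finset ι) (f : ι → T.X) (i : w.Ob) (j : w'.Ob) :
    (∑ a ∈ s, f a) i j = ∑ a ∈ s, f a i j := by
  classical
  induction s using Finset.induction_on with
  | empty => rfl
  | insert a s ha ih =>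
    rw [Finset.sum_insert ha, Finset.sum_insert ha, add_apply, ih]

/-- the pieces of an entry -/
def q (i : w.Ob) (j : w'.Ob) (k : ℤ) : Submodule K T.B :=
  T.p (w.P i - w'.P j + T.p0) (w.A i - w'.A j + T.a0) k

/-- homogeneous elements -/
def gr (k : ℤ) : Submodule K T.X where
  carrier := {m | ∀ i j, m i j ∈ T.q i j k}
  add_mem' ha hb i j := Submodule.add_mem _ (ha i j) (hb i j)
  zero_mem' _ _ := Submodule.zero_mem _
  smul_mem' c _ ha i j := Submodule.smul_mem _ c (ha i j)

theorem mem_gr {k : ℤ} {m : T.X} : m ∈ T.gr k ↔ ∀ i j, m i j ∈ T.q i j k := Iff.rfl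

instance : Module w.Win T.X where
  smul x m := fun i j => ∑ l, T.l (x.1 i l) (m l j)
  one_smul m := by
    funext i j
    change ∑ l, T.l ((1 : Matrix w.Ob w.Ob w.S) i l) (m l j) = m i j
    rw [Finset.sum_eq_single i]
    · rw [Matrix.one_apply_eq, map_one]; rfl
    · intro l _ hl
      rw [Matrix.one_apply_ne (Ne.symm hl), map_zero]; rfl
    · intro h
      exact absurd (Finset.mem_univ _) h
  mul_smul x y m := by
    funext i j
    change ∑ l, T.l ((x.1 * y.1) i l) (m l j) = ∑ l, T.l (x.1 i l) (∑ l', T.l (y.1 l l') (m l' j))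
    simp only [Matrix.mul_apply, map_sum, LinearMap.sum_apply, map_mul, Module.End.mul_apply]
    exact Finset.sum_comm
  smul_zero x := by
    funext i j
    change ∑ l, T.l (x.1 i l) (0 : T.B) = 0
    simp
  smul_add x m m' := by
    funext i j
    change ∑ l, T.l (x.1 i l) (m l j + m' l j) = _ + _
    simp only [map_add, Finset.sum_add_distrib]
    rfl
  add_smul x y m := by
    funext i j
    change ∑ l, T.l (x.1 i l + y.1 i l) (m l j) = _
    simp only [map_add, LinearMap.add_apply, Finset.sum_add_distrib]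
    rfl
  zero_smul m := by
    funext i j
    change ∑ l, T.l (0 : w.S) (m l j) = 0
    simp

theorem smul_apply (x : w.Win) (m : T.X) (i : w.Ob) (j : w'.Ob) :
    (x • m) i j = ∑ l, T.l (x.1 i l) (m l j) := rfl

instance : IsScalarTower K w.Win T.X where
  smul_assoc c x m := by
    funext i j
    change ∑ l, T.l (c • x.1 i l) (m l j) = c • ∑ l, T.l (x.1 i l) (m l j)
    simp only [map_smul, LinearMap.smul_apply, Finset.smul_sum]

instance : Module (w'.Win)ᵐᵒᵖ T.X where
  smul y m := fun i j => ∑ l, T.r (.op (y.unop.1 l j)) (m i l)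
  one_smul m := by
    funext i j
    change ∑ l, T.r (.op ((1 : Matrix w'.Ob w'.Ob w'.S) l j)) (m i l) = m i j
    rw [Finset.sum_eq_single j]
    · rw [Matrix.one_apply_eq, MulOpposite.op_one, map_one]; rfl
    · intro l _ hl
      rw [Matrix.one_apply_ne hl, MulOpposite.op_zero, map_zero]; rfl
    · intro h
      exact absurd (Finset.mem_univ _) h
  mul_smul x y m := by
    funext i j
    change ∑ l, T.r (.op ((y.unop.1 * x.unop.1) l j)) (m i l) =
      ∑ l, T.r (.op (x.unop.1 l j)) (∑ l', T.r (.op (y.unop.1 l' l)) (m i l'))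
    have hop : ∀ l, (MulOpposite.op ((y.unop.1 * x.unop.1) l j) : (w'.S)ᵐᵒᵖ) =
        ∑ l', MulOpposite.op (x.unop.1 l' j) * MulOpposite.op (y.unop.1 l l') := fun l => by
      rw [Matrix.mul_apply, Finset.op_sum]
      exact Finset.sum_congr rfl fun l' _ => MulOpposite.op_mul _ _
    simp only [hop, map_sum, LinearMap.sum_apply, map_mul, Module.End.mul_apply]
    exact Finset.sum_comm
  smul_zero y := by
    funext i j
    change ∑ l, T.r (.op (y.unop.1 l j)) (0 : T.B) = 0
    simp
  smul_add y m m' := by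
    funext i j
    change ∑ l, T.r (.op (y.unop.1 l j)) (m i l + m' i l) = _ + _
    simp only [map_add, Finset.sum_add_distrib]
    rfl
  add_smul x y m := by
    funext i j
    change ∑ l, T.r (.op (x.unop.1 l j + y.unop.1 l j)) (m i l) = _
    simp only [MulOpposite.op_add, map_add, LinearMap.add_apply, Finset.sum_add_distrib]
    rfl
  zero_smul m := by
    funext i j
    change ∑ l, T.r (.op (0 : w'.S)) (m i l) = 0
    simp

theorem op_smul_apply (y : w'.Win) (m : T.X) (i : w.Ob) (j : w'.Ob) :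
    (MulOpposite.op y • m) i j = ∑ l, T.r (.op (y.1 l j)) (m i l) := rfl

instance : IsScalarTower K (w'.Win)ᵐᵒᵖ T.X where
  smul_assoc c y m := by
    funext i j
    change ∑ l, T.r (.op (c • y.unop.1 l j)) (m i l) = c • ∑ l, T.r (.op (y.unop.1 l j)) (m i l)
    simp only [MulOpposite.op_smul, map_smul, LinearMap.smul_apply, Finset.smul_sum]

instance : SMulCommClass w.Win (w'.Win)ᵐᵒᵖ T.X where
  smul_comm x y m := by
    funext i j
    change ∑ l, T.l (x.1 i l) (∑ l', T.r (.op (y.unop.1 l' j)) (m l l')) =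
      ∑ l', T.r (.op (y.unop.1 l' j)) (∑ l, T.l (x.1 i l) (m l l'))
    simp only [map_sum, T.comm]
    exact Finset.sum_comm

/-- the differential -/
def dX : T.X →ₗ[K] T.X where
  toFun m := fun i j => T.d (m i j)
  map_add' m m' := by funext i j; exact map_add T.d _ _
  map_smul' c m := by funext i j; exact map_smul T.d _ _

@[simp] theorem dX_apply (m : T.X) (i : w.Ob) (j : w'.Ob) : T.dX m i j = T.d (m i j) := rfl

theorem dX_dX (m : T.X) : T.dX (T.dX m) = 0 := by
  funext i j
  exact T.d_d _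

theorem dX_mem {k : ℤ} {m : T.X} (h : m ∈ T.gr k) : T.dX m ∈ T.gr (k - 1) := fun i j =>
  T.d_mem (h i j)

theorem q_l {i j : w.Ob} {j' : w'.Ob} {k l : ℤ} {a : w.S} {x : T.B} (ha : a ∈ w.q i j k)
    (hx : x ∈ T.q j j' l) : T.l a x ∈ T.q i j' (k + l) := by
  have h := T.lm ha hx
  unfold q
  rwa [show w.P i - w.P j + (w.P j - w'.P j' + T.p0) = w.P i - w'.P j' + T.p0 by ring,
    show w.A i - w.A j + (w.A j - w'.A j' + T.a0) = w.A i - w'.A j' + T.a0 by ring] at h

theorem q_r {i : w.Ob} {j j' : w'.Ob} {k l : ℤ} {x : T.B} {b : w'.S} (hx : x ∈ T.q i j k)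
    (hb : b ∈ w'.q j j' l) : T.r (.op b) x ∈ T.q i j' (k + l) := by
  have h := T.rm hx hb
  unfold q
  rwa [show w.P i - w'.P j + T.p0 + (w'.P j - w'.P j') = w.P i - w'.P j' + T.p0 by ring,
    show w.A i - w'.A j + T.a0 + (w'.A j - w'.A j') = w.A i - w'.A j' + T.a0 by ring] at h

theorem smul_mem {k l : ℤ} {x : w.Win} {m : T.X} (hx : x ∈ w.G k) (hm : m ∈ T.gr l) :
    x • m ∈ T.gr (k + l) := fun i j' =>
  Submodule.sum_mem _ fun j _ => T.q_l (hx i j) (hm j j')

theorem op_smul_mem {k l : ℤ} {y : w'.Win} {m : T.X} (hm : m ∈ T.gr k) (hy : y ∈ w'.G l) :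
    MulOpposite.op y • m ∈ T.gr (k + l) := fun i j' =>
  Submodule.sum_mem _ fun j _ => T.q_r (hm i j) (hy j j')

theorem leibX (x : w.Win) (m : T.X) : T.dX (x • m) = w.DW x • m + x • T.dX m := by
  funext i j
  change T.d (∑ l, T.l (x.1 i l) (m l j)) =
    ∑ l, T.l (w.D (x.1 i l)) (m l j) + ∑ l, T.l (x.1 i l) (T.d (m l j))
  rw [map_sum, ← Finset.sum_add_distrib]
  exact Finset.sum_congr rfl fun l _ => T.leibl _ _

theorem leibX' (y : w'.Win) (m : T.X) : T.dX (MulOpposite.op y • m) =
    MulOpposite.op (w'.DW y) • m + MulOpposite.op y • T.dX m := by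
  funext i j
  change T.d (∑ l, T.r (.op (y.1 l j)) (m i l)) =
    ∑ l, T.r (.op (w'.D (y.1 l j))) (m i l) + ∑ l, T.r (.op (y.1 l j)) (T.d (m i l))
  rw [map_sum, ← Finset.sum_add_distrib]
  exact Finset.sum_congr rfl fun l _ => T.leibr _ _

theorem two (m : T.X) : m + m = 0 := by
  have h2 : ∀ x : T.B, x + x = 0 := fun x => by
    have h1 : T.l 1 x = x := by rw [map_one]; rfl
    have h3 : T.l (1 + 1) x = x + x := by rw [map_add, LinearMap.add_apply, h1]
    rw [← h3, w.two, map_zero]; rfl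
  funext i j
  exact h2 _

/-- the column `T e_j` as a tri-graded left module -/
def col (j : w'.Ob) : TL w where
  B := T.B
  l := T.l
  p := T.p
  lm := T.lm
  d := T.d
  d_mem := T.d_mem
  d_d := T.d_d
  leib := T.leibl
  p0 := T.p0 - w'.P j
  a0 := T.a0 - w'.A j




/-- the row `e_i T` as a tri-graded right module -/
def row (i : w.Ob) : TR w' where
  B := T.B
  r := T.r
  p := T.p
  rm := T.rm
  d := T.d
  d_mem := T.d_mem
  d_d := T.d_d
  leib := T.leibr
  p0 := w.P i + T.p0
  a0 := w.A i + T.a0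


/-- the window of a bimodule -/
def win : BM w.dga w'.dga where
  X := T.X
  gr := T.gr
  d := T.dX
  d_mem := T.dX_mem
  d_d := T.dX_dX
  actL := inferInstanceAs (Module w.Win T.X)
  towerL := inferInstanceAs (IsScalarTower K w.Win T.X)
  actR := inferInstanceAs (Module (w'.Win)ᵐᵒᵖ T.X)
  towerR := inferInstanceAs (IsScalarTower K (w'.Win)ᵐᵒᵖ T.X)
  comm := inferInstanceAs (SMulCommClass w.Win (w'.Win)ᵐᵒᵖ T.X)
  smul_mem := T.smul_mem
  leib := T.leibX
  smul_memR {k l b x} hb hx := by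
    rw [add_comm k l]
    exact T.op_smul_mem hx hb
  leibR := T.leibX'

/-- underlying left module of a tri-graded bimodule (global) -/
def shift (p1 a1 : ℤ) : TB w w' := { T with p0 := T.p0 + p1, a0 := T.a0 + a1 }

/-- the regular bimodule -/
noncomputable def self (w : WD K) : TB w w where
  B := w.S
  l := Algebra.lsmul K K w.S
  r := Algebra.lsmul K K w.S
  comm a b x := by
    change a • (b • x) = b • (a • x)
    rw [smul_comm]
  p := w.pc
  lm ha hx := w.mul_mem ha hx
  rm hx hb := w.mul_mem hx hb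
  d := w.D
  d_mem := w.D_mem
  d_d := w.D_D
  leibl a x := w.D_mul a x
  leibr b x := by
    change w.D (x * b) = x * w.D b + w.D x * b
    rw [w.D_mul, add_comm]
  p0 := 0
  a0 := 0

@[simp] theorem self_l (w : WD K) (a x : w.S) : (self w).l a x = a * x := rfl
@[simp] theorem self_r (w : WD K) (b x : w.S) : (self w).r (.op b) x = x * b := rfl



theorem gr_finite [∀ P A C, Module.Finite K (T.p P A C)] (k : ℤ) : Module.Finite K (T.gr k) := by
  have : ∀ (i : w.Ob) (j : w'.Ob), Module.Finite K (T.q i j k) := fun i j => by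
    unfold q; infer_instance
  let f : T.gr k →ₗ[K] (∀ (i : w.Ob) (j : w'.Ob), T.q i j k) :=
    { toFun := fun m i j => ⟨m.1 i j, m.2 i j⟩
      map_add' := fun _ _ => rfl
      map_smul' := fun _ _ => rfl }
  refine Module.Finite.of_injective f fun a b h => ?_
  apply Subtype.ext
  funext i j
  exact congrArg Subtype.val (congrFun (congrFun h i) j)

end TB

end Crest.Agent.R186.WBM163
end

-- ▼ part R186/Core_890

/-!
Row 186, half (A) (helper890): THE HOMOGENEOUS CORE of 163's windows.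

`WBM163.TB.win` is carried by ALL matrices; the dual `FinV988.DR` of it is not bounded.  Here:
`winS T : BM w.dga w'.dga` = matrices with entries in `⨆ k, T.q i j k` (same actions, same `d`, same
homogeneous parts), `incS : GCHom (winS T) T.win` bijective in each degree, and bounded projections
`PrL` of `winS T` when `T.B` has projections.  The same for `TL`, `TR`.
-/

set_option autoImplicit false
set_option linter.style.haveILetI false
set_option linter.unusedSectionVars false

noncomputable section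

open MulOpposite

namespace Crest.Agent.R186.Core890

open Hat827 Win810 Win810.WD Frame515 WBM163 FinV988

variable {K : Type} [Field K]

/-! ### bimodules -/

section TB

variable {w w' : WD K} (T : TB w w')

/-- entries -/
def E (i : w.Ob) (j : w'.Ob) : Submodule K T.B := ⨆ k : ℤ, T.q i j k

theorem q_le_E (i : w.Ob) (j : w'.Ob) (k : ℤ) : T.q i j k ≤ E T i j := le_iSup (fun k => T.q i j k) k

theorem l_E {i j : w.Ob} {j' : w'.Ob} {a : w.S} {x : T.B} (ha : a ∈ w.E i j) (hx : x ∈ E T j j') :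
    T.l a x ∈ E T i j' := by
  have h1 : ∀ (k : ℤ) (a : w.S), a ∈ w.q i j k → T.l a x ∈ E T i j' := by
    intro k a ha
    have h : E T j j' ≤ (E T i j').comap (T.l a) :=
      iSup_le fun l y hy => q_le_E T i j' (k + l) (T.q_l ha hy)
    exact h hx
  have h2 : w.E i j ≤ (E T i j').comap ((LinearMap.applyₗ x) ∘ₗ T.l.toLinearMap) :=
    iSup_le fun k a ha => h1 k a ha
  exact h2 ha

theorem r_E {i : w.Ob} {j j' : w'.Ob} {x : T.B} {b : w'.S} (hx : x ∈ E T i j) (hb : b ∈ w'.E j j') :
    T.r (op b) x ∈ E T i j' := by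
  have h1 : ∀ (k : ℤ) (b : w'.S), b ∈ w'.q j j' k → T.r (op b) x ∈ E T i j' := by
    intro k b hb
    have h : E T i j ≤ (E T i j').comap (T.r (op b)) :=
      iSup_le fun l y hy => q_le_E T i j' (l + k) (T.q_r hy hb)
    exact h hx
  have h2 : w'.E j j' ≤ (E T i j').comap ((LinearMap.applyₗ x) ∘ₗ T.r.toLinearMap ∘ₗ
      (MulOpposite.opLinearEquiv K : w'.S ≃ₗ[K] (w'.S)ᵐᵒᵖ).toLinearMap) :=
    iSup_le fun k b hb => h1 k b hb
  exact h2 hb

theorem d_E {i : w.Ob} {j : w'.Ob} {x : T.B} (hx : x ∈ E T i j) : T.d x ∈ E T i j := by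
  have h : E T i j ≤ (E T i j).comap T.d :=
    iSup_le fun l y hy => q_le_E T i j (l - 1) (T.d_mem hy)
  exact h hx

/-- the core -/
def Xs : Submodule K T.X where
  carrier := {m | ∀ i j, m i j ∈ E T i j}
  add_mem' ha hb i j := Submodule.add_mem _ (ha i j) (hb i j)
  zero_mem' _ _ := Submodule.zero_mem _
  smul_mem' c _ ha i j := Submodule.smul_mem _ c (ha i j)


theorem gr_le_Xs (k : ℤ) : T.gr k ≤ Xs T := fun m hm i j => q_le_E T i j k (hm i j)

theorem smul_Xs (x : w.Win) {m : T.X} (hm : m ∈ Xs T) : x • m ∈ Xs T := fun i j => by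
  rw [T.smul_apply]
  exact Submodule.sum_mem _ fun l _ => l_E T (x.2 i l) (hm l j)

theorem op_smul_Xs (y : (w'.Win)ᵐᵒᵖ) {m : T.X} (hm : m ∈ Xs T) : y • m ∈ Xs T := fun i j => by
  change (op y.unop • m) i j ∈ _
  rw [T.op_smul_apply]
  exact Submodule.sum_mem _ fun l _ => r_E T (hm i l) (y.unop.2 l j)

theorem dX_Xs {m : T.X} (hm : m ∈ Xs T) : T.dX m ∈ Xs T := fun i j => d_E T (hm i j)

instance instL : Module w.Win (Xs T) where
  smul x m := ⟨x • m.1, smul_Xs T x m.2⟩
  one_smul m := Subtype.ext (one_smul _ m.1)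
  mul_smul x y m := Subtype.ext (mul_smul x y m.1)
  smul_zero x := Subtype.ext (smul_zero x)
  smul_add x m n := Subtype.ext (smul_add x m.1 n.1)
  add_smul x y m := Subtype.ext (add_smul x y m.1)
  zero_smul m := Subtype.ext (zero_smul _ m.1)

instance instR : Module (w'.Win)ᵐᵒᵖ (Xs T) where
  smul x m := ⟨x • m.1, op_smul_Xs T x m.2⟩
  one_smul m := Subtype.ext (one_smul _ m.1)
  mul_smul x y m := Subtype.ext (mul_smul x y m.1)
  smul_zero x := Subtype.ext (smul_zero x)
  smul_add x m n := Subtype.ext (smul_add x m.1 n.1)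
  add_smul x y m := Subtype.ext (add_smul x y m.1)
  zero_smul m := Subtype.ext (zero_smul _ m.1)


instance towL : IsScalarTower K w.Win (Xs T) :=
  ⟨fun c x m => Subtype.ext (smul_assoc c x m.1)⟩
instance towR : IsScalarTower K (w'.Win)ᵐᵒᵖ (Xs T) :=
  ⟨fun c x m => Subtype.ext (smul_assoc c x m.1)⟩
instance cmmS : SMulCommClass w.Win (w'.Win)ᵐᵒᵖ (Xs T) :=
  ⟨fun x y m => Subtype.ext (smul_comm x y m.1)⟩

/-- the differential of the core -/
def dXs : Xs T →ₗ[K] Xs T where
  toFun m := ⟨T.dX m.1, dX_Xs T m.2⟩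
  map_add' m n := Subtype.ext (map_add T.dX m.1 n.1)
  map_smul' c m := Subtype.ext (map_smul T.dX c m.1)

@[simp] theorem dXs_coe (m : Xs T) : (dXs T m : T.X) = T.dX m.1 := rfl

/-- **the core of the window** -/
def winS : BM w.dga w'.dga where
  X := Xs T
  gr k := (T.gr k).comap (Xs T).subtype
  d := dXs T
  d_mem h := T.dX_mem h
  d_d m := Subtype.ext (T.dX_dX m.1)
  actL := inferInstanceAs (Module w.Win (Xs T))
  towerL := inferInstanceAs (IsScalarTower K w.Win (Xs T))
  actR := inferInstanceAs (Module (w'.Win)ᵐᵒᵖ (Xs T))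
  towerR := inferInstanceAs (IsScalarTower K (w'.Win)ᵐᵒᵖ (Xs T))
  comm := inferInstanceAs (SMulCommClass w.Win (w'.Win)ᵐᵒᵖ (Xs T))
  smul_mem ha hx := T.smul_mem ha hx
  leib a x := Subtype.ext (T.leibX a x.1)
  smul_memR {k l b x} hb hx := by
    have h := T.op_smul_mem hx hb
    rw [add_comm] at h
    exact h
  leibR b x := Subtype.ext (T.leibX' b x.1)

/-- the inclusion of the core -/
def incS : GCHom (winS T).toGC T.win.toGC where
  f := (Xs T).subtype
  f_mem h := h
  f_d _ := rfl




/-- projections of a bimodule over the pieces, with bounds on the window -/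
structure PB where
  pr : ℤ → ℤ → ℤ → T.B →ₗ[K] T.B
  mem : ∀ (P A C : ℤ) (x : T.B), pr P A C x ∈ T.p P A C
  same : ∀ (P A C : ℤ) (x : T.B), x ∈ T.p P A C → pr P A C x = x
  ne : ∀ (P A C C' : ℤ) (x : T.B), C ≠ C' → x ∈ T.p P A C' → pr P A C x = 0
  lo : ℤ
  hi : ℤ
  low : ∀ (i : w.Ob) (j : w'.Ob) (k : ℤ), k < lo → T.q i j k = ⊥
  high : ∀ (i : w.Ob) (j : w'.Ob) (k : ℤ), hi < k → T.q i j k = ⊥

variable {T}

/-- projections of the core -/
def PB.prX (p : PB T) (k : ℤ) : Xs T →ₗ[K] Xs T where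
  toFun m := ⟨fun i j => p.pr (w.P i - w'.P j + T.p0) (w.A i - w'.A j + T.a0) k (m.1 i j),
    fun i j => q_le_E T i j k (p.mem _ _ _ _)⟩
  map_add' m n := by
    apply Subtype.ext
    funext i j
    exact map_add (p.pr _ _ _) _ _
  map_smul' c m := by
    apply Subtype.ext
    funext i j
    exact map_smul (p.pr _ _ _) _ _


theorem PB.sum_entry (p : PB T) (i : w.Ob) (j : w'.Ob) {x : T.B} (hx : x ∈ E T i j) :
    ∑ k ∈ Finset.Icc p.lo p.hi, p.pr (w.P i - w'.P j + T.p0) (w.A i - w'.A j + T.a0) k x = x := by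
  have h : E T i j ≤ LinearMap.ker ((∑ k ∈ Finset.Icc p.lo p.hi,
      p.pr (w.P i - w'.P j + T.p0) (w.A i - w'.A j + T.a0) k) - LinearMap.id) := by
    refine iSup_le fun k x hx => ?_
    rw [LinearMap.mem_ker, LinearMap.sub_apply, LinearMap.sum_apply, LinearMap.id_apply, sub_eq_zero]
    by_cases h0 : k < p.lo
    · rw [p.low i j k h0] at hx
      rw [(Submodule.mem_bot K).1 hx]
      simp
    by_cases h1 : p.hi < k
    · rw [p.high i j k h1] at hx
      rw [(Submodule.mem_bot K).1 hx]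
      simp
    rw [Finset.sum_eq_single k]
    · exact p.same _ _ _ _ hx
    · intro l _ hl
      exact p.ne _ _ _ _ _ hl hx
    · intro hk
      exact absurd (Finset.mem_Icc.2 ⟨by omega, by omega⟩) hk
  have := h hx
  rw [LinearMap.mem_ker, LinearMap.sub_apply, LinearMap.sum_apply, LinearMap.id_apply, sub_eq_zero] at this
  exact this

theorem coe_sumS {ι : Type} (s : Finset ι) (f : ι → Xs T) (i : w.Ob) (j : w'.Ob) :
    (∑ a ∈ s, f a : Xs T).1 i j = ∑ a ∈ s, (f a).1 i j := by
  rw [AddSubmonoidClass.coe_finsetSum, TB.sum_apply]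

/-- **bounded projections of the core** -/
def PB.prL (p : PB T) : PrL (winS T).toLM where
  pr := p.prX
  pr_mem k m i j := p.mem _ _ _ _
  pr_same {k m} hm := by
    apply Subtype.ext
    funext i j
    exact p.same _ _ _ _ (hm i j)
  pr_ne {k l m} hm hkl := by
    apply Subtype.ext
    funext i j
    exact p.ne _ _ _ _ _ hkl (hm i j)
  lo := p.lo
  hi := p.hi
  pr_sum m := by
    apply Subtype.ext
    funext i j
    exact (coe_sumS _ (fun k => p.prX k m) i j).trans (p.sum_entry i j (m.2 i j))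



/-- finiteness -/
theorem gr_finiteS [∀ P A C, Module.Finite K (T.p P A C)] (k : ℤ) :
    Module.Finite K ((winS T).gr k) := by
  have h := T.gr_finite k
  let f : (winS T).gr k →ₗ[K] T.gr k :=
    { toFun := fun m => ⟨m.1.1, m.2⟩
      map_add' := fun _ _ => rfl
      map_smul' := fun _ _ => rfl }
  refine Module.Finite.of_injective f fun a b hab => ?_
  have h2 : a.1.1 = b.1.1 := congrArg (fun z : T.gr k => z.1) hab
  exact Subtype.ext (Subtype.ext h2)

end TB

/-! ### the dual of a bounded left module -/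

section dual

variable {A : DGA K} {N : LM A}

/-- bounded below -/
theorem DR_low (P : PrL N) (k : ℤ) (hk : k < -P.hi) : (DR N).gr k = ⊥ := by
  rw [eq_bot_iff]
  intro f hf
  rw [Submodule.mem_bot]
  exact dr_zero P (k := k) hf (by omega)


/-- degreewise finite -/
theorem DR_fin (P : PrL N) (hfin : ∀ k, Module.Finite K (N.gr k)) (k : ℤ) :
    Module.Finite K ((DR N).gr k) := by
  have h := hfin (-k)
  let f : (DR N).gr k →ₗ[K] (N.gr (-k) →ₗ[K] K) :=
    { toFun := fun φ => (show N.X →ₗ[K] K from φ.1) ∘ₗ (N.gr (-k)).subtype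
      map_add' := fun _ _ => rfl
      map_smul' := fun _ _ => rfl }
  refine Module.Finite.of_injective f fun φ ψ hφ => ?_
  apply Subtype.ext
  refine LinearMap.ext fun z => ?_
  have h1 : ∀ l z, z ∈ N.gr l → l ≠ -k → (show N.X →ₗ[K] K from φ.1) z = 0 := φ.2
  have h2 : ∀ l z, z ∈ N.gr l → l ≠ -k → (show N.X →ₗ[K] K from ψ.1) z = 0 := ψ.2
  have h3 : (show N.X →ₗ[K] K from φ.1) z = (show N.X →ₗ[K] K from ψ.1) z := by
    rw [← P.pr_sum z, map_sum, map_sum]
    refine Finset.sum_congr rfl fun j _ => ?_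
    by_cases hj : j = -k
    · subst hj
      exact LinearMap.congr_fun hφ ⟨_, P.pr_mem _ z⟩
    · rw [h1 j _ (P.pr_mem j z) hj, h2 j _ (P.pr_mem j z) hj]
  exact h3

/-- **right cells for the dual** -/
theorem exists_resDR (P : PrL N) (hfin : ∀ k, Module.Finite K (N.gr k)) :
    ∃ (Y : RCells A) (R : Res255.RRes Y (DR N)), R.lo = -P.hi ∧ ∀ σ, Y.e σ = 1 :=
  Res255.exists_rres (DR N) (-P.hi) (fun k hk => DR_low P k hk) (fun k => DR_fin P hfin k)

end dual

end Crest.Agent.R186.Core890
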