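import Crest.Agent.R186.Frame_515

/-!
Row 186 (helper515), FRAME of half (A), part 2: bimodule times left cells is a left module, right
cells times bimodule is a right module, associativity `(Y ⊗ P) ⊗ X = Y ⊗ (P ⊗ X)`.
-/

set_option autoImplicit false
set_option linter.style.haveILetI false
set_option linter.unusedSectionVars false
set_option linter.unusedSimpArgs false

open MulOpposite

namespace Crest.Agent.R186.Frame515

open Hat827 Hat827.DGA

variable {K : Type} [Field K] {A B : DGA K}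

/-- `P ⊗ X` as a left module -/
noncomputable def tP (P : BM A B) (X : LCells B) : LM A where
  toGC := tG P.toRM X
  act := (inferInstance : Module A.C (X.ι →₀ P.X))
  tower := (inferInstance : IsScalarTower K A.C (X.ι →₀ P.X))
  smul_mem {k l a x} ha hx := by
    intro σ
    refine ⟨?_, ?_⟩
    · have := P.smul_mem ha (hx σ).1
      rw [show k + (l - (X.s σ : ℤ)) = k + l - X.s σ by ring] at this
      exact this
    · have h := (hx σ).2
      show op (X.e σ) • (a • x σ) = a • x σ
      rw [← smul_comm a (op (X.e σ)) (x σ)]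
      exact congrArg (fun y => a • y) h
  leib a x := by
    refine Finsupp.ext fun τ => ?_
    have h1 := (twG P.toRM X).dd_apply' (show X.ι →₀ P.X from a • (show X.ι →₀ P.X from x))
      x.support (Finsupp.support_smul) τ
    have h2 := (twG P.toRM X).dd_apply' x x.support (Finset.Subset.refl _) τ
    show (twG P.toRM X).dd (show X.ι →₀ P.X from a • (show X.ι →₀ P.X from x)) τ =
      A.D a • (show X.ι →₀ P.X from x) τ + a • (twG P.toRM X).dd x τ
    rw [h1, h2]
    show P.d (a • (show X.ι →₀ P.X from x) τ) + ∑ σ ∈ x.support, op (X.c σ τ) • a •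
      (show X.ι →₀ P.X from x) σ = A.D a • (show X.ι →₀ P.X from x) τ +
      a • (P.d ((show X.ι →₀ P.X from x) τ) + ∑ σ ∈ x.support, op (X.c σ τ) •
      (show X.ι →₀ P.X from x) σ)
    rw [P.leib, smul_add, Finset.smul_sum, add_assoc]
    congr 2
    refine Finset.sum_congr rfl fun σ _ => ?_
    exact (smul_comm a (op (X.c σ τ)) _).symm

/-- `Y ⊗ P` as a right module -/
noncomputable def tQ (Y : RCells A) (P : BM A B) : RM B where
  toGC := tY Y P.toLM
  act := (inferInstance : Module B.Cᵐᵒᵖ (Y.ι →₀ P.X))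
  tower := (inferInstance : IsScalarTower K B.Cᵐᵒᵖ (Y.ι →₀ P.X))
  smul_mem {k l b x} hb hx := by
    intro σ
    refine ⟨?_, ?_⟩
    · have := P.smul_memR hb (hx σ).1
      rw [show k + (l - (Y.s σ : ℤ)) = k + l - Y.s σ by ring] at this
      exact this
    · have h := (hx σ).2
      show Y.e σ • (op b • x σ) = op b • x σ
      rw [smul_comm (Y.e σ) (op b) (x σ)]
      exact congrArg (fun y => op b • y) h
  leib b x := by
    refine Finsupp.ext fun τ => ?_
    have h1 := (twY Y P.toLM).dd_apply' (show Y.ι →₀ P.X from op b • (show Y.ι →₀ P.X from x))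
      x.support (Finsupp.support_smul) τ
    have h2 := (twY Y P.toLM).dd_apply' x x.support (Finset.Subset.refl _) τ
    show (twY Y P.toLM).dd (show Y.ι →₀ P.X from op b • (show Y.ι →₀ P.X from x)) τ =
      op (B.D b) • (show Y.ι →₀ P.X from x) τ + op b • (twY Y P.toLM).dd x τ
    rw [h1, h2]
    show P.d (op b • (show Y.ι →₀ P.X from x) τ) + ∑ σ ∈ x.support, Y.c τ σ • op b •
      (show Y.ι →₀ P.X from x) σ = op (B.D b) • (show Y.ι →₀ P.X from x) τ +
      op b • (P.d ((show Y.ι →₀ P.X from x) τ) + ∑ σ ∈ x.support, Y.c τ σ •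
      (show Y.ι →₀ P.X from x) σ)
    rw [P.leibR, smul_add, Finset.smul_sum, add_assoc]
    congr 2
    refine Finset.sum_congr rfl fun σ _ => ?_
    rw [smul_comm]

/-! ### associativity -/

section assoc

/-- exchange of the two indices -/
noncomputable def swp (α β M : Type) [AddCommGroup M] [Module K M] :
    (α →₀ β →₀ M) ≃ₗ[K] (β →₀ α →₀ M) :=
  (Finsupp.curryLinearEquiv K).symm ≪≫ₗ Finsupp.domLCongr (Equiv.prodComm α β) ≪≫ₗ
    Finsupp.curryLinearEquiv K

theorem sgl_add_sum {α β M : Type} [AddCommGroup M] (a : α) (m : M) (t : Finset β) (f : β → M) :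
    Finsupp.single a (m + ∑ b ∈ t, f b) = Finsupp.single a m + ∑ b ∈ t, Finsupp.single a (f b) := by
  rw [Finsupp.single_add]
  congr 1
  exact map_sum (Finsupp.singleAddHom a) _ _

theorem swp_apply {α β M : Type} [AddCommGroup M] [Module K M] (z : α →₀ β →₀ M) (a : α) (b : β) :
    swp (K := K) α β M z b a = z a b := by
  simp [swp]

theorem swp_single {α β M : Type} [AddCommGroup M] [Module K M] (a : α) (b : β) (m : M) :
    swp (K := K) α β M (Finsupp.single a (Finsupp.single b m)) =
      Finsupp.single b (Finsupp.single a m) := by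
  classical
  ext b' a'
  rw [swp_apply]
  simp only [Finsupp.single_apply]
  by_cases h1 : a = a' <;> by_cases h2 : b = b' <;> simp [h1, h2]

variable (Y : RCells A) (P : BM A B) (X : LCells B)

/-- `(Y ⊗ P) ⊗ X = Y ⊗ (P ⊗ X)` -/
noncomputable def asc : (tG (tQ Y P) X).X ≃ₗ[K] (tY Y (tP P X)).X := swp X.ι Y.ι P.X

theorem asc_apply (z : (tG (tQ Y P) X).X) (κ : Y.ι) (σ : X.ι) :
    (show X.ι →₀ P.X from (show Y.ι →₀ (tP P X).X from asc Y P X z) κ) σ =
      (show Y.ι →₀ P.X from (show X.ι →₀ (tQ Y P).X from z) σ) κ :=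
  swp_apply _ _ _

theorem asc_gr (k : ℤ) (z : (tG (tQ Y P) X).X) :
    z ∈ (tG (tQ Y P) X).gr k ↔ asc Y P X z ∈ (tY Y (tP P X)).gr k := by
  constructor
  · intro h κ
    refine ⟨fun σ => ⟨?_, ?_⟩, ?_⟩
    · have := ((h σ).1 κ).1
      rw [show k - (X.s σ : ℤ) - Y.s κ = k - Y.s κ - X.s σ by ring] at this
      have e := asc_apply Y P X z κ σ
      exact e ▸ this
    · have h2 := (h σ).2
      have h3 := DFunLike.congr_fun (show (op (X.e σ) • (show Y.ι →₀ P.X from
        (show X.ι →₀ (tQ Y P).X from z) σ) : Y.ι →₀ P.X) = _ from h2) κ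
      have e := asc_apply Y P X z κ σ
      show op (X.e σ) • (show X.ι →₀ P.X from (show Y.ι →₀ (tP P X).X from asc Y P X z) κ) σ = _
      rw [e]; exact h3
    · refine Finsupp.ext fun σ => ?_
      have h2 := ((h σ).1 κ).2
      have e := asc_apply Y P X z κ σ
      show Y.e κ • (show X.ι →₀ P.X from (show Y.ι →₀ (tP P X).X from asc Y P X z) κ) σ =
        (show X.ι →₀ P.X from (show Y.ι →₀ (tP P X).X from asc Y P X z) κ) σ
      rw [e]; exact h2
  · intro h σ
    refine ⟨fun κ => ⟨?_, ?_⟩, ?_⟩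
    · have := ((h κ).1 σ).1
      rw [show k - (Y.s κ : ℤ) - X.s σ = k - X.s σ - Y.s κ by ring] at this
      have e := asc_apply Y P X z κ σ
      exact e ▸ this
    · have h2 := (h κ).2
      have h3 := DFunLike.congr_fun (show (Y.e κ • (show X.ι →₀ P.X from
        (show Y.ι →₀ (tP P X).X from asc Y P X z) κ) : X.ι →₀ P.X) = _ from h2) σ
      have e := asc_apply Y P X z κ σ
      show Y.e κ • (show Y.ι →₀ P.X from (show X.ι →₀ (tQ Y P).X from z) σ) κ = _
      rw [← e]; exact h3
    · refine Finsupp.ext fun κ => ?_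
      have h2 := ((h κ).1 σ).2
      have e := asc_apply Y P X z κ σ
      show op (X.e σ) • (show Y.ι →₀ P.X from (show X.ι →₀ (tQ Y P).X from z) σ) κ =
        (show Y.ι →₀ P.X from (show X.ι →₀ (tQ Y P).X from z) σ) κ
      rw [← e]; exact h2

theorem asc_d (z : (tG (tQ Y P) X).X) :
    asc Y P X ((tG (tQ Y P) X).d z) = (tY Y (tP P X)).d (asc Y P X z) := by
  classical
  suffices h : (asc Y P X).toLinearMap ∘ₗ (tG (tQ Y P) X).d =
      (tY Y (tP P X)).d ∘ₗ (asc Y P X).toLinearMap from LinearMap.congr_fun h z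
  refine Finsupp.lhom_ext fun σ y => ?_
  suffices h2 : ∀ y : Y.ι →₀ P.X,
      asc Y P X ((tG (tQ Y P) X).d (Finsupp.single σ (show (tQ Y P).X from y))) =
      (tY Y (tP P X)).d (asc Y P X (Finsupp.single σ (show (tQ Y P).X from y))) from h2 y
  intro y
  have hlin : ((asc Y P X).toLinearMap ∘ₗ (tG (tQ Y P) X).d ∘ₗ
      (Finsupp.lsingle (R := K) (M := Y.ι →₀ P.X) σ) : (Y.ι →₀ P.X) →ₗ[K] _) =
      ((tY Y (tP P X)).d ∘ₗ (asc Y P X).toLinearMap ∘ₗ
      (Finsupp.lsingle (R := K) (M := Y.ι →₀ P.X) σ) : (Y.ι →₀ P.X) →ₗ[K] _) := by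
    refine Finsupp.lhom_ext fun κ p => ?_
    have e1 : (tG (tQ Y P) X).d (Finsupp.single σ (show (tQ Y P).X from Finsupp.single κ p)) =
        Finsupp.single σ (show (tQ Y P).X from (Finsupp.single κ (P.d p) +
          ∑ κ' ∈ Y.F (Y.s κ), Finsupp.single κ' (Y.c κ' κ • p) : Y.ι →₀ P.X)) +
        ∑ τ ∈ X.F (X.s σ), Finsupp.single τ (show (tQ Y P).X from
          (Finsupp.single κ (op (X.c σ τ) • p) : Y.ι →₀ P.X)) := by
      have h1 := (twG (tQ Y P) X).dd_single σ (show (tQ Y P).X from Finsupp.single κ p)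
      refine h1.trans ?_
      have h2 := (twY Y P.toLM).dd_single κ p
      congr 1
      · exact congrArg _ h2
      · refine Finset.sum_congr rfl fun τ _ => ?_
        congr 1
        exact Finsupp.smul_single (op (X.c σ τ)) κ p
    have e2 : (tY Y (tP P X)).d (Finsupp.single κ (show (tP P X).X from Finsupp.single σ p)) =
        Finsupp.single κ (show (tP P X).X from (Finsupp.single σ (P.d p) +
          ∑ τ ∈ X.F (X.s σ), Finsupp.single τ (op (X.c σ τ) • p) : X.ι →₀ P.X)) +
        ∑ κ' ∈ Y.F (Y.s κ), Finsupp.single κ' (show (tP P X).X from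
          (Finsupp.single σ (Y.c κ' κ • p) : X.ι →₀ P.X)) := by
      have h1 := (twY Y (tP P X)).dd_single κ (show (tP P X).X from Finsupp.single σ p)
      refine h1.trans ?_
      have h2 := (twG P.toRM X).dd_single σ p
      congr 1
      · exact congrArg _ h2
      · refine Finset.sum_congr rfl fun κ' _ => ?_
        congr 1
        exact Finsupp.smul_single (Y.c κ' κ) σ p
    show asc Y P X ((tG (tQ Y P) X).d (Finsupp.single σ (show (tQ Y P).X from
      Finsupp.single κ p))) = (tY Y (tP P X)).d (asc Y P X (Finsupp.single σ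
        (show (tQ Y P).X from Finsupp.single κ p)))
    have e3 : asc Y P X (Finsupp.single σ (show (tQ Y P).X from Finsupp.single κ p)) =
        Finsupp.single κ (show (tP P X).X from Finsupp.single σ p) := swp_single σ κ p
    rw [e3, e2, e1]
    have key : ∀ (σ' : X.ι) (κ' : Y.ι) (q : P.X),
        asc Y P X (Finsupp.single σ' (show (tQ Y P).X from Finsupp.single κ' q)) =
        Finsupp.single κ' (show (tP P X).X from Finsupp.single σ' q) :=
      fun σ' κ' q => swp_single σ' κ' q
    have a1 : (Finsupp.single σ (show (tQ Y P).X from (Finsupp.single κ (P.d p) +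
          ∑ κ' ∈ Y.F (Y.s κ), Finsupp.single κ' (Y.c κ' κ • p) : Y.ι →₀ P.X)) :
          X.ι →₀ (tQ Y P).X) =
        Finsupp.single σ (show (tQ Y P).X from (Finsupp.single κ (P.d p) : Y.ι →₀ P.X)) +
        ∑ κ' ∈ Y.F (Y.s κ), Finsupp.single σ (show (tQ Y P).X from
          (Finsupp.single κ' (Y.c κ' κ • p) : Y.ι →₀ P.X)) := by
      exact sgl_add_sum (M := Y.ι →₀ P.X) σ _ _ _
    have a2 : (Finsupp.single κ (show (tP P X).X from (Finsupp.single σ (P.d p) +
          ∑ τ ∈ X.F (X.s σ), Finsupp.single τ (op (X.c σ τ) • p) : X.ι →₀ P.X)) :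
          Y.ι →₀ (tP P X).X) =
        Finsupp.single κ (show (tP P X).X from (Finsupp.single σ (P.d p) : X.ι →₀ P.X)) +
        ∑ τ ∈ X.F (X.s σ), Finsupp.single κ (show (tP P X).X from
          (Finsupp.single τ (op (X.c σ τ) • p) : X.ι →₀ P.X)) := by
      exact sgl_add_sum (M := X.ι →₀ P.X) κ _ _ _
    rw [a1, a2, map_add, map_add, map_sum, map_sum, key]
    rw [Finset.sum_congr rfl fun κ' _ => key σ κ' _, Finset.sum_congr rfl fun τ _ => key τ κ _]
    abel
  exact LinearMap.congr_fun hlin y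


end assoc

end Crest.Agent.R186.Frame515
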