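import Crest.Agent.R186.Frame_515

-- ▼ part R186/VT_339
section

/-!
Row 186 (helper339), half (A), short road of helper306, leaf (V1) + (V2 abstract):
acyclicity of `G ⊗ X` (`X` left cells over a dg algebra) from the homology modules of `G`,
and from a filtration of the cycles with layers `⊕ P`, `P` a right module in one degree.
-/

set_option autoImplicit false
set_option linter.style.haveILetI false
set_option linter.unusedSectionVars false
set_option linter.unusedSimpArgs false

open MulOpposite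

namespace Crest.Agent.R186.VT339

open Hat827 Hat827.DGA Frame515

variable {K : Type} [Field K] {A : DGA K}

/-- boundaries of degree `n` -/
def bd (G : RM A) (n : ℤ) : Submodule K G.X where
  carrier := {x | ∃ y ∈ G.gr (n + 1), G.d y = x}
  zero_mem' := ⟨0, Submodule.zero_mem _, map_zero _⟩
  add_mem' := by
    rintro _ _ ⟨y, hy, rfl⟩ ⟨z, hz, rfl⟩
    exact ⟨y + z, Submodule.add_mem _ hy hz, map_add _ _ _⟩
  smul_mem' := by
    rintro r _ ⟨y, hy, rfl⟩
    exact ⟨r • y, Submodule.smul_mem _ r hy, map_smul _ _ _⟩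

/-- cycles of degree `n` -/
def cyc (G : RM A) (n : ℤ) : Submodule K G.X where
  carrier := {x | x ∈ G.gr n ∧ G.d x = 0}
  zero_mem' := ⟨Submodule.zero_mem _, map_zero _⟩
  add_mem' := by
    rintro x y ⟨hx, hx'⟩ ⟨hy, hy'⟩
    exact ⟨Submodule.add_mem _ hx hy, by rw [map_add, hx', hy', add_zero]⟩
  smul_mem' := by
    rintro r x ⟨hx, hx'⟩
    exact ⟨Submodule.smul_mem _ r hx, by rw [map_smul, hx', smul_zero]⟩

theorem bd_le_cyc (G : RM A) (n : ℤ) : bd G n ≤ cyc G n := by
  rintro _ ⟨y, hy, rfl⟩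
  refine ⟨?_, G.d_d y⟩
  have := G.d_mem hy
  rwa [add_sub_cancel_right] at this

theorem two_G (G : RM A) (y : G.X) : y + y = 0 := by
  have : y = op (1 : A.C) • y := by rw [op_one, one_smul]
  rw [this, ← add_smul, ← op_add, A.two, op_zero, zero_smul]

theorem sub_G (G : RM A) (x y : G.X) : x - y = x + y := by
  rw [sub_eq_add_neg]
  congr 1
  exact neg_eq_of_add_eq_zero_left (two_G G y)

theorem cyc_act {G : RM A} {n : ℤ} {x : G.X} (hx : x ∈ cyc G n) {a : A.C} (ha : a ∈ A.G 0) :
    op a • x ∈ cyc G n := by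
  refine ⟨?_, ?_⟩
  · have := G.smul_mem ha hx.1
    rwa [zero_add] at this
  · rw [G.leib, D_neg ha (by omega), op_zero, zero_smul, zero_add, hx.2, smul_zero]

theorem bd_act {G : RM A} {n : ℤ} {x : G.X} (hx : x ∈ bd G n) {a : A.C} (ha : a ∈ A.G 0) :
    op a • x ∈ bd G n := by
  obtain ⟨y, hy, rfl⟩ := hx
  refine ⟨op a • y, ?_, ?_⟩
  · have := G.smul_mem ha hy
    rwa [zero_add] at this
  · rw [G.leib, D_neg ha (by omega), op_zero, zero_smul, zero_add]

/-- `Σ σ, z σ · c σ τ` over the cells of level `m` -/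
noncomputable def bdry (G : RM A) (X : LCells A) (m : ℕ) (z : X.ι → G.X) (τ : X.ι) : G.X :=
  ∑ σ ∈ (X.F m).filter (fun σ => X.s σ = m), op (X.c σ τ) • z σ

/-- exactness at the layer `F / F'`: families over the cells of one level `m` -/
def EL (G : RM A) (X : LCells A) (F F' : Submodule K G.X) : Prop :=
  ∀ (m : ℕ) (z : X.ι → G.X), (∀ σ, X.s σ = m → z σ ∈ F ∧ op (X.e σ) • z σ = z σ) →
    (∀ τ, X.s τ + 1 = m → bdry G X m z τ ∈ F') →
    ∃ w : X.ι → G.X, (∀ ρ, X.s ρ = m + 1 → w ρ ∈ F ∧ op (X.e ρ) • w ρ = w ρ) ∧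
      ∀ σ, X.s σ = m → z σ + bdry G X (m + 1) w σ ∈ F'

/-- cells of level `m` -/
noncomputable def lev (X : LCells A) (m : ℕ) : Finset X.ι := (X.F m).filter fun σ => X.s σ = m

theorem mem_lev {X : LCells A} {m : ℕ} {σ : X.ι} : σ ∈ lev X m ↔ X.s σ = m := by
  unfold lev
  rw [Finset.mem_filter, X.mem_F]
  constructor
  · exact fun h => h.2
  · exact fun h => ⟨h.le, h⟩

theorem bdry_def (G : RM A) (X : LCells A) (m : ℕ) (z : X.ι → G.X) (τ : X.ι) :
    bdry G X m z τ = ∑ σ ∈ lev X m, op (X.c σ τ) • z σ := rfl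

theorem bdry_e (G : RM A) (X : LCells A) (m : ℕ) (z : X.ι → G.X) (τ : X.ι) :
    op (X.e τ) • bdry G X m z τ = bdry G X m z τ := by
  rw [bdry_def, Finset.smul_sum]
  refine Finset.sum_congr rfl fun σ _ => ?_
  rw [smul_smul, ← op_mul, X.c_right]

theorem bdry_add (G : RM A) (X : LCells A) (m : ℕ) (z w : X.ι → G.X) (τ : X.ι) :
    bdry G X m (fun σ => z σ + w σ) τ = bdry G X m z τ + bdry G X m w τ := by
  simp only [bdry_def, smul_add, Finset.sum_add_distrib]

/-- two levels apart: a boundary -/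
theorem bdry_bdry {G : RM A} {X : LCells A} {n : ℤ} {m : ℕ} {w : X.ι → G.X}
    (hw : ∀ ρ, X.s ρ = m + 1 → w ρ ∈ cyc G n) {τ : X.ι} (hτ : X.s τ + 1 = m) :
    bdry G X m (fun σ => bdry G X (m + 1) w σ) τ ∈ bd G n := by
  have h1 : bdry G X m (fun σ => bdry G X (m + 1) w σ) τ =
      ∑ ρ ∈ lev X (m + 1), op (∑ σ ∈ lev X m, X.c ρ σ * X.c σ τ) • w ρ := by
    simp only [bdry_def, Finset.smul_sum]
    rw [Finset.sum_comm]
    refine Finset.sum_congr rfl fun ρ _ => ?_
    rw [show op (∑ σ ∈ lev X m, X.c ρ σ * X.c σ τ) = ∑ σ ∈ lev X m, op (X.c ρ σ * X.c σ τ) from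
      map_sum (opAddEquiv (α := A.C)) _ _, Finset.sum_smul]
    refine Finset.sum_congr rfl fun σ _ => ?_
    rw [smul_smul, ← op_mul]
  rw [h1]
  refine Submodule.sum_mem _ fun ρ hρ => ?_
  have hs := mem_lev.1 hρ
  have h2 : ∑ σ ∈ lev X m, X.c ρ σ * X.c σ τ = ∑ σ ∈ X.F (X.s ρ), X.c ρ σ * X.c σ τ := by
    refine Finset.sum_subset (fun σ hσ => (X.mem_F _ _).2 (by rw [mem_lev.1 hσ]; omega)) ?_
    intro σ hσ hn
    have h3 : X.s σ ≠ m := fun h => hn (mem_lev.2 h)
    have h4 := (X.mem_F _ _).1 hσ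
    rcases Nat.lt_or_ge (X.s σ) m with h5 | h5
    · rw [LCells.c_zero (σ := σ) (τ := τ) (by omega), mul_zero]
    · rw [LCells.c_zero (σ := ρ) (τ := σ) (by omega), zero_mul]
  have h3 : ∑ σ ∈ lev X m, X.c ρ σ * X.c σ τ = A.D (X.c ρ τ) := by
    rw [h2]
    have h4 := X.mc ρ τ
    have h5 := A.two (A.D (X.c ρ τ))
    exact (add_left_cancel (h4.trans h5.symm))
  rw [h3]
  refine ⟨op (X.c ρ τ) • w ρ, ?_, ?_⟩
  · have h4 := G.smul_mem (X.c_mem ρ τ) (hw ρ hs).1
    rwa [show (X.s ρ : ℤ) - X.s τ - 1 + n = n + 1 by rw [hs]; push_cast; omega] at h4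
  · rw [G.leib, (hw ρ hs).2, smul_zero, add_zero]

/-- composition of layers -/
theorem EL.comp {G : RM A} {X : LCells A} {n : ℤ} {F F' F'' : Submodule K G.X}
    (hF : F ≤ cyc G n) (h1 : F' ≤ F) (h2 : F'' ≤ F') (h3 : bd G n ≤ F'')
    (E : EL G X F F') (E' : EL G X F' F'') : EL G X F F'' := by
  intro m z hz hb
  obtain ⟨w, hw, hw'⟩ := E m z hz fun τ hτ => h2 (hb τ hτ)
  obtain ⟨v, hv, hv'⟩ := E' m (fun σ => z σ + bdry G X (m + 1) w σ)
    (fun σ hσ => ⟨hw' σ hσ, by rw [smul_add, (hz σ hσ).2, bdry_e]⟩)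
    (fun τ hτ => by
      rw [bdry_add]
      exact Submodule.add_mem _ (hb τ hτ) (h3 (bdry_bdry (fun ρ hρ => hF (hw ρ hρ).1) hτ)))
  refine ⟨fun ρ => w ρ + v ρ, fun ρ hρ => ⟨Submodule.add_mem _ (hw ρ hρ).1 (h1 (hv ρ hρ).1), ?_⟩,
    fun σ hσ => ?_⟩
  · rw [smul_add, (hw ρ hρ).2, (hv ρ hρ).2]
  · rw [bdry_add, ← add_assoc]
    exact hv' σ hσ

/-- the differential of `G ⊗ X`, retyped -/
noncomputable def DD (G : RM A) (X : LCells A) : (X.ι →₀ G.X) →ₗ[K] (X.ι →₀ G.X) := (twG G X).dd

/-- the grading of `G ⊗ X`, retyped -/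
noncomputable def GR (G : RM A) (X : LCells A) (k : ℤ) : Submodule K (X.ι →₀ G.X) := (twG G X).gr k

theorem mem_GR {G : RM A} {X : LCells A} {k : ℤ} {x : X.ι →₀ G.X} :
    x ∈ GR G X k ↔ ∀ σ, x σ ∈ G.gr (k - X.s σ) ∧ op (X.e σ) • x σ = x σ := Iff.rfl

theorem DD_apply' (G : RM A) (X : LCells A) (x : X.ι →₀ G.X) (S : Finset X.ι)
    (hS : x.support ⊆ S) (τ : X.ι) :
    DD G X x τ = G.d (x τ) + ∑ σ ∈ S, op (X.c σ τ) • x σ := (twG G X).dd_apply' x S hS τ

theorem DD_DD (G : RM A) (X : LCells A) (x : X.ι →₀ G.X) : DD G X (DD G X x) = 0 :=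
  (twG G X).dd_dd x

theorem DD_mem {G : RM A} {X : LCells A} {k : ℤ} {x : X.ι →₀ G.X} (hx : x ∈ GR G X k) :
    DD G X x ∈ GR G X (k - 1) := (twG G X).dd_mem hx

theorem ac_iff {G : RM A} {X : LCells A} : Ac (tG G X) ↔
    ∀ (k : ℤ) (x : X.ι →₀ G.X), x ∈ GR G X k → DD G X x = 0 →
      ∃ y ∈ GR G X (k + 1), DD G X y = x := Iff.rfl

/-- **(V1)** acyclicity of `G ⊗ X` from exactness on the homology modules of `G` -/
theorem ac_of_EL {G : RM A} {X : LCells A} (E : ∀ n : ℤ, EL G X (cyc G n) (bd G n)) :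
    Ac (tG G X) := by
  classical
  rw [ac_iff]
  have key : ∀ (m : ℕ) (k : ℤ) (x : X.ι →₀ G.X), x ∈ GR G X k → DD G X x = 0 →
      (∀ σ ∈ x.support, X.s σ < m) → ∃ y ∈ GR G X (k + 1), DD G X y = x := by
    intro m
    induction m with
    | zero =>
      intro k x _ _ hs
      have hx : x = 0 := by
        rw [← Finsupp.support_eq_empty]
        exact Finset.eq_empty_of_forall_notMem fun σ hσ => absurd (hs σ hσ) (by omega)
      refine ⟨0, Submodule.zero_mem _, ?_⟩
      rw [map_zero, hx]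
    | succ m ih =>
      intro k x hx hd hs
      have hc : ∀ σ, X.s σ = m → x σ ∈ cyc G (k - m) ∧ op (X.e σ) • x σ = x σ := by
        intro σ hσ
        have hg := mem_GR.1 hx σ
        refine ⟨⟨?_, ?_⟩, hg.2⟩
        · have := hg.1
          rwa [hσ] at this
        · have h := DFunLike.congr_fun hd σ
          rw [DD_apply' G X x x.support (Finset.Subset.refl _), Finset.sum_eq_zero, add_zero] at h
          · exact h
          · intro ρ hρ
            rw [LCells.c_zero (by have := hs ρ hρ; omega), op_zero, zero_smul]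
      have hb : ∀ τ, X.s τ + 1 = m → bdry G X m x τ ∈ bd G (k - m) := by
        intro τ hτ
        have h := DFunLike.congr_fun hd τ
        rw [DD_apply' G X x x.support (Finset.Subset.refl _)] at h
        have h1 : ∑ σ ∈ x.support, op (X.c σ τ) • x σ = bdry G X m x τ := by
          rw [bdry_def]
          have h2 : ∑ σ ∈ x.support, op (X.c σ τ) • x σ =
              ∑ σ ∈ x.support ∪ lev X m, op (X.c σ τ) • x σ := by
            refine Finset.sum_subset Finset.subset_union_left fun σ _ hσ => ?_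
            rw [Finsupp.notMem_support_iff.1 hσ, smul_zero]
          rw [h2]
          refine (Finset.sum_subset Finset.subset_union_right fun σ hσ hn => ?_).symm
          have h3 : X.s σ ≠ m := fun h => hn (mem_lev.2 h)
          rcases Nat.lt_or_ge (X.s σ) m with h5 | h5
          · rw [LCells.c_zero (σ := σ) (τ := τ) (by omega), op_zero, zero_smul]
          · have h6 : x σ = 0 := by
              by_contra hne
              have := hs σ (Finsupp.mem_support_iff.2 hne)
              omega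
            rw [h6, smul_zero]
        rw [h1] at h
        refine ⟨x τ, ?_, ?_⟩
        · have h2 := (mem_GR.1 hx τ).1
          rwa [show k - (X.s τ : ℤ) = k - m + 1 by omega] at h2
        · have h3 : G.d (x τ) + bdry G X m x τ = bdry G X m x τ + bdry G X m x τ := by
            rw [two_G]; exact h
          exact add_right_cancel h3
      obtain ⟨w, hw, hw'⟩ := E (k - m) m x hc hb
      -- correction by cells of level m + 1 and m
      have hy : ∀ σ, X.s σ = m → ∃ y, y ∈ G.gr (k - m + 1) ∧ op (X.e σ) • y = y ∧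
          G.d y = x σ + bdry G X (m + 1) w σ := by
        intro σ hσ
        obtain ⟨y, hy1, hy2⟩ := hw' σ hσ
        refine ⟨op (X.e σ) • y, ?_, ?_, ?_⟩
        · have := G.smul_mem (X.e_mem σ) hy1
          rwa [zero_add] at this
        · rw [smul_smul, ← op_mul, X.e_idem]
        · rw [G.leib, LCells.De, op_zero, zero_smul, zero_add, hy2, smul_add, (hc σ hσ).2, bdry_e]
      let g : X.ι → G.X := fun σ => if h : X.s σ = m then Classical.choose (hy σ h) else
        if X.s σ = m + 1 then w σ else 0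
      have hg1 : ∀ σ (h : X.s σ = m), g σ ∈ G.gr (k - m + 1) ∧ op (X.e σ) • g σ = g σ ∧
          G.d (g σ) = x σ + bdry G X (m + 1) w σ := by
        intro σ h
        have := Classical.choose_spec (hy σ h)
        simp only [g, dif_pos h]
        exact this
      have hg2 : ∀ σ, X.s σ = m + 1 → g σ = w σ := by
        intro σ h
        simp only [g, dif_neg (show ¬ X.s σ = m by omega), if_pos h]
      have hg3 : ∀ σ, σ ∉ lev X m ∪ lev X (m + 1) → g σ = 0 := by
        intro σ h
        rw [Finset.mem_union, mem_lev, mem_lev] at h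
        rw [not_or] at h
        simp only [g, dif_neg h.1, if_neg h.2]
      let z : X.ι →₀ G.X := Finsupp.onFinset (lev X m ∪ lev X (m + 1)) g fun σ h => by
        by_contra hc
        exact h (hg3 σ hc)
      have hz : ∀ σ : X.ι, z σ = g σ := fun σ => rfl
      have hzs : z.support ⊆ lev X m ∪ lev X (m + 1) := Finsupp.support_onFinset_subset
      have hzg : z ∈ GR G X (k + 1) := by
        rw [mem_GR]
        intro σ
        rw [hz]
        by_cases h1 : X.s σ = m
        · have := hg1 σ h1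
          refine ⟨?_, this.2.1⟩
          rw [show k + 1 - (X.s σ : ℤ) = k - m + 1 by omega]
          exact this.1
        · by_cases h2 : X.s σ = m + 1
          · rw [hg2 σ h2]
            refine ⟨?_, (hw σ h2).2⟩
            rw [show k + 1 - (X.s σ : ℤ) = k - m by omega]
            exact (hw σ h2).1.1
          · rw [hg3 σ (by rw [Finset.mem_union, mem_lev, mem_lev]; tauto)]
            exact ⟨Submodule.zero_mem _, smul_zero _⟩
      have hx' : x - DD G X z ∈ GR G X k := by
        have := DD_mem hzg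
        rw [add_sub_cancel_right] at this
        exact Submodule.sub_mem _ hx this
      have hd' : DD G X (x - DD G X z) = 0 := by
        rw [map_sub, hd, DD_DD, sub_zero]
      have hs' : ∀ σ ∈ (x - DD G X z).support, X.s σ < m := by
        intro σ hσ
        by_contra hc'
        rw [Finsupp.mem_support_iff] at hσ
        apply hσ
        rw [Finsupp.sub_apply, DD_apply' G X z _ hzs]
        have hdisj : Disjoint (lev X m) (lev X (m + 1)) := by
          rw [Finset.disjoint_left]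
          intro ρ h1 h2
          rw [mem_lev] at h1 h2
          omega
        rw [Finset.sum_union hdisj]
        have e1 : ∑ ρ ∈ lev X m, op (X.c ρ σ) • z ρ = 0 := by
          refine Finset.sum_eq_zero fun ρ hρ => ?_
          rw [LCells.c_zero (by rw [mem_lev.1 hρ]; omega), op_zero, zero_smul]
        rw [e1, zero_add]
        by_cases h1 : X.s σ = m
        · have e2 : ∑ ρ ∈ lev X (m + 1), op (X.c ρ σ) • z ρ = bdry G X (m + 1) w σ := by
            rw [bdry_def]
            refine Finset.sum_congr rfl fun ρ hρ => ?_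
            rw [hz, hg2 ρ (mem_lev.1 hρ)]
          rw [e2, hz, (hg1 σ h1).2.2, add_assoc, two_G, add_zero, sub_self]
        · have hxσ : x σ = 0 := by
            by_contra hne
            have := hs σ (Finsupp.mem_support_iff.2 hne)
            omega
          have e2 : ∑ ρ ∈ lev X (m + 1), op (X.c ρ σ) • z ρ = 0 := by
            refine Finset.sum_eq_zero fun ρ hρ => ?_
            rw [LCells.c_zero (by rw [mem_lev.1 hρ]; omega), op_zero, zero_smul]
          rw [e2, hxσ, hz]
          by_cases h2 : X.s σ = m + 1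
          · rw [hg2 σ h2, (hw σ h2).1.2]
            simp
          · rw [hg3 σ (by rw [Finset.mem_union, mem_lev, mem_lev]; tauto)]
            simp
      obtain ⟨y, hy1, hy2⟩ := ih k (x - DD G X z) hx' hd' hs'
      refine ⟨y + z, Submodule.add_mem _ hy1 hzg, ?_⟩
      rw [map_add, hy2, sub_add_cancel]
  intro k x hx hd
  exact key (x.support.sup X.s + 1) k x hx hd fun σ hσ =>
    Nat.lt_succ_of_le (Finset.le_sup (f := X.s) hσ)

/-! ### layers that are sums of copies of a module in one degree -/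

/-- `P` is concentrated in degree `0` -/
structure One (P : RM A) : Prop where
  all : ∀ p : P.X, p ∈ P.gr 0
  bot : ∀ (k : ℤ), k ≠ 0 → ∀ p ∈ P.gr k, p = 0

theorem One.d {P : RM A} (h : One P) (p : P.X) : P.d p = 0 :=
  h.bot (0 - 1) (by omega) _ (P.d_mem (h.all p))

/-- exactness for the module `P` itself -/
theorem One.ex {P : RM A} (h : One P) {X : LCells A} (hP : Ac (tG P X)) (m : ℕ) (z : X.ι → P.X)
    (hz : ∀ σ, X.s σ = m → op (X.e σ) • z σ = z σ) (hb : ∀ τ, X.s τ + 1 = m → bdry P X m z τ = 0) :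
    ∃ w : X.ι → P.X, (∀ ρ, X.s ρ = m + 1 → op (X.e ρ) • w ρ = w ρ) ∧
      ∀ σ, X.s σ = m → z σ = bdry P X (m + 1) w σ := by
  classical
  let x : X.ι →₀ P.X := Finsupp.onFinset (lev X m) (fun σ => if X.s σ = m then z σ else 0)
    fun σ h => by
      rw [mem_lev]
      by_contra hc
      exact h (if_neg hc)
  have hx1 : ∀ σ, X.s σ = m → x σ = z σ := fun σ h => if_pos h
  have hx2 : ∀ σ, X.s σ ≠ m → x σ = 0 := fun σ h => if_neg h
  have hxs : x.support ⊆ lev X m := Finsupp.support_onFinset_subset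
  have hxg : x ∈ GR P X m := by
    rw [mem_GR]
    intro σ
    by_cases hσ : X.s σ = m
    · rw [hx1 σ hσ, hσ, sub_self]
      exact ⟨h.all _, hz σ hσ⟩
    · rw [hx2 σ hσ]
      exact ⟨Submodule.zero_mem _, smul_zero _⟩
  have hxd : DD P X x = 0 := by
    refine Finsupp.ext fun τ => ?_
    rw [DD_apply' P X x _ hxs, h.d, zero_add, Finsupp.zero_apply]
    by_cases h1 : X.s τ + 1 = m
    · rw [← hb τ h1, bdry_def]
      exact Finset.sum_congr rfl fun σ hσ => by rw [hx1 σ (mem_lev.1 hσ)]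
    · refine Finset.sum_eq_zero fun σ hσ => ?_
      have hσ' := mem_lev.1 hσ
      refine h.bot (X.s σ - X.s τ - 1 + 0) (by omega) _ (P.smul_mem (X.c_mem σ τ) (h.all _))
  obtain ⟨y, hy, hyx⟩ := ac_iff.1 hP m x hxg hxd
  have hy0 : ∀ ρ, X.s ρ ≠ m + 1 → y ρ = 0 := fun ρ hρ =>
    h.bot _ (by omega) _ (mem_GR.1 hy ρ).1
  refine ⟨y, fun ρ _ => (mem_GR.1 hy ρ).2, fun σ hσ => ?_⟩
  rw [← hx1 σ hσ, ← hyx, DD_apply' P X y (lev X (m + 1)), h.d, zero_add, bdry_def]
  intro ρ hρ
  rw [mem_lev]
  by_contra hc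
  exact (Finsupp.mem_support_iff.1 hρ) (hy0 ρ hc)

/-- the layer `F / F'` is a direct sum of copies of `P` -/
structure Lay (G P : RM A) (F F' : Submodule K G.X) where
  β : Type
  φ : β → P.X →ₗ[K] G.X
  mem : ∀ b p, φ b p ∈ F
  act : ∀ b p (a : A.C), a ∈ A.G 0 → φ b (op a • p) + op a • φ b p ∈ F'
  sur : ∀ z ∈ F, ∃ p : β →₀ P.X, z + p.sum (fun b q => φ b q) ∈ F'
  inj : ∀ p : β →₀ P.X, p.sum (fun b q => φ b q) ∈ F' → p = 0

/-- the projection `x ↦ x e` of a family of vectors -/
noncomputable def pe (P : RM A) {β : Type} (a : A.C) : (β →₀ P.X) →ₗ[K] (β →₀ P.X) :=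
  Finsupp.mapRange.linearMap (rmul P a)

theorem pe_apply (P : RM A) {β : Type} (a : A.C) (p : β →₀ P.X) (b : β) :
    pe P a p b = op a • p b := rfl

variable {G P : RM A} {F F' : Submodule K G.X}

/-- evaluation of a family -/
noncomputable def Lay.ev (L : Lay G P F F') : (L.β →₀ P.X) →ₗ[K] G.X := Finsupp.lsum K L.φ

theorem Lay.ev_def (L : Lay G P F F') (p : L.β →₀ P.X) : L.ev p = p.sum fun b q => L.φ b q := by
  rw [Lay.ev, Finsupp.lsum_apply]


theorem Lay.ev_act (L : Lay G P F F') (p : L.β →₀ P.X) {a : A.C} (ha : a ∈ A.G 0) :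
    L.ev (pe P a p) + op a • L.ev p ∈ F' := by
  induction p using Finsupp.induction_linear with
  | zero => rw [map_zero, map_zero, smul_zero, add_zero]; exact Submodule.zero_mem _
  | add f g hf hg =>
    rw [map_add, map_add, map_add, smul_add, add_add_add_comm]
    exact Submodule.add_mem _ hf hg
  | single b q =>
    have h1 : pe P a (Finsupp.single b q) = Finsupp.single b (op a • q) := by
      simp [pe, rmul_apply]
    have h2 : ∀ q : P.X, L.ev (Finsupp.single b q) = L.φ b q := fun q => by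
      rw [L.ev_def]
      exact Finsupp.sum_single_index (h := fun b q => L.φ b q) (map_zero (L.φ b))
    rw [h1, h2, h2]
    exact L.act b q a ha

theorem Lay.sur' (L : Lay G P F F') {z : G.X} (hz : z ∈ F) : ∃ p, z + L.ev p ∈ F' := by
  obtain ⟨p, hp⟩ := L.sur z hz
  exact ⟨p, by rwa [L.ev_def]⟩

theorem Lay.inj' (L : Lay G P F F') {p : L.β →₀ P.X} (hp : L.ev p ∈ F') : p = 0 :=
  L.inj p (by rwa [L.ev_def] at hp)

/-- **(V2)** a layer of copies of `P` is exact if `P ⊗ X` is acyclic -/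
theorem EL.of_lay (hP1 : One P) {X : LCells A} (hP : Ac (tG P X)) (L : Lay G P F F')
    (hF' : ∀ x ∈ F', ∀ a ∈ A.G 0, op a • x ∈ F') (hF : ∀ x ∈ F, ∀ a ∈ A.G 0, op a • x ∈ F) :
    EL G X F F' := by
  classical
  intro m z hz hb
  have key : ∀ σ, X.s σ = m → ∃ p : L.β →₀ P.X, pe P (X.e σ) p = p ∧ z σ + L.ev p ∈ F' := by
    intro σ hσ
    obtain ⟨p, hp⟩ := L.sur' (hz σ hσ).1
    refine ⟨pe P (X.e σ) p, ?_, ?_⟩
    · refine Finsupp.ext fun b => ?_
      rw [pe_apply, pe_apply, smul_smul, ← op_mul, X.e_idem]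
    · have h1 := hF' _ hp (X.e σ) (X.e_mem σ)
      have h2 := L.ev_act p (X.e_mem σ)
      rw [smul_add, (hz σ hσ).2] at h1
      have h3 := Submodule.add_mem _ h1 h2
      rwa [show z σ + op (X.e σ) • L.ev p + (L.ev (pe P (X.e σ) p) + op (X.e σ) • L.ev p) =
        z σ + L.ev (pe P (X.e σ) p) + (op (X.e σ) • L.ev p + op (X.e σ) • L.ev p) by abel,
        two_G, add_zero] at h3
  let q : X.ι → (L.β →₀ P.X) := fun σ => if h : X.s σ = m then Classical.choose (key σ h) else 0
  have hq : ∀ σ, X.s σ = m → pe P (X.e σ) (q σ) = q σ ∧ z σ + L.ev (q σ) ∈ F' := by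
    intro σ h
    have := Classical.choose_spec (key σ h)
    simp only [q, dif_pos h]
    exact this
  -- the components are cycles
  have hcy : ∀ τ, X.s τ + 1 = m → ∑ σ ∈ lev X m, pe P (X.c σ τ) (q σ) = 0 := by
    intro τ hτ
    apply L.inj'
    rw [map_sum]
    have h1 : ∀ σ ∈ lev X m, L.ev (pe P (X.c σ τ) (q σ)) + op (X.c σ τ) • z σ ∈ F' := by
      intro σ hσ
      have hσ' := mem_lev.1 hσ
      have hc0 : X.c σ τ ∈ A.G 0 := by
        have := X.c_mem σ τ
        rwa [show (X.s σ : ℤ) - X.s τ - 1 = 0 by omega] at this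
      have h2 := L.ev_act (q σ) hc0
      have h3 := hF' _ (hq σ hσ').2 _ hc0
      rw [smul_add] at h3
      have h4 := Submodule.add_mem _ h2 h3
      rwa [show L.ev (pe P (X.c σ τ) (q σ)) + op (X.c σ τ) • L.ev (q σ) +
        (op (X.c σ τ) • z σ + op (X.c σ τ) • L.ev (q σ)) =
        L.ev (pe P (X.c σ τ) (q σ)) + op (X.c σ τ) • z σ +
          (op (X.c σ τ) • L.ev (q σ) + op (X.c σ τ) • L.ev (q σ)) by abel, two_G, add_zero] at h4
    have h2 := Submodule.sum_mem _ h1
    rw [Finset.sum_add_distrib] at h2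
    have h3 := Submodule.add_mem _ h2 (hb τ hτ)
    rwa [bdry_def, add_assoc, two_G, add_zero] at h3
  -- solve in each component
  have hsol : ∀ b : L.β, ∃ w : X.ι → P.X, (∀ ρ, X.s ρ = m + 1 → op (X.e ρ) • w ρ = w ρ) ∧
      ∀ σ, X.s σ = m → q σ b = bdry P X (m + 1) w σ := by
    intro b
    refine hP1.ex hP m (fun σ => q σ b) (fun σ hσ => ?_) fun τ hτ => ?_
    · have := DFunLike.congr_fun (hq σ hσ).1 b
      rwa [pe_apply] at this
    · have := DFunLike.congr_fun (hcy τ hτ) b
      rw [Finset.sum_apply'] at this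
      rw [bdry_def]
      exact this
  choose W hW1 hW2 using hsol
  let S : Finset L.β := (lev X m).biUnion fun σ => (q σ).support
  let w : X.ι → G.X := fun ρ => op (X.e ρ) • ∑ b ∈ S, L.φ b (W b ρ)
  refine ⟨w, fun ρ _ => ⟨hF _ (Submodule.sum_mem _ fun b _ => L.mem b _) _ (X.e_mem ρ), ?_⟩,
    fun σ hσ => ?_⟩
  · simp only [w]
    rw [smul_smul, ← op_mul, X.e_idem]
  · -- compare
    have h1 : L.ev (q σ) = ∑ b ∈ S, L.φ b (q σ b) := by
      rw [L.ev_def]
      refine Finsupp.sum_of_support_subset _ ?_ _ fun b _ => map_zero _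
      exact Finset.subset_biUnion_of_mem (fun σ => (q σ).support) (mem_lev.2 hσ)
    have h2 : bdry G X (m + 1) w σ + L.ev (q σ) ∈ F' := by
      have h3 : bdry G X (m + 1) w σ =
          ∑ b ∈ S, ∑ ρ ∈ lev X (m + 1), op (X.c ρ σ) • L.φ b (W b ρ) := by
        rw [bdry_def, Finset.sum_comm]
        refine Finset.sum_congr rfl fun ρ _ => ?_
        simp only [w]
        rw [smul_smul, ← op_mul, X.c_left, Finset.smul_sum]
      have h4 : L.ev (q σ) = ∑ b ∈ S, ∑ ρ ∈ lev X (m + 1), L.φ b (op (X.c ρ σ) • W b ρ) := by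
        rw [h1]
        refine Finset.sum_congr rfl fun b _ => ?_
        rw [hW2 b σ hσ, bdry_def, map_sum]
      rw [h3, h4, ← Finset.sum_add_distrib]
      refine Submodule.sum_mem _ fun b _ => ?_
      rw [← Finset.sum_add_distrib]
      refine Submodule.sum_mem _ fun ρ hρ => ?_
      have hc0 : X.c ρ σ ∈ A.G 0 := by
        have := X.c_mem ρ σ
        rwa [show (X.s ρ : ℤ) - X.s σ - 1 = 0 by rw [mem_lev.1 hρ, hσ]; push_cast; ring] at this
      have := L.act b (W b ρ) _ hc0
      rwa [add_comm] at this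
    have h5 := Submodule.add_mem _ (hq σ hσ).2 h2
    rwa [show z σ + L.ev (q σ) + (bdry G X (m + 1) w σ + L.ev (q σ)) =
      z σ + bdry G X (m + 1) w σ + (L.ev (q σ) + L.ev (q σ)) by abel, two_G, add_zero] at h5

/-- **(V1) + (V2)**: two layers (the case of `y_x² = 0`) -/
theorem ac_of_two {G P : RM A} (hP1 : One P) {X : LCells A} (hP : Ac (tG P X))
    (M : ℤ → Submodule K G.X) (h1 : ∀ n, bd G n ≤ M n) (h2 : ∀ n, M n ≤ cyc G n)
    (hM : ∀ n, ∀ x ∈ M n, ∀ a ∈ A.G 0, op a • x ∈ M n)
    (L1 : ∀ n, Lay G P (cyc G n) (M n)) (L2 : ∀ n, Lay G P (M n) (bd G n)) : Ac (tG G X) :=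
  ac_of_EL fun n => EL.comp le_rfl (h2 n) (h1 n) le_rfl
    (EL.of_lay hP1 hP (L1 n) (hM n) fun _ hx _ ha => cyc_act hx ha)
    (EL.of_lay hP1 hP (L2 n) (fun _ hx _ ha => bd_act hx ha) (hM n))

end Crest.Agent.R186.VT339
end

-- ▼ part R186/VTc_339

/-!
Row 186 (helper339), half (A), leaf (V2)(c): the reduction of `Ac (G ⊗ X)` to the window data
`e b`, `H b b' = h^(b'-b)`, `y`, `fs` (sum of the idempotents of the column `P = 1`).
-/

set_option autoImplicit false
set_option linter.style.haveILetI false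
set_option linter.unusedSectionVars false
set_option linter.unusedSimpArgs false

open MulOpposite

namespace Crest.Agent.R186.VT339

open Hat827 Hat827.DGA Frame515

variable {K : Type} [Field K] {A : DGA K}

/-- elements that pass through the idempotent `fs` -/
def thru (A : DGA K) (fs : A.C) : Submodule K A.C :=
  Submodule.span K {r | ∃ s ∈ A.G 0, ∃ t ∈ A.G 0, r = s * fs * t}

/-- window data in degree `0` -/
structure Wdat (A : DGA K) where
  ι : Type
  [fin : Fintype ι]
  [dec : DecidableEq ι]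
  o : ι
  e : ι → A.C
  fs : A.C
  H : ι → ι → A.C
  T : ι → ι → K
  y : A.C
  e_mem : ∀ b, e b ∈ A.G 0
  fs_mem : fs ∈ A.G 0
  H_mem : ∀ b b', H b b' ∈ A.G 0
  y_mem : y ∈ A.G 0
  one : ∑ b, e b + fs = 1
  e_e : ∀ b b', e b * e b' = if b = b' then e b else 0
  e_H : ∀ b b', e b * H b b' = H b b'
  H_e : ∀ b b', H b b' * e b' = H b b'
  H_H : ∀ b b', H o b * H b b' = T b b' • H o b'
  T_o : ∀ b, T o b = 1
  H_o : H o o = e o
  y_y : y * y = 0
  y_H : ∀ b b', y * H b b' = H b b' * y
  y_e : ∀ b, y * e b = e b * y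
  split : ∀ a ∈ A.G 0, ∀ b b', ∃ (l m : K), e b * a * e b' - (l • H b b' + m • (y * H b b')) ∈
    thru A fs

attribute [instance] Wdat.fin Wdat.dec

/-- the module `P` -/
structure PB (W : Wdat A) (P : RM A) where
  v : Module.Basis W.ι K P.X
  v_e : ∀ b, op (W.e b) • v b = v b
  v_H : ∀ b b', op (W.H b b') • v b = W.T b b' • v b'
  p_fs : ∀ p : P.X, op W.fs • p = 0
  p_y : ∀ p : P.X, op W.y • p = 0

variable (W : Wdat A)

theorem thru_act {G : RM A} {F F' : Submodule K G.X} (hF : ∀ x ∈ F, ∀ a ∈ A.G 0, op a • x ∈ F)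
    (hF' : ∀ x ∈ F', ∀ a ∈ A.G 0, op a • x ∈ F') {fs : A.C}
    (hf : ∀ z ∈ F, op fs • z ∈ F') {r : A.C} (hr : r ∈ thru A fs) {z : G.X} (hz : z ∈ F) :
    op r • z ∈ F' := by
  induction hr using Submodule.span_induction with
  | mem r hr =>
    obtain ⟨s, hs, t, ht, rfl⟩ := hr
    rw [op_mul, op_mul, mul_smul, mul_smul]
    exact hF' _ (hf _ (hF _ hz _ hs)) _ ht
  | zero => rw [op_zero, zero_smul]; exact Submodule.zero_mem _
  | add a b _ _ ha hb => rw [op_add, add_smul]; exact Submodule.add_mem _ ha hb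
  | smul c a _ ha =>
    rw [op_smul, smul_assoc]
    exact Submodule.smul_mem _ c ha

theorem thru_P {P : RM A} {W : Wdat A} (B : PB W P) {r : A.C} (hr : r ∈ thru A W.fs) (p : P.X) :
    op r • p = 0 := by
  induction hr using Submodule.span_induction with
  | mem r hr =>
    obtain ⟨s, hs, t, ht, rfl⟩ := hr
    rw [op_mul, op_mul, mul_smul, mul_smul, B.p_fs, smul_zero]
  | zero => rw [op_zero, zero_smul]
  | add a b _ _ ha hb => rw [op_add, add_smul, ha, hb, add_zero]
  | smul c a _ ha => rw [op_smul, smul_assoc, ha, smul_zero]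

/-- a layer -/
structure LayH (G : RM A) (F F' : Submodule K G.X) : Prop where
  sF : ∀ x ∈ F, ∀ a ∈ A.G 0, op a • x ∈ F
  sF' : ∀ x ∈ F', ∀ a ∈ A.G 0, op a • x ∈ F'
  le : F' ≤ F
  hf : ∀ z ∈ F, op W.fs • z ∈ F'
  hy : ∀ z ∈ F, op W.y • z ∈ F'
  hs : ∀ b, ∀ z ∈ F, ∃ z0 ∈ F, op (W.e b) • z + op (W.H W.o b) • z0 ∈ F'
  hi : ∀ b, ∀ z ∈ F, op (W.H W.o b) • z ∈ F' → op (W.e W.o) • z ∈ F'

theorem eo_H (b : W.ι) : W.e W.o * W.H W.o b = W.H W.o b := W.e_H _ _

/-- expansion of `op (H o b * a) • u` -/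
theorem expand {G : RM A} {F F' : Submodule K G.X} (h : LayH W G F F') (b : W.ι) {a : A.C}
    (ha : a ∈ A.G 0) (l m : W.ι → K)
    (hl : ∀ b', W.e b * a * W.e b' - (l b' • W.H b b' + m b' • (W.y * W.H b b')) ∈ thru A W.fs)
    {u : G.X} (hu : u ∈ F) :
    op a • (op (W.H W.o b) • u) + ∑ b', (l b' * W.T b b') • (op (W.H W.o b') • u) ∈ F' := by
  have hHu : op (W.H W.o b) • u ∈ F := h.sF _ hu _ (W.H_mem _ _)
  have h0 : ∀ x : G.X, x = ∑ b', op (W.e b') • x + op W.fs • x := by
    intro x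
    have h1 : op (∑ b', W.e b' + W.fs) • x = x := by rw [W.one, op_one, one_smul]
    rw [op_add, add_smul, show op (∑ b', W.e b') = ∑ b', op (W.e b') from
      map_sum (opAddEquiv (α := A.C)) _ _, Finset.sum_smul] at h1
    exact h1.symm
  have h1 : op a • (op (W.H W.o b) • u) =
      ∑ b', op (W.e b * a * W.e b') • (op (W.H W.o b) • u) +
        op W.fs • (op a • (op (W.H W.o b) • u)) := by
    conv_lhs => rw [h0 (op a • (op (W.H W.o b) • u))]
    congr 1
    refine Finset.sum_congr rfl fun b' _ => ?_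
    rw [op_mul, op_mul, mul_smul, mul_smul, ← mul_smul (op (W.e b)), ← op_mul, W.H_e]
  rw [h1, add_right_comm]
  refine Submodule.add_mem _ ?_ (h.hf _ (h.sF _ hHu _ ha))
  rw [← Finset.sum_add_distrib]
  refine Submodule.sum_mem _ fun b' _ => ?_
  have h2 := thru_act h.sF h.sF' h.hf (hl b') hHu
  rw [op_sub, sub_smul, op_add, add_smul, op_smul, op_smul, smul_assoc, smul_assoc] at h2
  have h3 : op (W.H b b') • (op (W.H W.o b) • u) = W.T b b' • (op (W.H W.o b') • u) := by
    rw [← mul_smul, ← op_mul, W.H_H, op_smul, smul_assoc]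
  have h4 : op (W.y * W.H b b') • (op (W.H W.o b) • u) ∈ F' := by
    rw [op_mul, mul_smul]
    exact h.sF' _ (h.hy _ hHu) _ (W.H_mem _ _)
  have h6 : l b' • W.T b b' • (op (W.H W.o b') • u) = (l b' * W.T b b') • (op (W.H W.o b') • u) :=
    (mul_smul _ _ _).symm
  rw [h3, h6] at h2
  have h5 := Submodule.add_mem _ h2 (Submodule.smul_mem _ (m b') h4)
  rw [sub_G] at h5
  rwa [show op (W.e b * a * W.e b') • op (W.H W.o b) • u +
      ((l b' * W.T b b') • op (W.H W.o b') • u + m b' • op (W.y * W.H b b') •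
        op (W.H W.o b) • u) + m b' • op (W.y * W.H b b') • op (W.H W.o b) • u =
      op (W.e b * a * W.e b') • op (W.H W.o b) • u + (l b' * W.T b b') • op (W.H W.o b') • u +
      (m b' • op (W.y * W.H b b') • op (W.H W.o b) • u +
        m b' • op (W.y * W.H b b') • op (W.H W.o b) • u) by abel, two_G, add_zero] at h5

/-- the same expansion in `P` -/
theorem expandP {P : RM A} {W : Wdat A} (B : PB W P) (b : W.ι) {a : A.C} (l m : W.ι → K)
    (hl : ∀ b', W.e b * a * W.e b' - (l b' • W.H b b' + m b' • (W.y * W.H b b')) ∈ thru A W.fs) :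
    op a • B.v b = ∑ b', (l b' * W.T b b') • B.v b' := by
  have h1 : op a • B.v b =
      ∑ b', op (W.e b * a * W.e b') • B.v b + op W.fs • (op a • B.v b) := by
    have h0 : op (∑ b', W.e b' + W.fs) • (op a • B.v b) = op a • B.v b := by
      rw [W.one, op_one, one_smul]
    rw [op_add, add_smul, show op (∑ b', W.e b') = ∑ b', op (W.e b') from
      map_sum (opAddEquiv (α := A.C)) _ _, Finset.sum_smul] at h0
    rw [← h0]
    congr 1
    · refine Finset.sum_congr rfl fun b' _ => ?_
      rw [op_mul, op_mul, mul_smul, mul_smul, B.v_e]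
    · rw [h0]
  rw [h1, B.p_fs, add_zero]
  refine Finset.sum_congr rfl fun b' _ => ?_
  have h2 := thru_P B (hl b') (B.v b)
  rw [op_sub, sub_smul, op_add, add_smul, op_smul, op_smul, smul_assoc, smul_assoc, op_mul W.y,
    mul_smul, B.p_y, smul_zero, smul_zero, add_zero, B.v_H, ← mul_smul] at h2
  exact sub_eq_zero.1 h2

open Classical in
/-- **the layer is a direct sum of copies of `P`** -/
theorem exists_lay {P G : RM A} {W : Wdat A} (B : PB W P) {F F' : Submodule K G.X}
    (h : LayH W G F F') : Nonempty (Lay G P F F') := by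
  -- the space `F e_o` and its quotient
  let V0 : Submodule K G.X :=
    { carrier := {z | z ∈ F ∧ op (W.e W.o) • z = z}
      zero_mem' := ⟨Submodule.zero_mem _, smul_zero _⟩
      add_mem' := fun {x y} hx hy =>
        ⟨Submodule.add_mem _ hx.1 hy.1, by rw [smul_add, hx.2, hy.2]⟩
      smul_mem' := fun r x hx => ⟨Submodule.smul_mem _ r hx.1, by
        have := (rmul G (W.e W.o)).map_smul r x
        rw [rmul_apply, rmul_apply, hx.2] at this
        exact this⟩ }
  let S : Submodule K V0 := F'.comap V0.subtype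
  let b0 := Module.Basis.ofVectorSpace K (V0 ⧸ S)
  have hu : ∀ i, ∃ u : V0, S.mkQ u = b0 i := fun i => Submodule.mkQ_surjective S (b0 i)
  choose u hu using hu
  let c : (Module.Basis.ofVectorSpaceIndex K (V0 ⧸ S)) → G.X := fun i => (u i : G.X)
  have hc : ∀ i, c i ∈ F ∧ op (W.e W.o) • c i = c i := fun i => (u i).2
  let φ : (Module.Basis.ofVectorSpaceIndex K (V0 ⧸ S)) → P.X →ₗ[K] G.X := fun i =>
    ∑ b, (B.v.coord b).smulRight (op (W.H W.o b) • c i)
  have hφ : ∀ i p, φ i p = ∑ b, B.v.repr p b • (op (W.H W.o b) • c i) := by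
    intro i p
    simp [φ, LinearMap.sum_apply]
  have hφv : ∀ i b, φ i (B.v b) = op (W.H W.o b) • c i := by
    intro i b
    rw [hφ, Finset.sum_eq_single b]
    · rw [Module.Basis.repr_self, Finsupp.single_eq_same, one_smul]
    · intro b' _ hb
      rw [Module.Basis.repr_self, Finsupp.single_apply, if_neg (Ne.symm hb), zero_smul]
    · intro hb
      exact absurd (Finset.mem_univ _) hb
  -- a family of coefficients at one vertex
  let U : ((Module.Basis.ofVectorSpaceIndex K (V0 ⧸ S)) →₀ K) →ₗ[K] G.X :=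
    Finsupp.linearCombination K c
  have hU : ∀ k, U k ∈ F ∧ op (W.e W.o) • U k = U k := by
    intro k
    have h1 : U k = ((Finsupp.linearCombination K u k : V0) : G.X) := by
      simp only [U, c, Finsupp.linearCombination_apply, Finsupp.sum]
      rw [← Submodule.coe_subtype, map_sum]
      simp
    rw [h1]
    exact (Finsupp.linearCombination K u k : V0).2
  have hU0 : ∀ k, U k ∈ F' → k = 0 := by
    intro k hk
    have h1 : U k = ((Finsupp.linearCombination K u k : V0) : G.X) := by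
      simp only [U, c, Finsupp.linearCombination_apply, Finsupp.sum]
      rw [← Submodule.coe_subtype, map_sum]
      simp
    have h2 : (Finsupp.linearCombination K u k : V0) ∈ S := by
      change ((Finsupp.linearCombination K u k : V0) : G.X) ∈ F'
      rwa [← h1]
    have h3 : S.mkQ (Finsupp.linearCombination K u k) = 0 := (Submodule.Quotient.mk_eq_zero S).2 h2
    have h4 : S.mkQ (Finsupp.linearCombination K u k) = Finsupp.linearCombination K b0 k := by
      rw [Finsupp.linearCombination_apply, Finsupp.linearCombination_apply, Finsupp.sum,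
        Finsupp.sum, map_sum]
      exact Finset.sum_congr rfl fun i _ => by rw [map_smul, hu]
    rw [h4] at h3
    exact (linearIndependent_iff.1 b0.linearIndependent) k h3
  have hUs : ∀ z ∈ F, op (W.e W.o) • z = z → ∃ k, z + U k ∈ F' := by
    intro z hz hz'
    let k := b0.repr (S.mkQ ⟨z, hz, hz'⟩)
    refine ⟨k, ?_⟩
    have h1 : U k = ((Finsupp.linearCombination K u k : V0) : G.X) := by
      simp only [U, c, Finsupp.linearCombination_apply, Finsupp.sum]
      rw [← Submodule.coe_subtype, map_sum]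
      simp
    have h4 : S.mkQ (Finsupp.linearCombination K u k) = Finsupp.linearCombination K b0 k := by
      rw [Finsupp.linearCombination_apply, Finsupp.linearCombination_apply, Finsupp.sum,
        Finsupp.sum, map_sum]
      exact Finset.sum_congr rfl fun i _ => by rw [map_smul, hu]
    have h5 : Finsupp.linearCombination K b0 k = S.mkQ ⟨z, hz, hz'⟩ :=
      b0.linearCombination_repr _
    rw [h5] at h4
    have h6 : (⟨z, hz, hz'⟩ : V0) - Finsupp.linearCombination K u k ∈ S := by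
      have h8 : S.mkQ ((⟨z, hz, hz'⟩ : V0) - Finsupp.linearCombination K u k) = 0 := by
        rw [map_sub, h4, sub_self]
      exact (Submodule.Quotient.mk_eq_zero S).1 h8
    have h7 : z - U k ∈ F' := by
      rw [h1]
      exact h6
    rwa [sub_G] at h7
  -- sums over the basis
  have hsum : ∀ p : (Module.Basis.ofVectorSpaceIndex K (V0 ⧸ S)) →₀ P.X,
      p.sum (fun i q => φ i q) =
        ∑ b, op (W.H W.o b) • U (Finsupp.mapRange.linearMap (B.v.coord b) p) := by
    intro p
    induction p using Finsupp.induction_linear with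
    | zero => simp
    | add f g hf hg =>
      rw [Finsupp.sum_add_index' (fun i => map_zero _) (fun i => map_add _), hf, hg,
        ← Finset.sum_add_distrib]
      exact Finset.sum_congr rfl fun b _ => by rw [map_add, map_add, smul_add]
    | single i q =>
      rw [Finsupp.sum_single_index (h := fun i q => φ i q) (map_zero (φ i)), hφ]
      refine Finset.sum_congr rfl fun b _ => ?_
      have h1 : Finsupp.mapRange.linearMap (B.v.coord b) (Finsupp.single i q) =
          Finsupp.single i (B.v.repr q b) := by simp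
      rw [h1]
      have h2 : U (Finsupp.single i (B.v.repr q b)) = (B.v.repr q b) • c i := by
        simp [U]
      rw [h2]
      exact ((rmul G (W.H W.o b)).map_smul _ _).symm
  refine ⟨⟨_, φ, ?_, ?_, ?_, ?_⟩⟩
  · -- mem
    intro i p
    rw [hφ]
    exact Submodule.sum_mem _ fun b _ => Submodule.smul_mem _ _ (h.sF _ (hc i).1 _ (W.H_mem _ _))
  · -- act
    intro i p a ha
    have key : ∀ b, φ i (op a • B.v b) + op a • φ i (B.v b) ∈ F' := by
      intro b
      choose l m hl using fun b' => W.split a ha b b'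
      have h1 := expand W h b ha l m hl (hc i).1
      rw [expandP B b l m hl, map_sum, hφv, add_comm]
      have h2 : ∑ b', φ i ((l b' * W.T b b') • B.v b') =
          ∑ b', (l b' * W.T b b') • (op (W.H W.o b') • c i) := by
        refine Finset.sum_congr rfl fun b' _ => ?_
        rw [map_smul, hφv]
      rw [h2]
      exact h1
    have hlin : ∀ q : P.X, φ i (op a • q) + op a • φ i q =
        (φ i ∘ₗ rmul P a + rmul G a ∘ₗ φ i) q := fun q => rfl
    rw [hlin, ← B.v.sum_repr p, map_sum]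
    refine Submodule.sum_mem _ fun b _ => ?_
    rw [map_smul, ← hlin]
    exact Submodule.smul_mem _ _ (key b)
  · -- sur
    intro z hz
    have h1 : ∀ b, ∃ k, op (W.e b) • z + op (W.H W.o b) • U k ∈ F' := by
      intro b
      obtain ⟨z0, hz0, h2⟩ := h.hs b z hz
      have h3 : op (W.H W.o b) • z0 = op (W.H W.o b) • (op (W.e W.o) • z0) := by
        rw [← mul_smul, ← op_mul, eo_H]
      obtain ⟨k, hk⟩ := hUs (op (W.e W.o) • z0) (h.sF _ hz0 _ (W.e_mem _)) (by
        rw [← mul_smul, ← op_mul, W.e_e, if_pos rfl])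
      refine ⟨k, ?_⟩
      have h4 := h.sF' _ hk _ (W.H_mem W.o b)
      rw [smul_add, ← h3] at h4
      have h5 := Submodule.add_mem _ h2 h4
      rwa [show op (W.e b) • z + op (W.H W.o b) • z0 + (op (W.H W.o b) • z0 +
        op (W.H W.o b) • U k) = op (W.e b) • z + op (W.H W.o b) • U k +
        (op (W.H W.o b) • z0 + op (W.H W.o b) • z0) by abel, two_G, add_zero] at h5
    choose k hk using h1
    let p : (Module.Basis.ofVectorSpaceIndex K (V0 ⧸ S)) →₀ P.X :=
      ∑ b, Finsupp.mapRange.linearMap ((LinearMap.id : K →ₗ[K] K).smulRight (B.v b)) (k b)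
    refine ⟨p, ?_⟩
    have h2 : ∀ b, Finsupp.mapRange.linearMap (B.v.coord b) p = k b := by
      intro b
      refine Finsupp.ext fun i => ?_
      simp only [p, map_sum]
      rw [Finset.sum_apply', Finset.sum_eq_single b]
      · simp
      · intro b' _ hb
        simp [Finsupp.single_apply, hb]
      · intro hb
        exact absurd (Finset.mem_univ _) hb
    rw [hsum]
    simp only [h2]
    have h3 : z = ∑ b, op (W.e b) • z + op W.fs • z := by
      have h1 : op (∑ b', W.e b' + W.fs) • z = z := by rw [W.one, op_one, one_smul]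
      rw [op_add, add_smul, show op (∑ b', W.e b') = ∑ b', op (W.e b') from
        map_sum (opAddEquiv (α := A.C)) _ _, Finset.sum_smul] at h1
      exact h1.symm
    have h5 : z + ∑ b, op (W.H W.o b) • U (k b) =
        ∑ b, (op (W.e b) • z + op (W.H W.o b) • U (k b)) + op W.fs • z := by
      rw [Finset.sum_add_distrib]
      conv_lhs => enter [1]; rw [h3]
      rw [add_right_comm]
    rw [h5]
    exact Submodule.add_mem _ (Submodule.sum_mem _ fun b _ => hk b) (h.hf z hz)
  · -- inj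
    intro p hp
    rw [hsum] at hp
    have h1 : ∀ b, Finsupp.mapRange.linearMap (B.v.coord b) p = 0 := by
      intro b
      apply hU0
      have h2 := h.sF' _ hp _ (W.e_mem b)
      rw [Finset.smul_sum, Finset.sum_eq_single b] at h2
      · rw [← mul_smul, ← op_mul, W.H_e] at h2
        have h3 := h.hi b _ (hU _).1 h2
        rwa [(hU _).2] at h3
      · intro b' _ hb
        rw [← mul_smul, ← op_mul, ← W.H_e W.o b', mul_assoc, W.e_e, if_neg hb, mul_zero, op_zero,
          zero_smul]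
      · intro hb
        exact absurd (Finset.mem_univ _) hb
    refine Finsupp.ext fun i => ?_
    apply B.v.ext_elem
    intro b
    have := DFunLike.congr_fun (h1 b) i
    simpa using this

/-! ### the two layers from `cyc`, `bd` -/

/-- hypotheses on the cycles of degree `n`: zero at `fs`, `h` bijective on homology -/
structure HB (G : RM A) (n : ℤ) : Prop where
  hf : ∀ z ∈ cyc G n, op W.fs • z ∈ bd G n
  hs : ∀ b, ∀ z ∈ cyc G n, ∃ z0 ∈ cyc G n, op (W.e b) • z + op (W.H W.o b) • z0 ∈ bd G n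
  hi : ∀ b, ∀ z ∈ cyc G n, op (W.H W.o b) • z ∈ bd G n → op (W.e W.o) • z ∈ bd G n

/-- `bd + cyc · y` -/
def mid (G : RM A) (n : ℤ) : Submodule K G.X where
  carrier := {x | ∃ w ∈ cyc G n, x + op W.y • w ∈ bd G n}
  zero_mem' := ⟨0, Submodule.zero_mem _, by rw [smul_zero, add_zero]; exact Submodule.zero_mem _⟩
  add_mem' := by
    rintro x y ⟨w, hw, hx⟩ ⟨v, hv, hy⟩
    refine ⟨w + v, Submodule.add_mem _ hw hv, ?_⟩
    rw [smul_add, add_add_add_comm]
    exact Submodule.add_mem _ hx hy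
  smul_mem' := by
    rintro r x ⟨w, hw, hx⟩
    refine ⟨r • w, Submodule.smul_mem _ r hw, ?_⟩
    have h1 := (rmul G W.y).map_smul r w
    rw [rmul_apply, rmul_apply] at h1
    rw [h1, ← smul_add]
    exact Submodule.smul_mem _ r hx

theorem bd_le_mid (G : RM A) (n : ℤ) : bd G n ≤ mid W G n := fun x hx =>
  ⟨0, Submodule.zero_mem _, by rwa [smul_zero, add_zero]⟩

theorem mid_le_cyc (G : RM A) (n : ℤ) : mid W G n ≤ cyc G n := by
  rintro x ⟨w, hw, hx⟩
  have h1 := Submodule.add_mem _ (bd_le_cyc G n hx) (cyc_act hw W.y_mem)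
  rwa [add_assoc, two_G, add_zero] at h1

variable {W}

theorem y_mem_mid {G : RM A} {n : ℤ} {w : G.X} (hw : w ∈ cyc G n) : op W.y • w ∈ mid W G n :=
  ⟨w, hw, by rw [two_G]; exact Submodule.zero_mem _⟩

theorem cyc_thru {G : RM A} {n : ℤ} (h : HB W G n) {r : A.C} (hr : r ∈ thru A W.fs) {z : G.X}
    (hz : z ∈ cyc G n) : op r • z ∈ bd G n :=
  thru_act (fun _ hx _ ha => cyc_act hx ha) (fun _ hx _ ha => bd_act hx ha) h.hf hr hz

theorem mid_act {G : RM A} {n : ℤ} (h : HB W G n) {x : G.X} (hx : x ∈ mid W G n) {a : A.C}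
    (ha : a ∈ A.G 0) : op a • x ∈ mid W G n := by
  obtain ⟨w, hw, hx⟩ := hx
  have h1 := bd_le_mid W G n (bd_act hx ha)
  rw [smul_add] at h1
  suffices h2 : op a • (op W.y • w) ∈ mid W G n by
    have h3 := Submodule.add_mem _ h1 h2
    rwa [add_assoc, two_G, add_zero] at h3
  -- decompose `y w` and `a`
  have h0 : ∀ x : G.X, x = ∑ b', op (W.e b') • x + op W.fs • x := by
    intro x
    have h1 : op (∑ b', W.e b' + W.fs) • x = x := by rw [W.one, op_one, one_smul]
    rw [op_add, add_smul, show op (∑ b', W.e b') = ∑ b', op (W.e b') from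
      map_sum (opAddEquiv (α := A.C)) _ _, Finset.sum_smul] at h1
    exact h1.symm
  have hyw := cyc_act hw W.y_mem
  rw [h0 (op W.y • w), smul_add, Finset.smul_sum]
  refine Submodule.add_mem _ (Submodule.sum_mem _ fun b _ => ?_)
    (bd_le_mid W G n (bd_act (h.hf _ hyw) ha))
  rw [h0 (op a • (op (W.e b) • (op W.y • w)))]
  refine Submodule.add_mem _ (Submodule.sum_mem _ fun b' _ => ?_)
    (bd_le_mid W G n (h.hf _ (cyc_act (cyc_act hyw (W.e_mem b)) ha)))
  rw [← mul_smul, ← mul_smul, ← op_mul, ← op_mul, ← mul_assoc]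
  obtain ⟨l, m, hl⟩ := W.split a ha b b'
  have h2 := cyc_thru h hl hyw
  rw [op_sub, sub_smul, op_add, add_smul, op_smul, op_smul, smul_assoc, smul_assoc] at h2
  have h3 : op (W.y * W.H b b') • (op W.y • w) = 0 := by
    rw [← mul_smul, ← op_mul, ← mul_assoc, W.y_y, zero_mul, op_zero, zero_smul]
  rw [h3, smul_zero, add_zero, sub_G] at h2
  have h4 : op (W.H b b') • (op W.y • w) ∈ mid W G n := by
    rw [← mul_smul, ← op_mul, W.y_H, op_mul, mul_smul]
    exact y_mem_mid (cyc_act hw (W.H_mem _ _))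
  have h5 := Submodule.add_mem _ (bd_le_mid W G n h2) (Submodule.smul_mem _ l h4)
  rwa [add_assoc, two_G, add_zero] at h5

theorem layH_top {G : RM A} {n : ℤ} (h : HB W G n) : LayH W G (cyc G n) (mid W G n) where
  sF _ hx _ ha := cyc_act hx ha
  sF' _ hx _ ha := mid_act h hx ha
  le := mid_le_cyc W G n
  hf z hz := bd_le_mid W G n (h.hf z hz)
  hy z hz := y_mem_mid hz
  hs b z hz := by
    obtain ⟨z0, h0, h1⟩ := h.hs b z hz
    exact ⟨z0, h0, bd_le_mid W G n h1⟩
  hi b z hz hx := by
    obtain ⟨w, hw, hx⟩ := hx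
    obtain ⟨w0, hw0, h1⟩ := h.hs b w hw
    -- `op (H o b) • (z + y w0) ∈ bd`
    have h2 := bd_act hx (W.e_mem b)
    rw [smul_add, ← mul_smul, ← op_mul, W.H_e, ← mul_smul, ← op_mul, W.y_e, op_mul, mul_smul] at h2
    have h3 := bd_act h1 W.y_mem
    rw [smul_add, ← mul_smul (op W.y) (op (W.H W.o b)), ← op_mul, ← W.y_H, op_mul, mul_smul] at h3
    have h4 := Submodule.add_mem _ h2 h3
    rw [show op (W.H W.o b) • z + op W.y • op (W.e b) • w + (op W.y • op (W.e b) • w +
      op (W.H W.o b) • op W.y • w0) = op (W.H W.o b) • z + op (W.H W.o b) • op W.y • w0 +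
      (op W.y • op (W.e b) • w + op W.y • op (W.e b) • w) by abel, two_G, add_zero,
      ← smul_add] at h4
    have h5 := h.hi b _ (Submodule.add_mem _ hz (cyc_act hw0 W.y_mem)) h4
    rw [smul_add, ← mul_smul (op (W.e W.o)) (op W.y), ← op_mul, W.y_e, op_mul, mul_smul] at h5
    exact ⟨op (W.e W.o) • w0, cyc_act hw0 (W.e_mem _), h5⟩

theorem layH_bot {G : RM A} {n : ℤ} (h : HB W G n) : LayH W G (mid W G n) (bd G n) where
  sF _ hx _ ha := mid_act h hx ha
  sF' _ hx _ ha := bd_act hx ha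
  le := bd_le_mid W G n
  hf z hz := h.hf z (mid_le_cyc W G n hz)
  hy z hz := by
    obtain ⟨w, hw, hx⟩ := hz
    have h1 := bd_act hx W.y_mem
    rwa [smul_add, ← mul_smul, ← op_mul, W.y_y, op_zero, zero_smul, add_zero] at h1
  hs b z hz := by
    obtain ⟨w, hw, hx⟩ := hz
    obtain ⟨w0, hw0, h1⟩ := h.hs b w hw
    refine ⟨op W.y • w0, y_mem_mid hw0, ?_⟩
    have h2 := bd_act hx (W.e_mem b)
    rw [smul_add, ← mul_smul (op (W.e b)) (op W.y), ← op_mul, W.y_e, op_mul, mul_smul] at h2
    have h3 := bd_act h1 W.y_mem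
    rw [smul_add, ← mul_smul (op W.y) (op (W.H W.o b)), ← op_mul, ← W.y_H, op_mul, mul_smul] at h3
    have h4 := Submodule.add_mem _ h2 h3
    rwa [show op (W.e b) • z + op W.y • op (W.e b) • w + (op W.y • op (W.e b) • w +
      op (W.H W.o b) • op W.y • w0) = op (W.e b) • z + op (W.H W.o b) • op W.y • w0 +
      (op W.y • op (W.e b) • w + op W.y • op (W.e b) • w) by abel, two_G, add_zero] at h4
  hi b z hz := h.hi b z (mid_le_cyc W G n hz)

/-- **(V2)(c)**: the homology of `G` is supported at the vertices `e b`, `h` is bijective on it;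
`P ⊗ X` is acyclic. Then `G ⊗ X` is acyclic. -/
theorem ac_of_win {P G : RM A} (B : PB W P) (hP1 : One P) {X : LCells A} (hP : Ac (tG P X))
    (h : ∀ n, HB W G n) : Ac (tG G X) :=
  ac_of_two hP1 hP (mid W G) (bd_le_mid W G) (mid_le_cyc W G)
    (fun n _ hx _ ha => mid_act (h n) hx ha)
    (fun n => (exists_lay B (layH_top (h n))).some)
    (fun n => (exists_lay B (layH_bot (h n))).some)

end Crest.Agent.R186.VT339
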