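import Crest.Agent.R186.TB3_143
import Crest.Agent.R186.Frame2_515
import Crest.Agent.R186.Col_921
import Crest.Agent.R186.MW_890
import Crest.Agent.R186.VTc_339
import Crest.Agent.R186.V2c_510
import Crest.Agent.R186.Core_890

-- ▼ part R186/TB4_143
section

/-!
Row 186 (helper143): `P ⊗ X` and `Y ⊗ P` as functors of the bimodule `P`, in the cells frame.
-/

set_option autoImplicit false
set_option linter.style.haveILetI false
set_option linter.unusedSectionVars false

open MulOpposite

namespace Crest.Agent.R186.TB143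

open Frame515 Hat827

variable {K : Type} [Field K] {A B : DGA K}

/-- short exact sequences of bimodules -/
structure BSES (P P' P'' : BM A B) extends SES P.toGC P'.toGC P''.toGC where
  smul_i : ∀ (a : A.C) (x : P.X), i.f (a • x) = a • i.f x
  smul_p : ∀ (a : A.C) (x : P'.X), p.f (a • x) = a • p.f x
  smulR_i : ∀ (b : B.C) (x : P.X), i.f (op b • x) = op b • i.f x
  smulR_p : ∀ (b : B.C) (x : P'.X), p.f (op b • x) = op b • p.f x

/-- the underlying sequence of left modules -/
def BSES.toL {P P' P'' : BM A B} (S : BSES P P' P'') : LSES P.toLM P'.toLM P''.toLM where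
  toSES := S.toSES
  smul_i := S.smul_i
  smul_p := S.smul_p


section tP

variable (X : LCells B) {P P' P'' : BM A B}




end tP

section tQ

variable (Y : RCells A) {P P' P'' : BM A B}

/-- `Y ⊗ f` as a map of right modules -/
noncomputable def tQmap (f : BMHom P P') : RMHom (tQ Y P) (tQ Y P') where
  toGCHom := tYmap Y f.toL
  smul b x := by
    refine Finsupp.ext fun τ => ?_
    have h1 := (twYhom Y f.toL).lin_apply
      (show Y.ι →₀ P.X from op b • (show Y.ι →₀ P.X from x)) τ
    have h2 := (twYhom Y f.toL).lin_apply (show Y.ι →₀ P.X from x) τ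
    exact h1.trans ((f.smulR b _).trans (congrArg (fun y => op b • y) h2.symm))



end tQ

/-! ### five lemma -/

section five

variable {X Y W X' Y' W' : GC K} (S : SES X Y W) (S' : SES X' Y' W')
  (a : GCHom X X') (b : GCHom Y Y') (c : GCHom W W')
  (h1 : ∀ x, b.f (S.i.f x) = S'.i.f (a.f x)) (h2 : ∀ y, c.f (S.p.f y) = S'.p.f (b.f y))


include h1 h2




end five

end Crest.Agent.R186.TB143
end

-- ▼ part R186/ColAd_977
section

/-!
# Row 186, half (A), leaf V3, adapter (helper977): columns of `Y ⊗ P`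

`Col P N e` : the left module `N` is the column `P e` of the bimodule `P`.
* `Col.ac` : `Y ⊗ N` acyclic ⟹ every `e`-fixed cycle of `Y ⊗ P` is `d` of an `e`-fixed element.
* `ColH.surj / inj` : right multiplication by `h : B.C` from the column `e` to the column `e'`
  is a quasi-isomorphism on `Y ⊗ P` as soon as `Y ⊗ η` is one (`η : N → N'`).
-/

set_option autoImplicit false
set_option linter.style.haveILetI false
set_option linter.unusedSectionVars false

open MulOpposite

namespace Crest.Agent.R186.ColAd977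

open Frame515 Hat827 TB143

variable {K : Type} [Field K] {A B : DGA K}

/-- the column of a bimodule at an idempotent -/
structure Col (P : BM A B) (N : LM A) (e : B.C) where
  c : LMHom P.toLM N
  i : LMHom N P.toLM
  ci : ∀ n, c.f (i.f n) = n
  ic : ∀ p : P.X, i.f (c.f p) = op e • p

section one

variable {P : BM A B} {N N' : LM A} {e e' : B.C}

theorem Col.map_i_c (C : Col P N e) (Y : RCells A) (x : Y.ι →₀ P.X) :
    (tYmap Y C.i).f ((tYmap Y C.c).f x) = (op e • (show (tQ Y P).X from x) : (tQ Y P).X) := by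
  refine Finsupp.ext fun σ => ?_
  have h1 := tYmap_apply Y C.i ((tYmap Y C.c).f x) σ
  have h2 := tYmap_apply Y C.c x σ
  refine h1.trans ?_
  refine (congrArg C.i.f h2).trans ?_
  exact C.ic (x σ)

theorem Col.map_c_i (C : Col P N e) (Y : RCells A) (x : Y.ι →₀ N.X) :
    (tYmap Y C.c).f ((tYmap Y C.i).f x) = x := by
  refine Finsupp.ext fun σ => ?_
  have h1 := tYmap_apply Y C.c ((tYmap Y C.i).f x) σ
  have h2 := tYmap_apply Y C.i x σ
  refine h1.trans ?_
  refine (congrArg C.c.f h2).trans ?_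
  exact C.ci (x σ)

/-- elements from the column are fixed -/
theorem Col.fix (C : Col P N e) (Y : RCells A) (x : Y.ι →₀ N.X) :
    (op e • (show (tQ Y P).X from (tYmap Y C.i).f x) : (tQ Y P).X) = (tYmap Y C.i).f x := by
  rw [← C.map_i_c Y, C.map_c_i Y]

/-- **columns of `Y ⊗ P`** -/
theorem Col.ac (C : Col P N e) (Y : RCells A) (h : Ac (tY Y N)) (k : ℤ) (x : (tQ Y P).X)
    (hx : x ∈ (tQ Y P).gr k) (he : op e • x = x) (hd : (tQ Y P).d x = 0) :
    ∃ y ∈ (tQ Y P).gr (k + 1), op e • y = y ∧ (tQ Y P).d y = x := by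
  obtain ⟨z, hz, e1⟩ := h k ((tYmap Y C.c).f x) ((tYmap Y C.c).f_mem hx) (by
    have := (tYmap Y C.c).f_d x
    rw [← this]
    have e2 : (tY Y P.toLM).d x = 0 := hd
    rw [e2, map_zero])
  refine ⟨(tYmap Y C.i).f z, (tYmap Y C.i).f_mem hz, C.fix Y z, ?_⟩
  have e2 : (tQ Y P).d ((tYmap Y C.i).f z) = (tYmap Y C.i).f ((tY Y N).d z) :=
    ((tYmap Y C.i).f_d z).symm
  rw [e2, e1, C.map_i_c Y]
  exact he


/-- right multiplication by `h` from the column `e` to the column `e'` -/
structure ColH (C : Col P N e) (C' : Col P N' e') (h : B.C) where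
  η : LMHom N N'
  link : ∀ p : P.X, C'.c.f (op h • p) = η.f (C.c.f p)
  he : h * e' = h
  eh : e * h = h

variable {C : Col P N e} {C' : Col P N' e'} {h : B.C}

theorem ColH.linkY (H : ColH C C' h) (Y : RCells A) (x : (tQ Y P).X) :
    (tYmap Y C'.c).f (op h • x : (tQ Y P).X) = (tYmap Y H.η).f ((tYmap Y C.c).f x) := by
  refine Finsupp.ext fun σ => ?_
  refine (tYmap_apply Y C'.c (op h • x : (tQ Y P).X) σ).trans ?_
  have h1 := tYmap_apply Y H.η ((tYmap Y C.c).f x) σ
  have h2 := tYmap_apply Y C.c x σ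
  refine Eq.trans ?_ h1.symm
  refine Eq.trans ?_ (congrArg H.η.f h2).symm
  exact H.link _

theorem ColH.linkI (H : ColH C C' h) (Y : RCells A) (u : Y.ι →₀ N.X) :
    (tYmap Y C'.i).f ((tYmap Y H.η).f u) =
      (op h • (show (tQ Y P).X from (tYmap Y C.i).f u) : (tQ Y P).X) := by
  have e1 := H.linkY Y ((tYmap Y C.i).f u)
  rw [C.map_c_i Y] at e1
  rw [← e1, C'.map_i_c Y]
  refine (smul_smul (op e') (op h) _).trans ?_
  rw [← op_mul, H.he]
  rfl

/-- surjectivity on classes -/
theorem ColH.surj (H : ColH C C' h) (Y : RCells A) (hq : QI (tYmap Y H.η)) (k : ℤ)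
    (y : (tQ Y P).X) (hy : y ∈ (tQ Y P).gr k) (hye : op e' • y = y) (hd : (tQ Y P).d y = 0) :
    ∃ x ∈ (tQ Y P).gr k, op e • x = x ∧ (tQ Y P).d x = 0 ∧
      ∃ z ∈ (tQ Y P).gr (k + 1), op e' • z = z ∧ y = op h • x + (tQ Y P).d z := by
  obtain ⟨u, hu, hud, z, hz, e1⟩ := hq.surj k ((tYmap Y C'.c).f y) ((tYmap Y C'.c).f_mem hy) (by
    rw [← (tYmap Y C'.c).f_d y]
    have e2 : (tY Y P.toLM).d y = 0 := hd
    rw [e2, map_zero])
  refine ⟨(tYmap Y C.i).f u, (tYmap Y C.i).f_mem hu, C.fix Y u, ?_,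
    (tYmap Y C'.i).f z, (tYmap Y C'.i).f_mem hz, C'.fix Y z, ?_⟩
  · have e2 : (tQ Y P).d ((tYmap Y C.i).f u) = (tYmap Y C.i).f ((tY Y N).d u) :=
      ((tYmap Y C.i).f_d u).symm
    rw [e2, hud, map_zero]
    rfl
  · have e2 : (tQ Y P).d ((tYmap Y C'.i).f z) = (tYmap Y C'.i).f ((tY Y N').d z) :=
      ((tYmap Y C'.i).f_d z).symm
    rw [e2]
    have e3 := congrArg (tYmap Y C'.i).f e1
    rw [map_add, C'.map_i_c Y, H.linkI Y u] at e3
    exact hye.symm.trans e3

/-- injectivity on classes -/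
theorem ColH.inj (H : ColH C C' h) (Y : RCells A) (hq : QI (tYmap Y H.η)) (k : ℤ)
    (x : (tQ Y P).X) (hx : x ∈ (tQ Y P).gr k) (hxe : op e • x = x) (hd : (tQ Y P).d x = 0)
    (hz : ∃ z ∈ (tQ Y P).gr (k + 1), op h • x = (tQ Y P).d z) :
    ∃ w ∈ (tQ Y P).gr (k + 1), op e • w = w ∧ x = (tQ Y P).d w := by
  obtain ⟨z, hz, ez⟩ := hz
  obtain ⟨w, hw, e1⟩ := hq.inj k ((tYmap Y C.c).f x) ((tYmap Y C.c).f_mem hx) (by
    rw [← (tYmap Y C.c).f_d x]
    have e2 : (tY Y P.toLM).d x = 0 := hd
    rw [e2, map_zero]) ⟨(tYmap Y C'.c).f z, (tYmap Y C'.c).f_mem hz, by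
      rw [← H.linkY Y x, ez]
      exact (tYmap Y C'.c).f_d z⟩
  refine ⟨(tYmap Y C.i).f w, (tYmap Y C.i).f_mem hw, C.fix Y w, ?_⟩
  have e2 : (tQ Y P).d ((tYmap Y C.i).f w) = (tYmap Y C.i).f ((tY Y N).d w) :=
    ((tYmap Y C.i).f_d w).symm
  rw [e2]
  have e3 := congrArg (tYmap Y C.i).f e1
  rw [C.map_i_c Y] at e3
  exact hxe.symm.trans e3

end one

/-! ### the cone of a morphism of left modules -/

section cone

variable {N N' : LM A}

/-- the cone as a left module -/
def coneL (f : LMHom N N') : LM A where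
  toGC := cone f.toGCHom
  act := (inferInstance : Module A.C (N.X × N'.X))
  tower := (inferInstance : IsScalarTower K A.C (N.X × N'.X))
  smul_mem {k l a x} ha hx := by
    obtain ⟨h1, h2⟩ := hx
    refine ⟨?_, N'.smul_mem ha h2⟩
    have := N.smul_mem ha h1
    exact gr_cast this (by ring)
  leib a x := by
    obtain ⟨x, y⟩ := x
    have t := LM.two N
    have tw : ∀ z : N.X, -z = z := fun z => (eq_neg_of_add_eq_zero_left (t z)).symm
    refine Prod.ext ?_ ?_
    · show -N.d (a • x) = A.D a • x + a • (-N.d x)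
      rw [tw, tw, N.leib]
    · show f.f (a • x) + N'.d (a • y) = A.D a • y + a • (f.f x + N'.d y)
      rw [f.smul, N'.leib, smul_add]
      abel

/-- `Y ⊗ cone f` acyclic ⟹ `Y ⊗ f` is a quasi-isomorphism -/
theorem qi_of_cone (f : LMHom N N') (Y : RCells A) (h : Ac (tY Y (coneL f))) :
    QI (tYmap Y f) := by
  rw [← ac_cone]
  have e : Ac ((twYhom Y f).cn (LM.two N)).cx := by
    intro k x hx hd
    obtain ⟨y, hy, e⟩ := h k x hx hd
    exact ⟨y, hy, e⟩
  exact (QI.ac ((twYhom Y f).g_qi (LM.two N))).2 e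

end cone

end Crest.Agent.R186.ColAd977
end

-- ▼ part R186/ColAd2_977
section

/-!
# Row 186, half (A), leaf V3, adapter (helper977), part 2: columns of the bimodule `M`

* `lbD D : LB w` : 921's left module of 44's bimodule `D : BD w`.
* `MF D P` : `P : BM w.dga D.ext.dga` in matrix form.
* `MF.col o : Col P (colL (lbD D) (w.P o) (w.A o)) (WD.e o)`.
* `MF.colH o o' s` : right multiplication by `s` at `(o, o')`.
-/

set_option autoImplicit false
set_option linter.style.haveILetI false
set_option linter.unusedSectionVars false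

open MulOpposite

noncomputable section

namespace Crest.Agent.R186.ColAd977

open Frame515 Hat827 TB143 Win810 Col921 SExt44

variable {K : Type} [Field K] {w : WD K}

/-- 44's bimodule as a left module -/
@[reducible] def modD (D : BD w) : Module w.S D.M := Module.compHom D.M D.lM.toRingHom

/-- 921's form of the left module -/
def lbD (D : BD w) : LB w :=
  letI := modD D
  { B := D.M
    act := modD D
    tower := ⟨fun r a m => by
      show D.lM (r • a) m = r • D.lM a m
      rw [map_smul]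
      rfl⟩
    pb := D.pcM
    smul_mem := fun ha hm => D.lM_mem ha hm
    d := D.DM
    d_smul := fun a m => D.DM_l a m
    d_d := D.DM_DM
    d_mem := fun h => D.DM_mem h }


theorem cvx {D : BD w} {v v' : Cv (lbD D)} (h : ∀ i, v i = v' i) : v = v' := funext h

/-- a bimodule in matrix form -/
structure MF (D : BD w) (P : BM w.dga D.ext.dga) where
  en : P.X ≃ₗ[K] (w.Ob → w.Ob → D.M)
  mem_gr : ∀ {k : ℤ} {x : P.X}, x ∈ P.gr k ↔
    ∀ i j, en x i j ∈ D.pcM (w.P i - w.P j) (w.A i - w.A j) k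
  en_d : ∀ (x : P.X) (i j : w.Ob), en (P.d x) i j = D.DM (en x i j)
  en_l : ∀ (a : w.dga.C) (x : P.X) (i j : w.Ob),
    en (a • x) i j = ∑ l, D.lM ((a : w.Win).1 i l) (en x l j)
  en_r : ∀ (b : D.ext.dga.C) (x : P.X) (i j : w.Ob),
    en (op b • x) i j = ∑ l : w.Ob, D.rM ((show D.Car from (b : D.ext.Win).1 l j).1) (en x i l)

namespace MF

variable {D : BD w} {P : BM w.dga D.ext.dga} (F : MF D P)

/-- right multiplication by a matrix unit -/
theorem en_ws (o o' : w.Ob) (s : D.Car) (hs : s ∈ D.ext.E o o') (x : P.X) (i j : w.Ob) :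
    F.en (op (show D.ext.dga.C from WD.ws (w := D.ext) o o' s hs) • x) i j =
      if o' = j then D.rM s.1 (F.en x i o) else 0 := by
  rw [F.en_r]
  have h1 : ∀ l : w.Ob, D.rM ((show D.Car from
      ((show D.ext.dga.C from WD.ws (w := D.ext) o o' s hs) : D.ext.Win).1 l j).1) (F.en x i l) =
      if o = l then (if o' = j then D.rM s.1 (F.en x i o) else 0) else 0 := by
    intro l
    have h2 : (show D.Car from
      ((show D.ext.dga.C from WD.ws (w := D.ext) o o' s hs) : D.ext.Win).1 l j) =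
      if o = l ∧ o' = j then s else 0 := WD.ws_apply (w := D.ext) o o' s hs l j
    rw [h2]
    by_cases ho : o = l
    · subst ho
      by_cases hj : o' = j
      · rw [if_pos ⟨rfl, hj⟩, if_pos rfl, if_pos hj]
      · rw [if_neg (fun h => hj h.2), if_pos rfl, if_neg hj]
        show D.rM (0 : w.S) _ = 0
        rw [map_zero]
        rfl
    · rw [if_neg (fun h => ho h.1), if_neg ho]
      show D.rM (0 : w.S) _ = 0
      rw [map_zero]
      rfl
  rw [Finset.sum_congr rfl fun l _ => h1 l, Finset.sum_ite_eq]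
  simp

theorem en_e (o : w.Ob) (x : P.X) (i j : w.Ob) :
    F.en (op (show D.ext.dga.C from WD.e (w := D.ext) o) • x) i j =
      if o = j then F.en x i o else 0 := by
  have h := F.en_ws o o (1 : D.Car) (WD.q_le (w := D.ext) o o 0 (WD.q_one (w := D.ext) o)) x i j
  refine h.trans ?_
  by_cases hj : o = j
  · rw [if_pos hj, if_pos hj]
    exact D.rM_one _
  · rw [if_neg hj, if_neg hj]

theorem en_ext {x y : P.X} (h : ∀ i j, F.en x i j = F.en y i j) : x = y :=
  F.en.injective (funext fun i => funext fun j => h i j)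

/-- the column map -/
def cMap (o : w.Ob) : P.X →ₗ[K] Cv (lbD D) where
  toFun x := fun i => F.en x i o
  map_add' x y := by
    refine cvx fun i => ?_
    show F.en (x + y) i o = F.en x i o + F.en y i o
    rw [map_add]
    rfl
  map_smul' r x := by
    refine cvx fun i => ?_
    show F.en (r • x) i o = r • F.en x i o
    rw [map_smul]
    rfl

/-- the inclusion of a column -/
def iMap (o : w.Ob) : Cv (lbD D) →ₗ[K] P.X where
  toFun v := F.en.symm fun i j => if o = j then (show D.M from v i) else 0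
  map_add' v v' := by
    rw [← map_add]
    congr 1
    funext i j
    show (if o = j then (show D.M from v i + v' i) else 0) =
      (if o = j then (show D.M from v i) else 0) + (if o = j then (show D.M from v' i) else 0)
    split_ifs
    · rfl
    · rw [add_zero]
  map_smul' r v := by
    rw [RingHom.id_apply, ← map_smul]
    congr 1
    funext i j
    show (if o = j then (show D.M from r • v i) else 0) =
      r • (if o = j then (show D.M from v i) else 0)
    split_ifs
    · rfl
    · rw [smul_zero]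

theorem en_iMap (o : w.Ob) (v : Cv (lbD D)) (i j : w.Ob) :
    F.en (F.iMap o v) i j = if o = j then (show D.M from v i) else 0 := by
  show F.en (F.en.symm _) i j = _
  rw [LinearEquiv.apply_symm_apply]

/-- **the column of `M`** -/
def col (o : w.Ob) : Col P (colL (lbD D) (w.P o) (w.A o))
    (show D.ext.dga.C from WD.e (w := D.ext) o) where
  c :=
    { f := F.cMap o
      f_mem := fun {k x} hx i => (F.mem_gr.1 hx) i o
      f_d := fun x => by
        refine cvx fun i => ?_
        exact F.en_d x i o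
      smul := fun a x => by
        refine cvx fun i => ?_
        exact F.en_l a x i o }
  i :=
    { f := F.iMap o
      f_mem := fun {k v} hv => F.mem_gr.2 fun i j => by
        rw [F.en_iMap]
        split_ifs with h
        · subst h
          exact hv i
        · exact Submodule.zero_mem _
      f_d := fun v => F.en_ext fun i j => by
        rw [F.en_iMap, F.en_d, F.en_iMap]
        split_ifs
        · rfl
        · rw [map_zero]
      smul := fun a v => F.en_ext fun i j => by
        rw [F.en_iMap, F.en_l]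
        have h1 : ∀ l, D.lM ((a : w.Win).1 i l) (F.en (F.iMap o v) l j) =
            if o = j then D.lM ((a : w.Win).1 i l) (show D.M from v l) else 0 := by
          intro l
          rw [F.en_iMap]
          split_ifs
          · rfl
          · rw [map_zero]
        rw [Finset.sum_congr rfl fun l _ => h1 l]
        split_ifs
        · rfl
        · rw [Finset.sum_const_zero] }
  ci v := by
    refine cvx fun i => ?_
    show F.en (F.iMap o v) i o = v i
    rw [F.en_iMap, if_pos rfl]
  ic x := F.en_ext fun i j => by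
    show F.en (F.iMap o (F.cMap o x)) i j = _
    rw [F.en_iMap, F.en_e]
    rfl

/-- right multiplication by `s`, on columns -/
def rMap (D : BD w) (s : w.S) : Cv (lbD D) →ₗ[K] Cv (lbD D) where
  toFun v := fun i => D.rM s (v i)
  map_add' v v' := by
    refine cvx fun i => ?_
    exact map_add (D.rM s) _ _
  map_smul' r v := by
    refine cvx fun i => ?_
    exact map_smul (D.rM s) _ _

/-- right multiplication by `s : (o, o')` as a morphism of columns -/
def rHom (D : BD w) {o o' : w.Ob} {s : w.S} (hs : s ∈ w.q o o' 0) (h0 : w.D s = 0) :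
    LMHom (colL (lbD D) (w.P o) (w.A o)) (colL (lbD D) (w.P o') (w.A o')) where
  f := rMap D s
  f_mem {k v} hv := fun i => by
    have h := D.rM_mem (hv i) hs
    have e1 : w.P i - w.P o + (w.P o - w.P o') = w.P i - w.P o' := by ring
    have e2 : w.A i - w.A o + (w.A o - w.A o') = w.A i - w.A o' := by ring
    rw [e1, e2, add_zero] at h
    exact h
  f_d v := by
    refine cvx fun i => ?_
    show D.rM s (D.DM (v i)) = D.DM (D.rM s (v i))
    rw [D.DM_r, h0, map_zero]
    exact (add_zero _).symm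
  smul a v := by
    refine cvx fun i => ?_
    show D.rM s (∑ l, D.lM ((a : w.Win).1 i l) (v l)) = ∑ l, D.lM ((a : w.Win).1 i l) (D.rM s (v l))
    rw [map_sum]
    exact Finset.sum_congr rfl fun l _ => (D.comm _ _ _).symm




end MF

/-- **163's all-matrix window of `M` is in matrix form** -/
def mfT (D : BD w) : MF D (Res255.resBR (SM890.fstH D) (SM890.tbOf D).win) where
  en := LinearEquiv.refl K (w.Ob → w.Ob → D.M)
  mem_gr {k x} := by
    constructor
    · intro h i j
      have := h i j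
      rwa [SM890.q_tbOf] at this
    · intro h i j
      have := h i j
      rwa [← SM890.q_tbOf] at this
  en_d _ _ _ := rfl
  en_l _ _ _ _ := rfl
  en_r _ _ _ _ := rfl

end Crest.Agent.R186.ColAd977
end
end

-- ▼ part R186/VH_339
section

/-!
Row 186 (helper339), half (A), leaf (V): `HB` from one-step statements.
-/

set_option autoImplicit false
set_option linter.style.haveILetI false
set_option linter.unusedSectionVars false

open MulOpposite

namespace Crest.Agent.R186.VT339

open Hat827 Hat827.DGA Frame515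

variable {K : Type} [Field K] {A : DGA K}

/-- right multiplication by `a` is bijective on homology from the column `p` to the column `q` -/
structure Stp (G : RM A) (n : ℤ) (p q a : A.C) : Prop where
  sur : ∀ z ∈ cyc G n, ∃ z0 ∈ cyc G n, op q • z + op a • z0 ∈ bd G n
  inj : ∀ z ∈ cyc G n, op a • z ∈ bd G n → op p • z ∈ bd G n

/-- from statements inside the columns -/
theorem Stp.of_col {G : RM A} {n : ℤ} {p q a : A.C} (hp : p ∈ A.G 0) (hq : q ∈ A.G 0)
    (hpp : p * p = p) (hqq : q * q = q) (hpa : p * a = a)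
    (sur : ∀ z, z ∈ G.gr n → G.d z = 0 → op q • z = z →
      ∃ z0, z0 ∈ G.gr n ∧ G.d z0 = 0 ∧ ∃ y ∈ G.gr (n + 1), z = op a • z0 + G.d y)
    (inj : ∀ z, z ∈ G.gr n → G.d z = 0 → op p • z = z → (∃ y ∈ G.gr (n + 1), op a • z = G.d y) →
      ∃ y ∈ G.gr (n + 1), z = G.d y) : Stp G n p q a where
  sur z hz := by
    have h1 := cyc_act hz hq
    obtain ⟨z0, h2, h3, y, h4, h5⟩ := sur (op q • z) h1.1 h1.2
      (by rw [← mul_smul, ← op_mul, hqq])
    refine ⟨z0, ⟨h2, h3⟩, y, h4, ?_⟩
    rw [h5, add_right_comm, two_G, zero_add]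
  inj z hz := by
    rintro ⟨y, h1, h2⟩
    have h3 := cyc_act hz hp
    obtain ⟨w, h4, h5⟩ := inj (op p • z) h3.1 h3.2 (by rw [← mul_smul, ← op_mul, hpp])
      ⟨y, h1, by rw [← mul_smul, ← op_mul, hpa, h2]⟩
    exact ⟨w, h4, h5.symm⟩

theorem Stp.refl {G : RM A} {n : ℤ} {p : A.C} : Stp G n p p p where
  sur z hz := ⟨z, hz, by rw [two_G]; exact Submodule.zero_mem _⟩
  inj z _ h := h

theorem Stp.trans {G : RM A} {n : ℤ} {p q r a b : A.C} (ha : a ∈ A.G 0) (hb : b ∈ A.G 0)
    (haq : a * q = a) (hqb : q * b = b) (h1 : Stp G n p q a) (h2 : Stp G n q r b) :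
    Stp G n p r (a * b) where
  sur z hz := by
    obtain ⟨z0, h3, h4⟩ := h2.sur z hz
    obtain ⟨z1, h5, h6⟩ := h1.sur z0 h3
    refine ⟨z1, h5, ?_⟩
    have h7 := bd_act h6 hb
    rw [smul_add, ← mul_smul (op b) (op q), ← op_mul, hqb, ← mul_smul (op b) (op a), ← op_mul] at h7
    have h8 := Submodule.add_mem _ h4 h7
    rwa [add_assoc, ← add_assoc (op b • z0), two_G, zero_add] at h8
  inj z hz h := by
    rw [op_mul, mul_smul] at h
    have h3 := h2.inj (op a • z) (cyc_act hz ha) h
    rw [← mul_smul, ← op_mul, haq] at h3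
    exact h1.inj z hz h3

/-- `HB` from the steps `o → b` -/
theorem HB.of_stp {W : Wdat A} {G : RM A} {n : ℤ} (hf : ∀ z ∈ cyc G n, op W.fs • z ∈ bd G n)
    (h : ∀ b, Stp G n (W.e W.o) (W.e b) (W.H W.o b)) : HB W G n where
  hf := hf
  hs b := (h b).sur
  hi b := (h b).inj

/-- `HB` for four vertices `3 → 2 → 1 → 0` -/
theorem HB.of_four {W : Wdat A} {G : RM A} {n : ℤ} (hf : ∀ z ∈ cyc G n, op W.fs • z ∈ bd G n)
    (v : Fin 4 → W.ι) (ho : v 3 = W.o) (hv : Function.Surjective v)
    (h32 : Stp G n (W.e (v 3)) (W.e (v 2)) (W.H (v 3) (v 2)))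
    (h21 : Stp G n (W.e (v 2)) (W.e (v 1)) (W.H (v 2) (v 1)))
    (h10 : Stp G n (W.e (v 1)) (W.e (v 0)) (W.H (v 1) (v 0)))
    (t2 : W.T (v 2) (v 1) = 1) (t1 : W.T (v 1) (v 0) = 1) : HB W G n := by
  have e2 : W.H W.o (v 2) * W.H (v 2) (v 1) = W.H W.o (v 1) := by rw [W.H_H, t2, one_smul]
  have e1 : W.H W.o (v 1) * W.H (v 1) (v 0) = W.H W.o (v 0) := by rw [W.H_H, t1, one_smul]
  rw [ho] at h32
  have s1 := h32.trans (W.H_mem _ _) (W.H_mem _ _) (W.H_e _ _) (W.e_H _ _) h21
  rw [e2] at s1
  have s0 := s1.trans (W.H_mem _ _) (W.H_mem _ _) (W.H_e _ _) (W.e_H _ _) h10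
  rw [e1] at s0
  refine HB.of_stp hf fun b => ?_
  obtain ⟨i, rfl⟩ := hv b
  fin_cases i
  · exact s0
  · exact s1
  · exact h32
  · change Stp G n (W.e W.o) (W.e (v 3)) (W.H W.o (v 3))
    rw [ho, W.H_o]
    exact Stp.refl

end Crest.Agent.R186.VT339
end

-- ▼ part R186/ColHB_977
section

/-!
# Row 186, half (A), leaf (V), plug HB (helper977): 339's `HB` for `Y ⊗ M` from the columns of `M`

* `MF.colE / MF.colHE` : `Col` / `ColH` for arbitrary elements given by their entries.
* `hb_cols` : `HB (wdatG ..) (tQ Y (resBR (fstH ..) (tbOf ..).win)) n` from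
  `Ac (tY Y (colL MB (P (1,b)) (A (1,b))))` (`b : Fin 4`) and
  `QI (tYmap Y (rHom h : column (0,b+1) → column (0,b)))` (`b < 3`).
-/

set_option autoImplicit false
set_option linter.style.haveILetI false
set_option linter.unusedSectionVars false

open MulOpposite

noncomputable section

namespace Crest.Agent.R186.ColAd977

open Frame515 Hat827 TB143 Win810 Col921 SExt44

section gen

variable {K : Type} [Field K] {w : WD K} {D : BD w} {P : BM w.dga D.ext.dga}

/-- the first component of `a` is the matrix with the single entry `s` at `(o, o')` -/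
def At (D : BD w) (o o' : w.Ob) (s : w.S) (a : D.ext.dga.C) : Prop :=
  ∀ l j, (show D.Car from (a : D.ext.Win).1 l j).1 = if o = l ∧ o' = j then s else 0

variable (F : MF D P)

theorem MF.en_at {o o' : w.Ob} {s : w.S} {a : D.ext.dga.C} (ha : At D o o' s a) (x : P.X)
    (i j : w.Ob) : F.en (op a • x) i j = if o' = j then D.rM s (F.en x i o) else 0 := by
  rw [F.en_r]
  have h1 : ∀ l : w.Ob, D.rM ((show D.Car from (a : D.ext.Win).1 l j).1) (F.en x i l) =
      if o = l then (if o' = j then D.rM s (F.en x i o) else 0) else 0 := by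
    intro l
    rw [ha l j]
    by_cases ho : o = l
    · subst ho
      by_cases hj : o' = j
      · rw [if_pos ⟨rfl, hj⟩, if_pos rfl, if_pos hj]
      · rw [if_neg (fun h => hj h.2), if_pos rfl, if_neg hj, map_zero]
        rfl
    · rw [if_neg (fun h => ho h.1), if_neg ho, map_zero]
      rfl
  rw [Finset.sum_congr rfl fun l _ => h1 l, Finset.sum_ite_eq]
  simp

/-- the column of `P` at an idempotent given by its entries -/
def MF.colE {o : w.Ob} {e : D.ext.dga.C} (he : At D o o 1 e) :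
    Col P (colL (lbD D) (w.P o) (w.A o)) e where
  c := (F.col o).c
  i := (F.col o).i
  ci := (F.col o).ci
  ic x := F.en_ext fun i j => by
    show F.en (F.iMap o (F.cMap o x)) i j = _
    rw [F.en_iMap, F.en_at he]
    by_cases hj : o = j
    · rw [if_pos hj, if_pos hj]
      exact (D.rM_one _).symm
    · rw [if_neg hj, if_neg hj]

/-- right multiplication by an element given by its entries -/
def MF.colHE {o o' : w.Ob} {s : w.S} (hs : s ∈ w.q o o' 0) (h0 : w.D s = 0) {e e' h : D.ext.dga.C}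
    (he : At D o o 1 e) (he' : At D o' o' 1 e') (hh : At D o o' s h) (h1 : h * e' = h)
    (h2 : e * h = h) : ColH (F.colE he) (F.colE he') h where
  η := MF.rHom D hs h0
  link p := by
    refine cvx fun i => ?_
    show F.en (op h • p) i o' = D.rM s (F.en p i o)
    rw [F.en_at hh, if_pos rfl]
  he := h1
  eh := h2

theorem At.inlW {o o' : w.Ob} {s : w.S} {a : w.dga.C} (ha : ∀ l j, (show w.Win from a).1 l j =
    if o = l ∧ o' = j then s else 0) : At D o o' s (show D.ext.dga.C from D.inlW a) := fun l j => ha l j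

/-! ### the sum of the columns -/

/-- acyclic columns for a family of idempotents: their sum kills homology -/
theorem sum_bd {A : DGA K} {G : RM A} {n : ℤ} {γ : Type} (t : Finset γ) (f : γ → A.C)
    (hG : ∀ c, f c ∈ A.G 0) (hff : ∀ c, f c * f c = f c)
    (hac : ∀ c, ∀ x ∈ G.gr n, op (f c) • x = x → G.d x = 0 → ∃ y ∈ G.gr (n + 1), G.d y = x)
    (z : G.X) (hz : z ∈ VT339.cyc G n) : op (∑ c ∈ t, f c) • z ∈ VT339.bd G n := by
  rw [show op (∑ c ∈ t, f c) = ∑ c ∈ t, op (f c) from map_sum (opAddEquiv (α := A.C)) _ _,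
    Finset.sum_smul]
  refine Submodule.sum_mem _ fun c _ => ?_
  have h1 := VT339.cyc_act hz (hG c)
  obtain ⟨y, hy, e⟩ := hac c _ h1.1 (by rw [← mul_smul, ← op_mul, hff]) h1.2
  exact ⟨y, hy, e⟩

end gen

/-! ### the concrete window of `M` -/

section conc

open V2c510 VT339 DefsQ830 DefsQ830.Gen PBW128

variable {K : Type} [Field K] (π : Par K) (s : ℕ) (hs : 2 ≤ s)

/-- 921's form of 153's bimodule `M` -/
abbrev MB : LB (WR π) := lbD (SM890.bdM π s hs)

/-- `h` goes from `(0,b+1)` to `(0,b)` -/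
theorem h_q (b : Fin 3) :
    (show (WR π).S from X π .h) ∈ (WR π).q (ob π 0 b.succ) (ob π 0 b.castSucc) 0 := by
  refine (q_ob π).2 ?_
  have h := hpow_mem π 1
  rw [pow_one] at h
  have e : (((b.succ : Fin 4) : ℕ) : ℤ) - (((b.castSucc : Fin 4) : ℕ) : ℤ) = ((1 : ℕ) : ℤ) := by
    rw [Fin.val_succ, Fin.val_castSucc]
    push_cast
    ring
  rw [sub_self, e]
  exact h

theorem h_D : (WR π).D (show (WR π).S from X π .h) = 0 := by
  change Der580.D π (X π .h) = 0
  rw [Der580.D_X]
  simp [dGen]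

/-- **right multiplication by `h` on the columns of `M`, `(0,b+1) → (0,b)`** -/
def hSt (b : Fin 3) : LMHom
    (colL (MB π s hs) ((WR π).P (ob π 0 b.succ)) ((WR π).A (ob π 0 b.succ)))
    (colL (MB π s hs) ((WR π).P (ob π 0 b.castSucc)) ((WR π).A (ob π 0 b.castSucc))) :=
  MF.rHom (SM890.bdM π s hs) (h_q π b) (h_D π)

/-- the all-matrix window of `M` over `(L'', Γ)` -/
abbrev MT : BM (WR π).dga (SM890.Gm π s hs) :=
  Res255.resBR (SM890.fstH (SM890.bdM π s hs)) (SM890.tbOf (SM890.bdM π s hs)).win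

/-- the idempotent of `(i,b)` in `Γ` -/
def eG (i : Fin 2) (b : Fin 4) : (SM890.Gm π s hs).C :=
  (SM890.HmI π s hs).f (show (WR π).dga.C from WD.e (ob π i b))

theorem eG_at (i : Fin 2) (b : Fin 4) :
    At (SM890.bdM π s hs) (ob π i b) (ob π i b) 1 (eG π s hs i b) :=
  At.inlW fun l j => e_apply (ob π i b) l j

theorem eG_mem (i : Fin 2) (b : Fin 4) : eG π s hs i b ∈ (SM890.Gm π s hs).G 0 :=
  (SM890.HmI π s hs).mem (WD.e_mem _)

theorem eG_eG (i : Fin 2) (b : Fin 4) : eG π s hs i b * eG π s hs i b = eG π s hs i b := by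
  unfold eG
  rw [← map_mul]
  congr 1
  exact WD.e_mul_e _

theorem sum_e1 : (ltR π).fW = ∑ b : Fin 4, (show (WR π).Win from WD.e (ob π 1 b)) := by
  refine win_ext fun i j => ?_
  have h1 : (∑ b, (show (WR π).Win from WD.e (ob π 1 b))).1 i j =
      ∑ b, (WD.e (ob π 1 b)).1 i j := by
    have := map_sum (WR π).Win.val (fun b => WD.e (ob π 1 b)) Finset.univ
    have h2 := congrFun (congrFun this i) j
    rw [Matrix.sum_apply] at h2
    exact h2
  rw [h1]
  simp only [e_apply]
  have h3 : (ltR π).fW.1 i j = if i = j then (ltR π).row i else 0 := Matrix.diagonal_apply _ _ _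
  rw [h3]
  by_cases hij : i = j
  · subst hij
    rw [if_pos rfl]
    by_cases hr : (ltR π).r1 i
    · rw [Lt.row, if_pos hr]
      obtain ⟨i1, b1⟩ := i
      have hr' : i1 = 1 := hr
      subst hr'
      rw [Finset.sum_eq_single b1]
      · rw [if_pos ⟨rfl, rfl⟩]
      · intro b' _ hb'
        rw [if_neg]
        rintro ⟨h4, -⟩
        exact hb' (congrArg Prod.snd h4)
      · intro h; exact absurd (Finset.mem_univ _) h
    · rw [Lt.row, if_neg hr, Finset.sum_eq_zero]
      intro b _
      rw [if_neg]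
      rintro ⟨h4, -⟩
      exact hr (congrArg Prod.fst h4.symm)
  · rw [if_neg hij, Finset.sum_eq_zero]
    intro b _
    rw [if_neg]
    rintro ⟨h4, h5⟩
    exact hij (h4.symm.trans h5)

/-- one step -/
theorem stp_h (h3 : 3 ≤ s) (Y : RCells (WR π).dga) (b : Fin 3)
    (h2 : QI (tYmap Y (hSt π s hs b))) (n : ℤ) :
    Stp (tQ Y (MT π s hs)) n ((w2G π s hs h3).e b.succ) ((w2G π s hs h3).e b.castSucc)
      ((w2G π s hs h3).h b.succ b.castSucc) := by
  have hle : b.castSucc ≤ b.succ := Fin.castSucc_lt_succ.le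
  have e1 : ((b.succ : Fin 4) : ℕ) - ((b.castSucc : Fin 4) : ℕ) = 1 := by
    rw [Fin.val_succ, Fin.val_castSucc]
    omega
  have hh : At (SM890.bdM π s hs) (ob π 0 b.succ) (ob π 0 b.castSucc) (show (WR π).S from X π .h)
      ((w2G π s hs h3).h b.succ b.castSucc) := by
    refine At.inlW (a := (ltR π).hW b.succ b.castSucc) fun l j => ?_
    rw [(ltR π).hW_apply _ _ hle, e1]
    show (if _ then (show R π from X π .h ^ 1) else 0) = _
    rw [pow_one]
    rfl
  let H := (mfT (SM890.bdM π s hs)).colHE (h_q π b) (h_D π) (eG_at π s hs 0 b.succ)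
    (eG_at π s hs 0 b.castSucc) hh ((w2G π s hs h3).h_e _ _) ((w2G π s hs h3).e_h _ _)
  refine Stp.of_col ((w2G π s hs h3).e_mem _) ((w2G π s hs h3).e_mem _) ((w2G π s hs h3).e_e _)
    ((w2G π s hs h3).e_e _) ((w2G π s hs h3).e_h _ _) ?_ ?_
  · intro z hz hd he
    obtain ⟨x, hx, -, hxd, y, hy, -, e⟩ := H.surj Y h2 n z hz he hd
    exact ⟨x, hx, hxd, y, hy, e⟩
  · intro z hz hd he hb
    obtain ⟨y, hy, -, e⟩ := H.inj Y h2 n z hz he hd hb
    exact ⟨y, hy, e⟩

/-- **plug HB of leaf (V), from the columns of `M`** -/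
theorem hb_cols (h3 : 3 ≤ s) (Y : RCells (WR π).dga)
    (h1 : ∀ b : Fin 4, Ac (tY Y (colL (MB π s hs) ((WR π).P (ob π 1 b)) ((WR π).A (ob π 1 b)))))
    (h2 : ∀ b : Fin 3, QI (tYmap Y (hSt π s hs b))) (n : ℤ) :
    HB (wdatG π s hs h3) (tQ Y (MT π s hs)) n := by
  refine HB.of_four (W := wdatG π s hs h3) ?_ (fun i : Fin 4 => i) rfl (fun i => ⟨i, rfl⟩)
    (stp_h π s hs h3 Y 2 (h2 2) n) (stp_h π s hs h3 Y 1 (h2 1) n) (stp_h π s hs h3 Y 0 (h2 0) n)
    (show (if (1 : Fin 4) ≤ 2 then (1 : K) else 0) = 1 from if_pos (by decide))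
    (show (if (0 : Fin 4) ≤ 1 then (1 : K) else 0) = 1 from if_pos (by decide))
  intro z hz
  have hf : (wdatG π s hs h3).fs = ∑ b : Fin 4, eG π s hs 1 b := by
    show (SM890.HmI π s hs).f (ltR π).fW = _
    rw [sum_e1]
    exact map_sum (SM890.HmI π s hs).f _ _
  rw [hf]
  refine sum_bd Finset.univ (eG π s hs 1) (eG_mem π s hs 1) (eG_eG π s hs 1) ?_ z hz
  intro b x hx he hd
  obtain ⟨y, hy, -, e⟩ := ((mfT (SM890.bdM π s hs)).colE (eG_at π s hs 1 b)).ac Y (h1 b) n x hx he hd
  exact ⟨y, hy, e⟩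

end conc

end Crest.Agent.R186.ColAd977
end
end

-- ▼ part R186/VHM_429

/-!
Row 186 (helper429), half (A), leaf (V), plug (2) of 143's HM: `HB W (Y ⊗ M) n` from the columns.

* `HB_of_inc` : transport of `HB` along a map of right modules bijective in every degree;
* `incB` : 890's core `winS T` into 163's window `T.win`, `incQ` the same after `resBR` and `Y ⊗`;
* `HB_of_cols` : `HB` from [columns `f b` acyclic] and [steps `st b : e (b+1) → e b` bijective on
  classes].
-/

set_option autoImplicit false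
set_option linter.style.haveILetI false
set_option linter.unusedSectionVars false

open MulOpposite

namespace Crest.Agent.R186.VHM429

open Hat827 Hat827.DGA Frame515 TB143 VT339

variable {K : Type} [Field K] {A : DGA K}



/-- transport along a map bijective in every degree -/
theorem HB_of_inc {W : Wdat A} {G G' : RM A} (ι : RMHom G G')
    (inj : ∀ x, ι.f x = 0 → x = 0) (sur : ∀ k, ∀ y ∈ G'.gr k, ∃ x ∈ G.gr k, ι.f x = y)
    {n : ℤ} (h : HB W G' n) : HB W G n := by
  have hc : ∀ z ∈ cyc G n, ι.f z ∈ cyc G' n := fun z hz =>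
    ⟨ι.f_mem hz.1, by rw [← ι.f_d, hz.2, map_zero]⟩
  have hb : ∀ z, ι.f z ∈ bd G' n → z ∈ bd G n := by
    rintro z ⟨y, hy, e⟩
    obtain ⟨x, hx, rfl⟩ := sur _ y hy
    refine ⟨x, hx, ?_⟩
    have h1 : ι.f (G.d x - z) = 0 := by rw [map_sub, ι.f_d, e, sub_self]
    exact sub_eq_zero.1 (inj _ h1)
  refine ⟨fun z hz => ?_, fun b z hz => ?_, fun b z hz hzb => ?_⟩
  · apply hb
    rw [ι.smul]
    exact h.hf _ (hc z hz)
  · obtain ⟨z0, hz0, hz1⟩ := h.hs b _ (hc z hz)
    obtain ⟨x, hx, rfl⟩ := sur _ z0 hz0.1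
    refine ⟨x, ⟨hx, ?_⟩, ?_⟩
    · apply inj
      rw [ι.f_d]
      exact hz0.2
    · apply hb
      rw [map_add, ι.smul, ι.smul]
      exact hz1
  · apply hb
    rw [ι.smul]
    refine h.hi b _ (hc z hz) ?_
    obtain ⟨y, hy, e⟩ := hzb
    refine ⟨ι.f y, ι.f_mem hy, ?_⟩
    rw [← ι.f_d, e, ι.smul]

/-! ### the core of a window -/

section core

open Win810 WBM163 Core890 Res255

variable {w w' : WD K} (T : TB w w')


/-- after restriction on the right -/
def incBR {C : DGA K} (h : Hm C w'.dga) : BMHom (resBR h (winS T)) (resBR h T.win) where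
  toGCHom := incS T
  smul _ _ := rfl
  smulR _ _ := rfl

theorem tQmap_apply {A B : DGA K} (Y : RCells A) {P P' : BM A B} (f : BMHom P P')
    (x : Y.ι →₀ P.X) (σ : Y.ι) :
    (show Y.ι →₀ P'.X from (tQmap Y f).f (show (tQ Y P).X from x)) σ = f.f (x σ) :=
  tYmap_apply Y f.toL x σ

variable {C : DGA K} (h : Hm C w'.dga) (Y : RCells w.dga)

theorem incQ_inj (x : (tQ Y (resBR h (winS T))).X)
    (hx : (tQmap Y (incBR T h)).f x = 0) : x = 0 := by
  refine Finsupp.ext fun σ => ?_
  have h1 := tQmap_apply Y (incBR T h) x σ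
  rw [hx] at h1
  exact Subtype.ext h1.symm

theorem incQ_sur (k : ℤ) (y : (tQ Y (resBR h T.win)).X) (hy : y ∈ (tQ Y (resBR h T.win)).gr k) :
    ∃ x ∈ (tQ Y (resBR h (winS T))).gr k, (tQmap Y (incBR T h)).f x = y := by
  classical
  have hm : ∀ σ, (show Y.ι →₀ T.X from y) σ ∈ Xs T := fun σ => gr_le_Xs T _ (hy σ).1
  let x : Y.ι →₀ Xs T := Finsupp.onFinset (show Y.ι →₀ T.X from y).support
    (fun σ => ⟨(show Y.ι →₀ T.X from y) σ, hm σ⟩) fun σ hσ => by
      rw [Finsupp.mem_support_iff]
      intro h0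
      exact hσ (Subtype.ext h0)
  refine ⟨x, fun σ => ⟨(hy σ).1, Subtype.ext (hy σ).2⟩, ?_⟩
  refine Finsupp.ext fun σ => ?_
  exact tQmap_apply Y (incBR T h) x σ

/-- **`HB` may be checked on 163's window** -/
theorem HB_core {W : Wdat C} {n : ℤ} (hW : HB W (tQ Y (resBR h T.win)) n) :
    HB W (tQ Y (resBR h (winS T))) n :=
  HB_of_inc (tQmap Y (incBR T h)) (incQ_inj T h Y) (incQ_sur T h Y) hW

end core

/-! ### `HB` from the columns -/




/-- columns data: idempotents `ec k`, `k ≤ m`, steps `st k` from `ec (k+1)` to `ec k`, products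
`Hc k` from `ec m` to `ec k` -/
structure Steps (A : DGA K) (m : ℕ) where
  ec : ℕ → A.C
  st : ℕ → A.C
  Hc : ℕ → A.C
  ec_mem : ∀ k, ec k ∈ A.G 0
  st_mem : ∀ k, st k ∈ A.G 0
  ee : ∀ k, ec k * ec k = ec k
  es : ∀ k, k < m → ec (k + 1) * st k = st k
  se : ∀ k, k < m → st k * ec k = st k
  H_top : Hc m = ec m
  H_st : ∀ k, k < m → Hc (k + 1) * st k = Hc k

variable {m : ℕ} (S : Steps A m)




/-- the steps are bijective on classes of degree `n` -/
structure Steps.Bij (G : RM A) (n : ℤ) : Prop where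
  inj : ∀ k, k < m → ∀ z ∈ cyc G n, op (S.ec (k + 1)) • z = z → op (S.st k) • z ∈ bd G n →
    z ∈ bd G n
  sur : ∀ k, k < m → ∀ z ∈ cyc G n, op (S.ec k) • z = z → ∃ x ∈ cyc G n,
    op (S.ec (k + 1)) • x = x ∧ z + op (S.st k) • x ∈ bd G n




end Crest.Agent.R186.VHM429
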