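import Mathlib
import Crest.Agent.R186.Cells1_221

-- ▼ part R186/Loc_261
section

/-!
Row 186, local Poincare lemma (helper307 #25444).  Letters `x, a (= xh), x', b (= xh')`,
`Q = K<x,a,x',b>/(x x' = p⁻¹ x' x)`, right skew derivations `D g`.
-/

set_option autoImplicit false

namespace Crest.Agent.R186.Loc261

open TensorProduct

inductive Lt | x | a | x' | b
  deriving DecidableEq

instance : Fintype Lt := ⟨{.x, .a, .x', .b}, by intro g; cases g <;> decide⟩

/-- the weight -/
def wt : Lt → ℤ
  | .x => 1 | .a => 1 | .x' => -1 | .b => -1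

structure Par (K : Type*) [Field K] where
  p : K
  ca : K
  cb : K
  hp : p ≠ 0
  ha : ca ≠ 0
  hb : cb ≠ 0

section

variable {K : Type*} [Field K]

def Par.c (P : Par K) : Lt → K
  | .x => P.p | .a => P.ca | .x' => P.p | .b => P.cb

theorem Par.c_ne (P : Par K) (g : Lt) : P.c g ≠ 0 := by
  cases g
  · exact P.hp
  · exact P.ha
  · exact P.hp
  · exact P.hb

def Par.chi (P : Par K) (g l : Lt) : K := P.c g ^ wt l

theorem Par.chi_ne (P : Par K) (g l : Lt) : P.chi g l ≠ 0 := zpow_ne_zero _ (P.c_ne g)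

@[simp] theorem Par.chi_x_x' (P : Par K) : P.chi .x .x' = P.p⁻¹ := by
  simp [Par.chi, Par.c, wt]
@[simp] theorem Par.chi_x'_x (P : Par K) : P.chi .x' .x = P.p := by
  simp [Par.chi, Par.c, wt]
@[simp] theorem Par.chi_x_x (P : Par K) : P.chi .x .x = P.p := by
  simp [Par.chi, Par.c, wt]

inductive Rel (P : Par K) : FreeAlgebra K Lt → FreeAlgebra K Lt → Prop
  | mk : Rel P (FreeAlgebra.ι K Lt.x * FreeAlgebra.ι K Lt.x')
      (P.p⁻¹ • (FreeAlgebra.ι K Lt.x' * FreeAlgebra.ι K Lt.x))

/-- the local algebra -/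
def Q (P : Par K) : Type _ := RingQuot (Rel P)

noncomputable instance (P : Par K) : Ring (Q P) := inferInstanceAs (Ring (RingQuot (Rel P)))
noncomputable instance (P : Par K) : Algebra K (Q P) :=
  inferInstanceAs (Algebra K (RingQuot (Rel P)))

noncomputable def mk (P : Par K) : FreeAlgebra K Lt →ₐ[K] Q P := RingQuot.mkAlgHom K (Rel P)

theorem mk_surj (P : Par K) : Function.Surjective (mk P) := RingQuot.mkAlgHom_surjective K (Rel P)

/-- the letters in `Q` -/
noncomputable def li (P : Par K) (g : Lt) : Q P := mk P (FreeAlgebra.ι K g)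

theorem rel (P : Par K) : li P .x * li P .x' = P.p⁻¹ • (li P .x' * li P .x) := by
  have h : mk P (FreeAlgebra.ι K Lt.x * FreeAlgebra.ι K Lt.x') =
      mk P (P.p⁻¹ • (FreeAlgebra.ι K Lt.x' * FreeAlgebra.ι K Lt.x)) :=
    RingQuot.mkAlgHom_rel K (Rel.mk (P := P))
  simpa [li, map_mul, map_smul] using h

/-- universal property -/
noncomputable def lft (P : Par K) {A : Type*} [Semiring A] [Algebra K A] (f : Lt → A)
    (h : f .x * f .x' = P.p⁻¹ • (f .x' * f .x)) : Q P →ₐ[K] A :=
  RingQuot.liftAlgHom K ⟨FreeAlgebra.lift K f, by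
    intro u v huv
    cases huv
    simpa [map_mul, map_smul] using h⟩

@[simp] theorem lft_li (P : Par K) {A : Type*} [Semiring A] [Algebra K A] (f : Lt → A)
    (h : f .x * f .x' = P.p⁻¹ • (f .x' * f .x)) (g : Lt) : lft P f h (li P g) = f g := by
  have := RingQuot.liftAlgHom_mkAlgHom_apply (S := K) (FreeAlgebra.lift K f) (s := Rel P) (by
    intro u v huv
    cases huv
    simpa [map_mul, map_smul] using h) (FreeAlgebra.ι K g)
  exact this.trans (FreeAlgebra.lift_ι_apply _ _)

/-- induction on `Q` by left multiplication by letters -/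
theorem Q_ind (P : Par K) {C : Q P → Prop} (one : C 1) (add : ∀ u v, C u → C v → C (u + v))
    (smul : ∀ (r : K) u, C u → C (r • u)) (mul : ∀ g u, C u → C (li P g * u)) : ∀ u, C u := by
  have key : ∀ (f : FreeAlgebra K Lt) (u : Q P), C u → C (mk P f * u) := by
    intro f
    induction f using FreeAlgebra.induction with
    | grade0 r =>
      intro u hu
      have : mk P (algebraMap K _ r) * u = r • u := by
        rw [AlgHom.commutes, Algebra.smul_def]
      rw [this]; exact smul r u hu
    | grade1 g => intro u hu; exact mul g u hu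
    | mul f g hf hg =>
      intro u hu
      rw [map_mul, mul_assoc]
      exact hf _ (hg _ hu)
    | add f g hf hg =>
      intro u hu
      rw [map_add, add_mul]
      exact add _ _ (hf _ hu) (hg _ hu)
  intro u
  obtain ⟨f, rfl⟩ := mk_surj P u
  simpa using key f 1 one

/-- scaling automorphisms -/
noncomputable def sc (P : Par K) (s : Lt → K) : Q P →ₐ[K] Q P :=
  lft P (fun l => s l • li P l) (by
    simp only [smul_mul_smul_comm]
    rw [rel, smul_comm, mul_comm (s .x) (s .x')])

@[simp] theorem sc_li (P : Par K) (s : Lt → K) (l : Lt) : sc P s (li P l) = s l • li P l := by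
  simp [sc]

theorem sc_sc (P : Par K) (s t : Lt → K) (u : Q P) :
    sc P s (sc P t u) = sc P (fun l => s l * t l) u := by
  induction u using Q_ind P with
  | one => simp
  | add u v hu hv => simp [hu, hv]
  | smul r u hu => simp [hu]
  | mul g u hu => simp [hu, smul_smul, mul_comm]

theorem sc_comm (P : Par K) (s t : Lt → K) (u : Q P) :
    sc P s (sc P t u) = sc P t (sc P s u) := by
  rw [sc_sc, sc_sc]; congr 2; funext l; ring

/-- `κ_g` : multiplication by `χ(g, content)` -/
noncomputable abbrev kap (P : Par K) (g : Lt) : Q P →ₐ[K] Q P := sc P (fun l => P.chi g l)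
/-- `κ'_g` : multiplication by `χ(content, g)` -/
noncomputable abbrev kap' (P : Par K) (g : Lt) : Q P →ₐ[K] Q P := sc P (fun l => P.chi l g)

/-- the 2 × 2 trick for the skew derivation `D g` -/
noncomputable def U (P : Par K) (g l : Lt) : Module.End K (Q P × Q P) :=
  LinearMap.prod
    ((LinearMap.mulLeft K (li P l)).comp (LinearMap.fst K _ _) +
      (if g = l then (kap P g).toLinearMap.comp (LinearMap.snd K _ _) else 0))
    ((LinearMap.mulLeft K (li P l)).comp (LinearMap.snd K _ _))

theorem U_apply (P : Par K) (g l : Lt) (d v : Q P) :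
    U P g l (d, v) = (li P l * d + (if g = l then kap P g v else 0), li P l * v) := by
  by_cases h : g = l <;> simp [U, h]

noncomputable def Dh (P : Par K) (g : Lt) : Q P →ₐ[K] Module.End K (Q P × Q P) :=
  lft P (U P g) (by
    apply LinearMap.ext
    rintro ⟨d, v⟩
    simp only [Module.End.mul_apply, LinearMap.smul_apply, U_apply, ← mul_assoc, rel]
    cases g <;>
      simp [mul_add, ← mul_assoc, rel, smul_smul, P.hp])

/-- right skew derivation `D g` -/
noncomputable def D (P : Par K) (g : Lt) : Q P →ₗ[K] Q P :=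
  (LinearMap.fst K (Q P) (Q P)).comp ((LinearMap.applyₗ ((0 : Q P), (1 : Q P))).comp (Dh P g).toLinearMap)

theorem D_apply (P : Par K) (g : Lt) (u : Q P) : D P g u = (Dh P g u (0, 1)).1 := rfl

theorem Dh_snd (P : Par K) (g : Lt) (u : Q P) : (Dh P g u (0, 1)).2 = u := by
  induction u using Q_ind P with
  | one => simp
  | add u v hu hv => simp [hu, hv]
  | smul r u hu => simp [hu]
  | mul l u hu =>
    have h1 : Dh P g (li P l * u) (0, 1) = U P g l ((Dh P g u (0, 1)).1, (Dh P g u (0, 1)).2) := by
      rw [map_mul]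
      simp [Dh]
    rw [h1, U_apply]
    simp [hu]

@[simp] theorem D_one (P : Par K) (g : Lt) : D P g 1 = 0 := by
  simp [D_apply]

theorem D_mul (P : Par K) (g l : Lt) (u : Q P) :
    D P g (li P l * u) = li P l * D P g u + (if g = l then kap P g u else 0) := by
  have h1 : Dh P g (li P l * u) (0, 1) = U P g l ((Dh P g u (0, 1)).1, (Dh P g u (0, 1)).2) := by
    rw [map_mul]
    simp [Dh]
  rw [D_apply, h1, U_apply, Dh_snd]
  rfl

theorem D_sc (P : Par K) (g : Lt) (s : Lt → K) (u : Q P) :
    D P g (sc P s u) = s g • sc P s (D P g u) := by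
  induction u using Q_ind P with
  | one => simp
  | add u v hu hv => simp [hu, hv]
  | smul r u hu => rw [map_smul, map_smul, map_smul, map_smul, hu, smul_comm]
  | mul l u hu =>
    rw [map_mul, sc_li, smul_mul_assoc, map_smul, D_mul, D_mul, hu, map_add, map_mul, sc_li]
    by_cases h : g = l
    · subst h
      simp [smul_smul, sc_comm P s]
    · simp [h, smul_smul, mul_comm]

/-- `D_x D_x' = p D_x' D_x` -/
theorem D_D (P : Par K) (u : Q P) : D P .x (D P .x' u) = P.p • D P .x' (D P .x u) := by
  induction u using Q_ind P with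
  | one => simp
  | add u v hu hv => simp [hu, hv]
  | smul r u hu => rw [map_smul, map_smul, map_smul, map_smul, hu, smul_comm]
  | mul l u hu =>
    rw [D_mul, D_mul, map_add, map_add, D_mul, D_mul, hu]
    cases l <;> simp [D_sc, smul_smul, P.hp]

/-- the antipode operators -/
noncomputable def T (P : Par K) (l : Lt) : Module.End K (Q P) :=
  - ((LinearMap.mulRight K (li P l)).comp (kap P l).toLinearMap)

theorem T_apply (P : Par K) (l : Lt) (u : Q P) : T P l u = - (kap P l u * li P l) := by
  simp [T]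

noncomputable def Sh (P : Par K) : Q P →ₐ[K] Module.End K (Q P) :=
  lft P (T P) (by
    apply LinearMap.ext
    intro u
    simp only [Module.End.mul_apply, LinearMap.smul_apply, T_apply, map_neg, map_mul, sc_li]
    simp only [mul_assoc, mul_smul_comm, smul_mul_assoc, rel, P.chi_x_x', P.chi_x'_x]
    rw [sc_comm]
    simp [smul_smul, P.hp])

noncomputable def S (P : Par K) : Q P →ₗ[K] Q P :=
  (LinearMap.applyₗ (1 : Q P)).comp (Sh P).toLinearMap

theorem S_apply (P : Par K) (u : Q P) : S P u = Sh P u 1 := rfl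

@[simp] theorem S_one (P : Par K) : S P 1 = 1 := by simp [S_apply]

theorem S_mul (P : Par K) (l : Lt) (u : Q P) : S P (li P l * u) = - (kap P l (S P u) * li P l) := by
  rw [S_apply, map_mul]
  simp [Sh, T_apply, S_apply]

theorem S_sc (P : Par K) (s : Lt → K) (u : Q P) : S P (sc P s u) = sc P s (S P u) := by
  induction u using Q_ind P with
  | one => simp
  | add u v hu hv => simp [hu, hv]
  | smul r u hu => simp [hu]
  | mul l u hu =>
    rw [map_mul, sc_li, smul_mul_assoc, map_smul, S_mul, S_mul, hu, map_neg, map_mul, sc_li,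
      sc_comm P s]
    simp

/-- `S (u l) = - l S (κ'_l u)` -/
theorem S_mul_right (P : Par K) (l : Lt) (u : Q P) :
    S P (u * li P l) = - (li P l * S P (kap' P l u)) := by
  induction u using Q_ind P with
  | one =>
    have := S_mul P l 1
    simpa using this
  | add u v hu hv => simp [add_mul, hu, hv, mul_add, add_comm]
  | smul r u hu => simp [hu]
  | mul m u hu =>
    rw [mul_assoc, S_mul, hu, map_mul, sc_li, smul_mul_assoc, map_smul, S_mul, map_neg, map_mul, sc_li]
    simp [mul_assoc]

theorem SS_mul (P : Par K) (l : Lt) (u : Q P) :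
    S P (S P (li P l * u)) = li P l * kap P l (kap' P l (S P (S P u))) := by
  rw [S_mul, map_neg, S_mul_right, neg_neg, sc_comm, S_sc, S_sc]

/-- the coproduct operators -/
noncomputable def Lop (P : Par K) (l : Lt) : Module.End K (Q P ⊗[K] Q P) :=
  TensorProduct.map (LinearMap.mulLeft K (li P l)) LinearMap.id

noncomputable def Rop (P : Par K) (l : Lt) : Module.End K (Q P ⊗[K] Q P) :=
  TensorProduct.map (kap P l).toLinearMap (LinearMap.mulLeft K (li P l))

@[simp] theorem Lop_tmul (P : Par K) (l : Lt) (u v : Q P) :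
    Lop P l (u ⊗ₜ v) = (li P l * u) ⊗ₜ v := by simp [Lop]
@[simp] theorem Rop_tmul (P : Par K) (l : Lt) (u v : Q P) :
    Rop P l (u ⊗ₜ v) = (kap P l u) ⊗ₜ (li P l * v) := by simp [Rop]

noncomputable def Ch (P : Par K) : Q P →ₐ[K] Module.End K (Q P ⊗[K] Q P) :=
  lft P (fun l => Lop P l + Rop P l) (by
    apply TensorProduct.ext'
    intro u v
    simp only [Module.End.mul_apply, LinearMap.smul_apply, LinearMap.add_apply, map_add,
      Lop_tmul, Rop_tmul, map_mul, sc_li, P.chi_x_x', P.chi_x'_x]
    simp only [← mul_assoc, rel, smul_mul_assoc, TensorProduct.smul_tmul', TensorProduct.tmul_smul,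
      smul_add, smul_smul]
    rw [inv_mul_cancel₀ P.hp, one_smul, sc_comm P _ _ u]
    abel)

noncomputable def cop (P : Par K) : Q P →ₗ[K] (Q P ⊗[K] Q P) :=
  (LinearMap.applyₗ ((1 : Q P) ⊗ₜ[K] (1 : Q P))).comp (Ch P).toLinearMap

theorem cop_apply (P : Par K) (u : Q P) : cop P u = Ch P u (1 ⊗ₜ 1) := rfl

@[simp] theorem cop_one (P : Par K) : cop P 1 = 1 ⊗ₜ 1 := by simp [cop_apply]

theorem cop_mul (P : Par K) (l : Lt) (u : Q P) :
    cop P (li P l * u) = Lop P l (cop P u) + Rop P l (cop P u) := by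
  rw [cop_apply, map_mul]
  simp [Ch, cop_apply]

theorem cop_sc (P : Par K) (s : Lt → K) (u : Q P) :
    cop P (sc P s u) = TensorProduct.map (sc P s).toLinearMap (sc P s).toLinearMap (cop P u) := by
  have hL : ∀ (l : Lt) (t : Q P ⊗[K] Q P),
      TensorProduct.map (sc P s).toLinearMap (sc P s).toLinearMap (Lop P l t) =
        s l • Lop P l (TensorProduct.map (sc P s).toLinearMap (sc P s).toLinearMap t) := by
    intro l t
    induction t using TensorProduct.induction_on with
    | zero => simp
    | tmul u v => simp [TensorProduct.smul_tmul']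
    | add u v hu hv => simp only [map_add, hu, hv, smul_add]
  have hR : ∀ (l : Lt) (t : Q P ⊗[K] Q P),
      TensorProduct.map (sc P s).toLinearMap (sc P s).toLinearMap (Rop P l t) =
        s l • Rop P l (TensorProduct.map (sc P s).toLinearMap (sc P s).toLinearMap t) := by
    intro l t
    induction t using TensorProduct.induction_on with
    | zero => simp
    | tmul u v => simp [sc_comm P s]
    | add u v hu hv => simp only [map_add, hu, hv, smul_add]
  induction u using Q_ind P with
  | one => simp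
  | add u v hu hv => simp [hu, hv]
  | smul r u hu => simp [hu]
  | mul l u hu =>
    rw [map_mul, sc_li, smul_mul_assoc, map_smul, cop_mul, cop_mul, hu, map_add, hL, hR, smul_add]

/-- `(id ⊗ D_g) Δ = Δ D_g` -/
theorem D_cop (P : Par K) (g : Lt) (u : Q P) :
    TensorProduct.map LinearMap.id (D P g) (cop P u) = cop P (D P g u) := by
  have hL : ∀ (l : Lt) (t : Q P ⊗[K] Q P),
      TensorProduct.map LinearMap.id (D P g) (Lop P l t) =
        Lop P l (TensorProduct.map LinearMap.id (D P g) t) := by
    intro l t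
    induction t using TensorProduct.induction_on with
    | zero => simp
    | tmul u v => simp
    | add u v hu hv => simp only [map_add, hu, hv]
  have hR : ∀ (l : Lt) (t : Q P ⊗[K] Q P),
      TensorProduct.map LinearMap.id (D P g) (Rop P l t) =
        Rop P l (TensorProduct.map LinearMap.id (D P g) t) +
        (if g = l then TensorProduct.map (kap P g).toLinearMap (kap P g).toLinearMap t else 0) := by
    intro l t
    by_cases h : g = l
    · subst h
      simp only [if_true]
      induction t using TensorProduct.induction_on with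
      | zero => simp
      | tmul u v => simp [D_mul, TensorProduct.tmul_add]
      | add u v hu hv => simp only [map_add, hu, hv]; abel
    · simp only [h, if_false, add_zero]
      induction t using TensorProduct.induction_on with
      | zero => simp
      | tmul u v => simp [D_mul, h]
      | add u v hu hv => simp only [map_add, hu, hv]
  induction u using Q_ind P with
  | one => simp
  | add u v hu hv => simp [hu, hv]
  | smul r u hu => simp [hu]
  | mul l u hu =>
    rw [cop_mul, map_add, hL, hR, hu, D_mul, map_add, cop_mul]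
    by_cases h : g = l
    · simp [h, cop_sc, add_assoc]
    · simp [h]

/-- `Θ (u ⊗ v) = S u * v` -/
noncomputable def Th (P : Par K) : (Q P ⊗[K] Q P) →ₗ[K] Q P :=
  TensorProduct.lift ((LinearMap.mul K (Q P)).comp (S P))

@[simp] theorem Th_tmul (P : Par K) (u v : Q P) : Th P (u ⊗ₜ v) = S P u * v := by simp [Th]

theorem Th_op (P : Par K) (l : Lt) (t : Q P ⊗[K] Q P) : Th P (Lop P l t + Rop P l t) = 0 := by
  induction t using TensorProduct.induction_on with
  | zero => simp
  | tmul u v => simp [S_mul, S_sc, mul_assoc]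
  | add u v hu hv =>
    rw [map_add, map_add]
    calc _ = Th P (Lop P l u + Rop P l u) + Th P (Lop P l v + Rop P l v) := by
            simp only [map_add]; abel
      _ = 0 := by rw [hu, hv, add_zero]

theorem Th_cop (P : Par K) (l : Lt) (u : Q P) : Th P (cop P (li P l * u)) = 0 := by
  rw [cop_mul, Th_op]

/-! ### words and contents -/

noncomputable def wp (P : Par K) (w : List Lt) : Q P := (w.map (li P)).prod

@[simp] theorem wp_nil (P : Par K) : wp P [] = 1 := rfl
@[simp] theorem wp_cons (P : Par K) (l : Lt) (w : List Lt) : wp P (l :: w) = li P l * wp P w := by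
  simp [wp]

theorem wp_append (P : Par K) (v w : List Lt) : wp P (v ++ w) = wp P v * wp P w := by
  simp [wp]

theorem sc_wp (P : Par K) (s : Lt → K) (w : List Lt) : sc P s (wp P w) = (w.map s).prod • wp P w := by
  induction w with
  | nil => simp
  | cons l w ih => simp [ih, smul_smul, mul_comm]

/-- span of the words of content `m` -/
noncomputable def Qc (P : Par K) (m : Multiset Lt) : Submodule K (Q P) :=
  Submodule.span K {u | ∃ w : List Lt, (w : Multiset Lt) = m ∧ wp P w = u}

theorem wp_mem (P : Par K) (w : List Lt) : wp P w ∈ Qc P (w : Multiset Lt) :=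
  Submodule.subset_span ⟨w, rfl, rfl⟩

theorem Qc_le (P : Par K) {m : Multiset Lt} {N : Submodule K (Q P)}
    (h : ∀ w : List Lt, (w : Multiset Lt) = m → wp P w ∈ N) : Qc P m ≤ N := by
  unfold Qc
  rw [Submodule.span_le]
  rintro u ⟨w, hw, rfl⟩
  exact h w hw

theorem sc_Qc (P : Par K) (s : Lt → K) {m : Multiset Lt} {u : Q P} (hu : u ∈ Qc P m) :
    sc P s u = (m.map s).prod • u := by
  have : Qc P m ≤ LinearMap.eqLocus (sc P s).toLinearMap ((m.map s).prod • LinearMap.id) := by
    apply Qc_le
    intro w hw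
    subst hw
    simp [sc_wp]
  simpa using this hu

theorem li_mul_mem (P : Par K) (g : Lt) {m : Multiset Lt} {u : Q P} (hu : u ∈ Qc P m) :
    li P g * u ∈ Qc P (g ::ₘ m) := by
  have : Qc P m ≤ (Qc P (g ::ₘ m)).comap (LinearMap.mulLeft K (li P g)) := by
    apply Qc_le
    intro w hw
    subst hw
    simpa using wp_mem P (g :: w)
  exact this hu

theorem mul_li_mem (P : Par K) (g : Lt) {m : Multiset Lt} {u : Q P} (hu : u ∈ Qc P m) :
    u * li P g ∈ Qc P (g ::ₘ m) := by
  have : Qc P m ≤ (Qc P (g ::ₘ m)).comap (LinearMap.mulRight K (li P g)) := by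
    apply Qc_le
    intro w hw
    subst hw
    have h1 := wp_mem P (w ++ [g])
    rw [wp_append] at h1
    have h2 : ((w ++ [g] : List Lt) : Multiset Lt) = g ::ₘ (w : Multiset Lt) := by
      rw [← Multiset.coe_add, add_comm]; rfl
    rw [h2] at h1
    simpa using h1
  exact this hu

/-- target of `D g` on `Qc m` -/
noncomputable def Qg (P : Par K) (m : Multiset Lt) (g : Lt) : Submodule K (Q P) :=
  if g ∈ m then Qc P (m.erase g) else ⊥

theorem D_wp_mem (P : Par K) (g : Lt) (w : List Lt) : D P g (wp P w) ∈ Qg P (w : Multiset Lt) g := by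
  induction w with
  | nil => simp [Qg]
  | cons l w ih =>
    rw [wp_cons, D_mul]
    by_cases h : g = l
    · subst h
      have h1 : Qg P (((g :: w : List Lt) : Multiset Lt)) g = Qc P (w : Multiset Lt) := by
        have : g ∈ ((g :: w : List Lt) : Multiset Lt) := by simp
        simp [Qg]
      rw [h1]
      simp only [if_true]
      refine Submodule.add_mem _ ?_ ?_
      · unfold Qg at ih
        split_ifs at ih with h2
        · have := li_mul_mem P g ih
          rwa [Multiset.cons_erase h2] at this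
        · simp only [Submodule.mem_bot] at ih
          rw [ih, mul_zero]; exact Submodule.zero_mem _
      · rw [sc_wp]; exact Submodule.smul_mem _ _ (wp_mem P w)
    · simp only [h, if_false, add_zero]
      unfold Qg at ih ⊢
      split_ifs at ih with h2
      · have h3 : g ∈ ((l :: w : List Lt) : Multiset Lt) := by
          have h2' : g ∈ w := by simpa using h2
          simp [h2']
        rw [if_pos h3]
        have := li_mul_mem P l ih
        have h4 : ((l :: w : List Lt) : Multiset Lt).erase g = l ::ₘ (w : Multiset Lt).erase g := by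
          rw [← Multiset.cons_coe, Multiset.erase_cons_tail]
          exact fun h' => h h'.symm
        rw [h4]; exact this
      · simp only [Submodule.mem_bot] at ih
        rw [ih, mul_zero]; exact Submodule.zero_mem _

theorem D_mem (P : Par K) (g : Lt) {m : Multiset Lt} {u : Q P} (hu : u ∈ Qc P m) :
    D P g u ∈ Qg P m g := by
  have : Qc P m ≤ (Qg P m g).comap (D P g) := by
    apply Qc_le
    intro w hw
    subst hw
    exact D_wp_mem P g w
  exact this hu

/-! ### content projections -/

noncomputable def gr (P : Par K) : Q P →ₐ[K] AddMonoidAlgebra (Q P) (Multiset Lt) :=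
  lft P (fun l => AddMonoidAlgebra.single {l} (li P l)) (by
    rw [AddMonoidAlgebra.single_mul_single, AddMonoidAlgebra.single_mul_single, rel,
      add_comm ({Lt.x} : Multiset Lt), AddMonoidAlgebra.smul_single])

theorem gr_wp (P : Par K) (w : List Lt) :
    gr P (wp P w) = AddMonoidAlgebra.single (w : Multiset Lt) (wp P w) := by
  induction w with
  | nil => simp [AddMonoidAlgebra.one_def]
  | cons l w ih =>
    rw [wp_cons, map_mul, ih]
    simp [gr, AddMonoidAlgebra.single_mul_single]

noncomputable def prj (P : Par K) (m : Multiset Lt) : Q P →ₗ[K] Q P where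
  toFun u := (gr P u).coeff m
  map_add' u v := by simp
  map_smul' r u := by simp

theorem prj_wp (P : Par K) (m : Multiset Lt) (w : List Lt) :
    prj P m (wp P w) = if (w : Multiset Lt) = m then wp P w else 0 := by
  show (gr P (wp P w)).coeff m = _
  rw [gr_wp]
  simp [Finsupp.single_apply]

/-- `Σ_{n+n'=m} Qc n ⊗ Qc n'` -/
noncomputable def Ht (P : Par K) (m : Multiset Lt) : Submodule K (Q P ⊗[K] Q P) :=
  Submodule.span K {t | ∃ u v : List Lt, (u : Multiset Lt) + (v : Multiset Lt) = m ∧
    wp P u ⊗ₜ[K] wp P v = t}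

theorem Ht_le (P : Par K) {m : Multiset Lt} {N : Submodule K (Q P ⊗[K] Q P)}
    (h : ∀ u v : List Lt, (u : Multiset Lt) + (v : Multiset Lt) = m → wp P u ⊗ₜ[K] wp P v ∈ N) :
    Ht P m ≤ N := by
  unfold Ht
  rw [Submodule.span_le]
  rintro t ⟨u, v, hw, rfl⟩
  exact h u v hw

theorem cop_wp_mem (P : Par K) (w : List Lt) : cop P (wp P w) ∈ Ht P (w : Multiset Lt) := by
  induction w with
  | nil =>
    rw [wp_nil, cop_one]
    exact Submodule.subset_span ⟨[], [], by simp, by simp⟩
  | cons l w ih =>
    rw [wp_cons, cop_mul]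
    refine Submodule.add_mem _ ?_ ?_
    · have : Ht P (w : Multiset Lt) ≤ (Ht P ((l :: w : List Lt) : Multiset Lt)).comap (Lop P l) := by
        apply Ht_le
        intro u v huv
        refine Submodule.subset_span ⟨l :: u, v, ?_, by simp⟩
        rw [← Multiset.cons_coe, ← Multiset.cons_coe, Multiset.cons_add, huv]
      exact this ih
    · have : Ht P (w : Multiset Lt) ≤ (Ht P ((l :: w : List Lt) : Multiset Lt)).comap (Rop P l) := by
        apply Ht_le
        intro u v huv
        rw [Submodule.mem_comap, Rop_tmul, sc_wp, ← TensorProduct.smul_tmul']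
        refine Submodule.smul_mem _ _ (Submodule.subset_span ⟨u, l :: v, ?_, by simp⟩)
        rw [← Multiset.cons_coe, ← Multiset.cons_coe, Multiset.add_cons, huv]
      exact this ih

theorem cop_mem (P : Par K) {m : Multiset Lt} {u : Q P} (hu : u ∈ Qc P m) : cop P u ∈ Ht P m := by
  have : Qc P m ≤ (Ht P m).comap (cop P) := by
    apply Qc_le
    intro w hw
    subst hw
    exact cop_wp_mem P w
  exact this hu

/-- `φ ⊗ id` -/
noncomputable def lf (P : Par K) (φ : Q P →ₗ[K] K) : (Q P ⊗[K] Q P) →ₗ[K] Q P :=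
  (TensorProduct.lid K (Q P)).toLinearMap.comp (TensorProduct.map φ LinearMap.id)

@[simp] theorem lf_tmul (P : Par K) (φ : Q P →ₗ[K] K) (u v : Q P) :
    lf P φ (u ⊗ₜ v) = φ u • v := by simp [lf]

theorem D_lf (P : Par K) (φ : Q P →ₗ[K] K) (g : Lt) (t : Q P ⊗[K] Q P) :
    D P g (lf P φ t) = lf P φ (TensorProduct.map LinearMap.id (D P g) t) := by
  induction t using TensorProduct.induction_on with
  | zero => simp
  | tmul u v => simp
  | add u v hu hv => simp [hu, hv]

theorem eq_zero_of_lf (P : Par K) (t : Q P ⊗[K] Q P) (h : ∀ φ, lf P φ t = 0) : t = 0 := by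
  classical
  let ℬ := Module.Basis.ofVectorSpace K (Q P)
  apply (TensorProduct.equivFinsuppOfBasisLeft (N := Q P) ℬ).injective
  rw [map_zero]
  apply Finsupp.ext
  intro i
  rw [TensorProduct.equivFinsuppOfBasisLeft_apply]
  have := h (ℬ.coord i)
  simpa [lf, LinearMap.rTensor] using this

/-- the component in `Qc n ⊗ Q` -/
noncomputable def pr (P : Par K) (n : Multiset Lt) : (Q P ⊗[K] Q P) →ₗ[K] (Q P ⊗[K] Q P) :=
  TensorProduct.map (prj P n) LinearMap.id

theorem lf_pr (P : Par K) (φ : Q P →ₗ[K] K) (n : Multiset Lt) (t : Q P ⊗[K] Q P) :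
    lf P φ (pr P n t) = lf P (φ.comp (prj P n)) t := by
  induction t using TensorProduct.induction_on with
  | zero => simp
  | tmul u v => simp [pr]
  | add u v hu hv => simp only [map_add, hu, hv]

theorem lf_mem (P : Par K) (φ : Q P →ₗ[K] K) {m : Multiset Lt} (n : Multiset Lt)
    {t : Q P ⊗[K] Q P} (ht : t ∈ Ht P m) : lf P (φ.comp (prj P n)) t ∈ Qc P (m - n) := by
  have : Ht P m ≤ (Qc P (m - n)).comap (lf P (φ.comp (prj P n))) := by
    apply Ht_le
    intro u v huv
    rw [Submodule.mem_comap, lf_tmul, LinearMap.comp_apply, prj_wp]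
    split_ifs with h
    · have : m - n = (v : Multiset Lt) := by
        rw [← huv, h, add_comm, Multiset.add_sub_cancel_right]
      rw [this]
      exact Submodule.smul_mem _ _ (wp_mem P v)
    · simp
  exact this ht

theorem sum_pr (P : Par K) {m : Multiset Lt} {t : Q P ⊗[K] Q P} (ht : t ∈ Ht P m) :
    ∑ n ∈ (Multiset.powerset m).toFinset, pr P n t = t := by
  have : Ht P m ≤ LinearMap.eqLocus (∑ n ∈ (Multiset.powerset m).toFinset, pr P n) LinearMap.id := by
    apply Ht_le
    intro u v huv
    rw [LinearMap.mem_eqLocus, LinearMap.sum_apply, LinearMap.id_apply]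
    rw [Finset.sum_eq_single (u : Multiset Lt)]
    · simp [pr, prj_wp]
    · intro n _ hn
      simp [pr, prj_wp, Ne.symm hn]
    · intro hn
      exfalso
      apply hn
      rw [Multiset.mem_toFinset, Multiset.mem_powerset, ← huv]
      exact Multiset.le_add_right _ _
  have h2 := this ht
  rw [LinearMap.mem_eqLocus, LinearMap.sum_apply, LinearMap.id_apply] at h2
  exact h2

theorem span_wp (P : Par K) (u : Q P) : u ∈ Submodule.span K (Set.range (wp P)) := by
  induction u using Q_ind P with
  | one => exact Submodule.subset_span ⟨[], rfl⟩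
  | add u v hu hv => exact Submodule.add_mem _ hu hv
  | smul r u hu => exact Submodule.smul_mem _ _ hu
  | mul l u hu =>
    have : Submodule.span K (Set.range (wp P)) ≤
        (Submodule.span K (Set.range (wp P))).comap (LinearMap.mulLeft K (li P l)) := by
      rw [Submodule.span_le]
      rintro _ ⟨w, rfl⟩
      exact Submodule.subset_span ⟨l :: w, by simp⟩
    exact this hu

theorem ext_wp (P : Par K) {M : Type*} [AddCommGroup M] [Module K M] {f g : Q P →ₗ[K] M}
    (h : ∀ w, f (wp P w) = g (wp P w)) : f = g := by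
  apply LinearMap.ext
  intro u
  have : Submodule.span K (Set.range (wp P)) ≤ LinearMap.eqLocus f g := by
    rw [Submodule.span_le]
    rintro _ ⟨w, rfl⟩
    exact h w
  exact this (span_wp P u)

theorem prj_zero_mul (P : Par K) (l : Lt) (u : Q P) : prj P 0 (li P l * u) = 0 := by
  have : (prj P 0).comp (LinearMap.mulLeft K (li P l)) = 0 := by
    apply ext_wp
    intro w
    have := prj_wp P 0 (l :: w)
    simpa using this
  exact LinearMap.congr_fun this u

theorem prj_zero_sc (P : Par K) (s : Lt → K) (u : Q P) : prj P 0 (sc P s u) = prj P 0 u := by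
  have : (prj P 0).comp (sc P s).toLinearMap = prj P 0 := by
    apply ext_wp
    intro w
    cases w with
    | nil => simp
    | cons l w =>
      rw [wp_cons, LinearMap.comp_apply, AlgHom.toLinearMap_apply, map_mul, sc_li, smul_mul_assoc,
        map_smul, prj_zero_mul, prj_zero_mul, smul_zero]
  exact LinearMap.congr_fun this u

@[simp] theorem prj_zero_one (P : Par K) : prj P 0 1 = 1 := by
  have := prj_wp P 0 []
  simpa using this

theorem pr_zero_cop (P : Par K) (u : Q P) : pr P 0 (cop P u) = 1 ⊗ₜ u := by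
  induction u using Q_ind P with
  | one => simp [pr]
  | add u v hu hv => simp [hu, hv, TensorProduct.tmul_add]
  | smul r u hu => simp [hu]
  | mul l u hu =>
    have hL : ∀ t, pr P 0 (Lop P l t) = 0 := by
      intro t
      induction t using TensorProduct.induction_on with
      | zero => simp
      | tmul u v => simp [pr, prj_zero_mul]
      | add u v hu hv => simp only [map_add, hu, hv, add_zero]
    have hR : ∀ t, pr P 0 (Rop P l t) =
        TensorProduct.map LinearMap.id (LinearMap.mulLeft K (li P l)) (pr P 0 t) := by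
      intro t
      induction t using TensorProduct.induction_on with
      | zero => simp
      | tmul u v => simp [pr, prj_zero_sc]
      | add u v hu hv => simp only [map_add, hu, hv]
    rw [cop_mul, map_add, hL, hR, hu]
    simp

theorem pr_last_cop (P : Par K) (u : Q P) :
    TensorProduct.map LinearMap.id (prj P 0) (cop P u) = u ⊗ₜ 1 := by
  induction u using Q_ind P with
  | one => simp
  | add u v hu hv => simp [hu, hv, TensorProduct.add_tmul]
  | smul r u hu => simp [hu, TensorProduct.smul_tmul']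
  | mul l u hu =>
    have hL : ∀ t, TensorProduct.map LinearMap.id (prj P 0) (Lop P l t) =
        Lop P l (TensorProduct.map LinearMap.id (prj P 0) t) := by
      intro t
      induction t using TensorProduct.induction_on with
      | zero => simp
      | tmul u v => simp
      | add u v hu hv => simp only [map_add, hu, hv]
    have hR : ∀ t, TensorProduct.map LinearMap.id (prj P 0) (Rop P l t) = 0 := by
      intro t
      induction t using TensorProduct.induction_on with
      | zero => simp
      | tmul u v => simp [prj_zero_mul]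
      | add u v hu hv => simp only [map_add, hu, hv, add_zero]
    rw [cop_mul, map_add, hL, hR, hu]
    simp

theorem pr_last (P : Par K) {m : Multiset Lt} {t : Q P ⊗[K] Q P} (ht : t ∈ Ht P m) :
    pr P m t = TensorProduct.map LinearMap.id (prj P 0) t := by
  have : Ht P m ≤ LinearMap.eqLocus (pr P m) (TensorProduct.map LinearMap.id (prj P 0)) := by
    apply Ht_le
    intro u v huv
    rw [LinearMap.mem_eqLocus]
    simp only [pr, TensorProduct.map_tmul, LinearMap.id_apply, prj_wp]
    by_cases h : v = []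
    · subst h
      have : (u : Multiset Lt) = m := by simpa using huv
      simp [this]
    · have h1 : ¬ ((v : Multiset Lt) = 0) := by
        intro h'; exact h (by simpa using h')
      have h2 : ¬ ((u : Multiset Lt) = m) := by
        intro h'
        rw [← huv] at h'
        exact h1 (add_left_cancel (a := (u : Multiset Lt)) (by rw [add_zero]; exact h'.symm))
      rw [if_neg h1, if_neg h2]
      simp
  exact this ht

theorem Th_zero (P : Par K) {m : Multiset Lt} (hm : m ≠ 0) {u : Q P} (hu : u ∈ Qc P m) :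
    Th P (cop P u) = 0 := by
  have : Qc P m ≤ LinearMap.ker ((Th P).comp (cop P)) := by
    apply Qc_le
    intro w hw
    cases w with
    | nil => exact absurd hw.symm hm
    | cons l w => simp [Th_cop]
  exact this hu

/-! ### the scalar of `S²` -/

/-- `(i,j,k,l) = (n_x, n_x', n_a, n_b)` -/
def Xs (P : Par K) (i j k l : ℤ) : K :=
  P.p ^ (i * (i + k - j - l - 1) + j * (i + k - j - l + 1)) * P.ca ^ (k * (i + k - j - l - 1)) *
    P.cb ^ (l * (i + k - j - l + 1))

def ct (w : List Lt) (g : Lt) : ℤ := (w.count g : ℤ)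

theorem prod_chi_left (P : Par K) (g : Lt) (w : List Lt) :
    (w.map (fun k => P.chi g k)).prod = P.c g ^ (ct w .x + ct w .a - ct w .x' - ct w .b) := by
  induction w with
  | nil => simp [ct]
  | cons l w ih =>
    rw [List.map_cons, List.prod_cons, ih, Par.chi, ← zpow_add₀ (P.c_ne g)]
    congr 1
    cases l <;> simp [ct, wt] <;> ring

theorem prod_c (P : Par K) (w : List Lt) :
    (w.map P.c).prod = P.p ^ (ct w .x + ct w .x') * P.ca ^ (ct w .a) * P.cb ^ (ct w .b) := by
  induction w with
  | nil => simp [ct]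
  | cons l w ih =>
    rw [List.map_cons, List.prod_cons, ih]
    cases l <;> simp [ct, Par.c, zpow_add₀ P.hp, zpow_add₀ P.ha, zpow_add₀ P.hb] <;> ring

theorem prod_chi_right (P : Par K) (g : Lt) (w : List Lt) :
    (w.map (fun k => P.chi k g)).prod =
      (P.p ^ (ct w .x + ct w .x') * P.ca ^ (ct w .a) * P.cb ^ (ct w .b)) ^ wt g := by
  rw [← prod_c]
  induction w with
  | nil => simp
  | cons l w ih => rw [List.map_cons, List.prod_cons, ih, List.map_cons, List.prod_cons, mul_zpow, Par.chi]

theorem zaux (P : Par K) (E1 E2 E3 n1 n2 n3 s W1 W2 W3 F1 F2 F3 : ℤ)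
    (h1 : E1 + n1 * s + W1 = F1) (h2 : E2 + n2 * s + W2 = F2) (h3 : E3 + n3 * s + W3 = F3) :
    P.p ^ E1 * P.ca ^ E2 * P.cb ^ E3 * ((P.p ^ n1 * P.ca ^ n2 * P.cb ^ n3) ^ s *
      (P.p ^ W1 * P.ca ^ W2 * P.cb ^ W3)) = P.p ^ F1 * P.ca ^ F2 * P.cb ^ F3 := by
  subst h1 h2 h3
  rw [mul_zpow, mul_zpow, ← zpow_mul, ← zpow_mul, ← zpow_mul, zpow_add₀ P.hp, zpow_add₀ P.hp,
    zpow_add₀ P.ha, zpow_add₀ P.ha, zpow_add₀ P.hb, zpow_add₀ P.hb]
  ring

theorem SS_wp (P : Par K) (w : List Lt) :
    S P (S P (wp P w)) = Xs P (ct w .x) (ct w .x') (ct w .a) (ct w .b) • wp P w := by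
  induction w with
  | nil => simp [Xs, ct]
  | cons g w ih =>
    rw [wp_cons, SS_mul, ih, map_smul, map_smul, sc_wp, map_smul, sc_wp, prod_chi_left, prod_chi_right]
    simp only [mul_smul_comm, smul_smul]
    congr 1
    have e : ∀ h : Lt, ct (g :: w) h = ct w h + (if g = h then 1 else 0) := by
      intro h; simp [ct, List.count_cons]
    simp only [e]
    generalize ct w .x = i
    generalize ct w .x' = j
    generalize ct w .a = k
    generalize ct w .b = l
    cases g
    · simp only [Par.c, wt, reduceCtorEq, if_true, if_false, add_zero, Xs]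
      have := zaux P (i * (i + k - j - l - 1) + j * (i + k - j - l + 1)) (k * (i + k - j - l - 1))
        (l * (i + k - j - l + 1)) (i + j) k l 1 (i + k - j - l) 0 0
        ((i + 1) * (i + 1 + k - j - l - 1) + j * (i + 1 + k - j - l + 1))
        (k * (i + 1 + k - j - l - 1)) (l * (i + 1 + k - j - l + 1)) (by ring) (by ring) (by ring)
      simpa using this
    · simp only [Par.c, wt, reduceCtorEq, if_true, if_false, add_zero, Xs]
      have := zaux P (i * (i + k - j - l - 1) + j * (i + k - j - l + 1)) (k * (i + k - j - l - 1))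
        (l * (i + k - j - l + 1)) (i + j) k l 1 0 (i + k - j - l) 0
        (i * (i + (k + 1) - j - l - 1) + j * (i + (k + 1) - j - l + 1))
        ((k + 1) * (i + (k + 1) - j - l - 1)) (l * (i + (k + 1) - j - l + 1)) (by ring) (by ring) (by ring)
      simpa using this
    · simp only [Par.c, wt, reduceCtorEq, if_true, if_false, add_zero, Xs]
      have := zaux P (i * (i + k - j - l - 1) + j * (i + k - j - l + 1)) (k * (i + k - j - l - 1))
        (l * (i + k - j - l + 1)) (i + j) k l (-1) (i + k - j - l) 0 0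
        (i * (i + k - (j + 1) - l - 1) + (j + 1) * (i + k - (j + 1) - l + 1))
        (k * (i + k - (j + 1) - l - 1)) (l * (i + k - (j + 1) - l + 1)) (by ring) (by ring) (by ring)
      simpa using this
    · simp only [Par.c, wt, reduceCtorEq, if_true, if_false, add_zero, Xs]
      have := zaux P (i * (i + k - j - l - 1) + j * (i + k - j - l + 1)) (k * (i + k - j - l - 1))
        (l * (i + k - j - l + 1)) (i + j) k l (-1) 0 0 (i + k - j - l)
        (i * (i + k - j - (l + 1) - 1) + j * (i + k - j - (l + 1) + 1))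
        (k * (i + k - j - (l + 1) - 1)) ((l + 1) * (i + k - j - (l + 1) + 1)) (by ring) (by ring) (by ring)
      simpa using this

theorem SS_Qc (P : Par K) {m : Multiset Lt} {u : Q P} (hu : u ∈ Qc P m) :
    S P (S P u) = Xs P (m.count .x) (m.count .x') (m.count .a) (m.count .b) • u := by
  have : Qc P m ≤ LinearMap.eqLocus ((S P).comp (S P))
      (Xs P (m.count .x) (m.count .x') (m.count .a) (m.count .b) • LinearMap.id) := by
    apply Qc_le
    intro w hw
    subst hw
    rw [LinearMap.mem_eqLocus]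
    simpa [ct] using SS_wp P w
  exact this hu

/-- multiplicative independence of `p, ca, cb` -/
def Par.Ind (P : Par K) : Prop :=
  ∀ i j k : ℤ, P.p ^ i * P.ca ^ j * P.cb ^ k = 1 → i = 0 ∧ j = 0 ∧ k = 0

theorem Xs_one (P : Par K) (hP : P.Ind) {i j k l : ℤ} (h : Xs P i j k l = 1) :
    (k = 0 ∧ l = 0 ∧ i = j) ∨ i + j + k + l = 1 := by
  obtain ⟨h1, h2, h3⟩ := hP _ _ _ h
  rcases mul_eq_zero.1 h2 with hk | hk
  · rcases mul_eq_zero.1 h3 with hl | hl
    · subst hk hl
      have h4 : (i - j) * (i + j - 1) = 0 := by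
        have : (i - j) * (i + j - 1) = i * (i + 0 - j - 0 - 1) + j * (i + 0 - j - 0 + 1) := by ring
        rw [this, h1]
      rcases mul_eq_zero.1 h4 with h5 | h5
      · left; exact ⟨rfl, rfl, by linarith⟩
      · right; linarith
    · subst hk
      have h5 : i * (i + 0 - j - l - 1) + j * (i + 0 - j - l + 1) = -2 * i := by
        have e1 : i + 0 - j - l - 1 = -2 := by linarith
        have e2 : i + 0 - j - l + 1 = 0 := by linarith
        rw [e1, e2]; ring
      rw [h5] at h1
      right; linarith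
  · have h5 : i * (i + k - j - l - 1) + j * (i + k - j - l + 1) = 2 * j := by
      have e2 : i + k - j - l + 1 = 2 := by linarith
      rw [hk, e2]; ring
    rw [h5] at h1
    have h6 : l * 2 = 0 := by
      have e2 : i + k - j - l + 1 = 2 := by linarith
      rw [e2] at h3; exact h3
    right; linarith

/-! ### injectivity -/

theorem D_pow (P : Par K) (i : ℕ) :
    D P .x (li P .x ^ (i + 1)) = (∑ r ∈ Finset.range (i + 1), P.p ^ r) • li P .x ^ i := by
  induction i with
  | zero =>
    have := D_mul P .x .x 1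
    simpa using this
  | succ i ih =>
    rw [pow_succ' _ (i + 1), D_mul, ih]
    have h1 : kap P .x (li P .x ^ (i + 1)) = P.p ^ (i + 1) • li P .x ^ (i + 1) := by
      rw [map_pow, sc_li, P.chi_x_x, smul_pow]
    rw [if_pos rfl, h1, mul_smul_comm, ← pow_succ', ← add_smul, Finset.sum_range_succ _ (i + 1)]

theorem D_pow' (P : Par K) (i j : ℕ) :
    D P .x (li P .x' ^ j * li P .x ^ (i + 1)) =
      (∑ r ∈ Finset.range (i + 1), P.p ^ r) • (li P .x' ^ j * li P .x ^ i) := by
  induction j with
  | zero => simp [D_pow]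
  | succ j ih =>
    rw [pow_succ', mul_assoc, D_mul, ih]
    simp [mul_assoc]

theorem x_pow (P : Par K) (j : ℕ) :
    li P .x * li P .x' ^ j = (P.p⁻¹) ^ j • (li P .x' ^ j * li P .x) := by
  induction j with
  | zero => simp
  | succ j ih =>
    rw [pow_succ' (li P .x'), ← mul_assoc, rel, smul_mul_assoc, mul_assoc, ih]
    simp [smul_smul, mul_assoc, pow_succ']

theorem wp_xx' (P : Par K) (w : List Lt) (h1 : w.count .a = 0) (h2 : w.count .b = 0) :
    ∃ r : K, wp P w = r • (li P .x' ^ (w.count .x') * li P .x ^ (w.count .x)) := by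
  induction w with
  | nil => exact ⟨1, by simp⟩
  | cons g w ih =>
    cases g
    · obtain ⟨r, hr⟩ := ih (by simpa using h1) (by simpa using h2)
      refine ⟨r * (P.p⁻¹) ^ (w.count .x'), ?_⟩
      rw [wp_cons, hr, mul_smul_comm, ← mul_assoc, x_pow]
      simp [smul_smul, mul_assoc, pow_succ']
    · simp at h1
    · obtain ⟨r, hr⟩ := ih (by simpa using h1) (by simpa using h2)
      refine ⟨r, ?_⟩
      rw [wp_cons, hr, mul_smul_comm]
      simp [mul_assoc, pow_succ']
    · simp at h2

theorem geom_ne (P : Par K) (hP : P.Ind) (i : ℕ) : (∑ r ∈ Finset.range (i + 1), P.p ^ r) ≠ 0 := by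
  intro h
  have h1 := geom_sum_mul P.p (i + 1)
  rw [h, zero_mul] at h1
  have h2 : P.p ^ ((i + 1 : ℕ) : ℤ) * P.ca ^ (0 : ℤ) * P.cb ^ (0 : ℤ) = 1 := by
    rw [zpow_natCast]
    simp only [zpow_zero, mul_one]
    exact (sub_eq_zero.1 h1.symm)
  have := (hP _ _ _ h2).1
  omega

theorem card_ct (m : Multiset Lt) :
    m.card = m.count .x + m.count .x' + m.count .a + m.count .b := by
  rw [← Multiset.sum_count_eq_card (s := Finset.univ) (m := m) (by simp)]
  have h : (Finset.univ : Finset Lt) = {.x, .a, .x', .b} := rfl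
  rw [h]
  simp
  ring

/-- **injectivity** (Lemma 1 of #25444) -/
theorem inj (P : Par K) (hP : P.Ind) : ∀ (n : ℕ) (m : Multiset Lt), m.card = n → m ≠ 0 →
    ∀ u ∈ Qc P m, (∀ g, D P g u = 0) → u = 0 := by
  intro n
  induction n using Nat.strong_induction_on with
  | _ n IH =>
  intro m hn hm u hu hD
  -- the middle part of the coproduct vanishes
  have hmid : ∀ k ∈ (Multiset.powerset m).toFinset, k ≠ 0 → k ≠ m → pr P k (cop P u) = 0 := by
    intro k hk hk0 hkm
    rw [Multiset.mem_toFinset, Multiset.mem_powerset] at hk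
    apply eq_zero_of_lf
    intro φ
    rw [lf_pr]
    have hc : k.card + (m - k).card = m.card := by
      rw [← Multiset.card_add, add_comm, Multiset.sub_add_cancel hk]
    have hk1 : 0 < k.card := Multiset.card_pos.2 hk0
    refine IH (m - k).card (by omega) (m - k) rfl ?_ _ (lf_mem P φ k (cop_mem P hu)) ?_
    · intro h0
      apply hkm
      refine Multiset.eq_of_le_of_card_le hk ?_
      rw [h0] at hc
      simp at hc
      omega
    · intro g
      rw [D_lf, D_cop, hD g]
      simp
  have hcop : cop P u = 1 ⊗ₜ u + u ⊗ₜ 1 := by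
    rw [← sum_pr P (cop_mem P hu)]
    rw [← Finset.sum_subset (s₁ := {0, m})]
    · rw [Finset.sum_pair (Ne.symm hm), pr_zero_cop, pr_last P (cop_mem P hu), pr_last_cop]
    · intro k hk
      simp only [Finset.mem_insert, Finset.mem_singleton] at hk
      rw [Multiset.mem_toFinset, Multiset.mem_powerset]
      rcases hk with rfl | rfl
      · exact Multiset.zero_le _
      · exact le_refl _
    · intro k hk hk'
      simp only [Finset.mem_insert, Finset.mem_singleton, not_or] at hk'
      exact hmid k hk hk'.1 hk'.2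
  have hS : S P u = - u := by
    have h1 := Th_zero P hm hu
    rw [hcop, map_add, Th_tmul, Th_tmul, S_one, one_mul, mul_one] at h1
    exact eq_neg_of_add_eq_zero_right h1
  have hSS : Xs P (m.count .x) (m.count .x') (m.count .a) (m.count .b) • u = u := by
    rw [← SS_Qc P hu, hS, map_neg, hS, neg_neg]
  by_cases hX : Xs P (m.count .x) (m.count .x') (m.count .a) (m.count .b) = 1
  · rcases Xs_one P hP hX with ⟨hk, hl, hij⟩ | h1
    · -- content `i (x + x')`
      have hle : Qc P m ≤ Submodule.span K {li P .x' ^ (m.count .x') * li P .x ^ (m.count .x)} := by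
        apply Qc_le
        intro w hw
        subst hw
        obtain ⟨r, hr⟩ := wp_xx' P w (by simpa using hk) (by simpa using hl)
        rw [hr]
        exact Submodule.smul_mem _ _ (Submodule.subset_span (by simp))
      obtain ⟨r, rfl⟩ := Submodule.mem_span_singleton.1 (hle hu)
      have hpos : m.count .x ≠ 0 := by
        intro h0
        apply hm
        rw [← Multiset.card_eq_zero]
        have := card_ct m
        omega
      obtain ⟨i, hi⟩ := Nat.exists_eq_succ_of_ne_zero hpos
      have h2 := hD .x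
      rw [hi, Nat.succ_eq_add_one, map_smul, D_pow', smul_smul, mul_comm, ← smul_smul,
        smul_eq_zero] at h2
      have h3 := h2.resolve_left (geom_ne P hP i)
      rw [hi, Nat.succ_eq_add_one, pow_succ, ← mul_assoc, ← smul_mul_assoc, h3, zero_mul]
    · -- one letter
      have hcard : m.card = 1 := by
        have := card_ct m
        omega
      obtain ⟨g, rfl⟩ := Multiset.card_eq_one.1 hcard
      have hle : Qc P {g} ≤ Submodule.span K {li P g} := by
        apply Qc_le
        intro w hw
        have : w = [g] := by simpa using hw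
        subst this
        exact Submodule.subset_span (by simp)
      obtain ⟨r, rfl⟩ := Submodule.mem_span_singleton.1 (hle hu)
      have h2 := hD g
      have h4 : D P g (li P g) = 1 := by
        have := D_mul P g g 1
        simpa using this
      rw [map_smul, h4] at h2
      have : r • li P g = (r • (1 : Q P)) * li P g := by simp
      rw [this, h2, zero_mul]
  · have h5 : (Xs P (m.count .x) (m.count .x') (m.count .a) (m.count .b) - 1) • u = 0 := by
      rw [sub_smul, hSS, one_smul, sub_self]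
    exact (smul_eq_zero.1 h5).resolve_left (sub_ne_zero.2 hX)

end

end Crest.Agent.R186.Loc261
private theorem rz_641d331625 : type_of% @_root_.Crest.Agent.R186.Loc261.Par.c.eq_1 := @_root_.Crest.Agent.R186.Loc261.Par.c.eq_1 -- L35
private theorem rz_7c74c3bf2e : type_of% @_root_.Crest.Agent.R186.Loc261.wt.eq_1 := @_root_.Crest.Agent.R186.Loc261.wt.eq_1 -- L20
end

-- ▼ part R186/Loc2_261
section

/-!
Row 186, local Poincare lemma, part 2: surjectivity of `D x`, exactness of the presentation,
exactness at the middle of `0 -> Q_c -> ⊕ Q_(c-g) y_g -> Q_(c-x-x') π -> 0`.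
-/

set_option autoImplicit false

namespace Crest.Agent.R186.Loc261

open TensorProduct

section

variable {K : Type*} [Field K]

theorem D_pow_mul (P : Par K) (j : ℕ) (v : Q P) :
    D P .x (li P .x ^ (j + 1) * v) = li P .x ^ (j + 1) * D P .x v +
      (∑ r ∈ Finset.range (j + 1), P.p ^ r) • (li P .x ^ j * kap P .x v) := by
  induction j with
  | zero => simp [D_mul]
  | succ j ih =>
    rw [pow_succ' _ (j + 1), mul_assoc, D_mul, ih, if_pos rfl]
    have h1 : kap P .x (li P .x ^ (j + 1) * v) = P.p ^ (j + 1) • (li P .x ^ (j + 1) * kap P .x v) := by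
      rw [map_mul, map_pow, sc_li, P.chi_x_x, smul_pow, smul_mul_assoc]
    rw [h1, mul_add, mul_smul_comm, ← mul_assoc, ← mul_assoc, ← pow_succ', add_assoc, ← pow_succ',
      ← add_smul, Finset.sum_range_succ _ (j + 1)]

theorem surj_aux (P : Par K) (hP : P.Ind) : ∀ (N : ℕ) (m : Multiset Lt) (v : Q P), v ∈ Qc P m →
    ((D P .x) ^ N) v = 0 → ∀ j : ℕ,
    ∃ u ∈ Qc P (.x ::ₘ (Multiset.replicate j .x + m)), D P .x u = li P .x ^ j * v := by
  intro N
  induction N with
  | zero =>
    intro m v _ h j
    refine ⟨0, Submodule.zero_mem _, ?_⟩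
    have : v = 0 := by simpa using h
    simp [this]
  | succ N ih =>
    intro m v hv h j
    have hpow : li P .x ^ (j + 1) * v ∈ Qc P (.x ::ₘ (Multiset.replicate j .x + m)) := by
      have hgen : ∀ k : ℕ, li P .x ^ k * v ∈ Qc P (Multiset.replicate k .x + m) := by
        intro k
        induction k with
        | zero => simpa using hv
        | succ k ih2 =>
          rw [pow_succ', mul_assoc, Multiset.replicate_succ, Multiset.cons_add]
          exact li_mul_mem P _ ih2
      have := hgen (j + 1)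
      rwa [Multiset.replicate_succ, Multiset.cons_add] at this
    obtain ⟨u', hu', hDu'⟩ : ∃ u' ∈ Qc P (.x ::ₘ (Multiset.replicate j .x + m)),
        D P .x u' = li P .x ^ (j + 1) * D P .x v := by
      have hm := D_mem P .x hv
      unfold Qg at hm
      split_ifs at hm with hx
      · obtain ⟨u', h1, h2⟩ := ih (m.erase .x) (D P .x v) hm (by
          rw [pow_succ] at h; simpa using h) (j + 1)
        refine ⟨u', ?_, h2⟩
        rw [Multiset.replicate_succ, Multiset.cons_add, ← Multiset.add_cons,
          Multiset.cons_erase hx] at h1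
        exact h1
      · refine ⟨0, Submodule.zero_mem _, ?_⟩
        have : D P .x v = 0 := by simpa using hm
        simp [this]
    have hk : kap P .x v = (m.map (fun l => P.chi .x l)).prod • v := sc_Qc P _ hv
    set c := (m.map (fun l => P.chi .x l)).prod with hc
    have hc0 : c ≠ 0 := by
      rw [hc]
      apply Multiset.prod_ne_zero
      intro h0
      obtain ⟨l, _, hl⟩ := Multiset.mem_map.1 h0
      exact P.chi_ne _ _ hl
    set s := ∑ r ∈ Finset.range (j + 1), P.p ^ r with hs
    have hs0 : s ≠ 0 := geom_ne P hP j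
    refine ⟨(s * c)⁻¹ • (li P .x ^ (j + 1) * v - u'),
      Submodule.smul_mem _ _ (Submodule.sub_mem _ hpow hu'), ?_⟩
    rw [map_smul, map_sub, D_pow_mul, hDu', add_sub_cancel_left, ← hs, hk, mul_smul_comm, smul_smul,
      smul_smul]
    rw [mul_assoc, inv_mul_cancel₀ (mul_ne_zero hs0 hc0), one_smul]

theorem D_nil (P : Par K) : ∀ (N : ℕ) (m : Multiset Lt) (v : Q P), v ∈ Qc P m →
    m.count .x < N → ((D P .x) ^ N) v = 0 := by
  intro N
  induction N with
  | zero => intro m v _ h; omega
  | succ N ih =>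
    intro m v hv h
    rw [pow_succ, Module.End.mul_apply]
    have hm := D_mem P .x hv
    unfold Qg at hm
    split_ifs at hm with hx
    · refine ih (m.erase .x) _ hm ?_
      rw [Multiset.count_erase_self]
      have := Multiset.count_pos.2 hx
      omega
    · have : D P .x v = 0 := by simpa using hm
      rw [this, map_zero]

/-- **surjectivity** of `D x` -/
theorem surj (P : Par K) (hP : P.Ind) {m : Multiset Lt} {v : Q P} (hv : v ∈ Qc P m) :
    ∃ u ∈ Qc P (.x ::ₘ m), D P .x u = v := by
  obtain ⟨u, h1, h2⟩ := surj_aux P hP (m.count .x + 1) m v hv (D_nil P _ m v hv (by omega)) 0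
  exact ⟨u, by simpa using h1, by simpa using h2⟩

/-! ### exactness of the presentation -/

/-- relation vector -/
noncomputable def nu (P : Par K) : Q P →ₗ[K] (Lt → Q P) :=
  LinearMap.pi (fun g => match g with
    | .x => - (P.p⁻¹ • LinearMap.mulRight K (li P .x'))
    | .a => 0
    | .x' => LinearMap.mulRight K (li P .x)
    | .b => 0)

theorem nu_x (P : Par K) (y : Q P) : nu P y .x = - (P.p⁻¹ • (y * li P .x')) := by simp [nu]
theorem nu_x' (P : Par K) (y : Q P) : nu P y .x' = y * li P .x := by simp [nu]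
theorem nu_a (P : Par K) (y : Q P) : nu P y .a = 0 := by simp [nu]
theorem nu_b (P : Par K) (y : Q P) : nu P y .b = 0 := by simp [nu]

/-- the left action of a letter on `K × (Lt → Q)` -/
noncomputable def act (P : Par K) (l : Lt) : Module.End K (K × (Lt → Q P)) :=
  LinearMap.prod 0
    ((LinearMap.pi (fun g => (LinearMap.mulLeft K (li P l)).comp
        ((LinearMap.proj g).comp (LinearMap.snd K K (Lt → Q P))))) +
      (LinearMap.toSpanSingleton K (Lt → Q P) (Pi.single l (1 : Q P))).comp
        (LinearMap.fst K K (Lt → Q P)))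

theorem act_apply (P : Par K) (l : Lt) (r : K) (b : Lt → Q P) :
    act P l (r, b) = (0, fun g => li P l * b g + r • (Pi.single l (1 : Q P) : Lt → Q P) g) := by
  refine Prod.ext (by simp [act]) ?_
  funext g
  simp [act]

noncomputable def rr (P : Par K) : Submodule K (K × (Lt → Q P)) :=
  LinearMap.range ((LinearMap.inr K K (Lt → Q P)).comp (nu P))

theorem nu_li (P : Par K) (l : Lt) (y : Q P) : nu P (li P l * y) = fun g => li P l * nu P y g := by
  funext g
  cases g <;> simp [nu_x, nu_x', nu_a, nu_b, mul_assoc]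

theorem act_rr (P : Par K) (l : Lt) : rr P ≤ (rr P).comap (act P l) := by
  rintro _ ⟨y, rfl⟩
  refine ⟨li P l * y, ?_⟩
  simp only [LinearMap.comp_apply, LinearMap.inr_apply, act_apply, nu_li, zero_smul, add_zero]

noncomputable def Eh (P : Par K) : Q P →ₐ[K] Module.End K ((K × (Lt → Q P)) ⧸ rr P) :=
  lft P (fun l => (rr P).mapQ (rr P) (act P l) (act_rr P l)) (by
    apply LinearMap.ext
    intro t
    obtain ⟨⟨r, b⟩, rfl⟩ := Submodule.mkQ_surjective _ t
    simp only [Module.End.mul_apply, LinearMap.smul_apply, Submodule.mkQ_apply, Submodule.mapQ_apply,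
      act_apply]
    rw [← Submodule.Quotient.mk_smul, Submodule.Quotient.eq]
    refine ⟨r • 1, ?_⟩
    simp only [LinearMap.comp_apply, LinearMap.inr_apply]
    refine Prod.ext (by simp) ?_
    funext g
    cases g
    · simp [nu_x, mul_add, smul_add, ← mul_assoc, rel, Pi.single_apply, smul_smul, mul_comm]
    · simp [nu_a, mul_add, ← mul_assoc, rel, Pi.single_apply]
    · simp [nu_x', mul_add, ← mul_assoc, rel, Pi.single_apply]
    · simp [nu_b, mul_add, ← mul_assoc, rel, Pi.single_apply])

theorem Eh_mul (P : Par K) (g : Lt) (b : Q P) :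
    Eh P (b * li P g) ((rr P).mkQ (1, 0)) = (rr P).mkQ (0, Pi.single g b) := by
  induction b using Q_ind P with
  | one =>
    simp only [one_mul, Eh, lft_li, Submodule.mkQ_apply, Submodule.mapQ_apply, act_apply]
    congr 2
    funext h
    simp
  | add u v hu hv =>
    rw [add_mul, map_add, LinearMap.add_apply, hu, hv, ← map_add]
    simp [← Pi.single_add]
  | smul r u hu =>
    rw [smul_mul_assoc, map_smul, LinearMap.smul_apply, hu, ← map_smul]
    congr 1
    simp [Pi.single_smul]
  | mul l u hu =>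
    rw [mul_assoc, map_mul, Module.End.mul_apply, hu]
    simp only [Eh, lft_li, Submodule.mkQ_apply, Submodule.mapQ_apply, act_apply]
    congr 2
    funext h
    by_cases hg : h = g
    · subst hg; simp
    · simp [Pi.single_eq_of_ne hg]

/-- **exactness of the presentation** -/
theorem pres (P : Par K) (b : Lt → Q P) (h : ∑ g, b g * li P g = 0) : ∃ y, b = nu P y := by
  have h1 : (rr P).mkQ (0, b) = 0 := by
    have h2 : Eh P (∑ g, b g * li P g) ((rr P).mkQ (1, 0)) = 0 := by rw [h]; simp
    rw [map_sum, LinearMap.sum_apply] at h2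
    simp only [Eh_mul] at h2
    rw [← map_sum] at h2
    convert h2 using 2
    refine Prod.ext (by rw [Prod.fst_sum]; simp) ?_
    rw [Prod.snd_sum]
    exact (Finset.univ_sum_single b).symm
  rw [Submodule.mkQ_apply, Submodule.Quotient.mk_eq_zero] at h1
  obtain ⟨y, hy⟩ := h1
  refine ⟨y, ?_⟩
  have := congrArg Prod.snd hy
  simpa using this.symm

/-! ### homogeneous version -/

theorem prj_mem (P : Par K) (m : Multiset Lt) (u : Q P) : prj P m u ∈ Qc P m := by
  have h := span_wp P u
  induction h using Submodule.span_induction with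
  | mem u hu =>
    obtain ⟨w, rfl⟩ := hu
    rw [prj_wp]
    split_ifs with h
    · rw [← h]; exact wp_mem P w
    · exact Submodule.zero_mem _
  | zero => rw [map_zero]; exact Submodule.zero_mem _
  | add u v _ _ hu hv => rw [map_add]; exact Submodule.add_mem _ hu hv
  | smul r u _ hu => rw [map_smul]; exact Submodule.smul_mem _ _ hu

theorem prj_id (P : Par K) {m : Multiset Lt} {u : Q P} (hu : u ∈ Qc P m) : prj P m u = u := by
  have : Qc P m ≤ LinearMap.eqLocus (prj P m) LinearMap.id := by
    apply Qc_le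
    intro w hw
    subst hw
    simp [prj_wp]
  simpa using this hu

theorem prj_ne (P : Par K) {m n : Multiset Lt} (hmn : m ≠ n) {u : Q P} (hu : u ∈ Qc P m) :
    prj P n u = 0 := by
  have : Qc P m ≤ LinearMap.ker (prj P n) := by
    apply Qc_le
    intro w hw
    subst hw
    simp [prj_wp, hmn]
  simpa using this hu

theorem coe_snoc (w : List Lt) (g : Lt) :
    ((w ++ [g] : List Lt) : Multiset Lt) = g ::ₘ (w : Multiset Lt) := by
  rw [← Multiset.coe_add, add_comm]; rfl

theorem prj_mul_li (P : Par K) (g : Lt) (n : Multiset Lt) (y : Q P) :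
    prj P (g ::ₘ n) (y * li P g) = prj P n y * li P g := by
  have : (prj P (g ::ₘ n)).comp (LinearMap.mulRight K (li P g)) =
      (LinearMap.mulRight K (li P g)).comp (prj P n) := by
    apply ext_wp
    intro w
    simp only [LinearMap.comp_apply, LinearMap.mulRight_apply, prj_wp]
    have h1 : wp P w * li P g = wp P (w ++ [g]) := by simp [wp_append]
    rw [h1, prj_wp, coe_snoc]
    by_cases h : (w : Multiset Lt) = n
    · simp [h, h1]
    · rw [if_neg, if_neg h, zero_mul]
      intro h2
      exact h ((Multiset.cons_inj_right g).1 h2)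
  exact LinearMap.congr_fun this y

theorem prj_mul_li' (P : Par K) (g : Lt) (m : Multiset Lt) (hg : g ∉ m) (y : Q P) :
    prj P m (y * li P g) = 0 := by
  have : (prj P m).comp (LinearMap.mulRight K (li P g)) = 0 := by
    apply ext_wp
    intro w
    simp only [LinearMap.comp_apply, LinearMap.mulRight_apply, LinearMap.zero_apply]
    have h1 : wp P w * li P g = wp P (w ++ [g]) := by simp [wp_append]
    rw [h1, prj_wp, coe_snoc, if_neg]
    rintro rfl
    exact hg (Multiset.mem_cons_self _ _)
  exact LinearMap.congr_fun this y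

noncomputable def Q2 (P : Par K) (m : Multiset Lt) : Submodule K (Q P) :=
  if .x ∈ m ∧ .x' ∈ m then Qc P ((m.erase .x').erase .x) else ⊥

theorem pres_hom (P : Par K) (m : Multiset Lt) (b : Lt → Q P) (hb : ∀ g, b g ∈ Qg P m g)
    (h : ∑ g, b g * li P g = 0) : ∃ y ∈ Q2 P m, b = nu P y := by
  obtain ⟨y, rfl⟩ := pres P b h
  have hx := hb .x
  have hx' := hb .x'
  rw [nu_x] at hx
  rw [nu_x'] at hx'
  unfold Qg at hx hx'
  unfold Q2
  have key : ∀ z : Q P, y * li P .x = z * li P .x → P.p⁻¹ • (y * li P .x') = P.p⁻¹ • (z * li P .x') →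
      nu P y = nu P z := by
    intro z h1 h2
    funext g
    cases g
    · rw [nu_x, nu_x, h2]
    · rw [nu_a, nu_a]
    · rw [nu_x', nu_x', h1]
    · rw [nu_b, nu_b]
  by_cases h1 : Lt.x ∈ m
  · by_cases h2 : Lt.x' ∈ m
    · rw [if_pos h1] at hx
      rw [if_pos h2] at hx'
      rw [if_pos ⟨h1, h2⟩]
      refine ⟨prj P ((m.erase .x').erase .x) y, prj_mem P _ _, ?_⟩
      have e1 : m.erase .x' = .x ::ₘ ((m.erase .x').erase .x) := by
        rw [Multiset.cons_erase]
        rw [Multiset.mem_erase_of_ne (by decide)]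
        exact h1
      have e2 : m.erase .x = .x' ::ₘ ((m.erase .x').erase .x) := by
        rw [Multiset.erase_comm, Multiset.cons_erase]
        rw [Multiset.mem_erase_of_ne (by decide)]
        exact h2
      refine key _ ?_ ?_
      · rw [← prj_mul_li, ← e1, prj_id P hx']
      · have hx2 : P.p⁻¹ • (y * li P .x') ∈ Qc P (m.erase .x) := by
          simpa using hx
        rw [← prj_id P hx2, map_smul]
        conv_lhs => rw [e2]
        rw [prj_mul_li]
    · refine ⟨0, Submodule.zero_mem _, key _ ?_ ?_⟩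
      · rw [if_neg h2] at hx'
        simpa using hx'
      · rw [if_pos h1] at hx
        have hx2 : P.p⁻¹ • (y * li P .x') ∈ Qc P (m.erase .x) := by
          simpa using hx
        rw [← prj_id P hx2, map_smul, prj_mul_li' P .x' _ (fun h3 => h2 (Multiset.mem_of_mem_erase h3))]
        simp
  · refine ⟨0, Submodule.zero_mem _, key _ ?_ ?_⟩
    · by_cases h2 : Lt.x' ∈ m
      · rw [if_pos h2] at hx'
        rw [← prj_id P hx', prj_mul_li' P .x _ (fun h3 => h1 (Multiset.mem_of_mem_erase h3))]
        simp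
      · rw [if_neg h2] at hx'
        simpa using hx'
    · rw [if_neg h1] at hx
      simpa using hx

instance Qc_fd (P : Par K) (m : Multiset Lt) : FiniteDimensional K (Qc P m) := by
  unfold Qc
  apply FiniteDimensional.span_of_finite
  have : {u | ∃ w : List Lt, (w : Multiset Lt) = m ∧ wp P w = u} ⊆
      wp P '' {w : List Lt | w.length = m.card} := by
    rintro u ⟨w, rfl, rfl⟩
    exact ⟨w, by simp, rfl⟩
  exact ((List.finite_length_eq Lt _).image _).subset this

instance Qg_fd (P : Par K) (m : Multiset Lt) (g : Lt) : FiniteDimensional K (Qg P m g) := by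
  by_cases h : g ∈ m
  · rw [show Qg P m g = Qc P (m.erase g) from if_pos h]
    infer_instance
  · rw [show Qg P m g = ⊥ from if_neg h]
    infer_instance

instance Q2_fd (P : Par K) (m : Multiset Lt) : FiniteDimensional K (Q2 P m) := by
  by_cases h : .x ∈ m ∧ .x' ∈ m
  · rw [show Q2 P m = Qc P ((m.erase .x').erase .x) from if_pos h]
    infer_instance
  · rw [show Q2 P m = ⊥ from if_neg h]
    infer_instance

/-- linear algebra -/
theorem lin_aux {V A B C : Type*} [AddCommGroup V] [Module K V] [FiniteDimensional K V]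
    [AddCommGroup A] [Module K A] [AddCommGroup B] [Module K B] [AddCommGroup C] [Module K C]
    [FiniteDimensional K C] (μ : V →ₗ[K] A) (δ : V →ₗ[K] B) (d : C →ₗ[K] V) (q : ℕ)
    (h1 : Module.finrank K (LinearMap.range μ) ≤ Module.finrank K C)
    (h2 : Module.finrank K (LinearMap.ker μ) ≤ q)
    (h3 : q ≤ Module.finrank K (LinearMap.range δ))
    (h4 : Function.Injective d) (h5 : ∀ c, δ (d c) = 0) :
    ∀ v, δ v = 0 → ∃ c, d c = v := by
  have e1 := LinearMap.finrank_range_add_finrank_ker μ
  have e2 := LinearMap.finrank_range_add_finrank_ker δ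
  have e3 := LinearMap.finrank_range_of_inj h4
  have hle : LinearMap.range d ≤ LinearMap.ker δ := by
    rintro _ ⟨c, rfl⟩
    exact h5 c
  have heq : LinearMap.range d = LinearMap.ker δ :=
    Submodule.eq_of_le_of_finrank_le hle (by omega)
  intro v hv
  have : v ∈ LinearMap.ker δ := hv
  rw [← heq] at this
  exact this

noncomputable def mu (P : Par K) (m : Multiset Lt) : ((g : Lt) → Qg P m g) →ₗ[K] Q P :=
  ∑ g, (LinearMap.mulRight K (li P g)).comp ((Qg P m g).subtype.comp (LinearMap.proj g))

theorem mu_apply (P : Par K) (m : Multiset Lt) (b : (g : Lt) → Qg P m g) :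
    mu P m b = ∑ g, (b g : Q P) * li P g := by
  simp [mu]

noncomputable def del (P : Par K) (m : Multiset Lt) : ((g : Lt) → Qg P m g) →ₗ[K] Q P :=
  (D P .x).comp ((Qg P m .x').subtype.comp (LinearMap.proj Lt.x')) -
    P.p • (D P .x').comp ((Qg P m .x).subtype.comp (LinearMap.proj Lt.x))

theorem del_apply (P : Par K) (m : Multiset Lt) (b : (g : Lt) → Qg P m g) :
    del P m b = D P .x (b .x' : Q P) - P.p • D P .x' (b .x : Q P) := by
  simp [del]

noncomputable def DD (P : Par K) (m : Multiset Lt) : Qc P m →ₗ[K] ((g : Lt) → Qg P m g) :=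
  LinearMap.pi (fun g => ((D P g).comp (Qc P m).subtype).codRestrict (Qg P m g)
    (fun u => D_mem P g u.2))

theorem DD_apply (P : Par K) (m : Multiset Lt) (u : Qc P m) (g : Lt) :
    (DD P m u g : Q P) = D P g u := rfl

theorem mu_mem (P : Par K) (m : Multiset Lt) (b : (g : Lt) → Qg P m g) : mu P m b ∈ Qc P m := by
  rw [mu_apply]
  refine Submodule.sum_mem _ (fun g _ => ?_)
  have h := (b g).2
  unfold Qg at h
  split_ifs at h with hg
  · have := mul_li_mem P g h
    rwa [Multiset.cons_erase hg] at this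
  · have h0 : ((b g : Qg P m g) : Q P) = 0 := by simpa using h
    rw [h0, zero_mul]
    exact Submodule.zero_mem _

theorem ker_mu (P : Par K) (m : Multiset Lt) :
    Module.finrank K (LinearMap.ker (mu P m)) ≤ Module.finrank K (Q2 P m) := by
  let ι : LinearMap.ker (mu P m) →ₗ[K] (Lt → Q P) :=
    (LinearMap.pi (fun g => (Qg P m g).subtype.comp (LinearMap.proj g))).comp
      (LinearMap.ker (mu P m)).subtype
  have hι : Function.Injective ι := by
    intro u v huv
    apply Subtype.ext
    funext g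
    apply Subtype.ext
    exact congrFun huv g
  have hr : LinearMap.range ι ≤ (Q2 P m).map (nu P) := by
    rintro _ ⟨⟨b, hb⟩, rfl⟩
    have hb' : ∑ g, (b g : Q P) * li P g = 0 := by rw [← mu_apply]; exact hb
    obtain ⟨y, hy, hyb⟩ := pres_hom P m (fun g => (b g : Q P)) (fun g => (b g).2) hb'
    exact ⟨y, hy, hyb.symm⟩
  calc Module.finrank K (LinearMap.ker (mu P m)) = Module.finrank K (LinearMap.range ι) :=
        (LinearMap.finrank_range_of_inj hι).symm
    _ ≤ Module.finrank K ((Q2 P m).map (nu P)) := Submodule.finrank_mono hr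
    _ ≤ Module.finrank K (Q2 P m) := Submodule.finrank_map_le _ _

theorem range_del (P : Par K) (hP : P.Ind) (m : Multiset Lt) :
    Q2 P m ≤ LinearMap.range (del P m) := by
  intro v hv
  unfold Q2 at hv
  split_ifs at hv with h
  · obtain ⟨u, hu, hDu⟩ := surj P hP hv
    have e1 : .x ::ₘ ((m.erase .x').erase .x) = m.erase .x' := by
      rw [Multiset.cons_erase]
      rw [Multiset.mem_erase_of_ne (by decide)]
      exact h.1
    rw [e1] at hu
    have hu' : u ∈ Qg P m .x' := by
      unfold Qg
      rw [if_pos h.2]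
      exact hu
    refine ⟨fun g => if hg : g = .x' then ⟨u, by rw [hg]; exact hu'⟩ else 0, ?_⟩
    rw [del_apply]
    simp [hDu]
  · have : v = 0 := by simpa using hv
    rw [this]
    exact Submodule.zero_mem _

/-- **exactness in the middle** -/
theorem mid (P : Par K) (hP : P.Ind) (m : Multiset Lt) (b : Lt → Q P) (hb : ∀ g, b g ∈ Qg P m g)
    (h : D P .x (b .x') = P.p • D P .x' (b .x)) : ∃ u ∈ Qc P m, ∀ g, D P g u = b g := by
  by_cases hm : m = 0
  · subst hm
    refine ⟨0, Submodule.zero_mem _, fun g => ?_⟩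
    have := hb g
    simp only [Qg, Multiset.notMem_zero, if_false, Submodule.mem_bot] at this
    rw [this, map_zero]
  · have hinj : Function.Injective (DD P m) := by
      rw [injective_iff_map_eq_zero]
      intro u hu
      apply Subtype.ext
      refine inj P hP m.card m rfl hm u.1 u.2 (fun g => ?_)
      rw [← DD_apply, hu]
      rfl
    have hrm : Module.finrank K (LinearMap.range (mu P m)) ≤ Module.finrank K (Qc P m) := by
      apply Submodule.finrank_mono
      rintro _ ⟨b, rfl⟩
      exact mu_mem P m b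
    have : FiniteDimensional K (LinearMap.range (del P m)) := inferInstance
    obtain ⟨u, hu⟩ := lin_aux (mu P m) (del P m) (DD P m) (Module.finrank K (Q2 P m)) hrm
      (ker_mu P m) (Submodule.finrank_mono (range_del P hP m)) hinj
      (fun u => by
        rw [del_apply, DD_apply, DD_apply, D_D, sub_self])
      (fun g => ⟨b g, hb g⟩) (by
        rw [del_apply]
        simp [h])
    refine ⟨u.1, u.2, fun g => ?_⟩
    rw [← DD_apply, hu]

end

end Crest.Agent.R186.Loc261
end

-- ▼ part R186/VQ_735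

/-!
# Row 186, half (A), leaf C3 (helper735), part 1: the right action of `R''` on `R'' ⊗ Q^*`

`lp π` = the parameters of the local algebra `Q = Loc261.Q (lp π)` (letters `x ↔ y 0`, `x' ↔ y 1`,
`a ↔ yb 0`, `b ↔ yb 1`).  `EQ g`, `MQ g` are the rescaled skew derivation and multiplication by `g`.
`Dl : R π →ₐ[K] R π ⊗ End Q` kills the `W`-letters; `th = Σ_g y_g ⊗ MQ g`;
`(D ⊗ 1) (Dl r) + th * Dl r + Dl r * th = Dl (D r)` (`Dl_D`), `th * th = 0` (`th_th`).
-/

set_option autoImplicit false

namespace Crest.Agent.R186.VQ735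

open Crest.Agent.R186.VOp220 Crest.Agent.R186.DefsQ830 Crest.Agent.R186.Vmod220
open Crest.Agent.R186.Cells221 Crest.Agent.R186.Der580
open Crest.Agent.R186.PBW128 (E)
open Crest.Agent.R186.Loc261 (Lt li sc Q_ind wt)
open TensorProduct

variable {K : Type} [Field K] (π : Par K)

/-- the local parameters -/
noncomputable def lp : Loc261.Par K := ⟨π.p, π.q1, π.q2, π.p0, π.q10, π.q20⟩

theorem lp_ind : (lp π).Ind := π.ind

/-- the local algebra -/
abbrev Q : Type := Loc261.Q (lp π)

/-- diagonal operators on `Q` -/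
noncomputable def SC (s : Lt → K) : Module.End K (Q π) := (sc (lp π) s).toLinearMap

@[simp] theorem SC_apply (s : Lt → K) (u : Q π) : SC π s u = sc (lp π) s u := rfl

theorem SC_mul (s t : Lt → K) : SC π s * SC π t = SC π (fun l => s l * t l) := by
  ext u
  exact Loc261.sc_sc _ _ _ _

theorem SC_one : SC π (fun _ => 1) = 1 := by
  ext u
  show sc (lp π) (fun _ => 1) u = u
  induction u using Q_ind (lp π) with
  | one => simp
  | add u v hu hv => simp only [map_add, hu, hv]
  | smul r u hu => simp only [map_smul, hu]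
  | mul g u hu => simp [hu]

theorem SC_comm (s t : Lt → K) : SC π s * SC π t = SC π t * SC π s := by
  rw [SC_mul, SC_mul]; congr 1; funext l; ring

theorem SC_congr {s t : Lt → K} (h : ∀ l, s l = t l) : SC π s = SC π t := by
  congr 1; funext l; exact h l

/-- rescaled derivation -/
noncomputable def EQ (g : Lt) : Module.End K (Q π) :=
  (lp π).chi g g • (Loc261.D (lp π) g * SC π (fun l => ((lp π).chi g l)⁻¹))

/-- rescaled multiplication -/
noncomputable def MQ (g : Lt) : Module.End K (Q π) :=
  LinearMap.mulLeft K (li (lp π) g) * SC π (fun l => (lp π).chi l g)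

theorem EQ_apply (g : Lt) (u : Q π) : EQ π g u =
    (lp π).chi g g • Loc261.D (lp π) g (sc (lp π) (fun l => ((lp π).chi g l)⁻¹) u) := rfl

theorem MQ_apply (g : Lt) (u : Q π) : MQ π g u =
    li (lp π) g * sc (lp π) (fun l => (lp π).chi l g) u := rfl

theorem EQ_SC (g : Lt) (s : Lt → K) : EQ π g * SC π s = s g • (SC π s * EQ π g) := by
  ext u
  simp only [Module.End.mul_apply, LinearMap.smul_apply, EQ_apply, SC_apply]
  rw [Loc261.sc_comm, Loc261.D_sc, map_smul, smul_comm]

theorem SC_EQ (g : Lt) (s : Lt → K) (hs : s g ≠ 0) :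
    SC π s * EQ π g = (s g)⁻¹ • (EQ π g * SC π s) := by
  rw [EQ_SC, smul_smul, inv_mul_cancel₀ hs, one_smul]

theorem SC_MQ (g : Lt) (s : Lt → K) : SC π s * MQ π g = s g • (MQ π g * SC π s) := by
  ext u
  simp only [Module.End.mul_apply, LinearMap.smul_apply, MQ_apply, SC_apply]
  rw [map_mul, Loc261.sc_li, smul_mul_assoc, Loc261.sc_comm]

/-- `E_g m_g' + m_g' E_g = δ χ(-, g)` -/
theorem EQ_MQ (g g' : Lt) : EQ π g * MQ π g' + MQ π g' * EQ π g =
    if g = g' then SC π (fun l => (lp π).chi l g) else 0 := by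
  have h2 : (2 : K) = 0 := π.two
  have hadd : ∀ u : Q π, u + u = 0 := fun u => by rw [← two_smul K, h2, zero_smul]
  have hc : ∀ g l, (lp π).chi g l ≠ 0 := fun g l => (lp π).chi_ne g l
  apply LinearMap.ext
  intro u
  simp only [LinearMap.add_apply, Module.End.mul_apply, EQ_apply, MQ_apply, map_mul, Loc261.sc_li,
    smul_mul_assoc, map_smul, Loc261.D_mul]
  rw [Loc261.sc_comm (lp π) (fun l => ((lp π).chi g l)⁻¹) (fun l => (lp π).chi l g'), Loc261.D_sc,
    mul_smul_comm]
  by_cases h : g = g'
  · subst h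
    rw [if_pos rfl, if_pos rfl]
    rw [smul_add, smul_add, smul_smul, smul_smul, smul_smul, mul_inv_cancel₀ (hc g g), one_mul,
      one_smul]
    rw [add_right_comm, hadd, zero_add]
    show sc (lp π) _ (sc (lp π) _ (sc (lp π) _ u)) = sc (lp π) _ u
    rw [Loc261.sc_comm (lp π) (fun l => (lp π).chi l g), Loc261.sc_sc, Loc261.sc_sc]
    congr 2
    funext l
    rw [mul_inv_cancel₀ (hc g l), one_mul]
  · rw [if_neg h, if_neg h, add_zero, smul_smul, smul_smul, LinearMap.zero_apply]
    rw [mul_assoc, inv_mul_cancel₀ (hc g g'), mul_one]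
    exact hadd _

theorem EQ_EQ : EQ π .x' * EQ π .x = π.p • (EQ π .x * EQ π .x') := by
  have hp := π.p0
  have e1 : (lp π).chi .x' .x' = π.p⁻¹ := by
    show π.p ^ (-1 : ℤ) = _
    rw [zpow_neg_one]
  have e2 : (lp π).chi .x .x = π.p := Loc261.Par.chi_x_x _
  have e3 : (lp π).chi .x .x' = π.p⁻¹ := Loc261.Par.chi_x_x' _
  have e4 : (lp π).chi .x' .x = π.p := Loc261.Par.chi_x'_x _
  ext u
  simp only [LinearMap.smul_apply, Module.End.mul_apply, EQ_apply, map_smul]
  have hD : ∀ (g : Lt) (s : Lt → K) (v : Q π), s g ≠ 0 →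
      sc (lp π) s (Loc261.D (lp π) g v) = (s g)⁻¹ • Loc261.D (lp π) g (sc (lp π) s v) := by
    intro g s v hs
    rw [Loc261.D_sc, smul_smul, inv_mul_cancel₀ hs, one_smul]
  rw [hD .x _ _ (by rw [e4]; exact inv_ne_zero hp), hD .x' _ _ (by rw [e3]; exact inv_ne_zero (inv_ne_zero hp))]
  rw [map_smul, map_smul, Loc261.D_D]
  rw [Loc261.sc_comm (lp π) (fun l => ((lp π).chi Lt.x' l)⁻¹) (fun l => ((lp π).chi Lt.x l)⁻¹)]
  simp only [smul_smul, e1, e2, e3, e4]
  congr 1
  show π.p * (π.p⁻¹ * π.p⁻¹⁻¹) = π.p * (π.p⁻¹ * (π.p * (π.p⁻¹⁻¹⁻¹ * π.p)))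
  field_simp

theorem MQ_MQ : MQ π .x * MQ π .x' = π.p • (MQ π .x' * MQ π .x) := by
  have hp := π.p0
  have e3 : (lp π).chi .x .x' = π.p⁻¹ := Loc261.Par.chi_x_x' _
  have e4 : (lp π).chi .x' .x = π.p := Loc261.Par.chi_x'_x _
  ext u
  simp only [LinearMap.smul_apply, Module.End.mul_apply, MQ_apply, map_mul, Loc261.sc_li, e3, e4,
    smul_mul_assoc, mul_smul_comm, ← mul_assoc, Loc261.rel]
  rw [Loc261.sc_comm (lp π) (fun l => (lp π).chi l Lt.x')]
  rfl


/-! ### the algebra `R'' ⊗ End Q` -/

abbrev A2 : Type := R π ⊗[K] Module.End K (Q π)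

theorem a2_self (a : A2 π) : a + a = 0 := by
  rw [← two_smul K, π.two, zero_smul]

/-- diagonal operator `c^|q|` -/
noncomputable def scl (c : K) : Module.End K (Q π) := SC π (fun _ => c)

/-- `χ_s`: the product of the `c l`, resp. its inverse -/
noncomputable def CH (s : Fin 2) : Module.End K (Q π) := SC π (fun l => sg ((lp π).c l) s)

/-- the letter of `Q` of `u s` -/
def lu (s : Fin 2) : Lt := if s = 0 then .x else .x'
/-- the letter of `Q` of `v s` -/
def lv (s : Fin 2) : Lt := if s = 0 then .a else .b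

/-- images of the letters -/
noncomputable def dl : Gen → A2 π
  | .x i => X π (.x i) ⊗ₜ scl π (π.c i)⁻¹
  | .h => X π .h ⊗ₜ 1
  | .d j => X π (.d j) ⊗ₜ scl π (π.c j)
  | .f => X π .f ⊗ₜ 1
  | .z j => X π (.z j) ⊗ₜ scl π (π.cz j)
  | .zc => X π .zc ⊗ₜ 1
  | .u s => X π (.u s) ⊗ₜ CH π s + hR π s ⊗ₜ EQ π (lu s)
  | .e j => X π (.e j) ⊗ₜ scl π (π.c j)
  | .gj j => X π (.gj j) ⊗ₜ scl π (π.cz j)
  | .gc => X π .gc ⊗ₜ 1
  | .v s => X π (.v s) ⊗ₜ CH π s + (hR π s * tR π) ⊗ₜ EQ π (lv s)
  | .y _ => 0
  | .yb _ => 0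

noncomputable def dlF : F K →ₐ[K] A2 π := FreeAlgebra.lift K (dl π)

@[simp] theorem dlF_L (a : Gen) : dlF π (L K a) = dl π a := by
  simp [dlF, L]

theorem scl_mul (c d : K) : scl π c * scl π d = scl π (c * d) := SC_mul π _ _

theorem scl_one : scl π 1 = 1 := SC_one π

theorem scl_CH (c : K) (s : Fin 2) : scl π c * CH π s = CH π s * scl π c := SC_comm π _ _

theorem scl_EQ (c : K) (hc : c ≠ 0) (g : Lt) : scl π c * EQ π g = c⁻¹ • (EQ π g * scl π c) :=
  SC_EQ π g _ hc

theorem c_ne (i : Fin 2) : π.c i ≠ 0 := by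
  rcases f2 i with rfl | rfl
  · rw [c0]; exact pow_ne_zero _ π.g0
  · rw [c1]; exact π.g0


theorem scl_c (i : Fin 2) : scl π (π.c i)⁻¹ * scl π (π.c i) = 1 := by
  rw [scl_mul, inv_mul_cancel₀ (c_ne π i), scl_one]

theorem scl_c' (i : Fin 2) : scl π (π.c i) * scl π (π.c i)⁻¹ = 1 := by
  rw [scl_mul, mul_inv_cancel₀ (c_ne π i), scl_one]

theorem scl_comm (c d : K) : scl π c * scl π d = scl π d * scl π c := SC_comm π _ _

theorem h_a2 (a : A2 π) : (X π .h ⊗ₜ[K] (1 : Module.End K (Q π))) * a
    = a * (X π .h ⊗ₜ[K] (1 : Module.End K (Q π))) := by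
  induction a using TensorProduct.induction_on with
  | zero => simp
  | tmul r T => rw [Algebra.TensorProduct.tmul_mul_tmul, Algebra.TensorProduct.tmul_mul_tmul,
      h_comm, one_mul, mul_one]
  | add a b ha hb => rw [mul_add, add_mul, ha, hb]

theorem x_hR (i s : Fin 2) : X π (.x i) * hR π s = hR π s * X π (.x i) := by
  rcases f2 s with rfl | rfl
  · exact (h_comm π _).symm
  · show X π (.x i) * (X π .h * X π .h) = (X π .h * X π .h) * X π (.x i)
    rw [← mul_assoc, ← h_comm, mul_assoc, ← h_comm]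

theorem x_tR (i : Fin 2) : X π (.x i) * tR π = π.g • (tR π * X π (.x i)) := by
  have : CharP K 2 := CharTwo.of_one_ne_zero_of_two_eq_zero one_ne_zero π.two
  have g0 := π.g0
  simp only [tR]
  revert i
  fin2 <;> idR

theorem x_ht (i s : Fin 2) : X π (.x i) * (hR π s * tR π) = π.g • (hR π s * tR π * X π (.x i)) := by
  rw [← mul_assoc, x_hR, mul_assoc, x_tR, mul_smul_comm, mul_assoc]

/-- normal form of scalars in `A2` -/
macro "nt" : tactic => `(tactic| simp only [map_mul, map_add, map_smul, map_zero, dlF_L, dl,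
  Algebra.TensorProduct.tmul_mul_tmul, mul_add, add_mul, TensorProduct.smul_tmul',
  TensorProduct.tmul_smul, mul_one, one_mul, smul_add, mul_zero, zero_mul, smul_zero, add_zero,
  zero_add])

theorem dlF_rel {a b : F K} (hab : Rel π a b) : dlF π a = dlF π b := by
  have g0 := π.g0
  induction hab with
  | xx => nt; rw [scl_comm, r_xx]
  | hc a =>
    rw [map_mul, map_mul, dlF_L, dlF_L]
    exact h_a2 π _
  | x0d0 => nt; rw [scl_c, scl_c', r_x0d0, TensorProduct.add_tmul]
  | x0d1 => nt; rw [scl_comm, r_x0d1]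
  | x1d0 => nt; rw [scl_comm, r_x1d0]
  | x1d1 => nt; rw [scl_c, scl_c', scl_c', r_x1d1, TensorProduct.add_tmul, TensorProduct.add_tmul]
  | xf i => nt; rw [r_xf]
  | xz i j => nt; rw [scl_comm, r_xz]
  | xzc i => nt; rw [r_xzc]
  | xu i s =>
    nt
    rw [r_xu, x_hR, scl_CH, scl_EQ _ _ (inv_ne_zero (c_ne π i)), inv_inv, TensorProduct.tmul_smul,
      TensorProduct.smul_tmul']
  | x0e j => nt; rw [scl_comm, r_x0e]
  | x1e0 => nt; rw [scl_comm, r_x1e0]
  | x1e1 => nt; rw [scl_c, scl_c', scl_c', r_x1e1, TensorProduct.add_tmul]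
  | xgj i j => nt; rw [scl_comm, r_xgj]
  | xgc i => nt; rw [r_xgc]
  | xv i s =>
    nt
    rw [r_xv, x_ht, scl_CH, scl_EQ _ _ (inv_ne_zero (c_ne π i)), inv_inv, TensorProduct.tmul_smul,
      TensorProduct.smul_tmul', smul_smul, mul_comm (π.c i)]
  | _ => nt

/-- **the right action of `R''` on `R'' ⊗ Q^*`** -/
noncomputable def Dl : R π →ₐ[K] A2 π :=
  RingQuot.liftAlgHom K ⟨dlF π, fun _ _ h => dlF_rel π h⟩

@[simp] theorem Dl_mk (a : F K) : Dl π (mk π a) = dlF π a := by
  simp [Dl, DefsQ830.mk]

@[simp] theorem Dl_X (a : Gen) : Dl π (X π a) = dl π a := by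
  rw [X, Dl_mk, dlF_L]


/-! ### the differential -/

/-- `D ⊗ 1` -/
noncomputable def DA : A2 π →ₗ[K] A2 π := LinearMap.rTensor _ (Der580.D π)

@[simp] theorem DA_tmul (r : R π) (T : Module.End K (Q π)) :
    DA π (r ⊗ₜ T) = Der580.D π r ⊗ₜ T := rfl

theorem DA_mul (a b : A2 π) : DA π (a * b) = DA π a * b + a * DA π b := by
  induction a using TensorProduct.induction_on with
  | zero => simp
  | add a a' ha ha' => simp only [add_mul, map_add, ha, ha']; abel
  | tmul r T =>
    induction b using TensorProduct.induction_on with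
    | zero => simp
    | add b b' hb hb' => simp only [mul_add, map_add, hb, hb']; abel
    | tmul r' T' =>
      simp only [Algebra.TensorProduct.tmul_mul_tmul, DA_tmul, Der580.D_mul, TensorProduct.add_tmul]

/-- the letters of `W` in `R''` -/
noncomputable def yl (g : Lt) : R π :=
  match g with
  | .x => X π (.y 0)
  | .x' => X π (.y 1)
  | .a => X π (.yb 0)
  | .b => X π (.yb 1)

theorem D_yl (g : Lt) : Der580.D π (yl π g) = 0 := by
  cases g <;> simp [yl, D_X, dGen]

theorem y10_yl : yl π .x' * yl π .x = π.p • (yl π .x * yl π .x') := r_y10 π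

theorem yl_yl (g g' : Lt) (h : ¬ (g = .x ∧ g' = .x')) (h' : ¬ (g = .x' ∧ g' = .x)) :
    yl π g * yl π g' = 0 := by
  cases g <;> cases g' <;>
    first
    | exact absurd ⟨rfl, rfl⟩ h
    | exact absurd ⟨rfl, rfl⟩ h'
    | exact r_yy π _
    | exact r_yyb π _ _
    | exact r_yby π _ _
    | exact r_ybyb π _ _

/-- sum over the four letters -/
theorem sumL {M : Type*} [AddCommMonoid M] (F : Lt → M) : ∑ g, F g = F .x + F .a + F .x' + F .b := by
  have h : (Finset.univ : Finset Lt) = {.x, .a, .x', .b} := by decide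
  rw [h, Finset.sum_insert (by decide), Finset.sum_insert (by decide),
    Finset.sum_insert (by decide), Finset.sum_singleton]
  simp only [add_assoc]

/-- `θ = Σ_g y_g ⊗ m_g` -/
noncomputable def th : A2 π := ∑ g, yl π g ⊗ₜ MQ π g

theorem DA_th : DA π (th π) = 0 := by
  simp only [th, map_sum, DA_tmul, D_yl, TensorProduct.zero_tmul, Finset.sum_const_zero]

theorem th_th : th π * th π = 0 := by
  have key : ∀ g g', (yl π g ⊗ₜ[K] MQ π g) * (yl π g' ⊗ₜ[K] MQ π g')
      = (yl π g * yl π g') ⊗ₜ[K] (MQ π g * MQ π g') := fun g g' => by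
    rw [Algebra.TensorProduct.tmul_mul_tmul]
  have hz : ∀ g g', ¬ (g = .x ∧ g' = .x') → ¬ (g = .x' ∧ g' = .x) →
      (yl π g ⊗ₜ[K] MQ π g) * (yl π g' ⊗ₜ[K] MQ π g') = 0 := fun g g' h h' => by
    rw [key, yl_yl π g g' h h', TensorProduct.zero_tmul]
  rw [th, Finset.sum_mul_sum]
  simp only [sumL]
  rw [hz .x .x (by simp) (by simp), hz .x .a (by simp) (by simp), hz .x .b (by simp) (by simp),
    hz .a .x (by simp) (by simp), hz .a .a (by simp) (by simp), hz .a .x' (by simp) (by simp),
    hz .a .b (by simp) (by simp), hz .x' .a (by simp) (by simp), hz .x' .x' (by simp) (by simp),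
    hz .x' .b (by simp) (by simp), hz .b .x (by simp) (by simp), hz .b .a (by simp) (by simp),
    hz .b .x' (by simp) (by simp), hz .b .b (by simp) (by simp), key, key, y10_yl, MQ_MQ]
  simp only [zero_add, add_zero]
  rw [TensorProduct.tmul_smul, TensorProduct.smul_tmul']
  exact a2_self π _

/-- commutator of `θ` with a diagonal letter -/
theorem th_diag (r : R π) (s : Lt → K) (h : ∀ g, yl π g * r = s g • (r * yl π g)) :
    th π * (r ⊗ₜ SC π s) + (r ⊗ₜ SC π s) * th π = 0 := by
  simp only [th, Finset.sum_mul, Finset.mul_sum]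
  rw [← Finset.sum_add_distrib]
  apply Finset.sum_eq_zero
  intro g _
  rw [Algebra.TensorProduct.tmul_mul_tmul, Algebra.TensorProduct.tmul_mul_tmul, h g, SC_MQ,
    TensorProduct.tmul_smul, TensorProduct.smul_tmul']
  exact a2_self π _

/-- commutator of `θ` with `r ⊗ E_g` -/
theorem th_E (r : R π) (g : Lt) (h : ∀ g, yl π g * r = r * yl π g) :
    th π * (r ⊗ₜ EQ π g) + (r ⊗ₜ EQ π g) * th π =
      (r * yl π g) ⊗ₜ SC π (fun l => (lp π).chi l g) := by
  simp only [th, Finset.sum_mul, Finset.mul_sum]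
  rw [← Finset.sum_add_distrib]
  have key : ∀ g', (yl π g' ⊗ₜ[K] MQ π g') * (r ⊗ₜ[K] EQ π g)
      + (r ⊗ₜ[K] EQ π g) * (yl π g' ⊗ₜ[K] MQ π g')
      = if g = g' then (r * yl π g) ⊗ₜ[K] SC π (fun l => (lp π).chi l g) else 0 := fun g' => by
    rw [Algebra.TensorProduct.tmul_mul_tmul, Algebra.TensorProduct.tmul_mul_tmul, h g',
      ← TensorProduct.tmul_add, add_comm, EQ_MQ]
    by_cases hg : g = g'
    · rw [if_pos hg, if_pos hg, hg]
    · rw [if_neg hg, if_neg hg, TensorProduct.tmul_zero]
  rw [Finset.sum_congr rfl (fun g' _ => key g'), Finset.sum_ite_eq, if_pos (Finset.mem_univ _)]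


/-- homogeneous elements without `W`-tail -/
def Hm (c : K) (r : R π) : Prop := Dl π r = r ⊗ₜ scl π c

theorem Hm.mul {c c' : K} {r r' : R π} (h : Hm π c r) (h' : Hm π c' r') : Hm π (c * c') (r * r') := by
  unfold Hm at *
  rw [map_mul, h, h', Algebra.TensorProduct.tmul_mul_tmul, scl_mul]

theorem Hm.add {c : K} {r r' : R π} (h : Hm π c r) (h' : Hm π c r') : Hm π c (r + r') := by
  unfold Hm at *
  rw [map_add, h, h', TensorProduct.add_tmul]

theorem Hm.smul {c : K} {r : R π} (a : K) (h : Hm π c r) : Hm π c (a • r) := by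
  unfold Hm at *
  rw [map_smul, h, TensorProduct.smul_tmul']

theorem Hm.cast {c c' : K} {r : R π} (h : Hm π c r) (e : c = c') : Hm π c' r := e ▸ h

theorem Hm_x (i : Fin 2) : Hm π (π.c i)⁻¹ (X π (.x i)) := Dl_X π _
theorem Hm_d (j : Fin 2) : Hm π (π.c j) (X π (.d j)) := Dl_X π _
theorem Hm_z (j : Fin 2) : Hm π (π.cz j) (X π (.z j)) := Dl_X π _
theorem Hm_e (j : Fin 2) : Hm π (π.c j) (X π (.e j)) := Dl_X π _
theorem Hm_gj (j : Fin 2) : Hm π (π.cz j) (X π (.gj j)) := Dl_X π _
theorem Hm_h : Hm π 1 (X π .h) := by rw [Hm, Dl_X, scl_one]; rfl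
theorem Hm_f : Hm π 1 (X π .f) := by rw [Hm, Dl_X, scl_one]; rfl
theorem Hm_zc : Hm π 1 (X π .zc) := by rw [Hm, Dl_X, scl_one]; rfl

theorem cc_eq (j : Fin 2) : (π.c j)⁻¹ * (π.c 1 * π.c 0) = π.cz j := by
  have g0 := π.g0
  rcases f2 j with rfl | rfl
  · rw [c0, c1, cz_zero]; field_simp
  · rw [c0, c1, cz_one]; field_simp

theorem Hm_tR : Hm π 1 (tR π) := by
  refine Hm.add π (Hm_h π) (Hm.smul π _ (Hm.add π ?_ ?_))
  · exact Hm.cast π (Hm.mul π (Hm_d π 0) (Hm_x π 0)) (mul_inv_cancel₀ (c_ne π 0))
  · exact Hm.cast π (Hm.mul π (Hm_d π 1) (Hm_x π 1)) (mul_inv_cancel₀ (c_ne π 1))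


theorem Hm_dz (j : Fin 2) : Hm π (π.cz j) (DefsQ830.mk π (dGen π (.z j))) := by
  simp only [dGen, rF, map_mul, map_add, map_smul, mk_L]
  refine Hm.cast π (Hm.mul π (Hm_x π j) (Hm.add π (Hm.mul π (Hm_d π 1) (Hm_d π 0))
    (Hm.smul π _ (Hm.cast π (Hm.mul π (Hm_d π 0) (Hm_d π 1)) (mul_comm _ _))))) (cc_eq π j)

theorem Hm_dzc : Hm π 1 (DefsQ830.mk π (dGen π .zc)) := by
  have g0 := π.g0
  simp only [dGen, map_mul, map_add, mk_L]
  refine Hm.add π (Hm.add π (Hm.cast π (Hm.mul π (Hm_x π 0) (Hm_z π 1)) ?_)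
    (Hm.cast π (Hm.mul π (Hm_x π 1) (Hm_z π 0)) ?_)) (Hm.cast π (Hm.mul π (Hm_h π) (Hm_f π)) ?_)
  · rw [c0, cz_one]; field_simp
  · rw [c1, cz_zero]; field_simp
  · rw [one_mul]

theorem Hm_de (j : Fin 2) : Hm π (π.c j) (DefsQ830.mk π (dGen π (.e j))) := by
  simp only [dGen, map_mul, map_add, map_smul, mk_L]
  exact Hm.add π (Hm.cast π (Hm.mul π (Hm_f π) (Hm_d π j)) (one_mul _))
    (Hm.smul π _ (Hm.cast π (Hm.mul π (Hm_d π j) (Hm_f π)) (mul_one _)))

theorem Hm_dgj (j : Fin 2) : Hm π (π.cz j) (DefsQ830.mk π (dGen π (.gj j))) := by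
  simp only [dGen, rhoF, map_mul, map_add, map_smul, mk_L]
  refine Hm.add π (Hm.add π (Hm.cast π (Hm.mul π (Hm_f π) (Hm_z π j)) (one_mul _))
    (Hm.smul π _ (Hm.cast π (Hm.mul π (Hm_z π j) (Hm_f π)) (mul_one _))))
    (Hm.smul π _ (Hm.cast π (Hm.mul π (Hm_x π j) (Hm.add π (Hm.add π (Hm.add π
      (Hm.mul π (Hm_e π 1) (Hm_d π 0)) (Hm.smul π _ (Hm.mul π (Hm_d π 1) (Hm_e π 0))))
      (Hm.smul π _ (Hm.cast π (Hm.mul π (Hm_e π 0) (Hm_d π 1)) (mul_comm _ _))))
      (Hm.smul π _ (Hm.cast π (Hm.mul π (Hm_d π 0) (Hm_e π 1)) (mul_comm _ _))))) (cc_eq π j)))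

theorem CH_EQ_ne (s : Fin 2) (g : Lt) : sg ((lp π).c g) s ≠ 0 := by
  have := (lp π).c_ne g
  rcases f2 s with rfl | rfl
  · rwa [sg_zero]
  · rw [sg_one]; exact inv_ne_zero this

theorem CH_EQ (s : Fin 2) (g : Lt) :
    CH π s * EQ π g = (sg ((lp π).c g) s)⁻¹ • (EQ π g * CH π s) :=
  SC_EQ π g _ (CH_EQ_ne π s g)

theorem CH_CH : CH π 0 * CH π 1 = 1 := by
  rw [CH, CH, SC_mul, ← SC_one]
  congr 1
  funext l
  rw [sg_zero, sg_one, mul_inv_cancel₀ ((lp π).c_ne l)]

theorem CH_CH' : CH π 1 * CH π 0 = 1 := by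
  rw [CH, CH, SC_comm, ← CH, ← CH, CH_CH]

theorem Dl_uu : Dl π (π.p • (X π (.u 0) * X π (.u 1)) + X π (.u 1) * X π (.u 0))
    = (π.p • (X π (.u 0) * X π (.u 1)) + X π (.u 1) * X π (.u 0)) ⊗ₜ 1 := by
  have hp := π.p0
  have e1 : (sg ((lp π).c Lt.x') 0)⁻¹ = π.p⁻¹ := by rw [sg_zero]; rfl
  have e2 : (sg ((lp π).c Lt.x) 1)⁻¹ = π.p := by rw [sg_one, inv_inv]; rfl
  have hh : ∀ (r : R π) s, hR π s * r = r * hR π s := fun r s => by
    rcases f2 s with rfl | rfl
    · exact h_comm π r
    · show X π .h * X π .h * r = r * (X π .h * X π .h)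
      rw [mul_assoc, h_comm π r, ← mul_assoc, h_comm π r, mul_assoc]
  rw [map_add, map_smul, map_mul, map_mul, Dl_X, Dl_X]
  simp only [dl, lu, if_true, if_neg (show ¬ ((1 : Fin 2) = 0) by decide), mul_add, add_mul,
    Algebra.TensorProduct.tmul_mul_tmul, CH_CH, CH_CH', CH_EQ, e1, e2, EQ_EQ, hh (X π (.u 1)) 0,
    hh (X π (.u 0)) 1, hh (hR π 1) 0, smul_add, TensorProduct.tmul_smul, TensorProduct.smul_tmul',
    TensorProduct.add_tmul, smul_smul, mul_inv_cancel₀ hp, one_smul]
  generalize (π.p • (X π (Gen.u 0) * X π (Gen.u 1))) ⊗ₜ[K] (1 : Module.End K (Q π)) = A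
  generalize (X π (Gen.u 1) * X π (Gen.u 0)) ⊗ₜ[K] (1 : Module.End K (Q π)) = B
  generalize (π.p • (X π (Gen.u 1) * hR π 0)) ⊗ₜ[K] (EQ π Lt.x * CH π 1) = C
  generalize (X π (Gen.u 0) * hR π 1) ⊗ₜ[K] (EQ π Lt.x' * CH π 0) = D
  generalize (π.p • (hR π 1 * hR π 0)) ⊗ₜ[K] (EQ π Lt.x * EQ π Lt.x') = G
  calc A + C + (D + G) + (B + D + (C + G)) = A + B + (C + C) + (D + D) + (G + G) := by abel
    _ = A + B := by rw [a2_self π C, a2_self π D, a2_self π G, add_zero, add_zero, add_zero]


theorem Hm_dgc : Hm π 1 (DefsQ830.mk π (dGen π .gc)) := by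
  have g0 := π.g0
  simp only [dGen, map_mul, map_add, map_smul, mk_L]
  refine Hm.add π (Hm.add π (Hm.add π (Hm.add π ?_ ?_) (Hm.smul π _ ?_)) (Hm.smul π _ ?_)) ?_
  · exact Hm.cast π (Hm.mul π (Hm_f π) (Hm_zc π)) (one_mul _)
  · exact Hm.cast π (Hm.mul π (Hm_zc π) (Hm_f π)) (one_mul _)
  · refine Hm.cast π (Hm.mul π (Hm_x π 0) (Hm_gj π 1)) ?_
    rw [c0, cz_one]; field_simp
  · refine Hm.cast π (Hm.mul π (Hm_x π 1) (Hm_gj π 0)) ?_
    rw [c1, cz_zero]; field_simp
  · rw [Hm, Dl_uu, scl_one]

theorem yl_x (g : Lt) (i : Fin 2) : yl π g * X π (.x i) = (π.c i)⁻¹ • (X π (.x i) * yl π g) := by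
  have h := c_ne π i
  cases g <;> simp only [yl] <;> first
    | rw [r_xy, smul_smul, inv_mul_cancel₀ h, one_smul]
    | rw [r_xyb, smul_smul, inv_mul_cancel₀ h, one_smul]

theorem yl_d (g : Lt) (j : Fin 2) : yl π g * X π (.d j) = π.c j • (X π (.d j) * yl π g) := by
  cases g <;> first | exact r_yd π j _ | exact r_ybd π j _
theorem yl_e (g : Lt) (j : Fin 2) : yl π g * X π (.e j) = π.c j • (X π (.e j) * yl π g) := by
  cases g <;> first | exact r_ye π j _ | exact r_ybe π j _
theorem yl_z (g : Lt) (j : Fin 2) : yl π g * X π (.z j) = π.cz j • (X π (.z j) * yl π g) := by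
  cases g <;> first | exact r_yz π j _ | exact r_ybz π j _
theorem yl_gj (g : Lt) (j : Fin 2) : yl π g * X π (.gj j) = π.cz j • (X π (.gj j) * yl π g) := by
  cases g <;> first | exact r_ygj π j _ | exact r_ybgj π j _
theorem yl_f (g : Lt) : yl π g * X π .f = X π .f * yl π g := by
  cases g <;> first | exact r_yf π _ | exact r_ybf π _
theorem yl_zc (g : Lt) : yl π g * X π .zc = X π .zc * yl π g := by
  cases g <;> first | exact r_yzc π _ | exact r_ybzc π _
theorem yl_gc (g : Lt) : yl π g * X π .gc = X π .gc * yl π g := by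
  cases g <;> first | exact r_ygc π _ | exact r_ybgc π _
theorem yl_u (g : Lt) (s : Fin 2) : yl π g * X π (.u s) = sg ((lp π).c g) s • (X π (.u s) * yl π g) := by
  cases g
  · exact r_yu π 0 s
  · have := r_ybu π 0 s; rwa [chiyb_zero] at this
  · exact r_yu π 1 s
  · have := r_ybu π 1 s; rwa [chiyb_one] at this
theorem yl_v (g : Lt) (s : Fin 2) : yl π g * X π (.v s) = sg ((lp π).c g) s • (X π (.v s) * yl π g) := by
  cases g
  · exact r_yv π 0 s
  · have := r_ybv π 0 s; rwa [chiyb_zero] at this
  · exact r_yv π 1 s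
  · have := r_ybv π 1 s; rwa [chiyb_one] at this

theorem hR_comm (r : R π) (s : Fin 2) : hR π s * r = r * hR π s := by
  rcases f2 s with rfl | rfl
  · exact h_comm π r
  · show X π .h * X π .h * r = r * (X π .h * X π .h)
    rw [mul_assoc, h_comm π r, ← mul_assoc, h_comm π r, mul_assoc]

theorem yl_dx (g : Lt) (j : Fin 2) : yl π g * (X π (.d j) * X π (.x j))
    = (X π (.d j) * X π (.x j)) * yl π g := by
  rw [← mul_assoc, yl_d, smul_mul_assoc, mul_assoc, yl_x, mul_smul_comm, smul_smul,
    mul_inv_cancel₀ (c_ne π j), one_smul, mul_assoc]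

theorem yl_tR (g : Lt) : yl π g * tR π = tR π * yl π g := by
  simp only [tR, mul_add, add_mul, mul_smul_comm, smul_mul_assoc, yl_dx, h_comm]

theorem yl_ht (g : Lt) (s : Fin 2) : yl π g * (hR π s * tR π) = (hR π s * tR π) * yl π g := by
  rw [← mul_assoc, ← hR_comm, mul_assoc, yl_tR, mul_assoc]

theorem chi_lu (s : Fin 2) : SC π (fun l => (lp π).chi l (lu s)) = CH π s := by
  apply SC_congr
  intro l
  rcases f2 s with rfl | rfl
  · rw [sg_zero]; show (lp π).c l ^ (1 : ℤ) = _; rw [zpow_one]
  · rw [sg_one]; show (lp π).c l ^ (-1 : ℤ) = _; rw [zpow_neg_one]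

theorem chi_lv (s : Fin 2) : SC π (fun l => (lp π).chi l (lv s)) = CH π s := by
  apply SC_congr
  intro l
  rcases f2 s with rfl | rfl
  · rw [sg_zero]; show (lp π).c l ^ (1 : ℤ) = _; rw [zpow_one]
  · rw [sg_one]; show (lp π).c l ^ (-1 : ℤ) = _; rw [zpow_neg_one]

/-- the defect of `Dl` being a dg map -/
noncomputable def Df (r : R π) : Prop :=
  DA π (Dl π r) + (th π * Dl π r + Dl π r * th π) = Dl π (Der580.D π r)

theorem Df_diag (a : Gen) (s : Lt → K) (hd : dl π a = X π a ⊗ₜ SC π s)
    (h : ∀ g, yl π g * X π a = s g • (X π a * yl π g))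
    (hD : Dl π (DefsQ830.mk π (dGen π a)) = DefsQ830.mk π (dGen π a) ⊗ₜ SC π s) :
    Df π (X π a) := by
  rw [Df, Dl_X, hd, th_diag π _ _ h, add_zero, DA_tmul, D_X, hD]

theorem Df_X (a : Gen) : Df π (X π a) := by
  cases a with
  | x i =>
    refine Df_diag π _ (fun _ => (π.c i)⁻¹) rfl (fun g => yl_x π g i) ?_
    simp [dGen]
  | h =>
    refine Df_diag π _ (fun _ => 1) (by rw [SC_one]; rfl) (fun g => by rw [one_smul, h_comm]) ?_
    simp [dGen]
  | d j =>
    refine Df_diag π _ (fun _ => π.c j) rfl (fun g => yl_d π g j) ?_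
    simp [dGen]
  | f =>
    refine Df_diag π _ (fun _ => 1) (by rw [SC_one]; rfl) (fun g => by rw [one_smul, yl_f]) ?_
    simp [dGen]
  | z j => exact Df_diag π _ (fun _ => π.cz j) rfl (fun g => yl_z π g j) (Hm_dz π j)
  | zc => exact Df_diag π _ (fun _ => 1) (by rw [SC_one]; rfl) (fun g => by rw [one_smul, yl_zc]) (Hm_dzc π)
  | u s =>
    rw [Df, Dl_X]
    simp only [dl, map_add, DA_tmul, mul_add, add_mul, D_hR, TensorProduct.zero_tmul, add_zero]
    have e1 := th_diag π (X π (.u s)) _ (fun g => yl_u π g s)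
    have e2 := th_E π (hR π s) (lu s) (fun g => (hR_comm π _ s).symm)
    rw [chi_lu] at e2
    have e3 : Der580.D π (X π (.u s)) = hR π s * yl π (lu s) := by
      rw [D_X]
      rcases f2 s with rfl | rfl
      · simp [dGen, hs, hR, lu, yl, mk_L]
      · simp [dGen, hs, hR, lu, yl, mk_L]
    have e4 : Dl π (hR π s * yl π (lu s)) = 0 := by
      rw [map_mul]
      rcases f2 s with rfl | rfl
      · simp [lu, yl, dl]
      · simp [lu, yl, dl]
    rw [e3, e4]
    rw [show ∀ a b c d e : A2 π, a + (b + c + (d + e)) = a + ((b + d) + (c + e)) by intros; abel]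
    rw [show th π * X π (.u s) ⊗ₜ[K] CH π s + X π (.u s) ⊗ₜ[K] CH π s * th π = 0 from e1, e2,
      zero_add]
    exact a2_self π _
  | e j =>
    exact Df_diag π _ (fun _ => π.c j) rfl (fun g => yl_e π g j) (Hm_de π j)
  | gj j => exact Df_diag π _ (fun _ => π.cz j) rfl (fun g => yl_gj π g j) (Hm_dgj π j)
  | gc => exact Df_diag π _ (fun _ => 1) (by rw [SC_one]; rfl) (fun g => by rw [one_smul, yl_gc]) (Hm_dgc π)
  | v s =>
    rw [Df, Dl_X]
    have e0 : Der580.D π (hR π s * tR π) = 0 := by
      rw [Der580.D_mul, D_hR, D_tR, zero_mul, mul_zero, add_zero]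
    simp only [dl, map_add, DA_tmul, mul_add, add_mul, e0, TensorProduct.zero_tmul, add_zero]
    have e1 := th_diag π (X π (.v s)) _ (fun g => yl_v π g s)
    have e2 := th_E π (hR π s * tR π) (lv s) (fun g => yl_ht π g s)
    rw [chi_lv] at e2
    have e3 : Der580.D π (X π (.v s)) = (tR π * X π (.u s) + X π (.u s) * tR π)
        + hR π s * tR π * yl π (lv s) := by
      rw [D_X]
      rcases f2 s with rfl | rfl
      · simp [dGen, hs, hR, lv, yl, mk_L, tF, tR]
      · simp [dGen, hs, hR, lv, yl, mk_L, tF, tR]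
    have e4 : Dl π (hR π s * tR π * yl π (lv s)) = 0 := by
      rw [map_mul]
      rcases f2 s with rfl | rfl
      · simp [lv, yl, dl]
      · simp [lv, yl, dl]
    have e5 : Dl π (tR π * X π (.u s) + X π (.u s) * tR π)
        = (tR π * X π (.u s) + X π (.u s) * tR π) ⊗ₜ CH π s := by
      rw [map_add, map_mul, map_mul, Hm_tR π, Dl_X, scl_one]
      simp only [dl, mul_add, add_mul, Algebra.TensorProduct.tmul_mul_tmul, one_mul, mul_one,
        hR_comm, TensorProduct.add_tmul]
      rw [show ∀ a b c d : A2 π, a + b + (c + d) = a + c + (b + d) by intros; abel]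
      rw [a2_self, add_zero]
    rw [e3, map_add, e4, e5, add_zero, TensorProduct.add_tmul _ (hR π s * tR π * yl π (lv s))]
    rw [show ∀ z a b c d e : A2 π, z + a + (b + c + (d + e)) = z + (a + ((b + d) + (c + e))) by
      intros; abel]
    rw [show th π * X π (.v s) ⊗ₜ[K] CH π s + X π (.v s) ⊗ₜ[K] CH π s * th π = 0 from e1, e2,
      zero_add, a2_self, add_zero]
  | y s => rw [Df, Dl_X]; simp [dl, D_X, dGen]
  | yb s => rw [Df, Dl_X]; simp [dl, D_X, dGen]

/-- **`Dl` is a dg map for the differential `D ⊗ 1 + [θ, -]`** -/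
theorem Dl_D (r : R π) : DA π (Dl π r) + (th π * Dl π r + Dl π r * th π) = Dl π (Der580.D π r) := by
  induction r using R_ind π with
  | hc c =>
    rw [D_algebraMap, map_zero, AlgHom.commutes, Algebra.commutes]
    rw [a2_self, add_zero]
    show DA π (algebraMap K (R π) c ⊗ₜ 1) = 0
    rw [DA_tmul, D_algebraMap, TensorProduct.zero_tmul]
  | hX a => exact Df_X π a
  | hm a b ha hb =>
    rw [map_mul, DA_mul, Der580.D_mul, map_add, map_mul, map_mul, ← ha, ← hb]
    simp only [mul_add, add_mul, mul_assoc]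
    rw [show ∀ p q r s t : A2 π, p + (q + r) + (s + (r + t)) = p + q + s + t + (r + r) by
      intros; abel, a2_self, add_zero]
    abel
  | ha a b ha hb =>
    rw [map_add, map_add, map_add, map_add, ← ha, ← hb]
    simp only [mul_add, add_mul]
    abel

/-! ### the Maurer-Cartan matrix of the cells -/


theorem Dl_y (s : Fin 2) : Dl π (X π (.y s)) = 0 := by simp [dl]
theorem Dl_yb (s : Fin 2) : Dl π (X π (.yb s)) = 0 := by simp [dl]

theorem Dl_yp (l : E) : Dl π (yp π l) = 0 := by
  cases l <;> simp only [yp, map_mul, map_zero, Dl_y, Dl_yb, mul_zero]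

theorem Dl_yc (l l' : E) : Dl π (yc π l l') = 0 := by
  cases l <;> cases l' <;> simp only [yc, map_zero] <;> split_ifs <;>
    simp only [map_smul, map_mul, Dl_y, mul_zero, zero_mul, smul_zero]

/-- the matrix of the differential of `X''` -/
noncomputable def Cm : Cell → Cell → A2 π
  | none, none => th π
  | none, some _ => 0
  | some l, none => Dl π (X π l.toGen)
  | some l, some l' => Dl π (cf π l l') + if l = l' then th π else 0

/-- **Maurer-Cartan** -/
theorem Cm_mc (c c'' : Cell) : DA π (Cm π c c'') + ∑ c', Cm π c c' * Cm π c' c'' = 0 := by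
  rw [Fintype.sum_option]
  rcases c with _ | l
  · rcases c'' with _ | l''
    · simp only [Cm, DA_th, th_th, zero_mul, Finset.sum_const_zero, add_zero]
    · simp only [Cm, map_zero, mul_zero, zero_mul, Finset.sum_const_zero, add_zero]
  · rcases c'' with _ | l''
    · simp only [Cm, add_mul, Finset.sum_add_distrib, ite_mul, zero_mul, Finset.sum_ite_eq,
        Finset.mem_univ, if_true, ← map_mul, ← map_sum]
      have e1 := Dl_D π (X π l.toGen)
      have e2 := congrArg (Dl π) (D_E π l)
      rw [map_add, Dl_yp, add_zero] at e2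
      rw [e2] at e1
      rw [show ∀ a b c d : A2 π, a + (b + (c + d)) = (a + (d + b)) + c by intros; abel, e1]
      exact a2_self π _
    · simp only [Cm, add_mul, mul_add, Finset.sum_add_distrib, ite_mul, mul_ite, zero_mul, mul_zero,
        Finset.sum_ite_eq, Finset.sum_ite_eq', Finset.mem_univ, if_true, map_add, zero_add]
      have e0 : DA π (if l = l'' then th π else 0) = 0 := by
        split_ifs
        · exact DA_th π
        · exact map_zero _
      have e1 : (if l = l'' then th π * th π else 0) = (0 : A2 π) := by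
        rw [th_th]; split_ifs <;> rfl
      rw [e0, e1, add_zero, add_zero]
      have e2 := congrArg (Dl π) (cf_cf π l l'')
      rw [map_add, map_sum, Dl_yc, ← Dl_D] at e2
      simp only [map_mul] at e2
      rw [← e2]
      abel

end Crest.Agent.R186.VQ735
private theorem rz_aca020faec : type_of% @_root_.Crest.Agent.R186.VQ735.Cm.eq_1 := @_root_.Crest.Agent.R186.VQ735.Cm.eq_1 -- L694
private theorem rz_9ea47f4c36 : type_of% @_root_.Crest.Agent.R186.VQ735.dl.eq_1 := @_root_.Crest.Agent.R186.VQ735.dl.eq_1 -- L164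
private theorem rz_6e11b91dca : type_of% @_root_.Crest.Agent.R186.VQ735.yl.eq_1 := @_root_.Crest.Agent.R186.VQ735.yl.eq_1 -- L301
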