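import Crest.Agent.R186.PDef_580
import Crest.Agent.R186.M2_291

/-!
Row 186, S0281, leaf B281.W0 (helper93): DEFINITIONS of the maps of the resolution of `W` over
`A g 0`:
`0 → Pv 2 --d3--> (Pv 1)^(2×2) --d2--> (Pv 3)^2 --d1--> Pv 0 --eps--> W → 0`,
all right multiplications; `d3 w k i = w * m3 k i`, `d2 u k = ∑ a b, u a b * m2 a b k`,
`d1 y = ∑ k, y k * m1 k`, `eps x = x • wv 0`.
-/

set_option autoImplicit false

open Matrix

noncomputable section

namespace Crest.Agent.R186.B281.W0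

variable {K : Type} [Field K]

/-! ### coefficients -/

/-- `C3 → C2` -/
def c3 (g : K) : Fin 2 → Fin 2 → Op K :=
  ![![-(D g 1 * X 1), D g 1 * X 0], ![D g 0 * X 1, -(D g 0 * X 0)]]

/-- `C2 → C1`, indices `a b` (source), `k i` (target) -/
def c2 (g : K) : Fin 2 → Fin 2 → Fin 2 → Fin 2 → Op K :=
  ![![![![1, 0], ![-(g • (D g 0 * X 1)), g • (D g 0 * X 0)]],
      ![![D g 0 * X 1, 1 - D g 0 * X 0], ![0, 0]]],
    ![![![0, 0], ![1 - D g 1 * X 1, D g 1 * X 0]],
      ![![g • (D g 1 * X 1), -(g • (D g 1 * X 0))], ![0, 1]]]]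

/-- `C1 → C0` -/
def c1 (g : K) : Fin 2 → Fin 2 → Op K :=
  ![![X 0 * D g 0 - 1, X 1 * D g 0], ![X 0 * D g 1, X 1 * D g 1 - 1]]

/-! ### the matrices -/

theorem row_mul_single (v : Fin 7 → Op K) (i j : Fin 7) (T : Op K) :
    v ᵥ* (Matrix.single i j T) = Pi.single j (v i * T) := by
  funext l
  rw [Matrix.vecMul, dotProduct, Finset.sum_eq_single i]
  · by_cases h : j = l
    · subst h
      rw [Matrix.single_apply_same, Pi.single_eq_same]
    · rw [Matrix.single_apply_of_col_ne _ _ h, mul_zero, Pi.single_eq_of_ne (Ne.symm h)]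
  · intro b _ hb
    rw [Matrix.single_apply_of_row_ne (Ne.symm hb), mul_zero]
  · intro h
    exact absurd (Finset.mem_univ i) h

theorem DX_mem {g : K} (hg : Gen g) (i j : Fin 2) {k P : ℤ} (hk : 1 ≤ k) (hP : P = 0) :
    (D g i : Op K) * X j ∈ Fil g k P := by
  have h := FD757.D_mul_mem hg i (X_mem_Fil g j (le_refl 0))
  rw [zero_add, sub_self] at h
  subst hP
  exact Fil_mono g hk h

theorem c3_mem {g : K} (hg : Gen g) (k i : Fin 2) : c3 g k i ∈ Fil g 1 0 := by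
  fin_cases k <;> fin_cases i
  · exact neg_mem (DX_mem hg 1 1 le_rfl rfl)
  · exact DX_mem hg 1 0 le_rfl rfl
  · exact DX_mem hg 0 1 le_rfl rfl
  · exact neg_mem (DX_mem hg 0 0 le_rfl rfl)

theorem c2_mem {g : K} (hg : Gen g) (a b k i : Fin 2) : c2 g a b k i ∈ Fil g 1 0 := by
  have h1 : (1 : Op K) ∈ Fil g 1 0 := one_mem_Fil g (by norm_num)
  have hD : ∀ i j : Fin 2, (D g i : Op K) * X j ∈ Fil g 1 0 := fun i j => DX_mem hg i j le_rfl rfl
  fin_cases a <;> fin_cases b <;> fin_cases k <;> fin_cases i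
  · exact h1
  · exact zero_mem _
  · exact neg_mem (Submodule.smul_mem _ _ (hD 0 1))
  · exact Submodule.smul_mem _ _ (hD 0 0)
  · exact hD 0 1
  · exact sub_mem h1 (hD 0 0)
  · exact zero_mem _
  · exact zero_mem _
  · exact zero_mem _
  · exact zero_mem _
  · exact sub_mem h1 (hD 1 1)
  · exact hD 1 0
  · exact Submodule.smul_mem _ _ (hD 1 1)
  · exact neg_mem (Submodule.smul_mem _ _ (hD 1 0))
  · exact zero_mem _
  · exact h1

theorem c2_cc (g : K) (a b k : Fin 2) :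
    c2 g a b k 0 * X 0 + c2 g a b k 1 * X 1 = if a = k then (X b : Op K) else 0 := by
  have hx : (X 1 : Op K) * X 0 = X 0 * X 1 := X_comm 1 0
  fin_cases a <;> fin_cases b <;> fin_cases k
  · show (1 : Op K) * X 0 + 0 * X 1 = X 0
    rw [one_mul, zero_mul, add_zero]
  · show -(g • (D g 0 * X 1)) * X 0 + (g • (D g 0 * X 0)) * X 1 = (0 : Op K)
    rw [neg_mul, smul_mul_assoc, smul_mul_assoc, mul_assoc, mul_assoc, hx, neg_add_cancel]
  · show (D g 0 * X 1) * X 0 + (1 - D g 0 * X 0) * X 1 = (X 1 : Op K)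
    rw [sub_mul, one_mul, mul_assoc, mul_assoc, hx]
    abel
  · show (0 : Op K) * X 0 + 0 * X 1 = 0
    rw [zero_mul, zero_mul, add_zero]
  · show (0 : Op K) * X 0 + 0 * X 1 = 0
    rw [zero_mul, zero_mul, add_zero]
  · show (1 - D g 1 * X 1) * X 0 + (D g 1 * X 0) * X 1 = (X 0 : Op K)
    rw [sub_mul, one_mul, mul_assoc, mul_assoc, hx]
    abel
  · show (g • (D g 1 * X 1)) * X 0 + -(g • (D g 1 * X 0)) * X 1 = (0 : Op K)
    rw [neg_mul, smul_mul_assoc, smul_mul_assoc, mul_assoc, mul_assoc, hx, add_neg_cancel]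
  · show (0 : Op K) * X 0 + 1 * X 1 = X 1
    rw [one_mul, zero_mul, zero_add]

theorem m3_pres {g : K} (hg : Gen g) (k i : Fin 2) :
    Pres g 0 0 (Matrix.single 2 1 (c3 g k i)) := by
  intro l P v hv
  rw [row_mul_single, add_zero]
  refine M2.lat_single 1 (Or.inr (Or.inl rfl)) (fun h => absurd h (by decide)) (fun _ => ?_)
    (fun h => absurd h (by decide))
  have := FD757.Fil_mul hg hv.2.2.1 (c3_mem hg k i)
  rwa [add_zero, show l - 2 + 1 = l - 1 by ring] at this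

theorem lat34 {g : K} {s k P : ℤ} {a b : Op K} (ha : a ∈ Fil g (k - s) P) (hb : b ∈ Fil g (k - s) P)
    (h : a * X 0 + b * X 1 ∈ Fil g (k - s - 1) (P + 1)) :
    (Pi.single 3 a + Pi.single 4 b : Fin 7 → Op K) ∈ Lat g s k P := by
  have e : (Pi.single 3 a + Pi.single 4 b : Fin 7 → Op K) = ![0, 0, 0, a, b, 0, 0] := by
    funext i
    fin_cases i <;> simp
  rw [e]
  refine ⟨zero_mem _, zero_mem _, zero_mem _, ⟨ha, hb, h⟩, zero_mem _, zero_mem _, ?_⟩
  show (0 : Op K) * X 0 + 0 * X 1 ∈ _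
  rw [zero_mul, zero_mul, add_zero]
  exact zero_mem _

theorem m2_pres {g : K} (hg : Gen g) (a b k : Fin 2) :
    Pres g 0 0 (Matrix.single 1 3 (c2 g a b k 0) + Matrix.single 1 4 (c2 g a b k 1)) := by
  intro l P v hv
  rw [Matrix.vecMul_add, row_mul_single, row_mul_single, add_zero]
  have h1 : ∀ i, v 1 * c2 g a b k i ∈ Fil g (l - 0) P := fun i => by
    have := FD757.Fil_mul hg hv.2.1 (c2_mem hg a b k i)
    rwa [add_zero, show l - 1 + 1 = l - 0 by ring] at this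
  refine lat34 (h1 0) (h1 1) ?_
  rw [mul_assoc, mul_assoc, ← mul_add, c2_cc]
  split_ifs
  · have := FD757.Fil_mul hg hv.2.1 (X_mem_Fil g b (le_refl 0))
    rwa [show l - 1 + 0 = l - 0 - 1 by ring] at this
  · rw [mul_zero]
    exact zero_mem _

theorem m1_pres {g : K} (hg : Gen g) (k : Fin 2) :
    Pres g 0 0 (Matrix.single 3 0 (c1 g k 0) + Matrix.single 4 0 (c1 g k 1)) := by
  intro l P v hv
  rw [Matrix.vecMul_add, row_mul_single, row_mul_single, add_zero, ← Pi.single_add]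
  refine M2.lat_single 0 (Or.inl rfl) (fun _ => ?_) (fun h => absurd h (by decide))
    (fun h => absurd h (by decide))
  obtain ⟨h3, h4, h34⟩ := hv.2.2.2.1
  rw [sub_zero] at h3 h4 h34
  have key : ∀ j, (v 3 * X 0 + v 4 * X 1) * D g j ∈ Fil g l P := fun j => by
    have := FD757.mul_D_mem j h34
    rwa [show l - 1 + 1 = l by ring, show P + 1 - 1 = P by ring] at this
  fin_cases k
  · show v 3 * (X 0 * D g 0 - 1) + v 4 * (X 1 * D g 0) ∈ _
    have := sub_mem (key 0) h3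
    rwa [show (v 3 * X 0 + v 4 * X 1) * D g 0 - v 3 =
      v 3 * (X 0 * D g 0 - 1) + v 4 * (X 1 * D g 0) by
        rw [add_mul, mul_sub, mul_one, mul_assoc, mul_assoc]; abel] at this
  · show v 3 * (X 0 * D g 1) + v 4 * (X 1 * D g 1 - 1) ∈ _
    have := sub_mem (key 1) h4
    rwa [show (v 3 * X 0 + v 4 * X 1) * D g 1 - v 4 =
      v 3 * (X 0 * D g 1) + v 4 * (X 1 * D g 1 - 1) by
        rw [add_mul, mul_sub, mul_one, mul_assoc, mul_assoc]; abel] at this

theorem single_col {i c : Fin 7} {v : Fin 5} (T : Op K) (hc : blk c = v) (r j : Fin 7)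
    (hj : blk j ≠ v) : (Matrix.single i c T : Mat K) r j = 0 :=
  Matrix.single_apply_of_col_ne _ _ (fun h => hj (by rw [← h]; exact hc)) _

/-- `m3 k i ∈ e₂ A e₁` -/
def m3 {g : K} (hg : Gen g) (k i : Fin 2) : Pv g 0 1 :=
  ⟨ofM (Matrix.single 2 1 (c3 g k i)) 0 (m3_pres hg k i) (Pres.zero g 0 1), mem_Pv.2 fun r j hj =>
    ⟨single_col (i := 2) (c := 1) _ rfl r j hj, rfl⟩⟩

/-- `m2 a b k ∈ e₁ A e₃` -/
def m2 {g : K} (hg : Gen g) (a b k : Fin 2) : Pv g 0 3 :=
  ⟨ofM (Matrix.single 1 3 (c2 g a b k 0) + Matrix.single 1 4 (c2 g a b k 1)) 0 (m2_pres hg a b k)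
    (Pres.zero g 0 1), mem_Pv.2 fun r j hj => ⟨by
      show (Matrix.single 1 3 (c2 g a b k 0) + Matrix.single 1 4 (c2 g a b k 1) : Mat K) r j = 0
      rw [Matrix.add_apply, single_col (v := 3) _ rfl r j hj, single_col (v := 3) _ rfl r j hj,
        add_zero], rfl⟩⟩

/-- `m1 k ∈ e₃ A e₀` -/
def m1 {g : K} (hg : Gen g) (k : Fin 2) : Pv g 0 0 :=
  ⟨ofM (Matrix.single 3 0 (c1 g k 0) + Matrix.single 4 0 (c1 g k 1)) 0 (m1_pres hg k)
    (Pres.zero g 0 1), mem_Pv.2 fun r j hj => ⟨by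
      show (Matrix.single 3 0 (c1 g k 0) + Matrix.single 4 0 (c1 g k 1) : Mat K) r j = 0
      rw [Matrix.add_apply, single_col (v := 0) _ rfl r j hj, single_col (v := 0) _ rfl r j hj,
        add_zero], rfl⟩⟩

/-! ### the maps -/

/-- `d3 w k i = w * m3 k i` -/
def d3 {g : K} (hg : Gen g) : Pv g 0 2 →ₗ[A g 0] (Fin 2 → Fin 2 → Pv g 0 1) where
  toFun w k i := mulR 2 (m3 hg k i) w
  map_add' v w := funext fun k => funext fun i => map_add _ _ _
  map_smul' c w := funext fun k => funext fun i => map_smul _ _ _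

/-- `d2 u k = ∑ a b, u a b * m2 a b k` -/
def d2 {g : K} (hg : Gen g) : (Fin 2 → Fin 2 → Pv g 0 1) →ₗ[A g 0] (Fin 2 → Pv g 0 3) where
  toFun u k := ∑ a, ∑ b, mulR 1 (m2 hg a b k) (u a b)
  map_add' v w := funext fun k => by
    simp only [Pi.add_apply, map_add, Finset.sum_add_distrib]
  map_smul' c w := funext fun k => by
    simp only [Pi.smul_apply, map_smul, Finset.smul_sum, RingHom.id_apply]

/-- `d1 y = ∑ k, y k * m1 k` -/
def d1 {g : K} (hg : Gen g) : (Fin 2 → Pv g 0 3) →ₗ[A g 0] Pv g 0 0 where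
  toFun y := ∑ k, mulR 3 (m1 hg k) (y k)
  map_add' v w := by
    simp only [Pi.add_apply, map_add, Finset.sum_add_distrib]
  map_smul' c w := by
    simp only [Pi.smul_apply, map_smul, Finset.smul_sum, RingHom.id_apply]

/-- the augmentation, both `s` -/
def eps0 (g : K) (s : ℤ) : Pv g s 0 →ₗ[A g s] W g s where
  toFun x := (x : A g s) • M2.wv g s 0
  map_add' x y := add_smul _ _ _
  map_smul' a x := mul_smul _ _ _


theorem d2_apply {g : K} (hg : Gen g) (u : Fin 2 → Fin 2 → Pv g 0 1) (k : Fin 2) :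
    d2 hg u k = ∑ a, ∑ b, mulR 1 (m2 hg a b k) (u a b) := rfl

theorem d1_apply {g : K} (hg : Gen g) (y : Fin 2 → Pv g 0 3) :
    d1 hg y = ∑ k, mulR 3 (m1 hg k) (y k) := rfl

theorem d2_coe {g : K} (hg : Gen g) (u : Fin 2 → Fin 2 → Pv g 0 1) (k : Fin 2) :
    (d2 hg u k : A g 0) = ∑ a, ∑ b, (u a b : A g 0) * m2 hg a b k := by
  rw [d2_apply, Submodule.coe_sum]
  simp only [Submodule.coe_sum, mulR_coe]

theorem d1_coe {g : K} (hg : Gen g) (y : Fin 2 → Pv g 0 3) :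
    (d1 hg y : A g 0) = ∑ k, (y k : A g 0) * m1 hg k := by
  rw [d1_apply, Submodule.coe_sum]
  simp only [mulR_coe]

theorem eps0_apply (g : K) (s : ℤ) (x : Pv g s 0) :
    eps0 g s x = (x : A g s) • M2.wv g s 0 := rfl

end Crest.Agent.R186.B281.W0
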