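import Crest.Agent.R186.Defs281_128

/-!
Row 186, S0281 base (helper870): the module `W` over `A g s` (the residue line
`δ = x₀⁻¹x₁⁻¹` at the seven positions), literally `Fin 7 → K` with
`((M, N) • w) i = ∑ j, res (M i j) * w j`, `res T` = coefficient of `δ` in `T δ`.
-/

set_option autoImplicit false

open Matrix

namespace Crest.Agent.R186.B281

variable {K : Type} [Field K]

/-- Laurent polynomials all of whose monomials have an exponent `≥ 0` -/
noncomputable def NN (K : Type) [Field K] : Submodule K (Lau K) :=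
  Finsupp.supported K K {m | 0 ≤ m.1 ∨ 0 ≤ m.2}

/-- Laurent polynomials homogeneous of degree `n` -/
noncomputable def Hmg (K : Type) [Field K] (n : ℤ) : Submodule K (Lau K) :=
  Finsupp.supported K K {m | m.1 + m.2 = n}

theorem X_NN (i : Fin 2) {f : Lau K} (hf : f ∈ NN K) : X i f ∈ NN K := by
  rw [NN, Finsupp.supported_eq_span_single] at hf
  induction hf using Submodule.span_induction with
  | mem x hx =>
    obtain ⟨m, h, rfl⟩ := hx
    rw [X_single]
    refine Finsupp.single_mem_supported K _ ?_
    simp only [Set.mem_ofPred_eq] at h ⊢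
    fin_cases i <;> simp [ev] <;> omega
  | zero => rw [map_zero]; exact zero_mem _
  | add x y _ _ hx hy => rw [map_add]; exact add_mem hx hy
  | smul a x _ hx => rw [map_smul]; exact Submodule.smul_mem _ _ hx

theorem D_NN (g : K) (i : Fin 2) {f : Lau K} (hf : f ∈ NN K) : D g i f ∈ NN K := by
  rw [NN, Finsupp.supported_eq_span_single] at hf
  induction hf using Submodule.span_induction with
  | mem x hx =>
    obtain ⟨m, h, rfl⟩ := hx
    rw [D_single]
    by_cases h0 : co i m = 0
    · rw [h0, cq_zero, zero_mul, Finsupp.single_zero]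
      exact zero_mem _
    · refine Finsupp.single_mem_supported K _ ?_
      simp only [Set.mem_ofPred_eq] at h ⊢
      fin_cases i <;> simp [ev, co] at h0 ⊢ <;> omega
  | zero => rw [map_zero]; exact zero_mem _
  | add x y _ _ hx hy => rw [map_add]; exact add_mem hx hy
  | smul a x _ hx => rw [map_smul]; exact Submodule.smul_mem _ _ hx

theorem pow_mem_of {S : Op K} {Q : Submodule K (Lau K)} (h : ∀ f ∈ Q, S f ∈ Q) (n : ℕ) :
    ∀ f ∈ Q, (S ^ n) f ∈ Q := by
  induction n with
  | zero => intro f hf; simpa using hf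
  | succ n ih =>
    intro f hf
    rw [pow_succ, Module.End.mul_apply]
    exact ih _ (h f hf)

theorem Fil_NN {g : K} {k P : ℤ} {T : Op K} (hT : T ∈ Fil g k P) {f : Lau K}
    (hf : f ∈ NN K) : T f ∈ NN K := by
  induction hT using Submodule.span_induction with
  | mem x hx =>
    obtain ⟨a, b, _, h2, rfl⟩ := hx
    unfold mon
    simp only [Module.End.mul_apply]
    exact pow_mem_of (fun _ => X_NN 0) _ _ (pow_mem_of (fun _ => X_NN 1) _ _
      (pow_mem_of (fun _ => D_NN g 0) _ _ (pow_mem_of (fun _ => D_NN g 1) _ _ hf)))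
  | zero => exact zero_mem _
  | add x y _ _ hx hy => exact add_mem hx hy
  | smul a x _ hx => exact Submodule.smul_mem _ a hx

theorem X_Hmg (i : Fin 2) {n : ℤ} {f : Lau K} (hf : f ∈ Hmg K n) : X i f ∈ Hmg K (n + 1) := by
  rw [Hmg, Finsupp.supported_eq_span_single] at hf
  induction hf using Submodule.span_induction with
  | mem x hx =>
    obtain ⟨m, h, rfl⟩ := hx
    rw [X_single]
    refine Finsupp.single_mem_supported K _ ?_
    simp only [Set.mem_ofPred_eq] at h ⊢
    fin_cases i <;> simp [ev] <;> omega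
  | zero => rw [map_zero]; exact zero_mem _
  | add x y _ _ hx hy => rw [map_add]; exact add_mem hx hy
  | smul a x _ hx => rw [map_smul]; exact Submodule.smul_mem _ _ hx

theorem D_Hmg (g : K) (i : Fin 2) {n : ℤ} {f : Lau K} (hf : f ∈ Hmg K n) :
    D g i f ∈ Hmg K (n - 1) := by
  rw [Hmg, Finsupp.supported_eq_span_single] at hf
  induction hf using Submodule.span_induction with
  | mem x hx =>
    obtain ⟨m, h, rfl⟩ := hx
    rw [D_single]
    refine Finsupp.single_mem_supported K _ ?_
    simp only [Set.mem_ofPred_eq] at h ⊢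
    fin_cases i <;> simp [ev] <;> omega
  | zero => rw [map_zero]; exact zero_mem _
  | add x y _ _ hx hy => rw [map_add]; exact add_mem hx hy
  | smul a x _ hx => rw [map_smul]; exact Submodule.smul_mem _ _ hx

theorem mon_Hmg (g : K) (a b : ℕ × ℕ) {n : ℤ} {f : Lau K} (hf : f ∈ Hmg K n) :
    mon g a b f ∈ Hmg K (n + (a.1 + a.2) - (b.1 + b.2)) := by
  have hX : ∀ (i : Fin 2) (r : ℕ) (n : ℤ) (f : Lau K), f ∈ Hmg K n →
      ((X i : Op K) ^ r) f ∈ Hmg K (n + r) := by
    intro i r
    induction r with
    | zero => intro n f hf; simpa using hf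
    | succ r ih =>
      intro n f hf
      rw [pow_succ, Module.End.mul_apply]
      have := ih _ _ (X_Hmg i hf)
      rwa [show n + 1 + (r : ℤ) = n + ((r + 1 : ℕ) : ℤ) by push_cast; ring] at this
  have hD : ∀ (i : Fin 2) (r : ℕ) (n : ℤ) (f : Lau K), f ∈ Hmg K n →
      ((D g i : Op K) ^ r) f ∈ Hmg K (n - r) := by
    intro i r
    induction r with
    | zero => intro n f hf; simpa using hf
    | succ r ih =>
      intro n f hf
      rw [pow_succ, Module.End.mul_apply]
      have := ih _ _ (D_Hmg g i hf)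
      rwa [show n - 1 - (r : ℤ) = n - ((r + 1 : ℕ) : ℤ) by push_cast; ring] at this
  unfold mon
  simp only [Module.End.mul_apply]
  have := hX 0 a.1 _ _ (hX 1 a.2 _ _ (hD 0 b.1 _ _ (hD 1 b.2 _ _ hf)))
  rwa [show n - (b.2 : ℤ) - b.1 + a.2 + a.1 = n + (a.1 + a.2) - (b.1 + b.2) by ring] at this

theorem Fil_Hmg {g : K} {k P n : ℤ} {T : Op K} (hT : T ∈ Fil g k P) {f : Lau K}
    (hf : f ∈ Hmg K n) : T f ∈ Hmg K (n + P) := by
  induction hT using Submodule.span_induction with
  | mem x hx =>
    obtain ⟨a, b, _, h2, rfl⟩ := hx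
    have := mon_Hmg g a b hf
    rwa [show n + ((a.1 : ℤ) + a.2) - (b.1 + b.2) = n + P by rw [← h2]; ring] at this
  | zero => exact zero_mem _
  | add x y _ _ hx hy => exact add_mem hx hy
  | smul a x _ hx => exact Submodule.smul_mem _ a hx

/-- the delta function `x₀⁻¹x₁⁻¹` -/
noncomputable def dl (K : Type) [Field K] : Lau K := Finsupp.single (-1, -1) 1

theorem dl_Hmg : dl K ∈ Hmg K (-2) := Finsupp.single_mem_supported K _ (by simp)

/-- the coefficient of `δ` in `T δ` -/
noncomputable def res (T : Op K) : K := (T (dl K)) (-1, -1)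

theorem res_add (T S : Op K) : res (T + S) = res T + res S := rfl

theorem res_smul (c : K) (T : Op K) : res (c • T) = c * res T := rfl

theorem res_zero : res (0 : Op K) = 0 := rfl

theorem res_one : res (1 : Op K) = 1 := by
  show (Finsupp.single ((-1, -1) : ℤ × ℤ) (1 : K)) (-1, -1) = 1
  rw [Finsupp.single_eq_same]

theorem res_sum {ι : Type} (s : Finset ι) (T : ι → Op K) :
    res (∑ i ∈ s, T i) = ∑ i ∈ s, res (T i) := by
  unfold res
  rw [LinearMap.sum_apply, Finsupp.finsetSum_apply]

theorem NN_apply {f : Lau K} (hf : f ∈ NN K) : f (-1, -1) = 0 := by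
  by_contra h
  have h1 : ((-1, -1) : ℤ × ℤ) ∈ f.support := Finsupp.mem_support_iff.2 h
  have h2 := (Finsupp.mem_supported K f).1 hf h1
  simp at h2

/-- `T δ = res T δ` modulo `NN` -/
theorem dl_split {g : K} {k : ℤ} {T : Op K} (hT : T ∈ Fil g k 0) :
    T (dl K) - res T • dl K ∈ NN K := by
  have h1 : T (dl K) ∈ Hmg K (-2 + 0) := Fil_Hmg hT dl_Hmg
  rw [add_zero] at h1
  rw [NN, Finsupp.mem_supported]
  intro m hm
  rw [Finset.mem_coe, Finsupp.mem_support_iff] at hm
  by_cases h2 : m = (-1, -1)
  · exfalso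
    apply hm
    subst h2
    rw [Finsupp.sub_apply, Finsupp.smul_apply, dl, Finsupp.single_eq_same, smul_eq_mul, mul_one]
    exact sub_self _
  · rw [Finsupp.sub_apply, Finsupp.smul_apply, dl, Finsupp.single_eq_of_ne h2, smul_zero,
      sub_zero] at hm
    have h3 := (Finsupp.mem_supported K _).1 h1 (Finsupp.mem_support_iff.2 hm)
    simp only [Set.mem_ofPred_eq] at h3 ⊢
    by_contra h4
    apply h2
    ext
    · show m.1 = -1
      omega
    · show m.2 = -1
      omega

theorem res_mul {g : K} {k l : ℤ} {T S : Op K} (hT : T ∈ Fil g k 0) (hS : S ∈ Fil g l 0) :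
    res (T * S) = res T * res S := by
  have h1 : T (S (dl K)) = T (S (dl K) - res S • dl K) + res S • T (dl K) := by
    rw [map_sub, map_smul, sub_add_cancel]
  unfold res
  rw [Module.End.mul_apply, h1, Finsupp.add_apply, NN_apply (Fil_NN hT (dl_split hS)), zero_add,
    Finsupp.smul_apply, smul_eq_mul]
  exact mul_comm _ _

/-- entrywise `res` -/
noncomputable def resM (M : Mat K) : Matrix (Fin 7) (Fin 7) K := fun i j => res (M i j)

theorem resM_mul {g : K} {s : ℤ} {M N : Mat K} (hM : Pres g s 0 M) (hN : Pres g s 0 N) :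
    resM (M * N) = resM M * resM N := by
  ext i j
  show res ((M * N) i j) = ∑ l, res (M i l) * res (N l j)
  rw [Matrix.mul_apply, res_sum]
  refine Finset.sum_congr rfl fun l _ => ?_
  obtain ⟨k, hk⟩ := hM.entry i l
  obtain ⟨k', hk'⟩ := hN.entry l j
  exact res_mul hk hk'

theorem resM_one : resM (1 : Mat K) = 1 := by
  ext i j
  show res ((1 : Mat K) i j) = (1 : Matrix (Fin 7) (Fin 7) K) i j
  rw [Matrix.one_apply, Matrix.one_apply]
  split_ifs
  · exact res_one
  · exact res_zero

/-- **the module `W`** over `A g s` (left module, dimension 7, one-dimensional at the line bundles,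
two-dimensional at the `K_j`) -/
def W (_g : K) (_s : ℤ) : Type := Fin 7 → K

variable (g : K) (s : ℤ)

instance : AddCommGroup (W g s) := inferInstanceAs (AddCommGroup (Fin 7 → K))

instance : Module K (W g s) := inferInstanceAs (Module K (Fin 7 → K))

instance : FiniteDimensional K (W g s) := inferInstanceAs (FiniteDimensional K (Fin 7 → K))

instance : Nontrivial (W g s) := inferInstanceAs (Nontrivial (Fin 7 → K))


theorem resM_zero : resM (0 : Mat K) = 0 := rfl

theorem resM_smul (c : K) (M : Mat K) : resM (c • M) = c • resM M := rfl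

noncomputable instance : Module (A g s) (W g s) where
  smul x w := Matrix.mulVec (resM x.1.fst) (w : Fin 7 → K)
  one_smul w := by
    have h : resM (TrivSqZeroExt.fst (1 : DualNumber (Mat K))) = 1 := by
      rw [TrivSqZeroExt.fst_one, resM_one]
    exact (congrArg (fun Q : Matrix (Fin 7) (Fin 7) K => Matrix.mulVec Q (w : Fin 7 → K)) h).trans
      (Matrix.one_mulVec _)
  mul_smul x y w := by
    have h : resM (TrivSqZeroExt.fst (x.1 * y.1)) = resM x.1.fst * resM y.1.fst := by
      rw [TrivSqZeroExt.fst_mul, resM_mul x.2.1 y.2.1]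
    exact (congrArg (fun Q : Matrix (Fin 7) (Fin 7) K => Matrix.mulVec Q (w : Fin 7 → K)) h).trans
      (Matrix.mulVec_mulVec _ _ _).symm
  smul_zero x := Matrix.mulVec_zero _
  smul_add x v w := Matrix.mulVec_add _ _ _
  add_smul x y w := Matrix.add_mulVec _ _ _
  zero_smul w := by
    have h : resM (TrivSqZeroExt.fst (0 : DualNumber (Mat K))) = 0 := by
      rw [TrivSqZeroExt.fst_zero, resM_zero]
    exact (congrArg (fun Q : Matrix (Fin 7) (Fin 7) K => Matrix.mulVec Q (w : Fin 7 → K)) h).trans
      (Matrix.zero_mulVec _)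

variable {g s}


theorem W_smul_apply (x : A g s) (w : W g s) (i : Fin 7) :
    (x • w : W g s) i = ∑ j, res (x.1.fst i j) * w j := rfl

instance : IsScalarTower K (A g s) (W g s) where
  smul_assoc c x w := by
    have h : resM (TrivSqZeroExt.fst (c • x.1 : DualNumber (Mat K))) = c • resM x.1.fst := by
      rw [TrivSqZeroExt.fst_smul, resM_smul]
    exact (congrArg (fun Q : Matrix (Fin 7) (Fin 7) K => Matrix.mulVec Q (w : Fin 7 → K)) h).trans
      (Matrix.smul_mulVec _ _ _)

end Crest.Agent.R186.B281
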