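import Crest.Agent.R186.Inst_823
import Crest.Agent.R186.PDef_580
import Crest.Agent.R186.W281_870
import Crest.Agent.R186.FDord_757

-- ▼ part R186/LatK_881
section

/-!
Row 186, S0281, leaf B281.D4 (helper881): right normal form `d^b x^a` of the operators, the rows
`(X1)`, `(X2)`, `(X3)` for right multiplication by `x₀, x₁`, and the lattices `K_j`.
-/

set_option autoImplicit false

open Matrix

namespace Crest.Agent.R186.LatK881

open B281

variable {K : Type} [Field K]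

/-! ### shifts -/

/-- multiplication by `x^a`, `a ∈ ℤ × ℤ` -/
noncomputable def Sh (a : ℤ × ℤ) : Op K := Finsupp.lmapDomain K K (fun m => m + a)

theorem Sh_single (a m : ℤ × ℤ) (c : K) :
    Sh a (Finsupp.single m c) = Finsupp.single (m + a) c := by
  simp [Sh]

theorem Sh_mul (a b : ℤ × ℤ) : (Sh a : Op K) * Sh b = Sh (a + b) := by
  apply op_ext
  intro m
  simp only [Module.End.mul_apply, Sh_single]
  congr 1
  abel

theorem Sh_zero : (Sh 0 : Op K) = 1 := by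
  apply op_ext
  intro m
  simp [Sh_single]

theorem X_eq (i : Fin 2) : (X i : Op K) = Sh (ev i) := rfl

theorem X_pow (i : Fin 2) (n : ℕ) : (X i : Op K) ^ n = Sh (n • ev i) := by
  induction n with
  | zero => simp [Sh_zero]
  | succ n ih => rw [pow_succ, ih, X_eq, Sh_mul, succ_nsmul]

/-- right normal monomials `d^b x^a`, `a ∈ ℤ × ℤ` -/
noncomputable def dm (g : K) (b : ℕ × ℕ) (a : ℤ × ℤ) : Op K := D g 0 ^ b.1 * D g 1 ^ b.2 * Sh a

/-- the index set of `Fil g k P` -/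
def Idx (k P : ℤ) : Set ((ℕ × ℕ) × (ℤ × ℤ)) :=
  {p | 0 ≤ p.2.1 ∧ 0 ≤ p.2.2 ∧ (p.1.1 : ℤ) + p.1.2 ≤ k ∧ p.2.1 + p.2.2 - (p.1.1 + p.1.2) = P}

/-- span of the right normal monomials -/
noncomputable def Nor (g : K) (k P : ℤ) : Submodule K (Op K) :=
  Submodule.span K ((fun p => dm g p.1 p.2) '' Idx k P)

theorem dm_mem (g : K) {k P : ℤ} {b : ℕ × ℕ} {a : ℤ × ℤ} (h : (b, a) ∈ Idx k P) :
    dm g b a ∈ Nor g k P := Submodule.subset_span ⟨(b, a), h, rfl⟩

/-! ### reordering -/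

theorem X_Dpow {g : K} (hg : Gen g) (i : Fin 2) (n : ℕ) :
    ∃ c c' : K, (X i : Op K) * D g i ^ (n + 1) = c • (D g i ^ (n + 1) * X i) + c' • D g i ^ n := by
  induction n with
  | zero => exact ⟨g, 1, by rw [zero_add, pow_one, pow_zero, X_D_self hg, one_smul, add_comm]⟩
  | succ n ih =>
    obtain ⟨c, c', h⟩ := ih
    refine ⟨c * g, c + c', ?_⟩
    rw [pow_succ, ← mul_assoc, h, add_mul, smul_mul_assoc, smul_mul_assoc, mul_assoc,
      X_D_self hg, mul_add, mul_one, mul_smul_comm, ← mul_assoc, ← pow_succ, ← pow_succ, smul_add,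
      smul_smul, add_smul]
    abel

theorem D_X_self {g : K} (hg : Gen g) (i : Fin 2) :
    (D g i : Op K) * X i = g⁻¹ • (X i * D g i) + (-g⁻¹) • 1 := by
  have h : g⁻¹ • (1 : Op K) + (-g⁻¹) • 1 = 0 := by rw [← add_smul, add_neg_cancel, zero_smul]
  rw [X_D_self hg, smul_add, smul_smul, inv_mul_cancel₀ hg.ne, one_smul, add_right_comm, h,
    zero_add]

theorem D_Xpow {g : K} (hg : Gen g) (i : Fin 2) (n : ℕ) :
    ∃ c c' : K, (D g i : Op K) * X i ^ (n + 1) = c • (X i ^ (n + 1) * D g i) + c' • X i ^ n := by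
  induction n with
  | zero =>
    exact ⟨g⁻¹, -g⁻¹, by rw [zero_add, pow_one, pow_zero, D_X_self hg]⟩
  | succ n ih =>
    obtain ⟨c, c', h⟩ := ih
    refine ⟨c * g⁻¹, c * -g⁻¹ + c', ?_⟩
    rw [pow_succ, ← mul_assoc, h, add_mul, smul_mul_assoc, smul_mul_assoc, mul_assoc,
      D_X_self hg, mul_add, mul_smul_comm, mul_smul_comm, mul_one, ← mul_assoc, ← pow_succ,
      ← pow_succ, smul_add, smul_smul, smul_smul, add_smul, add_assoc]

theorem D_X_ne (g : K) {i j : Fin 2} (h : i ≠ j) (n : ℕ) :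
    (D g i : Op K) * X j ^ n = X j ^ n * D g i := by
  have h1 : Commute (D g i) (X j : Op K) := (X_D g (Ne.symm h)).symm
  exact (h1.pow_right n)

theorem X_D_ne (g : K) {i j : Fin 2} (h : i ≠ j) (n : ℕ) :
    (X i : Op K) * D g j ^ n = D g j ^ n * X i := by
  have h1 : Commute (X i : Op K) (D g j) := X_D g h
  exact (h1.pow_right n)

theorem D_D_pow (g : K) (i j : Fin 2) (n : ℕ) :
    (D g i : Op K) * D g j ^ n = D g j ^ n * D g i := by
  have h1 : Commute (D g i : Op K) (D g j) := D_comm g i j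
  exact (h1.pow_right n)


/-- left multiplication by `x_i` on the right normal form -/
theorem X_mul_Nor {g : K} (hg : Gen g) (i : Fin 2) {k P : ℤ} {T : Op K} (hT : T ∈ Nor g k P) :
    X i * T ∈ Nor g k (P + 1) := by
  induction hT using Submodule.span_induction with
  | mem x hx =>
    obtain ⟨⟨⟨b0, b1⟩, a0, a1⟩, ⟨h1, h2, h3, h4⟩, rfl⟩ := hx
    simp only at h1 h2 h3 h4
    show X i * dm g (b0, b1) (a0, a1) ∈ _
    have e0 : i = 0 ∨ i = 1 := by fin_cases i <;> simp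
    rcases e0 with rfl | rfl
    · rcases Nat.eq_zero_or_pos b0 with h0 | h0
      · subst h0
        have : X 0 * dm g (0, b1) (a0, a1) = dm g (0, b1) (a0 + 1, a1) := by
          simp only [dm, pow_zero, one_mul]
          rw [← mul_assoc, X_D_ne g (by decide), mul_assoc, X_eq, Sh_mul]
          congr 2
          simp [ev, add_comm]
        rw [this]
        apply dm_mem
        simp only [Idx, Set.mem_ofPred_eq]
        omega
      · obtain ⟨n, rfl⟩ : ∃ n, b0 = n + 1 := ⟨b0 - 1, by omega⟩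
        obtain ⟨c, c', h⟩ := X_Dpow hg 0 n
        have : X 0 * dm g (n + 1, b1) (a0, a1) =
            c • dm g (n + 1, b1) (a0 + 1, a1) + c' • dm g (n, b1) (a0, a1) := by
          simp only [dm]
          rw [← mul_assoc, ← mul_assoc, h, add_mul, add_mul, smul_mul_assoc, smul_mul_assoc,
            smul_mul_assoc, smul_mul_assoc, mul_assoc (D g 0 ^ (n + 1)) (X 0), X_D_ne g (by decide),
            ← mul_assoc, mul_assoc _ (X 0), X_eq, Sh_mul]
          congr 4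
          simp [ev, add_comm]
        rw [this]
        refine add_mem (Submodule.smul_mem _ _ (dm_mem g ?_)) (Submodule.smul_mem _ _ (dm_mem g ?_))
          <;> simp only [Idx, Set.mem_ofPred_eq] <;> push_cast at h3 h4 ⊢ <;> omega
    · rcases Nat.eq_zero_or_pos b1 with h0 | h0
      · subst h0
        have : X 1 * dm g (b0, 0) (a0, a1) = dm g (b0, 0) (a0, a1 + 1) := by
          simp only [dm, pow_zero, mul_one]
          rw [← mul_assoc, X_D_ne g (by decide), mul_assoc, X_eq, Sh_mul]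
          congr 2
          simp [ev, add_comm]
        rw [this]
        apply dm_mem
        simp only [Idx, Set.mem_ofPred_eq]
        omega
      · obtain ⟨n, rfl⟩ : ∃ n, b1 = n + 1 := ⟨b1 - 1, by omega⟩
        obtain ⟨c, c', h⟩ := X_Dpow hg 1 n
        have : X 1 * dm g (b0, n + 1) (a0, a1) =
            c • dm g (b0, n + 1) (a0, a1 + 1) + c' • dm g (b0, n) (a0, a1) := by
          simp only [dm]
          rw [← mul_assoc, ← mul_assoc, X_D_ne g (by decide), mul_assoc (D g 0 ^ b0) (X 1), h,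
            mul_add, add_mul, mul_smul_comm, mul_smul_comm, smul_mul_assoc, smul_mul_assoc,
            ← mul_assoc, mul_assoc _ (X 1), X_eq, Sh_mul]
          congr 4
          simp [ev, add_comm]
        rw [this]
        refine add_mem (Submodule.smul_mem _ _ (dm_mem g ?_)) (Submodule.smul_mem _ _ (dm_mem g ?_))
          <;> simp only [Idx, Set.mem_ofPred_eq] <;> push_cast at h3 h4 ⊢ <;> omega
  | zero => rw [mul_zero]; exact zero_mem _
  | add x y _ _ hx hy => rw [mul_add]; exact add_mem hx hy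
  | smul a x _ hx => rw [mul_smul_comm]; exact Submodule.smul_mem _ a hx

theorem Xpow_mul_Nor {g : K} (hg : Gen g) (i : Fin 2) (n : ℕ) {k P : ℤ} {T : Op K}
    (hT : T ∈ Nor g k P) : X i ^ n * T ∈ Nor g k (P + n) := by
  induction n with
  | zero => simpa using hT
  | succ n ih =>
    rw [pow_succ', mul_assoc]
    have := X_mul_Nor hg i ih
    rwa [show P + (n : ℤ) + 1 = P + ((n + 1 : ℕ) : ℤ) by push_cast; ring] at this


theorem Fil_le_Nor {g : K} (hg : Gen g) (k P : ℤ) : Fil g k P ≤ Nor g k P := by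
  refine Submodule.span_le.2 ?_
  rintro T ⟨a, b, h1, h2, rfl⟩
  have h0 : D g 0 ^ b.1 * D g 1 ^ b.2 ∈ Nor g k (-(b.1 + b.2)) := by
    have : D g 0 ^ b.1 * D g 1 ^ b.2 = dm g b 0 := by rw [dm, Sh_zero, mul_one]
    rw [this]
    apply dm_mem
    simp only [Idx, Set.mem_ofPred_eq, Prod.fst_zero, Prod.snd_zero]
    omega
  have h3 := Xpow_mul_Nor hg 0 a.1 (Xpow_mul_Nor hg 1 a.2 h0)
  have e : mon g a b = X 0 ^ a.1 * (X 1 ^ a.2 * (D g 0 ^ b.1 * D g 1 ^ b.2)) := by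
    simp only [mon, mul_assoc]
  rw [SetLike.mem_coe, e]
  rwa [show -((b.1 : ℤ) + b.2) + a.2 + a.1 = P by omega] at h3

/-- left multiplication by `d_i` on `Fil` -/
theorem D_mul_Fil {g : K} (hg : Gen g) (i : Fin 2) {k P : ℤ} {T : Op K} (hT : T ∈ Fil g k P) :
    D g i * T ∈ Fil g (k + 1) (P - 1) := by
  induction hT using Submodule.span_induction with
  | mem x hx =>
    obtain ⟨⟨a0, a1⟩, ⟨b0, b1⟩, h1, h2, rfl⟩ := hx
    simp only at h1 h2
    have e0 : i = 0 ∨ i = 1 := by fin_cases i <;> simp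
    rcases e0 with rfl | rfl
    · rcases Nat.eq_zero_or_pos a0 with h0 | h0
      · subst h0
        have : D g 0 * mon g (0, a1) (b0, b1) = mon g (0, a1) (b0 + 1, b1) := by
          simp only [mon, pow_zero, one_mul]
          rw [← mul_assoc, ← mul_assoc, D_X_ne g (by decide), mul_assoc (X 1 ^ a1), ← pow_succ']
        rw [this]
        exact mon_mem g _ _ (by push_cast; omega) (by push_cast; omega)
      · obtain ⟨n, rfl⟩ : ∃ n, a0 = n + 1 := ⟨a0 - 1, by omega⟩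
        obtain ⟨c, c', h⟩ := D_Xpow hg 0 n
        have : D g 0 * mon g (n + 1, a1) (b0, b1) =
            c • mon g (n + 1, a1) (b0 + 1, b1) + c' • mon g (n, a1) (b0, b1) := by
          simp only [mon]
          rw [← mul_assoc, ← mul_assoc, ← mul_assoc, h, add_mul, add_mul, add_mul, smul_mul_assoc,
            smul_mul_assoc, smul_mul_assoc, smul_mul_assoc, smul_mul_assoc, smul_mul_assoc,
            mul_assoc (X 0 ^ (n + 1)) (D g 0), D_X_ne g (by decide), ← mul_assoc,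
            mul_assoc _ (D g 0), ← pow_succ']
        rw [this]
        refine add_mem (Submodule.smul_mem _ _ (mon_mem g _ _ ?_ ?_))
          (Submodule.smul_mem _ _ (mon_mem g _ _ ?_ ?_)) <;> push_cast at h1 h2 ⊢ <;> omega
    · rcases Nat.eq_zero_or_pos a1 with h0 | h0
      · subst h0
        have : D g 1 * mon g (a0, 0) (b0, b1) = mon g (a0, 0) (b0, b1 + 1) := by
          simp only [mon, pow_zero, mul_one]
          rw [← mul_assoc, ← mul_assoc, D_X_ne g (by decide), mul_assoc (X 0 ^ a0), D_D_pow,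
            mul_assoc, mul_assoc, ← pow_succ', ← mul_assoc]
        rw [this]
        exact mon_mem g _ _ (by push_cast; omega) (by push_cast; omega)
      · obtain ⟨n, rfl⟩ : ∃ n, a1 = n + 1 := ⟨a1 - 1, by omega⟩
        obtain ⟨c, c', h⟩ := D_Xpow hg 1 n
        have : D g 1 * mon g (a0, n + 1) (b0, b1) =
            c • mon g (a0, n + 1) (b0, b1 + 1) + c' • mon g (a0, n) (b0, b1) := by
          simp only [mon]
          rw [← mul_assoc, ← mul_assoc, ← mul_assoc, D_X_ne g (by decide), mul_assoc (X 0 ^ a0) (D g 1),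
            h, mul_add, add_mul, add_mul, mul_smul_comm, mul_smul_comm, smul_mul_assoc,
            smul_mul_assoc, smul_mul_assoc, smul_mul_assoc, ← mul_assoc,
            mul_assoc _ (D g 1), D_D_pow, ← mul_assoc, mul_assoc _ (D g 1), ← pow_succ']
        rw [this]
        refine add_mem (Submodule.smul_mem _ _ (mon_mem g _ _ ?_ ?_))
          (Submodule.smul_mem _ _ (mon_mem g _ _ ?_ ?_)) <;> push_cast at h1 h2 ⊢ <;> omega
  | zero => rw [mul_zero]; exact zero_mem _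
  | add x y _ _ hx hy => rw [mul_add]; exact add_mem hx hy
  | smul a x _ hx => rw [mul_smul_comm]; exact Submodule.smul_mem _ a hx

theorem Dpow_mul_Fil {g : K} (hg : Gen g) (i : Fin 2) (n : ℕ) {k P : ℤ} {T : Op K}
    (hT : T ∈ Fil g k P) : D g i ^ n * T ∈ Fil g (k + n) (P - n) := by
  induction n with
  | zero => simpa using hT
  | succ n ih =>
    rw [pow_succ', mul_assoc]
    have := D_mul_Fil hg i ih
    rwa [show k + (n : ℤ) + 1 = k + ((n + 1 : ℕ) : ℤ) by push_cast; ring,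
      show P - (n : ℤ) - 1 = P - ((n + 1 : ℕ) : ℤ) by push_cast; ring] at this

theorem Nor_le_Fil {g : K} (hg : Gen g) (k P : ℤ) : Nor g k P ≤ Fil g k P := by
  refine Submodule.span_le.2 ?_
  rintro T ⟨⟨⟨b0, b1⟩, a0, a1⟩, ⟨h1, h2, h3, h4⟩, rfl⟩
  simp only at h1 h2 h3 h4
  obtain ⟨n0, rfl⟩ := Int.eq_ofNat_of_zero_le h1
  obtain ⟨n1, rfl⟩ := Int.eq_ofNat_of_zero_le h2
  have h0 : (Sh ((n0 : ℤ), (n1 : ℤ)) : Op K) ∈ Fil g 0 (n0 + n1) := by
    have : (Sh ((n0 : ℤ), (n1 : ℤ)) : Op K) = mon g (n0, n1) (0, 0) := by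
      simp only [mon, pow_zero, mul_one]
      rw [X_pow, X_pow, Sh_mul]
      congr 1
      simp [ev]
    rw [this]
    exact mon_mem g _ _ (by simp) (by simp)
  have h5 := Dpow_mul_Fil hg 0 b0 (Dpow_mul_Fil hg 1 b1 h0)
  show dm g (b0, b1) ((n0 : ℤ), (n1 : ℤ)) ∈ _
  rw [dm, mul_assoc]
  refine Fil_mono g ?_ (?_ : _ ∈ Fil g (0 + b1 + b0) P)
  · omega
  · rwa [show (n0 : ℤ) + n1 - b1 - b0 = P by omega] at h5

theorem Fil_eq_Nor {g : K} (hg : Gen g) (k P : ℤ) : Fil g k P = Nor g k P :=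
  le_antisymm (Fil_le_Nor hg k P) (Nor_le_Fil hg k P)

/-! ### linear independence of the right normal monomials -/

/-- the falling product of `q`-numbers -/
noncomputable def fall (g : K) (n : ℕ) (m : ℤ) : K := ∏ r ∈ Finset.range n, cq g (m - r)

theorem fall_succ (g : K) (n : ℕ) (m : ℤ) : fall g (n + 1) m = fall g n m * cq g (m - n) := by
  rw [fall, fall, Finset.prod_range_succ]

theorem fall_ne {g : K} (hg : Gen g) {n : ℕ} {m : ℤ} (h : m < 0 ∨ (n : ℤ) ≤ m) :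
    fall g n m ≠ 0 := by
  refine Finset.prod_ne_zero_iff.2 fun r hr => cq_ne hg ?_
  have := Finset.mem_range.1 hr
  omega

theorem fall_eq (g : K) {n : ℕ} {m : ℤ} (h0 : 0 ≤ m) (h : m < n) : fall g n m = 0 := by
  refine Finset.prod_eq_zero (i := m.toNat) (Finset.mem_range.2 (by omega)) ?_
  rw [show m - (m.toNat : ℤ) = 0 by omega, cq_zero]

theorem co_sub (i : Fin 2) (m : ℤ × ℤ) (n : ℕ) : co i (m - n • ev i) = co i m - n := by
  fin_cases i <;> simp [co, ev]

theorem Dpow_single (g : K) (i : Fin 2) (n : ℕ) (m : ℤ × ℤ) (a : K) :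
    (D g i ^ n : Op K) (Finsupp.single m a) =
      Finsupp.single (m - n • ev i) (fall g n (co i m) * a) := by
  induction n with
  | zero => simp [fall]
  | succ n ih =>
    rw [pow_succ', Module.End.mul_apply, ih, D_single, co_sub, fall_succ]
    congr 1
    · rw [succ_nsmul]; abel
    · ring

theorem dm_single (g : K) (b : ℕ × ℕ) (a m : ℤ × ℤ) :
    dm g b a (Finsupp.single m 1) = Finsupp.single (m + a - ((b.1 : ℤ), (b.2 : ℤ)))
      (fall g b.1 (m.1 + a.1) * fall g b.2 (m.2 + a.2)) := by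
  rw [dm, Module.End.mul_apply, Module.End.mul_apply, Sh_single, Dpow_single, Dpow_single]
  congr 1
  · ext <;> simp [ev]
  · simp [co, ev]

/-- the operator with given coordinates -/
noncomputable def nf (g : K) : ((ℕ × ℕ) × (ℤ × ℤ) →₀ K) →ₗ[K] Op K :=
  Finsupp.linearCombination K (fun p => dm g p.1 p.2)

theorem nf_single (g : K) (p : (ℕ × ℕ) × (ℤ × ℤ)) (c : K) :
    nf g (Finsupp.single p c) = c • dm g p.1 p.2 := by
  simp [nf]

/-- evaluation: the coefficient of `x^(-1-b')` in `T x^m` -/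
theorem nf_coeff (g : K) (f : (ℕ × ℕ) × (ℤ × ℤ) →₀ K) (m n : ℤ × ℤ) :
    (nf g f (Finsupp.single m 1)) n = f.sum (fun p c =>
      if m + p.2 - ((p.1.1 : ℤ), (p.1.2 : ℤ)) = n then
        c * (fall g p.1.1 (m.1 + p.2.1) * fall g p.1.2 (m.2 + p.2.2)) else 0) := by
  rw [nf, Finsupp.linearCombination_apply, Finsupp.sum, LinearMap.sum_apply, Finsupp.finsetSum_apply,
    Finsupp.sum]
  refine Finset.sum_congr rfl fun p _ => ?_
  rw [LinearMap.smul_apply, dm_single, Finsupp.smul_single, Finsupp.single_apply, smul_eq_mul]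

theorem nf_inj {g : K} (hg : Gen g) : Function.Injective (nf g) := by
  refine (injective_iff_map_eq_zero (nf g)).2 fun f hf => ?_
  -- all coordinates with `|b| = N` vanish, by induction
  have key : ∀ N : ℕ, ∀ p : (ℕ × ℕ) × (ℤ × ℤ), p.1.1 + p.1.2 = N → f p = 0 := by
    intro N
    induction N using Nat.strong_induction_on with
    | _ N ih =>
      rintro ⟨⟨b0, b1⟩, a0, a1⟩ hN
      simp only at hN
      have h := nf_coeff g f (-1 - a0, -1 - a1) (-1 - b0, -1 - b1)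
      rw [hf] at h
      have h2 : f.sum (fun p c =>
          if ((-1 - a0, -1 - a1) : ℤ × ℤ) + p.2 - ((p.1.1 : ℤ), (p.1.2 : ℤ)) = (-1 - (b0 : ℤ), -1 - (b1 : ℤ)) then
            c * (fall g p.1.1 (((-1 - a0, -1 - a1) : ℤ × ℤ).1 + p.2.1) *
              fall g p.1.2 (((-1 - a0, -1 - a1) : ℤ × ℤ).2 + p.2.2)) else 0) =
          f ((b0, b1), (a0, a1)) * (fall g b0 (-1) * fall g b1 (-1)) := by
        rw [Finsupp.sum, Finset.sum_eq_single ((b0, b1), (a0, a1))]
        · rw [if_pos (by ext <;> simp)]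
          simp
        · rintro ⟨⟨c0, c1⟩, e0, e1⟩ _ hne
          split_ifs with h3
          · have h4 := congrArg Prod.fst h3
            have h5 := congrArg Prod.snd h3
            simp at h4 h5
            simp only
            by_cases h6 : b0 < c0
            · rw [fall_eq g (n := c0) (by omega) (by omega)]; ring
            · by_cases h7 : b1 < c1
              · rw [fall_eq g (n := c1) (by omega) (by omega)]; ring
              · have h8 : c0 + c1 < N := by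
                  by_contra h9
                  have : c0 = b0 := by omega
                  have : c1 = b1 := by omega
                  apply hne
                  subst c0 c1
                  have : e0 = a0 := by omega
                  have : e1 = a1 := by omega
                  subst e0 e1
                  rfl
                rw [ih _ h8 ((c0, c1), (e0, e1)) rfl]; ring
          · rfl
        · intro h3
          rw [Finsupp.notMem_support_iff.1 h3]
          simp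
      rw [h2] at h
      have h3 : fall g b0 (-1) * fall g b1 (-1) ≠ 0 :=
        mul_ne_zero (fall_ne hg (Or.inl (by omega))) (fall_ne hg (Or.inl (by omega)))
      have h4 : f ((b0, b1), (a0, a1)) * (fall g b0 (-1) * fall g b1 (-1)) = 0 := by
        rw [← h]; rfl
      exact (mul_eq_zero.1 h4).resolve_right h3
  ext p
  exact key _ p rfl

theorem Nor_eq (g : K) (k P : ℤ) : Nor g k P = (Finsupp.supported K K (Idx k P)).map (nf g) := by
  rw [Nor, Finsupp.supported_eq_span_single, Submodule.map_span]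
  congr 1
  ext T
  constructor
  · rintro ⟨p, hp, rfl⟩
    exact ⟨_, ⟨p, hp, rfl⟩, by rw [nf_single, one_smul]⟩
  · rintro ⟨_, ⟨p, hp, rfl⟩, rfl⟩
    exact ⟨p, hp, by rw [nf_single, one_smul]⟩

/-- coordinates of the elements of `Fil` -/
theorem mem_Fil {g : K} (hg : Gen g) {k P : ℤ} {T : Op K} :
    T ∈ Fil g k P ↔ ∃ f : (ℕ × ℕ) × (ℤ × ℤ) →₀ K, (∀ p, f p ≠ 0 → p ∈ Idx k P) ∧ nf g f = T := by
  rw [Fil_eq_Nor hg, Nor_eq, Submodule.mem_map]
  constructor
  · rintro ⟨f, hf, rfl⟩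
    exact ⟨f, fun p hp => hf (Finsupp.mem_support_iff.2 hp), rfl⟩
  · rintro ⟨f, hf, rfl⟩
    exact ⟨f, fun p hp => hf p (Finsupp.mem_support_iff.1 hp), rfl⟩

/-! ### right multiplication by `x^a` -/

/-- shift of the index -/
def shI (a : ℤ × ℤ) : (ℕ × ℕ) × (ℤ × ℤ) ≃ (ℕ × ℕ) × (ℤ × ℤ) :=
  Equiv.prodCongr (Equiv.refl _) (Equiv.addRight a)

theorem nf_shift (g : K) (a : ℤ × ℤ) (f : (ℕ × ℕ) × (ℤ × ℤ) →₀ K) :
    nf g (Finsupp.equivMapDomain (shI a) f) = nf g f * Sh a := by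
  induction f using Finsupp.induction_linear with
  | zero => simp [Finsupp.equivMapDomain_zero]
  | add x y hx hy =>
    simp only [Finsupp.equivMapDomain_eq_mapDomain] at *
    rw [Finsupp.mapDomain_add, map_add, map_add, add_mul, hx, hy]
  | single p c =>
    rw [Finsupp.equivMapDomain_single, nf_single, nf_single, smul_mul_assoc]
    congr 1
    simp only [dm, shI, Equiv.prodCongr_apply, Prod.map, Equiv.coe_refl, id, Equiv.coe_addRight]
    rw [mul_assoc _ (Sh p.2) (Sh a), Sh_mul]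

theorem shift_apply (a : ℤ × ℤ) (f : (ℕ × ℕ) × (ℤ × ℤ) →₀ K) (b : ℕ × ℕ) (c : ℤ × ℤ) :
    Finsupp.equivMapDomain (shI a) f (b, c) = f (b, c - a) := by
  rw [Finsupp.equivMapDomain_apply]
  rfl


theorem nf_unshift (g : K) (a : ℤ × ℤ) (f : (ℕ × ℕ) × (ℤ × ℤ) →₀ K) :
    nf g (Finsupp.equivMapDomain (shI (-a)) f) * Sh a = nf g f := by
  rw [← nf_shift]
  congr 1
  ext ⟨b, c⟩
  rw [shift_apply, shift_apply, sub_neg_eq_add, sub_add_cancel]

theorem mul_X_mem {g : K} (hg : Gen g) (i : Fin 2) {k P : ℤ} {T : Op K} (hT : T ∈ Fil g k P) :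
    T * X i ∈ Fil g k (P + 1) := by
  obtain ⟨f, hf, rfl⟩ := (mem_Fil hg).1 hT
  refine (mem_Fil hg).2 ⟨_, ?_, nf_shift g (ev i) f⟩
  rintro ⟨⟨b0, b1⟩, c0, c1⟩ hp
  rw [shift_apply] at hp
  have h := hf _ hp
  simp only [Idx, Set.mem_ofPred_eq, Prod.fst_sub, Prod.snd_sub] at h ⊢
  have e0 : i = 0 ∨ i = 1 := by fin_cases i <;> simp
  rcases e0 with rfl | rfl <;> simp [ev] at h <;> omega


/-- `(X2)`: the syzygies of `x₀, x₁` -/
theorem X2 {g : K} (hg : Gen g) {k P : ℤ} {m0 m1 : Op K} (h0 : m0 ∈ Fil g k P)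
    (h1 : m1 ∈ Fil g k P) (h : m0 * X 0 + m1 * X 1 = 0) :
    ∃ e ∈ Fil g k (P - 1), m0 = e * X 1 ∧ m1 = -(e * X 0) := by
  obtain ⟨u, hu, rfl⟩ := (mem_Fil hg).1 h0
  obtain ⟨v, hv, rfl⟩ := (mem_Fil hg).1 h1
  rw [X_eq, X_eq, ← nf_shift, ← nf_shift, ← map_add] at h
  have h2 := nf_inj hg (h.trans (map_zero _).symm)
  have h3 : ∀ b c, u (b, c - ev 0) + v (b, c - ev 1) = 0 := fun b c => by
    have := DFunLike.congr_fun h2 (b, c)
    rwa [Finsupp.add_apply, shift_apply, shift_apply, Finsupp.zero_apply] at this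
  refine ⟨nf g (Finsupp.equivMapDomain (shI (-ev 1)) u), ?_, ?_, ?_⟩
  · refine (mem_Fil hg).2 ⟨_, ?_, rfl⟩
    rintro ⟨⟨b0, b1⟩, c0, c1⟩ hp
    rw [shift_apply] at hp
    have h4 := hu _ hp
    have h5 := h3 (b0, b1) ((c0, c1) + ev 1 + ev 0)
    rw [add_sub_cancel_right] at h5
    have h6 : v ((b0, b1), (c0, c1) + ev 1 + ev 0 - ev 1) ≠ 0 := by
      intro h7
      rw [h7, add_zero] at h5
      rw [sub_neg_eq_add] at hp
      exact hp h5
    have h7 := hv _ h6
    simp [Idx, ev] at h4 h7 ⊢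
    omega
  · rw [X_eq, nf_unshift]
  · rw [X_eq, ← nf_shift, ← map_neg]
    congr 1
    ext ⟨b, c⟩
    rw [Finsupp.neg_apply, shift_apply, shift_apply]
    have h5 := h3 b (c + ev 1)
    rw [add_sub_cancel_right] at h5
    rw [show c - ev 0 - -ev 1 = c + ev 1 - ev 0 by abel]
    exact eq_neg_of_add_eq_zero_right h5

/-- `(X3)`: strictness for the order filtration -/
theorem X3 {g : K} (hg : Gen g) {k l P : ℤ} {a b : Op K} (ha : a ∈ Fil g k P)
    (hb : b ∈ Fil g k P) (h : a * X 0 + b * X 1 ∈ Fil g l (P + 1)) :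
    ∃ a2 ∈ Fil g l P, ∃ b2 ∈ Fil g l P, a * X 0 + b * X 1 = a2 * X 0 + b2 * X 1 := by
  classical
  obtain ⟨u, hu, rfl⟩ := (mem_Fil hg).1 ha
  obtain ⟨v, hv, rfl⟩ := (mem_Fil hg).1 hb
  obtain ⟨w, hw, hw2⟩ := (mem_Fil hg).1 h
  set q : (ℕ × ℕ) × (ℤ × ℤ) → Prop := fun p => (p.1.1 : ℤ) + p.1.2 ≤ l with hq
  have key : ∀ (f : (ℕ × ℕ) × (ℤ × ℤ) →₀ K), (∀ p, f p ≠ 0 → p ∈ Idx k P) →
      nf g (f.filter q) ∈ Fil g l P := by
    intro f hf
    refine (mem_Fil hg).2 ⟨_, ?_, rfl⟩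
    intro p hp
    by_cases h1 : q p
    · rw [Finsupp.filter_apply_pos _ _ h1] at hp
      have h := hf _ hp
      exact ⟨h.1, h.2.1, h1, h.2.2.2⟩
    · exact absurd (Finsupp.filter_apply_neg _ _ h1) hp
  refine ⟨nf g (u.filter q), key u hu, nf g (v.filter q), key v hv, ?_⟩
  rw [← hw2]
  rw [X_eq, X_eq, ← nf_shift, ← nf_shift, ← map_add] at hw2 ⊢
  have h2 := nf_inj hg hw2
  congr 1
  ext ⟨b, c⟩
  rw [Finsupp.add_apply, shift_apply, shift_apply]
  by_cases h1 : (b.1 : ℤ) + b.2 ≤ l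
  · rw [Finsupp.filter_apply_pos q _ (show q (b, c - ev 0) from h1),
      Finsupp.filter_apply_pos q _ (show q (b, c - ev 1) from h1), h2, Finsupp.add_apply,
      shift_apply, shift_apply]
  · rw [Finsupp.filter_apply_neg q _ (show ¬ q (b, c - ev 0) from h1),
      Finsupp.filter_apply_neg q _ (show ¬ q (b, c - ev 1) from h1), add_zero]
    by_contra h3
    exact h1 (hw _ h3).2.2.1

/-- left multiplication by elements of `Fil` -/
theorem Fil_mul {g : K} (hg : Gen g) {k P l Q : ℤ} {S T : Op K} (hS : S ∈ Fil g k P)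
    (hT : T ∈ Fil g l Q) : S * T ∈ Fil g (k + l) (P + Q) := by
  induction hS using Submodule.span_induction with
  | mem x hx =>
    obtain ⟨a, b, h1, h2, rfl⟩ := hx
    have h3 := Dpow_mul_Fil hg 0 b.1 (Dpow_mul_Fil hg 1 b.2 hT)
    rw [Fil_eq_Nor hg] at h3
    have h4 := Xpow_mul_Nor hg 0 a.1 (Xpow_mul_Nor hg 1 a.2 h3)
    rw [← Fil_eq_Nor hg] at h4
    have e : mon g a b * T = X 0 ^ a.1 * (X 1 ^ a.2 * (D g 0 ^ b.1 * (D g 1 ^ b.2 * T))) := by
      simp only [mon, mul_assoc]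
    rw [e]
    rw [show Q - (b.2 : ℤ) - b.1 + a.2 + a.1 = P + Q by omega] at h4
    exact Fil_mono g (by omega) h4
  | zero => rw [zero_mul]; exact zero_mem _
  | add x y _ _ hx hy => rw [add_mul]; exact add_mem hx hy
  | smul a x _ hx => rw [smul_mul_assoc]; exact Submodule.smul_mem _ a hx

/-! ### the lattices `K_j` -/

/-- the rows at `K_j` -/
noncomputable def LK (g : K) (j k P : ℤ) : Submodule K (Op K × Op K) where
  carrier := {v | v.1 ∈ Fil g k P ∧ v.2 ∈ Fil g k P ∧ v.1 * X 0 + v.2 * X 1 ∈ Fil g (k - j) (P + 1)}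
  zero_mem' := by simp
  add_mem' := by
    rintro v w ⟨h1, h2, h3⟩ ⟨h4, h5, h6⟩
    refine ⟨add_mem h1 h4, add_mem h2 h5, ?_⟩
    have := add_mem h3 h6
    rwa [show v.1 * X 0 + v.2 * X 1 + (w.1 * X 0 + w.2 * X 1) =
      (v + w).1 * X 0 + (v + w).2 * X 1 by
        simp only [Prod.fst_add, Prod.snd_add, add_mul]; abel] at this
  smul_mem' := by
    rintro c v ⟨h1, h2, h3⟩
    refine ⟨Submodule.smul_mem _ c h1, Submodule.smul_mem _ c h2, ?_⟩
    have := Submodule.smul_mem _ c h3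
    rwa [show c • (v.1 * X 0 + v.2 * X 1) = (c • v).1 * X 0 + (c • v).2 * X 1 by
      simp only [Prod.smul_fst, Prod.smul_snd, smul_add, smul_mul_assoc]] at this

theorem mem_LK {g : K} {j k P : ℤ} {a b : Op K} :
    (a, b) ∈ LK g j k P ↔ a ∈ Fil g k P ∧ b ∈ Fil g k P ∧ a * X 0 + b * X 1 ∈ Fil g (k - j) (P + 1) :=
  Iff.rfl

theorem Lat_iff {g : K} {s k P : ℤ} {v : Fin 7 → Op K} :
    v ∈ Lat g s k P ↔ v 0 ∈ Fil g k P ∧ v 1 ∈ Fil g (k - 1) P ∧ v 2 ∈ Fil g (k - 2) P ∧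
      (v 3, v 4) ∈ LK g 1 (k - s) P ∧ (v 5, v 6) ∈ LK g 2 k P := Iff.rfl



theorem kap_mem {g : K} (hg : Gen g) {j k P : ℤ} {e : Op K} (he : e ∈ Fil g k (P - 1)) :
    (e * X 1, -(e * X 0)) ∈ LK g j k P := by
  have h0 := mul_X_mem hg 0 he
  have h1 := mul_X_mem hg 1 he
  rw [sub_add_cancel] at h0 h1
  refine ⟨h1, neg_mem h0, ?_⟩
  have : e * X 1 * X 0 + -(e * X 0) * X 1 = (0 : Op K) := by
    rw [neg_mul, mul_assoc, mul_assoc, X_comm 1 0, add_neg_cancel]
  simp only [this, zero_mem]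

theorem LK_gen {g : K} (hg : Gen g) {j k P : ℤ} (hj : 0 ≤ j) {a b : Op K}
    (h : (a, b) ∈ LK g j k P) : ∃ a2 ∈ Fil g (k - j) P, ∃ b2 ∈ Fil g (k - j) P,
      ∃ e ∈ Fil g k (P - 1), a = a2 + e * X 1 ∧ b = b2 - e * X 0 := by
  obtain ⟨h1, h2, h3⟩ := h
  obtain ⟨a2, ha2, b2, hb2, h4⟩ := X3 hg h1 h2 h3
  have h5 : (a - a2) * X 0 + (b - b2) * X 1 = 0 := by
    rw [sub_mul, sub_mul, sub_add_sub_comm, sub_eq_zero]
    exact h4
  obtain ⟨e, he, h6, h7⟩ := X2 hg (sub_mem h1 (Fil_mono g (by omega) ha2))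
    (sub_mem h2 (Fil_mono g (by omega) hb2)) h5
  refine ⟨a2, ha2, b2, hb2, e, he, ?_, ?_⟩
  · rw [← h6]; abel
  · rw [sub_eq_add_neg, ← h7]; abel

theorem LK_of {g : K} (hg : Gen g) {j k P : ℤ} (hj : 0 ≤ j) {a2 b2 e : Op K}
    (ha : a2 ∈ Fil g (k - j) P) (hb : b2 ∈ Fil g (k - j) P) (he : e ∈ Fil g k (P - 1)) :
    (a2 + e * X 1, b2 - e * X 0) ∈ LK g j k P := by
  have h1 : (a2, b2) ∈ LK g j k P := ⟨Fil_mono g (by omega) ha, Fil_mono g (by omega) hb,
    add_mem (mul_X_mem hg 0 ha) (mul_X_mem hg 1 hb)⟩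
  have := add_mem h1 (kap_mem hg he)
  rwa [Prod.mk_add_mk, ← sub_eq_add_neg] at this

theorem LK_smul {g : K} (hg : Gen g) {j k P l Q : ℤ} {T a b : Op K} (hT : T ∈ Fil g l Q)
    (h : (a, b) ∈ LK g j k P) : (T * a, T * b) ∈ LK g j (l + k) (Q + P) := by
  refine ⟨Fil_mul hg hT h.1, Fil_mul hg hT h.2.1, ?_⟩
  have h3 := Fil_mul hg hT h.2.2
  simp only at h3 ⊢
  rw [mul_assoc, mul_assoc, ← mul_add, add_sub_assoc, add_assoc]
  exact h3

/-! ### the lattices `Lat` -/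

/-- left multiplication on rows -/
theorem Lat_smul {g : K} (hg : Gen g) {s k P l Q : ℤ} {T : Op K} {v : Fin 7 → Op K}
    (hT : T ∈ Fil g l Q) (hv : v ∈ Lat g s k P) : (fun i => T * v i) ∈ Lat g s (l + k) (Q + P) := by
  obtain ⟨h0, h1, h2, h3, h4⟩ := Lat_iff.1 hv
  refine Lat_iff.2 ⟨Fil_mul hg hT h0, ?_, ?_, ?_, LK_smul hg hT h4⟩
  · rw [add_sub_assoc]; exact Fil_mul hg hT h1
  · rw [add_sub_assoc]; exact Fil_mul hg hT h2
  · rw [add_sub_assoc]; exact LK_smul hg hT h3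


theorem one_mem_Fil (g : K) {k : ℤ} (hk : 0 ≤ k) : (1 : Op K) ∈ Fil g k 0 := by
  have : (1 : Op K) = mon g (0, 0) (0, 0) := by simp [mon]
  rw [this]
  exact mon_mem g _ _ (by simpa using hk) (by simp)


end Crest.Agent.R186.LatK881
end

-- ▼ part R186/PresK_881
section

/-!
Row 186, S0281, leaf B281.D4, part 2 (helper881): the membership criterion for `Pres`: nine
conditions on the rows of the matrix.
-/

set_option autoImplicit false

open Matrix

namespace Crest.Agent.R186.LatK881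

open B281

variable {K : Type} [Field K]

theorem vecMul_apply' (v : Fin 7 → Op K) (M : Mat K) (j : Fin 7) :
    (v ᵥ* M) j = v 0 * M 0 j + v 1 * M 1 j + v 2 * M 2 j + v 3 * M 3 j + v 4 * M 4 j + v 5 * M 5 j
      + v 6 * M 6 j := by
  simp only [Matrix.vecMul, dotProduct, Fin.sum_univ_seven]


theorem row_vecMul (a : Op K) (i : Fin 7) (M : Mat K) :
    (Pi.single i a : Fin 7 → Op K) ᵥ* M = fun j => a * M i j := by
  funext j
  rw [Matrix.single_vecMul]
  rfl

theorem Fil_zero_of (g : K) {k P : ℤ} (hk : k < 0) : Fil g k P = ⊥ := by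
  refine (Submodule.eq_bot_iff _).2 fun T hT => ?_
  induction hT using Submodule.span_induction with
  | mem x hx => obtain ⟨a, b, h1, h2, rfl⟩ := hx; omega
  | zero => rfl
  | add x y _ _ hx hy => rw [hx, hy, add_zero]
  | smul a x _ hx => rw [hx, smul_zero]

/-- the unit row at an `O`-position -/
theorem single0 {g : K} {s k P : ℤ} {T : Op K} (hT : T ∈ Fil g k P) :
    Pi.single 0 T ∈ Lat g s k P := by
  refine ⟨by simpa using hT, ?_, ?_, ⟨?_, ?_, ?_⟩, ?_, ?_, ?_⟩ <;> simp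

theorem single1 {g : K} {s k P : ℤ} {T : Op K} (hT : T ∈ Fil g (k - 1) P) :
    Pi.single 1 T ∈ Lat g s k P := by
  refine ⟨?_, by simpa using hT, ?_, ⟨?_, ?_, ?_⟩, ?_, ?_, ?_⟩ <;> simp

theorem single2 {g : K} {s k P : ℤ} {T : Op K} (hT : T ∈ Fil g (k - 2) P) :
    Pi.single 2 T ∈ Lat g s k P := by
  refine ⟨?_, ?_, by simpa using hT, ⟨?_, ?_, ?_⟩, ?_, ?_, ?_⟩ <;> simp

/-- the pair at the vertex `K₁(-s)` -/
theorem single34 {g : K} {s k P : ℤ} {a b : Op K} (h : (a, b) ∈ LK g 1 (k - s) P) :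
    (Pi.single 3 a + Pi.single 4 b : Fin 7 → Op K) ∈ Lat g s k P := by
  refine ⟨?_, ?_, ?_, ?_, ?_, ?_, ?_⟩
  all_goals try (simp; done)
  have h3 : (Pi.single 3 a + Pi.single 4 b : Fin 7 → Op K) 3 = a := by simp
  have h4 : (Pi.single 3 a + Pi.single 4 b : Fin 7 → Op K) 4 = b := by simp
  rw [h3, h4]
  exact h

/-- the pair at the vertex `K₂` -/
theorem single56 {g : K} {s k P : ℤ} {a b : Op K} (h : (a, b) ∈ LK g 2 k P) :
    (Pi.single 5 a + Pi.single 6 b : Fin 7 → Op K) ∈ Lat g s k P := by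
  refine ⟨?_, ?_, ?_, ⟨?_, ?_, ?_⟩, ?_⟩
  all_goals try (simp; done)
  have h3 : (Pi.single 5 a + Pi.single 6 b : Fin 7 → Op K) 5 = a := by simp
  have h4 : (Pi.single 5 a + Pi.single 6 b : Fin 7 → Op K) 6 = b := by simp
  rw [h3, h4]
  exact h

/-- generators of the lattice `LK g j`: order `j`, degree `0`, and `(x₁, -x₀)` -/
theorem LK_unit0 {g : K} (hg : Gen g) {j k : ℤ} (hj : 0 ≤ j) (hk : j ≤ k) :
    ((1, 0) : Op K × Op K) ∈ LK g j k 0 := by
  have := LK_of (a2 := 1) (b2 := 0) (e := 0) hg hj (one_mem_Fil g (by omega : 0 ≤ k - j))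
    (zero_mem _) (zero_mem _)
  simpa using this

theorem LK_unit1 {g : K} (hg : Gen g) {j k : ℤ} (hj : 0 ≤ j) (hk : j ≤ k) :
    ((0, 1) : Op K × Op K) ∈ LK g j k 0 := by
  have := LK_of (a2 := 0) (b2 := 1) (e := 0) hg hj (zero_mem _)
    (one_mem_Fil g (by omega : 0 ≤ k - j)) (zero_mem _)
  simpa using this

theorem LK_kap {g : K} (hg : Gen g) {j k : ℤ} (hk : 0 ≤ k) :
    ((X 1, -X 0) : Op K × Op K) ∈ LK g j k 1 := by
  have := kap_mem (j := j) hg (k := k) (P := 1) (e := 1) (one_mem_Fil g hk)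
  simpa using this

/-- THE MEMBERSHIP CRITERION: `Pres` = nine conditions on the rows -/
theorem Pres_iff {g : K} (hg : Gen g) {s e : ℤ} {M : Mat K} : Pres g s e M ↔
    M 0 ∈ Lat g s 0 e ∧ M 1 ∈ Lat g s 1 e ∧ M 2 ∈ Lat g s 2 e ∧
    M 3 ∈ Lat g s (1 + s) e ∧ M 4 ∈ Lat g s (1 + s) e ∧
    (fun j => X 1 * M 3 j - X 0 * M 4 j) ∈ Lat g s s (1 + e) ∧
    M 5 ∈ Lat g s 2 e ∧ M 6 ∈ Lat g s 2 e ∧
    (fun j => X 1 * M 5 j - X 0 * M 6 j) ∈ Lat g s 0 (1 + e) := by
  constructor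
  · intro h
    have o0 := h 0 0 _ (single0 (s := s) (one_mem_Fil g (k := 0) le_rfl))
    have o1 := h 1 0 _ (single1 (s := s) (one_mem_Fil g (k := 1 - 1) le_rfl))
    have o2 := h 2 0 _ (single2 (s := s) (one_mem_Fil g (k := 2 - 2) le_rfl))
    have o3 := h (1 + s) 0 _ (single34 (s := s) (LK_unit0 hg (j := 1) (by omega)
      (by omega : (1 : ℤ) ≤ 1 + s - s)))
    have o4 := h (1 + s) 0 _ (single34 (s := s) (LK_unit1 hg (j := 1) (by omega)
      (by omega : (1 : ℤ) ≤ 1 + s - s)))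
    have o5 := h s 1 _ (single34 (s := s) (LK_kap hg (j := 1) (by omega : (0 : ℤ) ≤ s - s)))
    have o6 := h 2 0 _ (single56 (s := s) (LK_unit0 hg (j := 2) (by omega) le_rfl))
    have o7 := h 2 0 _ (single56 (s := s) (LK_unit1 hg (j := 2) (by omega) le_rfl))
    have o8 := h 0 1 _ (single56 (s := s) (LK_kap hg (j := 2) le_rfl))
    rw [row_vecMul, zero_add] at o0 o1 o2
    simp only [one_mul] at o0 o1 o2
    rw [Matrix.add_vecMul, row_vecMul, row_vecMul, zero_add] at o3 o4 o6 o7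
    rw [Matrix.add_vecMul, row_vecMul, row_vecMul] at o5 o8
    simp only [one_mul, zero_mul] at o3 o4 o6 o7
    have z : (fun _ => 0 : Fin 7 → Op K) = 0 := rfl
    rw [z, add_zero] at o3 o6
    rw [z, zero_add] at o4 o7
    refine ⟨o0, o1, o2, o3, o4, ?_, o6, o7, ?_⟩
    · convert o5 using 1
      funext j
      simp only [Pi.add_apply, neg_mul, sub_eq_add_neg]
    · convert o8 using 1
      funext j
      simp only [Pi.add_apply, neg_mul, sub_eq_add_neg]
  · rintro ⟨h0, h1, h2, h3, h4, h5, h6, h7, h8⟩ k P v hv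
    obtain ⟨v0, v1, v2, v3, v4⟩ := Lat_iff.1 hv
    obtain ⟨a2, ha2, b2, hb2, c, hc, e3, e4⟩ := LK_gen hg (by omega : (0 : ℤ) ≤ 1) v3
    obtain ⟨a2', ha2', b2', hb2', c', hc', e5, e6⟩ := LK_gen hg (by omega : (0 : ℤ) ≤ 2) v4
    have key : v ᵥ* M = (fun j => v 0 * M 0 j) + (fun j => v 1 * M 1 j) + (fun j => v 2 * M 2 j) +
        ((fun j => a2 * M 3 j) + (fun j => b2 * M 4 j) +
          (fun j => c * (X 1 * M 3 j - X 0 * M 4 j))) +
        ((fun j => a2' * M 5 j) + (fun j => b2' * M 6 j) +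
          (fun j => c' * (X 1 * M 5 j - X 0 * M 6 j))) := by
      funext j
      rw [vecMul_apply', e3, e4, e5, e6]
      simp only [Pi.add_apply, add_mul, sub_mul, mul_sub, mul_assoc]
      abel
    have t : ∀ {a b c : ℤ} {w : Fin 7 → Op K}, a = c → w ∈ Lat g s a b → w ∈ Lat g s c b :=
      fun h h' => h ▸ h'
    rw [key]
    refine add_mem (add_mem (add_mem (add_mem ?_ ?_) ?_) (add_mem (add_mem ?_ ?_) ?_))
      (add_mem (add_mem ?_ ?_) ?_)
    · exact t (by omega) (Lat_smul hg v0 h0)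
    · exact t (by omega) (Lat_smul hg v1 h1)
    · exact t (by omega) (Lat_smul hg v2 h2)
    · exact t (by omega) (Lat_smul hg ha2 h3)
    · exact t (by omega) (Lat_smul hg hb2 h4)
    · have := Lat_smul hg hc h5
      rw [show P - 1 + (1 + e) = P + e by ring] at this
      exact t (by omega) this
    · exact t (by omega) (Lat_smul hg ha2' h6)
    · exact t (by omega) (Lat_smul hg hb2' h7)
    · have := Lat_smul hg hc' h8
      rw [show P - 1 + (1 + e) = P + e by ring] at this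
      exact t (by omega) this

end Crest.Agent.R186.LatK881
end

-- ▼ part R186/W1def_952

/-!
Row 186, S0281, base, leaf B281.W1 (helper952): DEFINITIONS of the resolution of `W g 1` over
`A g 1`:

`0 → Pv 2 --d3--> (Pv 3)² --d2--> (Pv 4)² --d1--> Pv 0 --ε--> W → 0`.

`d1 x = ∑ k, x k * b1 k`, `(d2 x) l = ∑ k, x k * b2 k l`, `(d3 w) k = w * b3 k`,
`ε x i = res (x.1.fst i 0)`.
-/

set_option autoImplicit false
set_option linter.unusedSectionVars false

open Matrix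

namespace Crest.Agent.R186.W1

open Crest.Agent.R186.B281
open Crest.Agent.R186.LatK881 (LK mem_LK Pres_iff single0 single34 single56)

variable {K : Type} [Field K]

/-- entries `(5,0) = a`, `(6,0) = b` -/
noncomputable def mat1 (a b : Op K) : Mat K :=
  ![0, 0, 0, 0, 0, Pi.single 0 a, Pi.single 0 b]

/-- entries `(3,5) = a`, `(3,6) = b`, `(4,5) = c`, `(4,6) = d` -/
noncomputable def mat2 (a b c d : Op K) : Mat K :=
  ![0, 0, 0, Pi.single 5 a + Pi.single 6 b, Pi.single 5 c + Pi.single 6 d, 0, 0]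

/-- entries `(2,3) = a`, `(2,4) = b` -/
noncomputable def mat3 (a b : Op K) : Mat K :=
  ![0, 0, Pi.single 3 a + Pi.single 4 b, 0, 0, 0, 0]

section
variable {g : K} (hg : Gen g)
include hg

theorem zrow (s k P : ℤ) : (fun j => X 1 * (0 : Fin 7 → Op K) j - X 0 * (0 : Fin 7 → Op K) j) ∈
    Lat g s k P := by
  have : (fun j => X 1 * (0 : Fin 7 → Op K) j - X 0 * (0 : Fin 7 → Op K) j) = 0 := by
    funext j
    rw [Pi.zero_apply, mul_zero, mul_zero, sub_zero]
  rw [this]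
  exact zero_mem _

theorem pres1 {a b : Op K} (ha : a ∈ Fil g 2 0) (hb : b ∈ Fil g 2 0)
    (hab : X 1 * a - X 0 * b ∈ Fil g 0 1) : Pres g 1 0 (mat1 a b) := by
  rw [Pres_iff hg]
  refine ⟨zero_mem _, zero_mem _, zero_mem _, zero_mem _, zero_mem _, zrow hg _ _ _, single0 ha,
    single0 hb, ?_⟩
  have : (fun j => X 1 * mat1 a b 5 j - X 0 * mat1 a b 6 j) =
      (Pi.single 0 (X 1 * a - X 0 * b) : Fin 7 → Op K) := by
    funext j
    by_cases hj : j = 0
    · subst hj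
      rfl
    · rw [Pi.single_eq_of_ne hj]
      show X 1 * (Pi.single 0 a : Fin 7 → Op K) j - X 0 * (Pi.single 0 b : Fin 7 → Op K) j = 0
      rw [Pi.single_eq_of_ne hj, Pi.single_eq_of_ne hj, mul_zero, mul_zero, sub_zero]
  rw [this]
  exact single0 hab

theorem pres2 {a b c d : Op K} (h3 : (a, b) ∈ LK g 2 2 0) (h4 : (c, d) ∈ LK g 2 2 0)
    (h34 : (X 1 * a - X 0 * c, X 1 * b - X 0 * d) ∈ LK g 2 1 1) : Pres g 1 0 (mat2 a b c d) := by
  rw [Pres_iff hg]
  refine ⟨zero_mem _, zero_mem _, zero_mem _, single56 h3, single56 h4, ?_, zero_mem _,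
    zero_mem _, zrow hg _ _ _⟩
  have : (fun j => X 1 * mat2 a b c d 3 j - X 0 * mat2 a b c d 4 j) =
      (Pi.single 5 (X 1 * a - X 0 * c : Op K) + Pi.single 6 (X 1 * b - X 0 * d : Op K) :
        Fin 7 → Op K) := by
    funext j
    show X 1 * ((Pi.single 5 a : Fin 7 → Op K) j + (Pi.single 6 b : Fin 7 → Op K) j) -
      X 0 * ((Pi.single 5 c : Fin 7 → Op K) j + (Pi.single 6 d : Fin 7 → Op K) j) = _
    rw [Pi.add_apply]
    by_cases h5 : j = 5
    · subst h5
      rw [Pi.single_eq_same, Pi.single_eq_same, Pi.single_eq_same,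
        Pi.single_eq_of_ne (by decide), Pi.single_eq_of_ne (by decide),
        Pi.single_eq_of_ne (by decide), add_zero, add_zero, add_zero]
    · rw [Pi.single_eq_of_ne h5, Pi.single_eq_of_ne h5, Pi.single_eq_of_ne h5, zero_add, zero_add,
        zero_add]
      by_cases h6 : j = 6
      · subst h6
        rw [Pi.single_eq_same, Pi.single_eq_same, Pi.single_eq_same]
      · rw [Pi.single_eq_of_ne h6, Pi.single_eq_of_ne h6, Pi.single_eq_of_ne h6, mul_zero,
          mul_zero, sub_zero]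
  rw [this]
  exact single56 h34

theorem pres3 {a b : Op K} (h : (a, b) ∈ LK g 1 1 0) : Pres g 1 0 (mat3 a b) := by
  rw [Pres_iff hg]
  exact ⟨zero_mem _, zero_mem _, single34 h, zero_mem _, zero_mem _, zrow hg _ _ _, zero_mem _,
    zero_mem _, zrow hg _ _ _⟩

end

theorem sup1 (a b : Op K) (i j : Fin 7) (hj : j ≠ 0) : mat1 a b i j = 0 := by
  fin_cases i
  exacts [rfl, rfl, rfl, rfl, rfl, Pi.single_eq_of_ne hj _, Pi.single_eq_of_ne hj _]

theorem sup2 (a b c d : Op K) (i j : Fin 7) (h5 : j ≠ 5) (h6 : j ≠ 6) : mat2 a b c d i j = 0 := by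
  have key : ∀ a b : Op K, (Pi.single 5 a + Pi.single 6 b : Fin 7 → Op K) j = 0 := fun a b => by
    rw [Pi.add_apply, Pi.single_eq_of_ne h5, Pi.single_eq_of_ne h6, add_zero]
  fin_cases i
  exacts [rfl, rfl, rfl, key a b, key c d, rfl, rfl]

theorem sup3 (a b : Op K) (i j : Fin 7) (h3 : j ≠ 3) (h4 : j ≠ 4) : mat3 a b i j = 0 := by
  fin_cases i
  exacts [rfl, rfl, by
    show (Pi.single 3 a + Pi.single 4 b : Fin 7 → Op K) j = 0
    rw [Pi.add_apply, Pi.single_eq_of_ne h3, Pi.single_eq_of_ne h4, add_zero], rfl, rfl, rfl, rfl]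

/-! ### membership -/

section
variable {g : K} (hg : Gen g)
include hg

theorem mXi (i : Fin 2) : (X i : Op K) ∈ Fil g 0 1 := by
  have := FD757.X_mul_mem i (one_mem_Fil g (le_refl 0))
  rwa [mul_one, zero_add] at this

theorem mDi (i : Fin 2) : (D g i : Op K) ∈ Fil g 1 (-1) := by
  have := FD757.D_mul_mem hg i (one_mem_Fil g (le_refl 0))
  rwa [mul_one, zero_add, zero_sub] at this

theorem mXD (i j : Fin 2) : (X i : Op K) * D g j ∈ Fil g 1 0 := by
  have := FD757.X_mul_mem i (mDi hg j)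
  rwa [neg_add_cancel] at this



/-! ### the matrices -/

theorem p1_0 : Pres g 1 0 (mat1 (X 0 * D g 0 - 1) (X 1 * D g 0)) := by
  refine pres1 hg (sub_mem (Fil_mono g (by omega) (mXD hg 0 0)) (one_mem_Fil g (by omega)))
    (Fil_mono g (by omega) (mXD hg 1 0)) ?_
  have : X 1 * (X 0 * D g 0 - 1) - X 0 * (X 1 * D g 0) = -(X 1 : Op K) := by
    rw [mul_sub, ← mul_assoc, ← mul_assoc, X_comm 1 0, mul_one]
    abel
  rw [this]
  exact neg_mem (mXi hg 1)

theorem p1_1 : Pres g 1 0 (mat1 (X 0 * D g 1) (X 1 * D g 1 - 1)) := by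
  refine pres1 hg (Fil_mono g (by omega) (mXD hg 0 1))
    (sub_mem (Fil_mono g (by omega) (mXD hg 1 1)) (one_mem_Fil g (by omega))) ?_
  have : X 1 * (X 0 * D g 1) - X 0 * (X 1 * D g 1 - 1) = (X 0 : Op K) := by
    rw [mul_sub, ← mul_assoc, ← mul_assoc, X_comm 1 0, mul_one]
    abel
  rw [this]
  exact mXi hg 0

theorem lk_a : ((1, 0) : Op K × Op K) ∈ LK g 2 2 0 := by
  refine ⟨one_mem_Fil g (by omega), zero_mem _, ?_⟩
  rw [one_mul, zero_mul, add_zero]
  exact mXi hg 0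

theorem lk_b : ((0, 1) : Op K × Op K) ∈ LK g 2 2 0 := by
  refine ⟨zero_mem _, one_mem_Fil g (by omega), ?_⟩
  rw [one_mul, zero_mul, zero_add (X 1 : Op K)]
  exact mXi hg 1


/-- `(y x₁, -y x₀)` -/
theorem lk_c {j k P : ℤ} {y : Op K} (hy : y ∈ Fil g k (P - 1)) :
    ((y * X 1, -(y * X 0)) : Op K × Op K) ∈ LK g j k P := LatK881.kap_mem hg hy

theorem lk_add {j k P : ℤ} {a b c d : Op K} (h : ((a, b) : Op K × Op K) ∈ LK g j k P)
    (h' : ((c, d) : Op K × Op K) ∈ LK g j k P) : ((a + c, b + d) : Op K × Op K) ∈ LK g j k P :=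
  add_mem h h'

theorem p2_00 : Pres g 1 0 (mat2 1 0 (D g 0 * X 1) (1 - D g 0 * X 0)) := by
  refine pres2 hg (lk_a hg) ?_ ?_
  · have := lk_add hg (lk_b hg) (lk_c hg (j := 2) (k := 2) (P := 0) (y := D g 0)
      (Fil_mono g (by omega) (mDi hg 0)))
    rwa [zero_add, ← sub_eq_add_neg] at this
  · have := lk_c hg (j := 2) (k := 1) (P := 1) (y := 1 - X 0 * D g 0)
      (sub_mem (one_mem_Fil g (by omega)) (mXD hg 0 0))
    have e1 : (1 - X 0 * D g 0) * X 1 = X 1 * 1 - X 0 * (D g 0 * X 1) := by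
      rw [sub_mul, one_mul, mul_one, mul_assoc]
    have e2 : -((1 - X 0 * D g 0) * X 0) = X 1 * (0 : Op K) - X 0 * (1 - D g 0 * X 0) := by
      rw [sub_mul, one_mul, mul_zero, mul_sub, mul_one, mul_assoc, zero_sub]
    rwa [e1, e2] at this

theorem p2_01 : Pres g 1 0 (mat2 (-(g • (D g 0 * X 1))) (g • (D g 0 * X 0)) 0 0) := by
  refine pres2 hg ?_ (zero_mem _) ?_
  · have := Submodule.smul_mem _ (-g) (lk_c hg (j := 2) (k := 2) (P := 0) (y := D g 0)
      (Fil_mono g (by omega) (mDi hg 0)))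
    rwa [Prod.smul_mk, neg_smul, neg_smul, smul_neg, neg_neg] at this
  · have := Submodule.smul_mem _ (-g) (lk_c hg (j := 2) (k := 1) (P := 1) (y := X 1 * D g 0)
      (mXD hg 1 0))
    rw [Prod.smul_mk, neg_smul, neg_smul, smul_neg, neg_neg] at this
    rwa [mul_neg, mul_smul_comm, mul_smul_comm, mul_zero, sub_zero, sub_zero, ← mul_assoc,
      ← mul_assoc]

theorem p2_10 : Pres g 1 0 (mat2 0 0 (g • (D g 1 * X 1)) (-(g • (D g 1 * X 0)))) := by
  refine pres2 hg (zero_mem _) ?_ ?_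
  · have := Submodule.smul_mem _ g (lk_c hg (j := 2) (k := 2) (P := 0) (y := D g 1)
      (Fil_mono g (by omega) (mDi hg 1)))
    rwa [Prod.smul_mk, smul_neg] at this
  · have := Submodule.smul_mem _ (-g) (lk_c hg (j := 2) (k := 1) (P := 1) (y := X 0 * D g 1)
      (mXD hg 0 1))
    rw [Prod.smul_mk, neg_smul, neg_smul, smul_neg, neg_neg] at this
    rwa [mul_neg, mul_smul_comm, mul_smul_comm, mul_zero, zero_sub, zero_sub, ← mul_assoc,
      ← mul_assoc, neg_neg]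

theorem p2_11 : Pres g 1 0 (mat2 (1 - D g 1 * X 1) (D g 1 * X 0) 0 1) := by
  refine pres2 hg ?_ (lk_b hg) ?_
  · have := lk_add hg (lk_a hg) (Submodule.smul_mem _ (-1 : K) (lk_c hg (j := 2) (k := 2) (P := 0)
      (y := D g 1) (Fil_mono g (by omega) (mDi hg 1))))
    rwa [zero_add, neg_smul, neg_smul, one_smul, one_smul, neg_neg, ← sub_eq_add_neg] at this
  · have := lk_c hg (j := 2) (k := 1) (P := 1) (y := 1 - X 1 * D g 1)
      (sub_mem (one_mem_Fil g (by omega)) (mXD hg 1 1))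
    have e1 : (1 - X 1 * D g 1) * X 1 = X 1 * (1 - D g 1 * X 1) - X 0 * (0 : Op K) := by
      rw [sub_mul, one_mul, mul_zero, mul_sub, mul_one, mul_assoc, sub_zero]
    have e2 : -((1 - X 1 * D g 1) * X 0) = X 1 * (D g 1 * X 0) - X 0 * (1 : Op K) := by
      rw [sub_mul, one_mul, mul_one, mul_assoc, neg_sub]
    rwa [e1, e2] at this

theorem p3_0 : Pres g 1 0 (mat3 (-(D g 1 * X 1)) (D g 1 * X 0)) := by
  refine pres3 hg ?_
  have := Submodule.smul_mem _ (-1 : K) (lk_c hg (j := 1) (k := 1) (P := 0)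
      (y := D g 1) (mDi hg 1))
  rwa [Prod.smul_mk, neg_smul, neg_smul, one_smul, one_smul, neg_neg] at this

theorem p3_1 : Pres g 1 0 (mat3 (D g 0 * X 1) (-(D g 0 * X 0))) :=
  pres3 hg (lk_c hg (j := 1) (k := 1) (P := 0) (y := D g 0) (mDi hg 0))

/-! ### the elements -/

/-- `b1 k ∈ Pv 0` -/
noncomputable def b1 : Fin 2 → Pv g 1 0 :=
  ![⟨ofM (mat1 (X 0 * D g 0 - 1) (X 1 * D g 0)) 0 (p1_0 hg) (Pres.zero g 1 1),
      mem_Pv.2 fun i j hj => ⟨sup1 _ _ i j (fun h => hj (by rw [h]; rfl)), rfl⟩⟩,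
    ⟨ofM (mat1 (X 0 * D g 1) (X 1 * D g 1 - 1)) 0 (p1_1 hg) (Pres.zero g 1 1),
      mem_Pv.2 fun i j hj => ⟨sup1 _ _ i j (fun h => hj (by rw [h]; rfl)), rfl⟩⟩]

/-- `b2 k l ∈ Pv 4` -/
noncomputable def b2 : Fin 2 → Fin 2 → Pv g 1 4 :=
  ![![⟨ofM (mat2 1 0 (D g 0 * X 1) (1 - D g 0 * X 0)) 0 (p2_00 hg) (Pres.zero g 1 1),
        mem_Pv.2 fun i j hj => ⟨sup2 _ _ _ _ i j (fun h => hj (by rw [h]; rfl))
          (fun h => hj (by rw [h]; rfl)), rfl⟩⟩,
      ⟨ofM (mat2 (-(g • (D g 0 * X 1))) (g • (D g 0 * X 0)) 0 0) 0 (p2_01 hg) (Pres.zero g 1 1),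
        mem_Pv.2 fun i j hj => ⟨sup2 _ _ _ _ i j (fun h => hj (by rw [h]; rfl))
          (fun h => hj (by rw [h]; rfl)), rfl⟩⟩],
    ![⟨ofM (mat2 0 0 (g • (D g 1 * X 1)) (-(g • (D g 1 * X 0)))) 0 (p2_10 hg) (Pres.zero g 1 1),
        mem_Pv.2 fun i j hj => ⟨sup2 _ _ _ _ i j (fun h => hj (by rw [h]; rfl))
          (fun h => hj (by rw [h]; rfl)), rfl⟩⟩,
      ⟨ofM (mat2 (1 - D g 1 * X 1) (D g 1 * X 0) 0 1) 0 (p2_11 hg) (Pres.zero g 1 1),
        mem_Pv.2 fun i j hj => ⟨sup2 _ _ _ _ i j (fun h => hj (by rw [h]; rfl))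
          (fun h => hj (by rw [h]; rfl)), rfl⟩⟩]]

/-- `b3 k ∈ Pv 3` -/
noncomputable def b3 : Fin 2 → Pv g 1 3 :=
  ![⟨ofM (mat3 (-(D g 1 * X 1)) (D g 1 * X 0)) 0 (p3_0 hg) (Pres.zero g 1 1),
      mem_Pv.2 fun i j hj => ⟨sup3 _ _ i j (fun h => hj (by rw [h]; rfl))
          (fun h => hj (by rw [h]; rfl)), rfl⟩⟩,
    ⟨ofM (mat3 (D g 0 * X 1) (-(D g 0 * X 0))) 0 (p3_1 hg) (Pres.zero g 1 1),
      mem_Pv.2 fun i j hj => ⟨sup3 _ _ i j (fun h => hj (by rw [h]; rfl))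
          (fun h => hj (by rw [h]; rfl)), rfl⟩⟩]

/-! ### the maps -/

/-- `C1 → C0`: `x ↦ ∑ k, x k * b1 k` -/
noncomputable def d1 : (Fin 2 → Pv g 1 4) →ₗ[A g 1] Pv g 1 0 :=
  (mulR 4 (b1 hg 0)).comp (LinearMap.proj 0) + (mulR 4 (b1 hg 1)).comp (LinearMap.proj 1)

/-- `C2 → C1`: `x ↦ (l ↦ ∑ k, x k * b2 k l)` -/
noncomputable def d2 : (Fin 2 → Pv g 1 3) →ₗ[A g 1] (Fin 2 → Pv g 1 4) :=
  LinearMap.pi fun l =>
    (mulR 3 (b2 hg 0 l)).comp (LinearMap.proj 0) + (mulR 3 (b2 hg 1 l)).comp (LinearMap.proj 1)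

/-- `C3 → C2`: `w ↦ (k ↦ w * b3 k)` -/
noncomputable def d3 : Pv g 1 2 →ₗ[A g 1] (Fin 2 → Pv g 1 3) :=
  LinearMap.pi fun k => mulR 2 (b3 hg k)


theorem d2_coe (x : Fin 2 → Pv g 1 3) (l : Fin 2) :
    (d2 hg x l : A g 1) = x 0 * b2 hg 0 l + x 1 * b2 hg 1 l := rfl


end

theorem ε_smul (g : K) (a : A g 1) (x : Pv g 1 0) (i : Fin 7) :
    res ((a • x : Pv g 1 0).1.1.fst i 0) = ∑ j, res (a.1.fst i j) * res (x.1.1.fst j 0) := by
  show res ((a * (x : A g 1)).1.fst i 0) = _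
  rw [fst_mulA, Matrix.mul_apply, res_sum]
  refine Finset.sum_congr rfl fun j _ => ?_
  obtain ⟨k, hk⟩ := a.2.1.entry i j
  obtain ⟨l, hl⟩ := x.1.2.1.entry j 0
  exact res_mul hk hl

/-- `C0 → W`: the residues of column `0` -/
noncomputable def ε (g : K) : Pv g 1 0 →ₗ[A g 1] W g 1 where
  toFun x := (fun i => res (x.1.1.fst i 0) : Fin 7 → K)
  map_add' _ _ := rfl
  map_smul' a x := funext fun i => ε_smul g a x i

theorem ε_apply (g : K) (x : Pv g 1 0) (i : Fin 7) : ε g x i = res (x.1.1.fst i 0) := rfl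

end Crest.Agent.R186.W1
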