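import Crest.Agent.R186.RingA_580
import Crest.Agent.R186.Inst_823
import Crest.Agent.R186.M2_291
import Crest.Agent.R186.W0def_93
import Crest.Agent.R186.W1def_952

-- ▼ part R186/DM_136
section

/-!
Row 186, S0281, leaf B281.M (helper136): the elements `hE = (E₂₀ 1, 0)`,
`aE = (E₂₀ (d₁x₀)², 0)` of `A g s`, the element of `t` (`t0E = E₁₀ d₁x₀` for `s = 0`,
`t1E = E₄₀ d₁x₀` for `s = 1`), the two injectivities and the bijectivity of the middle map
`Hom(P₁, W) → Hom(P₂, W)`, generic in the submodules `P v = {x | x * e v = x}`.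
-/

set_option autoImplicit false
set_option linter.unusedSectionVars false

open Matrix

namespace Crest.Agent.R186.B281M

open B281

/-! ### maps from finite families `ι → R e` -/

section gen

variable {R : Type*} [Semiring R] {W : Type*} [AddCommMonoid W] [Module R W]
  {e : R} {P : Submodule R R} (hP : ∀ x, x ∈ P ↔ x * e = x) (hee : e * e = e)
  {ι : Type*} [Fintype ι] [DecidableEq ι]

/-- the generator -/
def gn : P := ⟨e, (hP e).2 hee⟩

theorem smul_gn (x : P) : (x : R) • gn hP hee = x := Subtype.ext ((hP _).1 x.2)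

theorem gn_smul : e • gn hP hee = gn hP hee := smul_gn hP hee (gn hP hee)

theorem homF_apply (φ : (ι → P) →ₗ[R] W) (x : ι → P) :
    φ x = ∑ i, (x i : R) • φ (Pi.single i (gn hP hee)) := by
  have h1 : x = ∑ i, (x i : R) • (Pi.single i (gn hP hee) : ι → P) := by
    funext j
    rw [Finset.sum_apply, Finset.sum_eq_single j]
    · rw [Pi.smul_apply, Pi.single_eq_same, smul_gn]
    · intro i _ hij
      rw [Pi.smul_apply, Pi.single_eq_of_ne (Ne.symm hij), smul_zero]
    · intro h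
      exact absurd (Finset.mem_univ j) h
  conv_lhs => rw [h1]
  rw [map_sum]
  exact Finset.sum_congr rfl fun i _ => map_smul _ _ _

theorem homF_gn (φ : (ι → P) →ₗ[R] W) (i : ι) :
    e • φ (Pi.single i (gn hP hee)) = φ (Pi.single i (gn hP hee)) := by
  rw [← map_smul]
  congr 1
  funext j
  rw [Pi.smul_apply]
  by_cases h : j = i
  · subst h
    rw [Pi.single_eq_same, gn_smul]
  · rw [Pi.single_eq_of_ne h, smul_zero]

theorem homF_ext (φ ψ : (ι → P) →ₗ[R] W)
    (h : ∀ i, φ (Pi.single i (gn hP hee)) = ψ (Pi.single i (gn hP hee))) : φ = ψ := by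
  refine LinearMap.ext fun x => ?_
  rw [homF_apply hP hee φ x, homF_apply hP hee ψ x]
  simp only [h]

/-- the map `x ↦ Σ xᵢ wᵢ` -/
def ofWF (P : Submodule R R) (w : ι → W) : (ι → P) →ₗ[R] W where
  toFun x := ∑ i, (x i : R) • w i
  map_add' x y := by
    rw [← Finset.sum_add_distrib]
    exact Finset.sum_congr rfl fun i _ => add_smul _ _ _
  map_smul' c x := by
    rw [RingHom.id_apply, Finset.smul_sum]
    exact Finset.sum_congr rfl fun i _ => mul_smul _ _ _

variable {f : R} {Q : Submodule R R} (hQ : ∀ x, x ∈ Q ↔ x * f = x) (hff : f * f = f)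
  {κ : Type*} [Fintype κ] [DecidableEq κ]

theorem ms_core (d : (κ → P) →ₗ[R] (ι → Q)) (φ : (κ → P) →ₗ[R] W) (w : ι → W)
    (hw : ∀ k, ∑ i, (d (Pi.single k (gn hP hee)) i : R) • w i = φ (Pi.single k (gn hP hee))) :
    ∃ ψ : (ι → Q) →ₗ[R] W, ψ ∘ₗ d = φ := by
  exact ⟨ofWF Q w, homF_ext hP hee _ _ hw⟩

include hQ hff in
theorem mi_core (d : (κ → P) →ₗ[R] (ι → Q)) (φ : (ι → Q) →ₗ[R] W) (h : φ ∘ₗ d = 0)
    (hw : ∀ w : ι → W, (∀ i, f • w i = w i) →
      (∀ k, ∑ i, (d (Pi.single k (gn hP hee)) i : R) • w i = 0) → ∀ i, w i = 0) : φ = 0 := by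
  refine homF_ext hQ hff _ _ (hw _ (homF_gn hQ hff φ) fun k => ?_)
  rw [← homF_apply hQ hff φ]
  exact LinearMap.congr_fun h _

end gen

variable {K : Type} [Field K] {g : K} {s : ℤ}

/-! ### right multiplications on `Fil` -/

theorem D_pow_X (hg : Gen g) (i : Fin 2) (b : ℕ) :
    ∃ c : K, (D g i : Op K) ^ b * X i = (g⁻¹) ^ b • (X i * D g i ^ b) + c • D g i ^ (b - 1) := by
  have h0 : (D g i : Op K) * X i = g⁻¹ • (X i * D g i) + (-g⁻¹) • 1 := by
    rw [X_D_self hg, smul_add, smul_smul, inv_mul_cancel₀ hg.1, one_smul]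
    module
  induction b with
  | zero => exact ⟨0, by simp⟩
  | succ b ih =>
    obtain ⟨c, hc⟩ := ih
    rcases Nat.eq_zero_or_pos b with hb | hb
    · subst hb
      refine ⟨-g⁻¹, ?_⟩
      simp only [zero_add, pow_one, Nat.sub_self, pow_zero]
      rw [h0]
    · refine ⟨-(g⁻¹ * g⁻¹ ^ b) + c, ?_⟩
      rw [pow_succ', mul_assoc, hc, mul_add, mul_smul_comm, ← mul_assoc, h0, mul_smul_comm,
        ← pow_succ', Nat.sub_add_cancel hb, Nat.add_sub_cancel, add_mul, smul_mul_assoc,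
        smul_mul_assoc, one_mul, mul_assoc, ← pow_succ', pow_succ' g⁻¹ b]
      module

theorem mon_mul_D (g : K) (a b : ℕ × ℕ) (i : Fin 2) :
    ∃ b' : ℕ × ℕ, b'.1 + b'.2 = b.1 + b.2 + 1 ∧ mon g a b * D g i = mon g a b' := by
  have hc : ∀ (m n : ℕ), (D g 1 : Op K) ^ m * D g 0 ^ n = D g 0 ^ n * D g 1 ^ m := fun m n =>
    ((show Commute (D g 1 : Op K) (D g 0) from D_comm g 1 0).pow_pow m n)
  fin_cases i
  · refine ⟨(b.1 + 1, b.2), by simp; ring, ?_⟩
    show mon g a b * D g 0 = _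
    unfold mon
    have := hc b.2 1
    rw [pow_one] at this
    rw [mul_assoc _ (D g 1 ^ b.2), this, ← mul_assoc, mul_assoc _ (D g 0 ^ b.1), ← pow_succ]
  · refine ⟨(b.1, b.2 + 1), by simp; ring, ?_⟩
    show mon g a b * D g 1 = _
    unfold mon
    rw [mul_assoc _ (D g 1 ^ b.2), ← pow_succ]

theorem mul_D {k P : ℤ} {T : Op K} (hT : T ∈ Fil g k P) (i : Fin 2) :
    T * D g i ∈ Fil g (k + 1) (P - 1) := by
  induction hT using Submodule.span_induction with
  | mem x hx =>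
    obtain ⟨a, b, h1, h2, rfl⟩ := hx
    obtain ⟨b', hb, e⟩ := mon_mul_D g a b i
    rw [e]
    refine mon_mem g a b' ?_ ?_ <;> omega
  | zero => rw [zero_mul]; exact zero_mem _
  | add x y _ _ hx hy => rw [add_mul]; exact add_mem hx hy
  | smul a x _ hx => rw [smul_mul_assoc]; exact Submodule.smul_mem _ a hx

theorem mon_mul_X0 (hg : Gen g) (a b : ℕ × ℕ) :
    ∃ c c' : K, mon g a b * X 0 = c • mon g (a.1 + 1, a.2) b + c' • mon g a (b.1 - 1, b.2) ∧
      (b.1 = 0 → c' = 0) := by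
  have h1 : (D g 1 : Op K) ^ b.2 * X 0 = X 0 * D g 1 ^ b.2 :=
    ((show Commute (X 0 : Op K) (D g 1) from X_D g (by decide)).pow_right b.2).symm
  have h2 : ∀ n : ℕ, (X 1 : Op K) ^ n * X 0 = X 0 * X 1 ^ n := fun n =>
    ((show Commute (X 0 : Op K) (X 1) from X_comm 0 1).pow_right n).symm
  obtain ⟨c, hc⟩ := D_pow_X hg 0 b.1
  by_cases hb : b.1 = 0
  · refine ⟨1, 0, ?_, fun _ => rfl⟩
    unfold mon
    simp only [hb, pow_zero, mul_one, one_smul, zero_smul, add_zero]
    rw [mul_assoc _ (D g 1 ^ b.2), h1, ← mul_assoc, mul_assoc _ (X 1 ^ a.2), h2, ← mul_assoc,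
      ← pow_succ]
  · refine ⟨g⁻¹ ^ b.1, c, ?_, fun h => absurd h hb⟩
    unfold mon
    rw [mul_assoc _ (D g 1 ^ b.2), h1, ← mul_assoc, mul_assoc _ (D g 0 ^ b.1), hc, mul_add,
      add_mul, mul_smul_comm, mul_smul_comm, smul_mul_assoc, smul_mul_assoc]
    congr 2
    rw [← mul_assoc, mul_assoc _ (X 1 ^ a.2), h2, ← mul_assoc, ← pow_succ]

theorem mul_X0 (hg : Gen g) {k P : ℤ} {T : Op K} (hT : T ∈ Fil g k P) :
    T * X 0 ∈ Fil g k (P + 1) := by
  induction hT using Submodule.span_induction with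
  | mem x hx =>
    obtain ⟨a, b, h1, h2, rfl⟩ := hx
    obtain ⟨c, c', e, h3⟩ := mon_mul_X0 hg a b
    rw [e]
    refine add_mem (Submodule.smul_mem _ _ (mon_mem g _ _ h1 ?_)) ?_
    · show ((a.1 + 1 : ℕ) : ℤ) + a.2 - (b.1 + b.2) = P + 1
      push_cast
      omega
    · by_cases hb : b.1 = 0
      · rw [h3 hb, zero_smul]
        exact zero_mem _
      · refine Submodule.smul_mem _ _ (mon_mem g _ _ ?_ ?_)
        · show ((b.1 - 1 : ℕ) : ℤ) + b.2 ≤ k
          omega
        · show (a.1 : ℤ) + a.2 - ((b.1 - 1 : ℕ) + b.2) = P + 1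
          omega
  | zero => rw [zero_mul]; exact zero_mem _
  | add x y _ _ hx hy => rw [add_mul]; exact add_mem hx hy
  | smul a x _ hx => rw [smul_mul_assoc]; exact Submodule.smul_mem _ a hx

theorem mul_DX (hg : Gen g) {k P : ℤ} {T : Op K} (hT : T ∈ Fil g k P) :
    T * (D g 1 * X 0) ∈ Fil g (k + 1) P := by
  have := mul_X0 hg (mul_D hT 1)
  rwa [sub_add_cancel, mul_assoc] at this

/-! ### operators of order `≤ 0` -/

/-- the translation by `n` -/
noncomputable def tau (K : Type) [Field K] (n : ℤ × ℤ) : Op K :=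
  Finsupp.lmapDomain K K (fun m => m + n)

theorem tau_single (n m : ℤ × ℤ) (a : K) :
    tau K n (Finsupp.single m a) = Finsupp.single (m + n) a := by
  simp [tau]

theorem X_tau (i : Fin 2) (n : ℤ × ℤ) : Commute (X i : Op K) (tau K n) := by
  apply op_ext
  intro m
  simp only [Module.End.mul_apply, X_single, tau_single]
  congr 1
  abel

theorem Fil_zero_tau {P : ℤ} {T : Op K} (hT : T ∈ Fil g 0 P) (n : ℤ × ℤ) :
    T * tau K n = tau K n * T := by
  induction hT using Submodule.span_induction with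
  | mem x hx =>
    obtain ⟨a, b, h1, h2, rfl⟩ := hx
    have h3 : b.1 = 0 := by omega
    have h4 : b.2 = 0 := by omega
    unfold mon
    simp only [h3, h4, pow_zero, mul_one]
    exact ((X_tau 0 n).pow_left a.1).mul_left ((X_tau 1 n).pow_left a.2)
  | zero => rw [zero_mul, mul_zero]
  | add x y _ _ hx hy => rw [add_mul, mul_add, hx, hy]
  | smul a x _ hx => rw [smul_mul_assoc, mul_smul_comm, hx]

/-- an operator of order `≤ 0` which kills one monomial is zero -/
theorem Fil_zero_eq {P : ℤ} {T : Op K} (hT : T ∈ Fil g 0 P) (m : ℤ × ℤ)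
    (h : T (Finsupp.single m 1) = 0) : T = 0 := by
  apply op_ext
  intro m'
  have h1 := LinearMap.congr_fun (Fil_zero_tau hT (m' - m)) (Finsupp.single m 1)
  rw [Module.End.mul_apply, Module.End.mul_apply, h, map_zero, tau_single,
    add_sub_cancel] at h1
  rw [h1, LinearMap.zero_apply]

theorem DX_single (m : ℤ × ℤ) (c : K) :
    (D g 1 * X 0 : Op K) (Finsupp.single m c) = Finsupp.single (m + ev 0 - ev 1) (cq g m.2 * c) := by
  rw [Module.End.mul_apply, X_single, D_single]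
  congr 2
  simp [co, ev]

/-- `(d₁x₀)²` is independent of `1` over the operators of order `≤ 0` -/
theorem core (hg : Gen g) {P Q : ℤ} {T U : Op K} (hT : T ∈ Fil g 0 P) (hU : U ∈ Fil g 0 Q)
    (h : T * (D g 1 * X 0) ^ 2 = U) : T = 0 := by
  have h1 : U = 0 := by
    refine Fil_zero_eq hU (0, 0) ?_
    rw [← h, pow_two, Module.End.mul_apply, Module.End.mul_apply, DX_single]
    simp [cq_zero]
  rw [h1] at h
  have h2 := LinearMap.congr_fun h (Finsupp.single (0, -1) 1)
  rw [pow_two, Module.End.mul_apply, Module.End.mul_apply, DX_single, DX_single,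
    LinearMap.zero_apply] at h2
  have h3 : cq g (-1) ≠ 0 := cq_ne hg (by norm_num)
  have h4 : cq g (-1 - 1) ≠ 0 := cq_ne hg (by norm_num)
  set m : ℤ × ℤ := (0, -1) + ev 0 - ev 1 + ev 0 - ev 1 with hm
  have h5 : ((0, -1) + ev 0 - ev 1 : ℤ × ℤ).2 = -1 - 1 := by simp [ev]
  rw [h5, show (Finsupp.single m (cq g (-1 - 1) * (cq g (((0 : ℤ), (-1 : ℤ)) : ℤ × ℤ).2 * 1)) : Lau K)
    = (cq g (-1 - 1) * cq g (-1)) • Finsupp.single m 1 by
      rw [Finsupp.smul_single, smul_eq_mul, mul_one, mul_one], map_smul] at h2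
  exact Fil_zero_eq hT m ((smul_eq_zero.1 h2).resolve_left (mul_ne_zero h4 h3))

/-! ### the elements -/

/-- `(E_ij T, 0)` -/
noncomputable def sm (i j : Fin 7) (T : Op K) : DualNumber (Mat K) :=
  TrivSqZeroExt.inl (Matrix.single i j T)

theorem sm_fst (i j : Fin 7) (T : Op K) : (sm i j T).fst = Matrix.single i j T := rfl

theorem sm_snd (i j : Fin 7) (T : Op K) : (sm i j T).snd = 0 := rfl

theorem vecMul_single' (v : Fin 7 → Op K) (i j : Fin 7) (T : Op K) :
    v ᵥ* (Matrix.single i j T) = Pi.single j (v i * T) := by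
  funext l
  rw [Matrix.vecMul, dotProduct]
  rw [Finset.sum_eq_single i]
  · by_cases h : j = l
    · subst h
      rw [Matrix.single_apply_same, Pi.single_eq_same]
    · rw [Matrix.single_apply_of_col_ne _ _ h, mul_zero, Pi.single_eq_of_ne (Ne.symm h)]
  · intro b _ hb
    rw [Matrix.single_apply_of_row_ne (Ne.symm hb), mul_zero]
  · intro h
    exact absurd (Finset.mem_univ i) h

theorem sm_mem0 {i : Fin 7} {T : Op K}
    (h : ∀ (k P : ℤ) (v : Fin 7 → Op K), v ∈ Lat g s k P → v i * T ∈ Fil g k P) :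
    sm i 0 T ∈ A g s := by
  refine ⟨fun k P v hv => ?_, Pres.zero g s 1⟩
  rw [sm_fst, vecMul_single', add_zero]
  exact M2.lat_single 0 (Or.inl rfl) (fun _ => h k P v hv) (fun h => absurd h (by decide))
    (fun h => absurd h (by decide))

/-- `h² = 1 ∈ F₂D₀`, as an element of `e_{O(-2)} A e_{O(0)}` -/
noncomputable def hE (g : K) (s : ℤ) : A g s :=
  ⟨sm 2 0 1, sm_mem0 fun k P v hv => by
    rw [mul_one]
    exact Fil_mono g (by omega) hv.2.2.1⟩

/-- `a = (d₁x₀)²` -/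
noncomputable def aE (hg : Gen g) (s : ℤ) : A g s :=
  ⟨sm 2 0 ((D g 1 * X 0) ^ 2), sm_mem0 fun k P v hv => by
    rw [pow_two, ← mul_assoc]
    have := mul_DX hg (mul_DX hg hv.2.2.1)
    rwa [show k - 2 + 1 + 1 = k by ring] at this⟩

/-- `d₁x₀ ∈ e_{O(-1)} A e_{O(0)}` (for `s = 0`) -/
noncomputable def t0E (hg : Gen g) (s : ℤ) : A g s :=
  ⟨sm 1 0 (D g 1 * X 0), sm_mem0 fun k P v hv => by
    have := mul_DX hg hv.2.1
    rwa [sub_add_cancel] at this⟩

/-- `(0, d₁x₀)ᵗ ∈ e_{K₁(-1)} A e_{O(0)}` (for `s = 1`) -/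
noncomputable def t1E (hg : Gen g) : A g 1 :=
  ⟨sm 4 0 (D g 1 * X 0), sm_mem0 fun k P v hv => by
    have := mul_DX hg hv.2.2.2.1.2.1
    rwa [sub_add_cancel] at this⟩

/-! ### entries -/

theorem single_row (hs : s ≤ 1) (i : Fin 7) : (Pi.single i 1 : Fin 7 → Op K) ∈ Lat g s 2 0 := by
  have h1 : ∀ k : ℤ, 0 ≤ k → (1 : Op K) ∈ Fil g k 0 := fun k hk => one_mem_Fil g hk
  have h2 : ∀ (i : Fin 2) (k : ℤ), 0 ≤ k → (X i : Op K) ∈ Fil g k (0 + 1) :=
    fun i k hk => X_mem_Fil g i hk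
  have e1 : ∀ (j : Fin 7) (k : ℤ), 0 ≤ k → (Pi.single i 1 : Fin 7 → Op K) j ∈ Fil g k 0 := by
    intro j k hk
    rw [Pi.single_apply]
    split_ifs
    · exact h1 k hk
    · exact zero_mem _
  have e2 : ∀ (j : Fin 7) (l : Fin 2) (k : ℤ), 0 ≤ k →
      (Pi.single i 1 : Fin 7 → Op K) j * X l ∈ Fil g k (0 + 1) := by
    intro j l k hk
    rw [Pi.single_apply]
    split_ifs
    · rw [one_mul]; exact h2 l k hk
    · rw [zero_mul]; exact zero_mem _
  exact ⟨e1 _ _ (by omega), e1 _ _ (by omega), e1 _ _ (by omega),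
    ⟨e1 _ _ (by omega), e1 _ _ (by omega), add_mem (e2 _ _ _ (by omega)) (e2 _ _ _ (by omega))⟩,
    e1 _ _ (by omega), e1 _ _ (by omega), add_mem (e2 _ _ _ (by omega)) (e2 _ _ _ (by omega))⟩

theorem col2 (hs : s ≤ 1) {e : ℤ} {M : Mat K} (hM : Pres g s e M) (i : Fin 7) :
    M i 2 ∈ Fil g 0 e := by
  have h := hM 2 0 _ (single_row hs i)
  rw [Matrix.single_one_vecMul, zero_add] at h
  exact h.2.2.1

theorem mul_sm_fst (x : DualNumber (Mat K)) (i j : Fin 7) (T : Op K) :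
    (x * sm i j T).fst = x.fst * Matrix.single i j T := rfl

theorem mul_sm_snd (x : DualNumber (Mat K)) (i j : Fin 7) (T : Op K) :
    (x * sm i j T).snd = x.snd * Matrix.single i j T := by
  rw [TrivSqZeroExt.snd_mul, sm_snd, smul_zero, zero_add, sm_fst]
  rfl

theorem mul_single_apply (M : Mat K) (i j r : Fin 7) (T : Op K) :
    (M * Matrix.single i j T) r j = M r i * T := by
  rw [Matrix.mul_apply, Finset.sum_eq_single i]
  · rw [Matrix.single_apply_same]
  · intro b _ hb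
    rw [Matrix.single_apply_of_row_ne (Ne.symm hb), mul_zero]
  · intro h
    exact absurd (Finset.mem_univ i) h

theorem mul_single_apply_ne (M : Mat K) {i j r c : Fin 7} (h : j ≠ c) (T : Op K) :
    (M * Matrix.single i j T) r c = 0 := by
  rw [Matrix.mul_apply]
  refine Finset.sum_eq_zero fun b _ => ?_
  rw [Matrix.single_apply_of_col_ne _ _ h, mul_zero]

/-- an element of `A e_{O(-2)}` whose column `2` vanishes is zero -/
theorem ext2 {e2 : A g s} (h2 : e2.1 = sm 2 2 1) {x : A g s} (hx : x * e2 = x)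
    (h : ∀ i, x.1.fst i 2 = 0 ∧ x.1.snd i 2 = 0) : x = 0 := by
  have h3 : x.1 = x.1 * sm 2 2 1 := by
    rw [← h2]
    exact (congrArg Subtype.val hx).symm
  apply Subtype.ext
  apply TrivSqZeroExt.ext
  · ext1 i j
    by_cases hj : (2 : Fin 7) = j
    · subst hj
      exact (h i).1
    · rw [h3, mul_sm_fst, mul_single_apply_ne _ hj]
      rfl
  · ext1 i j
    by_cases hj : (2 : Fin 7) = j
    · subst hj
      exact (h i).2
    · rw [h3, mul_sm_snd, mul_single_apply_ne _ hj]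
      rfl

/-- right multiplication by `hE` is injective on `A e_{O(-2)}` -/
theorem hh_core {e2 : A g s} (h2 : e2.1 = sm 2 2 1) {x : A g s} (hx : x * e2 = x)
    (h : x * hE g s = 0) : x = 0 := by
  refine ext2 h2 hx fun i => ⟨?_, ?_⟩
  · have h3 := congrArg (fun y : A g s => y.1.fst i 0) h
    change (x.1 * sm 2 0 1).fst i 0 = 0 at h3
    rwa [mul_sm_fst, mul_single_apply, mul_one] at h3
  · have h3 := congrArg (fun y : A g s => y.1.snd i 0) h
    change (x.1 * sm 2 0 1).snd i 0 = 0 at h3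
    rwa [mul_sm_snd, mul_single_apply, mul_one] at h3

/-- the images of `aE` and `hE` meet in zero, and `aE` is injective -/
theorem ah_core (hg : Gen g) (hs : s ≤ 1) {e2 : A g s} (h2 : e2.1 = sm 2 2 1) {x y : A g s}
    (hx : x * e2 = x) (h : x * aE hg s = y * hE g s) : x = 0 := by
  refine ext2 h2 hx fun i => ⟨?_, ?_⟩
  · have h3 := congrArg (fun y : A g s => y.1.fst i 0) h
    change (x.1 * sm 2 0 _).fst i 0 = (y.1 * sm 2 0 1).fst i 0 at h3
    rw [mul_sm_fst, mul_sm_fst, mul_single_apply, mul_single_apply, mul_one] at h3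
    exact core hg (col2 hs x.2.1 i) (col2 hs y.2.1 i) h3
  · have h3 := congrArg (fun y : A g s => y.1.snd i 0) h
    change (x.1 * sm 2 0 _).snd i 0 = (y.1 * sm 2 0 1).snd i 0 at h3
    rw [mul_sm_snd, mul_sm_snd, mul_single_apply, mul_single_apply, mul_one] at h3
    exact core hg (col2 hs x.2.2 i) (col2 hs y.2.2 i) h3

/-! ### residues -/

/-- `x_i δ = 0` -/
theorem res_X {k P : ℤ} {T : Op K} (hT : T ∈ Fil g k P) (i : Fin 2) : res (T * X i) = 0 := by
  unfold res
  rw [Module.End.mul_apply, dl, X_single]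
  refine NN_apply (Fil_NN hT (Finsupp.single_mem_supported K _ ?_))
  fin_cases i <;> simp [ev]

theorem res_DX (g : K) (i j : Fin 2) : res (D g i * X j) = 0 := by
  have h : (D g i : Op K) ∈ Fil g 1 (-1) := by
    have := mul_D (one_mem_Fil g (le_refl 0)) i
    rwa [one_mul, zero_add, zero_sub] at this
  exact res_X h j

end Crest.Agent.R186.B281M
end

-- ▼ part R186/DM2_136
section

/-!
Row 186, S0281, leaf B281.M (helper136), part 2: the fields `mi`, `ms` of `LinkB328.Side`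
(`Hom(P₁, W) ≃ Hom(P₂, W)` along `d₂`) for `s = 0` and `s = 1`, over an abstract ring `R` with a
module `W ≃ K⁷` on which `R` acts by the matrices `ρ x` (for `R = A g s`: `ρ x = res (x.fst)`).
-/

set_option autoImplicit false
set_option linter.unusedSectionVars false

open Matrix

namespace Crest.Agent.R186.B281M

section abs

variable {K : Type*} [Field K] {R : Type*} [Semiring R] {W : Type*} [AddCommMonoid W] [Module R W]

/-- `R` acts on `W ≃ K⁷` by matrices -/
structure Rep (K : Type*) [Field K] (R : Type*) [Semiring R] (W : Type*) [AddCommMonoid W]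
    [Module R W] where
  co : W ≃+ (Fin 7 → K)
  ρ : R → Fin 7 → Fin 7 → K
  act : ∀ x w r, co (x • w) r = ∑ j, ρ x r j * co w j

namespace Rep

variable (T : Rep K R W)

/-- `e` acts as the projector onto the positions in `S` -/
def IsProj (e : R) (S : Fin 7 → Bool) : Prop := ∀ i j, T.ρ e i j = if i = j ∧ S i then 1 else 0

variable {T}

theorem IsProj.smul {e : R} {S : Fin 7 → Bool} (h : T.IsProj e S) (w : W) (r : Fin 7) :
    T.co (e • w) r = if S r then T.co w r else 0 := by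
  rw [T.act, Finset.sum_eq_single r]
  · rw [h]
    by_cases hr : S r
    · rw [if_pos ⟨rfl, hr⟩, if_pos hr, one_mul]
    · rw [if_neg (fun h => hr h.2), if_neg hr, zero_mul]
  · intro j _ hj
    rw [h, if_neg (fun h => hj h.1.symm), zero_mul]
  · intro h
    exact absurd (Finset.mem_univ r) h

variable (T) in
theorem ext {v w : W} (h : ∀ r, T.co v r = T.co w r) : v = w := T.co.injective (funext h)

variable (T) in
theorem co_sum {ι : Type*} (t : Finset ι) (w : ι → W) (r : Fin 7) :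
    T.co (∑ i ∈ t, w i) r = ∑ i ∈ t, T.co (w i) r := by
  rw [map_sum, Finset.sum_apply]

/-! ### `s = 0` -/

section s0

variable {e1 e3 : R} {P1 P3 : Submodule R R}
  (h1 : T.IsProj e1 ![false, true, false, false, false, false, false])
  (h3 : T.IsProj e3 ![false, false, false, true, true, false, false])
  (hP1 : ∀ x, x ∈ P1 ↔ x * e1 = x) (hP3 : ∀ x, x ∈ P3 ↔ x * e3 = x)
  (he1 : e1 * e1 = e1) (he3 : e3 * e3 = e3)
  (m : Fin 2 → Fin 2 → Fin 2 → R)
  (hm3 : ∀ k i j, T.ρ (m k i j) 1 3 = if k = j ∧ i = 0 then 1 else 0)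
  (hm4 : ∀ k i j, T.ρ (m k i j) 1 4 = if k = j ∧ i = 1 then 1 else 0)
  (d : (Fin 2 → Fin 2 → P1) →ₗ[R] (Fin 2 → P3))
  (hd : ∀ u j, (d u j : R) = ∑ k, ∑ i, (u k i : R) * m k i j)

/-- the uncurried map -/
def cur (P : Submodule R R) : (Fin 2 × Fin 2 → P) ≃ₗ[R] (Fin 2 → Fin 2 → P) :=
  LinearEquiv.curry R P (Fin 2) (Fin 2)

theorem cur_single (P : Submodule R R) (k i : Fin 2) (x : P) (k' i' : Fin 2) :
    cur P (Pi.single (k, i) x) k' i' = if k' = k ∧ i' = i then x else 0 := by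
  show (Pi.single (k, i) x : Fin 2 × Fin 2 → P) (k', i') = _
  by_cases h : k' = k ∧ i' = i
  · rw [if_pos h, h.1, h.2, Pi.single_eq_same]
  · rw [if_neg h, Pi.single_eq_of_ne]
    intro h2
    exact h ⟨congrArg Prod.fst h2, congrArg Prod.snd h2⟩

include hd in
theorem d_single (k i j : Fin 2) :
    (((d ∘ₗ (cur P1).toLinearMap) (Pi.single (k, i) (gn hP1 he1))) j : R) = e1 * m k i j := by
  rw [LinearMap.comp_apply, hd]
  rw [Finset.sum_eq_single k, Finset.sum_eq_single i]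
  · change ((cur P1 (Pi.single (k, i) (gn hP1 he1)) k i : P1) : R) * m k i j = _
    rw [cur_single, if_pos ⟨rfl, rfl⟩]
    rfl
  · intro i' _ hi
    change ((cur P1 (Pi.single (k, i) (gn hP1 he1)) k i' : P1) : R) * m k i' j = _
    rw [cur_single, if_neg (fun h => hi h.2)]
    exact zero_mul _
  · intro h
    exact absurd (Finset.mem_univ i) h
  · intro k' _ hk
    refine Finset.sum_eq_zero fun i' _ => ?_
    change ((cur P1 (Pi.single (k, i) (gn hP1 he1)) k' i' : P1) : R) * m k' i' j = _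
    rw [cur_single, if_neg (fun h => hk h.1)]
    exact zero_mul _
  · intro h
    exact absurd (Finset.mem_univ k) h

/-- the value at the position `1` -/
theorem m_smul (w : W) (hw : ∀ r, ¬(r = 3 ∨ r = 4) → T.co w r = 0) (x : R) :
    T.co (x • w) 1 = T.ρ x 1 3 * T.co w 3 + T.ρ x 1 4 * T.co w 4 := by
  rw [T.act]
  simp only [Fin.sum_univ_seven]
  rw [hw 0 (by decide), hw 1 (by decide), hw 2 (by decide), hw 5 (by decide), hw 6 (by decide)]
  simp

include h1 hm3 hm4 in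
theorem sum_smul (w : Fin 2 → W) (hw : ∀ j r, ¬(r = 3 ∨ r = 4) → T.co (w j) r = 0) (k i : Fin 2)
    (r : Fin 7) : T.co (∑ j, (e1 * m k i j) • w j) r =
      if r = 1 then (if i = 0 then T.co (w k) 3 else T.co (w k) 4) else 0 := by
  rw [T.co_sum]
  by_cases hr : r = 1
  · rw [if_pos hr, hr]
    have h5 : ∀ j, T.co ((e1 * m k i j) • w j) 1 =
        (if k = j ∧ i = 0 then 1 else 0) * T.co (w j) 3 +
        (if k = j ∧ i = 1 then 1 else 0) * T.co (w j) 4 := by
      intro j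
      rw [mul_smul, h1.smul, if_pos (by decide), m_smul (w j) (hw j), hm3, hm4]
    simp only [h5]
    fin_cases k <;> fin_cases i <;> simp
  · rw [if_neg hr]
    refine Finset.sum_eq_zero fun j _ => ?_
    rw [mul_smul, h1.smul, if_neg]
    revert hr
    fin_cases r <;> decide

include h1 h3 hP1 hP3 he1 he3 hm3 hm4 hd in
/-- field `mi`, `s = 0` -/
theorem mi0 (φ : (Fin 2 → P3) →ₗ[R] W) (h : φ ∘ₗ d = 0) : φ = 0 := by
  refine mi_core hP1 he1 hP3 he3 (d ∘ₗ (cur P1).toLinearMap) φ ?_ ?_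
  · rw [← LinearMap.comp_assoc, h, LinearMap.zero_comp]
  · intro w hw hk j
    have hw' : ∀ j r, ¬(r = 3 ∨ r = 4) → T.co (w j) r = 0 := by
      intro j r hr
      rw [← hw j, h3.smul, if_neg]
      revert hr
      fin_cases r <;> decide
    have key : ∀ i, (if i = (0 : Fin 2) then T.co (w j) 3 else T.co (w j) 4) = 0 := by
      intro i
      have h6 := congrArg (fun v => T.co v 1) (hk (j, i))
      simp only [d_single hP1 he1 m d hd, map_zero, Pi.zero_apply] at h6
      have h7 := sum_smul h1 m hm3 hm4 w hw' j i 1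
      rw [if_pos rfl] at h7
      exact h7.symm.trans h6
    have k3 : T.co (w j) 3 = 0 := by simpa using key 0
    have k4 : T.co (w j) 4 = 0 := by simpa using key 1
    refine T.ext fun r => ?_
    rw [map_zero, Pi.zero_apply]
    by_cases hr : r = 3 ∨ r = 4
    · rcases hr with rfl | rfl
      · exact k3
      · exact k4
    · exact hw' j r hr

include h1 hP1 he1 hm3 hm4 hd in
/-- field `ms`, `s = 0` -/
theorem ms0 (φ : (Fin 2 → Fin 2 → P1) →ₗ[R] W) :
    ∃ ψ : (Fin 2 → P3) →ₗ[R] W, ψ ∘ₗ d = φ := by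
  set φ' := φ ∘ₗ (cur P1).toLinearMap with hφ'
  set c : Fin 2 → Fin 2 → K := fun k i => T.co (φ' (Pi.single (k, i) (gn hP1 he1))) 1 with hc
  set w : Fin 2 → W := fun j =>
    T.co.symm (fun r => if r = 3 then c j 0 else if r = 4 then c j 1 else 0) with hw
  have hwc : ∀ j r, T.co (w j) r = if r = 3 then c j 0 else if r = 4 then c j 1 else 0 := by
    intro j r
    rw [hw, AddEquiv.apply_symm_apply]
  obtain ⟨ψ, hψ⟩ := ms_core hP1 he1 (d ∘ₗ (cur P1).toLinearMap) φ' w (by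
    rintro ⟨k, i⟩
    simp only [d_single hP1 he1 m d hd]
    refine T.ext fun r => ?_
    have h7 := sum_smul h1 m hm3 hm4 w (fun j r hr => by
      rw [hwc, if_neg (fun h => hr (Or.inl h)), if_neg (fun h => hr (Or.inr h))]) k i r
    refine h7.trans ?_
    have h8 := congrArg (fun v => T.co v r) (homF_gn hP1 he1 φ' (k, i))
    rw [h1.smul] at h8
    refine Eq.trans ?_ h8
    rw [hwc, hwc]
    by_cases hr : r = 1
    · subst hr
      fin_cases i <;> rfl
    · rw [if_neg hr, if_neg]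
      revert hr
      fin_cases r <;> decide)
  refine ⟨ψ, ?_⟩
  refine LinearMap.ext fun x => ?_
  have := LinearMap.congr_fun hψ ((cur P1).symm x)
  simpa [hφ'] using this

end s0

/-! ### `s = 1` -/

section s1

variable {e3 e4 : R} {P3 P4 : Submodule R R}
  (h3 : T.IsProj e3 ![false, false, false, true, true, false, false])
  (h4 : T.IsProj e4 ![false, false, false, false, false, true, true])
  (hP3 : ∀ x, x ∈ P3 ↔ x * e3 = x) (hP4 : ∀ x, x ∈ P4 ↔ x * e4 = x)
  (he3 : e3 * e3 = e3) (he4 : e4 * e4 = e4)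
  (m : Fin 2 → Fin 2 → R)
  (hm35 : ∀ k j, T.ρ (m k j) 3 5 = if k = j then 1 else 0)
  (hm36 : ∀ k j, T.ρ (m k j) 3 6 = 0)
  (hm45 : ∀ k j, T.ρ (m k j) 4 5 = 0)
  (hm46 : ∀ k j, T.ρ (m k j) 4 6 = if k = j then 1 else 0)
  (d : (Fin 2 → P3) →ₗ[R] (Fin 2 → P4))
  (hd : ∀ u j, (d u j : R) = ∑ k, (u k : R) * m k j)

include hd in
theorem d_single' (k j : Fin 2) :
    ((d (Pi.single k (gn hP3 he3))) j : R) = e3 * m k j := by
  rw [hd, Finset.sum_eq_single k]
  · rw [Pi.single_eq_same]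
    rfl
  · intro k' _ hk
    rw [Pi.single_eq_of_ne hk]
    exact zero_mul _
  · intro h
    exact absurd (Finset.mem_univ k) h

theorem m_smul' (w : W) (hw : ∀ r, ¬(r = 5 ∨ r = 6) → T.co w r = 0) (x : R) (r : Fin 7) :
    T.co (x • w) r = T.ρ x r 5 * T.co w 5 + T.ρ x r 6 * T.co w 6 := by
  rw [T.act]
  simp only [Fin.sum_univ_seven]
  rw [hw 0 (by decide), hw 1 (by decide), hw 2 (by decide), hw 3 (by decide), hw 4 (by decide)]
  simp

include h3 hm35 hm36 hm45 hm46 in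
theorem sum_smul' (w : Fin 2 → W) (hw : ∀ j r, ¬(r = 5 ∨ r = 6) → T.co (w j) r = 0) (k : Fin 2)
    (r : Fin 7) : T.co (∑ j, (e3 * m k j) • w j) r =
      if r = 3 then T.co (w k) 5 else if r = 4 then T.co (w k) 6 else 0 := by
  rw [T.co_sum]
  by_cases h5 : r = 3
  · subst h5
    rw [if_pos rfl]
    have h6 : ∀ j, T.co ((e3 * m k j) • w j) 3 = (if k = j then 1 else 0) * T.co (w j) 5 := by
      intro j
      rw [mul_smul, h3.smul, if_pos (by decide), m_smul' (w j) (hw j), hm35, hm36, zero_mul,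
        add_zero]
    simp only [h6]
    fin_cases k <;> simp
  · rw [if_neg h5]
    by_cases h7 : r = 4
    · subst h7
      rw [if_pos rfl]
      have h6 : ∀ j, T.co ((e3 * m k j) • w j) 4 = (if k = j then 1 else 0) * T.co (w j) 6 := by
        intro j
        rw [mul_smul, h3.smul, if_pos (by decide), m_smul' (w j) (hw j), hm45, hm46, zero_mul,
          zero_add]
      simp only [h6]
      fin_cases k <;> simp
    · rw [if_neg h7]
      refine Finset.sum_eq_zero fun j _ => ?_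
      rw [mul_smul, h3.smul, if_neg]
      revert h5 h7
      fin_cases r <;> decide

include h3 h4 hP3 hP4 he3 he4 hm35 hm36 hm45 hm46 hd in
/-- field `mi`, `s = 1` -/
theorem mi1 (φ : (Fin 2 → P4) →ₗ[R] W) (h : φ ∘ₗ d = 0) : φ = 0 := by
  refine mi_core hP3 he3 hP4 he4 d φ h ?_
  intro w hw hk j
  have hw' : ∀ j r, ¬(r = 5 ∨ r = 6) → T.co (w j) r = 0 := by
    intro j r hr
    rw [← hw j, h4.smul, if_neg]
    revert hr
    fin_cases r <;> decide
  have key : ∀ r, (if r = (3 : Fin 7) then T.co (w j) 5 else if r = 4 then T.co (w j) 6 else 0)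
      = 0 := by
    intro r
    have h6 := congrArg (fun v => T.co v r) (hk j)
    simp only [d_single' hP3 he3 m d hd, map_zero, Pi.zero_apply] at h6
    have h7 := sum_smul' h3 m hm35 hm36 hm45 hm46 w hw' j r
    exact h7.symm.trans h6
  have k5 : T.co (w j) 5 = 0 := by simpa using key 3
  have k6 : T.co (w j) 6 = 0 := by simpa using key 4
  refine T.ext fun r => ?_
  rw [map_zero, Pi.zero_apply]
  by_cases hr : r = 5 ∨ r = 6
  · rcases hr with rfl | rfl
    · exact k5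
    · exact k6
  · exact hw' j r hr

include h3 hP3 he3 hm35 hm36 hm45 hm46 hd in
/-- field `ms`, `s = 1` -/
theorem ms1 (φ : (Fin 2 → P3) →ₗ[R] W) :
    ∃ ψ : (Fin 2 → P4) →ₗ[R] W, ψ ∘ₗ d = φ := by
  set c : Fin 2 → Fin 7 → K := fun k r => T.co (φ (Pi.single k (gn hP3 he3))) r with hc
  set w : Fin 2 → W := fun j =>
    T.co.symm (fun r => if r = 5 then c j 3 else if r = 6 then c j 4 else 0) with hw
  have hwc : ∀ j r, T.co (w j) r = if r = 5 then c j 3 else if r = 6 then c j 4 else 0 := by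
    intro j r
    rw [hw, AddEquiv.apply_symm_apply]
  refine ms_core hP3 he3 d φ w ?_
  intro k
  simp only [d_single' hP3 he3 m d hd]
  refine T.ext fun r => ?_
  have h7 := sum_smul' h3 m hm35 hm36 hm45 hm46 w (fun j r hr => by
    rw [hwc, if_neg (fun h => hr (Or.inl h)), if_neg (fun h => hr (Or.inr h))]) k r
  refine h7.trans ?_
  have h8 := congrArg (fun v => T.co v r) (homF_gn hP3 he3 φ k)
  rw [h3.smul] at h8
  refine Eq.trans ?_ h8
  rw [hwc, hwc]
  fin_cases r <;> rfl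

end s1

end Rep

end abs

end Crest.Agent.R186.B281M
end

-- ▼ part R186/DM0_136
section

/-!
Row 186, S0281, leaf B281.M (helper136), part 3: the maps `h`, `a`, `t` and the fields
`ta, hh, ah, one, hi, hs, mi, ms` of `LinkB328.Side`, `s = 0`, on 580's `Pv g 0 v`, 93's
`W0.d3, W0.d2, W0.eps0` and 870's `W g s`; the parts common to both `s` are stated for both.
-/

set_option autoImplicit false
set_option linter.unusedSectionVars false

open Matrix

namespace Crest.Agent.R186.B281M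

open B281

variable {K : Type} [Field K] {g : K} {s : ℤ}

/-- the representation of `A g s` on `W g s` -/
noncomputable def rep (g : K) (s : ℤ) : Rep K (A g s) (W g s) where
  co := AddEquiv.refl _
  ρ x i j := res (x.1.fst i j)
  act _ _ _ := rfl

theorem res_neg (T : Op K) : res (-T) = -res T := by
  have h := res_smul (-1) T
  rwa [neg_one_smul, neg_one_mul] at h

theorem res_sub (S T : Op K) : res (S - T) = res S - res T := by
  rw [sub_eq_add_neg, res_add, res_neg, sub_eq_add_neg]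

theorem rep_proj (v : Fin 5) (S : Fin 7 → Bool) (h : ∀ i, S i = decide (blk i = v)) :
    (rep g s).IsProj (eps g s v) S := by
  intro i j
  show res ((idp K v) i j) = _
  rw [idp, Matrix.diagonal_apply, h i]
  by_cases hij : i = j
  · subst hij
    by_cases hv : blk i = v
    · simp [hv, res_one]
    · simp [hv, res_zero]
  · rw [if_neg hij, if_neg (fun h => hij h.1), res_zero]

theorem memPv (v : Fin 5) (x : A g s) : x ∈ Pv g s v ↔ x * eps g s v = x := Iff.rfl

theorem idp_eq {v : Fin 5} {i : Fin 7} (h : ∀ j, blk j = v ↔ j = i) :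
    idp K v = Matrix.single i i (1 : Op K) := by
  ext1 r c
  rw [idp, Matrix.diagonal_apply, Matrix.single_apply]
  by_cases hrc : r = c
  · subst hrc
    rw [if_pos rfl]
    by_cases hr : i = r
    · rw [if_pos ((h r).2 hr.symm), if_pos ⟨hr, hr⟩]
    · rw [if_neg (fun h1 => hr ((h r).1 h1).symm), if_neg (fun h1 => hr h1.1)]
  · rw [if_neg hrc, if_neg]
    rintro ⟨rfl, rfl⟩
    exact hrc rfl

theorem eps0_fst' : (eps g s 0).1.fst = Matrix.single 0 0 (1 : Op K) :=
  idp_eq (v := 0) (i := 0) (by decide)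


theorem eps2_fst' : (eps g s 2).1.fst = Matrix.single 2 2 (1 : Op K) :=
  idp_eq (v := 2) (i := 2) (by decide)

theorem eps2_sm : (eps g s 2).1 = sm 2 2 (1 : Op K) :=
  TrivSqZeroExt.ext eps2_fst' rfl

/-! ### `h`, `a` (both `s`) -/

theorem sm0_mem {i : Fin 7} {T : Op K} {x : A g s} (hx : x.1 = sm i 0 T) : x ∈ Pv g s 0 := by
  rw [mem_Pv]
  intro r c hc
  have h0 : (0 : Fin 7) ≠ c := by
    rintro rfl
    exact hc rfl
  rw [hx]
  exact ⟨Matrix.single_apply_of_col_ne _ _ h0 _, rfl⟩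

/-- right multiplication by `h²` -/
noncomputable def hmap (g : K) (s : ℤ) : Pv g s 2 →ₗ[A g s] Pv g s 0 :=
  mulR 2 ⟨hE g s, sm0_mem rfl⟩

/-- right multiplication by `a = (d₁x₀)²` -/
noncomputable def amap (hg : Gen g) (s : ℤ) : Pv g s 2 →ₗ[A g s] Pv g s 0 :=
  mulR 2 ⟨aE hg s, sm0_mem rfl⟩



/-- field `hh` -/
theorem hmap_inj (g : K) (s : ℤ) : Function.Injective (hmap g s) := by
  rw [injective_iff_map_eq_zero]
  intro x hx
  exact Subtype.ext (hh_core eps2_sm x.2 (congrArg Subtype.val hx))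

/-- field `ah` -/
theorem ah (hg : Gen g) (hs : s ≤ 1) (x y : Pv g s 2) (h : amap hg s x = hmap g s y) : x = 0 :=
  Subtype.ext (ah_core hg hs eps2_sm x.2 (congrArg Subtype.val h))

/-- field `one` -/
theorem fone (g : K) (s : ℤ) (φ : Pv g s 0 →ₗ[A g s] W g s) :
    ∃ c : K, ∀ x, φ x = c • W0.eps0 g s x :=
  M2.one eps0_fst' (Pv g s 0) (memPv 0) (eps_idem g s 0) (W0.eps0 g s) (fun _ => rfl) φ

theorem eps2_hE (g : K) (s : ℤ) : eps g s 2 * hE g s = hE g s := by
  refine A_ext (fun i j => ?_) (fun i j => ?_)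
  · show ((eps g s 2).1.fst * Matrix.single 2 0 (1 : Op K) : Mat K) i j =
      (Matrix.single 2 0 (1 : Op K) : Mat K) i j
    rw [eps2_fst', Matrix.single_mul_single_same, one_mul]
  · show ((eps g s 2).1 * sm 2 0 1).snd i j = _
    rw [mul_sm_snd, eps_snd, zero_mul]
    rfl

/-- field `hi` -/
theorem fhi (g : K) (s : ℤ) (φ : Pv g s 0 →ₗ[A g s] W g s) (hφ : φ ∘ₗ hmap g s = 0) : φ = 0 :=
  M2.hi (e2 := eps g s 2) (u := hE g s) eps0_fst' rfl (Pv g s 0) (Pv g s 2) (memPv 0) (memPv 2)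
    (eps_idem g s 0) (eps_idem g s 2) (eps2_hE g s) (hmap g s) (fun _ => rfl) φ hφ

/-- field `hs` -/
theorem fhs (g : K) (s : ℤ) (φ : Pv g s 2 →ₗ[A g s] W g s) :
    ∃ ψ : Pv g s 0 →ₗ[A g s] W g s, ψ ∘ₗ hmap g s = φ :=
  M2.hs (e2 := eps g s 2) (u := hE g s) eps2_fst' rfl (Pv g s 0) (Pv g s 2) (memPv 2)
    (eps_idem g s 2) (hmap g s) (fun _ => rfl) φ

/-! ### `s = 0` -/

/-- `t`, `s = 0` -/
noncomputable def t0 (hg : Gen g) : (Fin 2 → Fin 2 → Pv g 0 1) →ₗ[A g 0] Pv g 0 0 :=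
  mulR 1 ⟨t0E hg 0, sm0_mem rfl⟩ ∘ₗ LinearMap.proj (R := A g 0) (φ := fun _ : Fin 2 => Pv g 0 1) 1 ∘ₗ
    LinearMap.proj (R := A g 0) (φ := fun _ : Fin 2 => Fin 2 → Pv g 0 1) 0


/-- field `ta`, `s = 0` -/
theorem ta0 (hg : Gen g) : t0 hg ∘ₗ W0.d3 hg = amap hg 0 := by
  refine LinearMap.ext fun x => Subtype.ext ?_
  show (x : A g 0) * (W0.m3 hg 0 1 : Pv g 0 1) * t0E hg 0 = x * aE hg 0
  rw [mul_assoc]
  congr 1
  refine A_ext (fun i j => ?_) (fun i j => ?_)
  · show (Matrix.single 2 1 (D g 1 * X 0) * Matrix.single 1 0 (D g 1 * X 0) : Mat K) i j =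
      Matrix.single 2 0 ((D g 1 * X 0) ^ 2) i j
    rw [Matrix.single_mul_single_same, pow_two]
  · rw [snd_mulA]
    show ((Matrix.single 2 1 (D g 1 * X 0) : Mat K) * 0 + 0 * Matrix.single 1 0 (D g 1 * X 0) :
      Mat K) i j = _
    rw [mul_zero, zero_mul, add_zero]
    rfl

theorem res_c2 (g : K) (a b k : Fin 2) :
    res (W0.c2 g a b k 0) = (if a = k ∧ b = 0 then 1 else 0) ∧
    res (W0.c2 g a b k 1) = (if a = k ∧ b = 1 then 1 else 0) := by
  fin_cases a <;> fin_cases b <;> fin_cases k <;>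
    simp [W0.c2, res_neg, res_sub, res_smul, res_DX, res_one, res_zero]

theorem m2_13 (hg : Gen g) (a b k : Fin 2) :
    (rep g 0).ρ (W0.m2 hg a b k) 1 3 = if a = k ∧ b = 0 then 1 else 0 := by
  show res ((Matrix.single 1 3 (W0.c2 g a b k 0) + Matrix.single 1 4 (W0.c2 g a b k 1) : Mat K) 1 3)
    = _
  rw [Matrix.add_apply, Matrix.single_apply_same,
    Matrix.single_apply_of_col_ne _ _ (show (4 : Fin 7) ≠ 3 by decide), add_zero]
  exact (res_c2 g a b k).1

theorem m2_14 (hg : Gen g) (a b k : Fin 2) :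
    (rep g 0).ρ (W0.m2 hg a b k) 1 4 = if a = k ∧ b = 1 then 1 else 0 := by
  show res ((Matrix.single 1 3 (W0.c2 g a b k 0) + Matrix.single 1 4 (W0.c2 g a b k 1) : Mat K) 1 4)
    = _
  rw [Matrix.add_apply, Matrix.single_apply_same,
    Matrix.single_apply_of_col_ne _ _ (show (3 : Fin 7) ≠ 4 by decide), zero_add]
  exact (res_c2 g a b k).2

/-- field `mi`, `s = 0` -/
theorem fmi0 (hg : Gen g) (φ : (Fin 2 → Pv g 0 3) →ₗ[A g 0] W g 0) (h : φ ∘ₗ W0.d2 hg = 0) :
    φ = 0 :=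
  Rep.mi0 (T := rep g 0) (e1 := eps g 0 1) (e3 := eps g 0 3) (P1 := Pv g 0 1) (P3 := Pv g 0 3)
    (rep_proj 1 _ (by decide)) (rep_proj 3 _ (by decide)) (memPv 1) (memPv 3)
    (eps_idem g 0 1) (eps_idem g 0 3) (fun a b k => (W0.m2 hg a b k : A g 0)) (m2_13 hg)
    (m2_14 hg) (W0.d2 hg) (W0.d2_coe hg) φ h

/-- field `ms`, `s = 0` -/
theorem fms0 (hg : Gen g) (φ : (Fin 2 → Fin 2 → Pv g 0 1) →ₗ[A g 0] W g 0) :
    ∃ ψ : (Fin 2 → Pv g 0 3) →ₗ[A g 0] W g 0, ψ ∘ₗ W0.d2 hg = φ :=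
  Rep.ms0 (T := rep g 0) (e1 := eps g 0 1) (P1 := Pv g 0 1) (P3 := Pv g 0 3)
    (rep_proj 1 _ (by decide)) (memPv 1) (eps_idem g 0 1)
    (fun a b k => (W0.m2 hg a b k : A g 0)) (m2_13 hg)
    (m2_14 hg) (W0.d2 hg) (W0.d2_coe hg) φ

end Crest.Agent.R186.B281M
end

-- ▼ part R186/DM1_136

/-!
Row 186, S0281, leaf B281.M (helper136), part 4: `s = 1`: the map `t` and the fields
`ta, one, mi, ms` of `LinkB328.Side` on 952's `W1.d3, W1.d2, W1.ε` (`h, a, hh, ah, hi, hs` are in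
`DM0_136`, for both `s`).
-/

set_option autoImplicit false
set_option linter.unusedSectionVars false

open Matrix

namespace Crest.Agent.R186.B281M

open B281

variable {K : Type} [Field K] {g : K}

/-- 952's augmentation is 93's -/
theorem eps_eq (g : K) : W1.ε g = W0.eps0 g 1 := by
  refine LinearMap.ext fun x => funext fun i => ?_
  rw [W0.eps0_apply, W1.ε_apply, W_smul_apply, Finset.sum_eq_single 0]
  · show _ = _ * (Pi.single 0 1 : Fin 7 → K) 0
    rw [Pi.single_eq_same, mul_one]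
  · intro j _ hj
    show _ * (Pi.single 0 1 : Fin 7 → K) j = 0
    rw [Pi.single_eq_of_ne hj, mul_zero]
  · intro h
    exact absurd (Finset.mem_univ 0) h

/-- field `one`, `s = 1` -/
theorem fone1 (g : K) (φ : Pv g 1 0 →ₗ[A g 1] W g 1) : ∃ c : K, ∀ x, φ x = c • W1.ε g x := by
  rw [eps_eq]
  exact fone g 1 φ

/-- `t`, `s = 1` -/
noncomputable def t1 (hg : Gen g) : (Fin 2 → Pv g 1 3) →ₗ[A g 1] Pv g 1 0 :=
  mulR 3 ⟨t1E hg, sm0_mem rfl⟩ ∘ₗ LinearMap.proj (R := A g 1) (φ := fun _ : Fin 2 => Pv g 1 3) 0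


/-- field `ta`, `s = 1` -/
theorem ta1 (hg : Gen g) : t1 hg ∘ₗ W1.d3 hg = amap hg 1 := by
  refine LinearMap.ext fun x => Subtype.ext ?_
  show (x : A g 1) * (W1.b3 hg 0 : Pv g 1 3) * t1E hg = x * aE hg 1
  rw [mul_assoc]
  congr 1
  refine A_ext (fun i j => ?_) (fun i j => ?_)
  · show (W1.mat3 (-(D g 1 * X 1)) (D g 1 * X 0) * Matrix.single 4 0 (D g 1 * X 0) : Mat K) i j =
      (Matrix.single 2 0 ((D g 1 * X 0) ^ 2) : Mat K) i j
    by_cases hj : (0 : Fin 7) = j
    · subst hj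
      rw [mul_single_apply]
      by_cases hi : (2 : Fin 7) = i
      · subst hi
        rw [Matrix.single_apply_same, pow_two]
        congr 1
        show (Pi.single 3 (-(D g 1 * X 1)) + Pi.single 4 (D g 1 * X 0) : Fin 7 → Op K) 4 = _
        rw [Pi.add_apply, Pi.single_eq_same, Pi.single_eq_of_ne (by decide), zero_add]
      · rw [Matrix.single_apply_of_row_ne hi]
        have h0 : W1.mat3 (-(D g 1 * X 1)) (D g 1 * X 0) i 4 = (0 : Op K) := by
          revert hi
          fin_cases i <;> intro hi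
          exacts [rfl, rfl, absurd rfl hi, rfl, rfl, rfl, rfl]
        rw [h0, zero_mul]
    · rw [mul_single_apply_ne _ hj, Matrix.single_apply_of_col_ne _ _ hj]
  · rw [snd_mulA]
    show ((W1.mat3 (-(D g 1 * X 1)) (D g 1 * X 0) : Mat K) * 0 +
      0 * Matrix.single 4 0 (D g 1 * X 0) : Mat K) i j = _
    rw [mul_zero, zero_mul, add_zero]
    rfl

theorem res_b2 (hg : Gen g) (k l : Fin 2) :
    res ((W1.b2 hg k l : A g 1).1.fst 3 5) = (if k = l then 1 else 0) ∧
    res ((W1.b2 hg k l : A g 1).1.fst 3 6) = 0 ∧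
    res ((W1.b2 hg k l : A g 1).1.fst 4 5) = 0 ∧
    res ((W1.b2 hg k l : A g 1).1.fst 4 6) = (if k = l then 1 else 0) := by
  have e3 : ∀ a b c d : Op K, W1.mat2 a b c d 3 5 = a ∧ W1.mat2 a b c d 3 6 = b ∧
      W1.mat2 a b c d 4 5 = c ∧ W1.mat2 a b c d 4 6 = d := by
    intro a b c d
    refine ⟨?_, ?_, ?_, ?_⟩
    · show (Pi.single 5 a + Pi.single 6 b : Fin 7 → Op K) 5 = a
      rw [Pi.add_apply, Pi.single_eq_same, Pi.single_eq_of_ne (by decide), add_zero]
    · show (Pi.single 5 a + Pi.single 6 b : Fin 7 → Op K) 6 = b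
      rw [Pi.add_apply, Pi.single_eq_same, Pi.single_eq_of_ne (by decide), zero_add]
    · show (Pi.single 5 c + Pi.single 6 d : Fin 7 → Op K) 5 = c
      rw [Pi.add_apply, Pi.single_eq_same, Pi.single_eq_of_ne (by decide), add_zero]
    · show (Pi.single 5 c + Pi.single 6 d : Fin 7 → Op K) 6 = d
      rw [Pi.add_apply, Pi.single_eq_same, Pi.single_eq_of_ne (by decide), zero_add]
  have key : ∀ a b c d : Op K, ∀ (M : Mat K), M = W1.mat2 a b c d → ∀ (p : K),
      res a = p → res b = 0 → res c = 0 → res d = p →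
      res (M 3 5) = p ∧ res (M 3 6) = 0 ∧ res (M 4 5) = 0 ∧ res (M 4 6) = p := by
    rintro a b c d M rfl p ha hb hc hd
    obtain ⟨h1, h2, h3, h4⟩ := e3 a b c d
    rw [h1, h2, h3, h4]
    exact ⟨ha, hb, hc, hd⟩
  fin_cases k <;> fin_cases l
  · exact key 1 0 (D g 0 * X 1) (1 - D g 0 * X 0) _ rfl _ res_one res_zero (res_DX g 0 1)
      (by rw [res_sub, res_one, res_DX, sub_zero]; rfl)
  · exact key (-(g • (D g 0 * X 1))) (g • (D g 0 * X 0)) 0 0 _ rfl _
      (by rw [res_neg, res_smul, res_DX, mul_zero, neg_zero]; rfl)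
      (by rw [res_smul, res_DX, mul_zero]) res_zero res_zero
  · exact key 0 0 (g • (D g 1 * X 1)) (-(g • (D g 1 * X 0))) _ rfl _ res_zero res_zero
      (by rw [res_smul, res_DX, mul_zero])
      (by rw [res_neg, res_smul, res_DX, mul_zero, neg_zero]; rfl)
  · exact key (1 - D g 1 * X 1) (D g 1 * X 0) 0 1 _ rfl _
      (by rw [res_sub, res_one, res_DX, sub_zero]; rfl) (res_DX g 1 0) res_zero res_one

theorem d2_sum (hg : Gen g) (u : Fin 2 → Pv g 1 3) (j : Fin 2) :
    (W1.d2 hg u j : A g 1) = ∑ k, (u k : A g 1) * (W1.b2 hg k j : A g 1) := by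
  rw [Fin.sum_univ_two]
  exact W1.d2_coe hg u j

/-- field `mi`, `s = 1` -/
theorem fmi1 (hg : Gen g) (φ : (Fin 2 → Pv g 1 4) →ₗ[A g 1] W g 1) (h : φ ∘ₗ W1.d2 hg = 0) :
    φ = 0 :=
  Rep.mi1 (T := rep g 1) (e3 := eps g 1 3) (e4 := eps g 1 4) (P3 := Pv g 1 3) (P4 := Pv g 1 4)
    (rep_proj 3 _ (by decide)) (rep_proj 4 _ (by decide)) (memPv 3) (memPv 4)
    (eps_idem g 1 3) (eps_idem g 1 4) (fun k j => (W1.b2 hg k j : A g 1))
    (fun k j => (res_b2 hg k j).1) (fun k j => (res_b2 hg k j).2.1)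
    (fun k j => (res_b2 hg k j).2.2.1) (fun k j => (res_b2 hg k j).2.2.2)
    (W1.d2 hg) (d2_sum hg) φ h

/-- field `ms`, `s = 1` -/
theorem fms1 (hg : Gen g) (φ : (Fin 2 → Pv g 1 3) →ₗ[A g 1] W g 1) :
    ∃ ψ : (Fin 2 → Pv g 1 4) →ₗ[A g 1] W g 1, ψ ∘ₗ W1.d2 hg = φ :=
  Rep.ms1 (T := rep g 1) (e3 := eps g 1 3) (P3 := Pv g 1 3) (P4 := Pv g 1 4)
    (rep_proj 3 _ (by decide)) (memPv 3) (eps_idem g 1 3) (fun k j => (W1.b2 hg k j : A g 1))
    (fun k j => (res_b2 hg k j).1) (fun k j => (res_b2 hg k j).2.1)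
    (fun k j => (res_b2 hg k j).2.2.1) (fun k j => (res_b2 hg k j).2.2.2)
    (W1.d2 hg) (d2_sum hg) φ

end Crest.Agent.R186.B281M
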