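import Crest.Agent.R186.HatA_827

/-!
Row 186 (helper515): for every strict dg algebra `A : Hat827.DGA K` and every finite dimensional
module `V` in degree `0` there is a system of cells with the resolution fields `exR`, `exR0`, `gen`
of `Hat827.Cells` (abstract semi-free resolution, all idempotents `1`).
-/

set_option autoImplicit false
set_option linter.style.haveILetI false
set_option linter.unusedSectionVars false
set_option linter.unusedSimpArgs false

namespace Crest.Agent.R186.SemiFree515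

open Hat827 Hat827.DGA

variable {K : Type} [Field K]

/-- a semi-free resolution of `V` by cells: the fields of `Hat827.Cells` without `exV`, `exC` -/
structure Pre (A : DGA K) (V : Type) [AddCommGroup V] [Module K V] [Module A.C V] where
  ι : Type
  s : ι → ℕ
  F : ℕ → Finset ι
  mem_F : ∀ m σ, σ ∈ F m ↔ s σ ≤ m
  e : ι → A.C
  e_mem : ∀ σ, e σ ∈ A.G 0
  e_idem : ∀ σ, e σ * e σ = e σ
  c : ι → ι → A.C
  c_mem : ∀ σ τ, c σ τ ∈ A.G ((s σ : ℤ) - s τ - 1)
  c_left : ∀ σ τ, e σ * c σ τ = c σ τ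
  c_right : ∀ σ τ, c σ τ * e τ = c σ τ
  mc : ∀ σ τ, A.D (c σ τ) + ∑ ρ ∈ F (s σ), c σ ρ * c ρ τ = 0
  v : ι → V
  v_e : ∀ σ, e σ • v σ = v σ
  v_zero : ∀ σ, s σ ≠ 0 → v σ = 0
  v_aug : ∀ σ, s σ = 1 → ∑ τ ∈ F 0, c σ τ • v τ = 0
  exR : ∀ (m : ℕ) (x : ι → A.C), (∀ σ, x σ ∈ A.G ((m : ℤ) + 1 - s σ)) →
    (∀ σ, x σ * e σ = x σ) → (∀ τ, A.D (x τ) + ∑ σ ∈ F (m + 1), x σ * c σ τ = 0) →
    ∃ y : ι → A.C, (∀ σ, y σ ∈ A.G ((m : ℤ) + 2 - s σ)) ∧ (∀ σ, y σ * e σ = y σ) ∧
      ∀ τ, x τ = A.D (y τ) + ∑ σ ∈ F (m + 2), y σ * c σ τ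
  exR0 : ∀ x : ι → A.C, (∀ σ, x σ ∈ A.G (-(s σ : ℤ))) → (∀ σ, x σ * e σ = x σ) →
    ∑ σ ∈ F 0, x σ • v σ = 0 →
    ∃ y : ι → A.C, (∀ σ, y σ ∈ A.G ((1 : ℤ) - s σ)) ∧ (∀ σ, y σ * e σ = y σ) ∧
      ∀ τ, x τ = A.D (y τ) + ∑ σ ∈ F 1, y σ * c σ τ
  gen : ∀ w : V, ∃ x : ι → A.C, (∀ σ, x σ ∈ A.G (-(s σ : ℤ))) ∧ ∑ σ ∈ F 0, x σ • v σ = w

section constr

variable (A : DGA K) (V : Type) [AddCommGroup V] [Module K V] [Module A.C V]
  [IsScalarTower K A.C V] [Module.Finite K V]

/-- number of cells of level `m` together with the number of cells of smaller level -/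
noncomputable def NN : ℕ → ℕ × ℕ
  | 0 => (Module.finrank K V, 0)
  | m + 1 => (((NN m).1 + (NN m).2) * Module.finrank K A.C, (NN m).1 + (NN m).2)

/-- number of cells of level `m` -/
noncomputable def N (m : ℕ) : ℕ := (NN A V m).1

/-- the cells -/
abbrev I : Type := Σ m : ℕ, Fin (N A V m)

/-- cells of level at most `m` -/
noncomputable def FF (m : ℕ) : Finset (I A V) := (Finset.range (m + 1)).sigma fun _ => Finset.univ

variable {A V}

theorem mem_FF (m : ℕ) (σ : I A V) : σ ∈ FF A V m ↔ σ.1 ≤ m := by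
  simp [FF, Nat.lt_succ_iff]

theorem NN_snd (m : ℕ) : (NN A V m).2 = ∑ j ∈ Finset.range m, N A V j := by
  induction m with
  | zero => simp [NN]
  | succ m ih =>
    rw [Finset.sum_range_succ, ← ih]
    show (NN A V m).1 + (NN A V m).2 = _
    rw [add_comm]; rfl

theorem card_FF (m : ℕ) : (FF A V m).card * Module.finrank K A.C = N A V (m + 1) := by
  have h : (FF A V m).card = (NN A V m).1 + (NN A V m).2 := by
    rw [FF, Finset.card_sigma]
    simp only [Finset.card_univ, Fintype.card_fin]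
    rw [Finset.sum_range_succ, NN_snd, add_comm]
    rfl
  rw [h]; rfl

variable (A V)

/-- the augmentation on the cells -/
noncomputable def vv (σ : I A V) : V :=
  match σ with
  | ⟨0, i⟩ => Module.finBasis K V i
  | ⟨_ + 1, _⟩ => 0

/-- cycles of degree `m` -/
noncomputable def Z (m : ℕ) (c : I A V → I A V → A.C) : Submodule K (I A V → A.C) where
  carrier := {x | (∀ σ, x σ ∈ A.G ((m : ℤ) - σ.1)) ∧
    (∀ τ, A.D (x τ) + ∑ σ ∈ FF A V m, x σ * c σ τ = 0) ∧
    (m = 0 → ∑ σ ∈ FF A V 0, x σ • vv A V σ = 0)}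
  zero_mem' := by
    refine ⟨fun σ => Submodule.zero_mem _, fun τ => ?_, fun _ => ?_⟩
    · simp
    · simp
  add_mem' := by
    rintro x y ⟨hx1, hx2, hx3⟩ ⟨hy1, hy2, hy3⟩
    refine ⟨fun σ => Submodule.add_mem _ (hx1 σ) (hy1 σ), fun τ => ?_, fun h => ?_⟩
    · have := congrArg₂ (· + ·) (hx2 τ) (hy2 τ)
      simp only [add_zero] at this
      rw [← this]
      simp only [Pi.add_apply, map_add, add_mul, Finset.sum_add_distrib]
      abel
    · simp only [Pi.add_apply, add_smul, Finset.sum_add_distrib, hx3 h, hy3 h, add_zero]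
  smul_mem' := by
    rintro a x ⟨hx1, hx2, hx3⟩
    refine ⟨fun σ => Submodule.smul_mem _ a (hx1 σ), fun τ => ?_, fun h => ?_⟩
    · simp only [Pi.smul_apply, map_smul, smul_mul_assoc, ← Finset.smul_sum, ← smul_add]
      rw [hx2 τ, smul_zero]
    · simp only [Pi.smul_apply, smul_assoc, ← Finset.smul_sum]
      rw [hx3 h, smul_zero]

variable {A V}

/-- a subspace of small dimension is spanned by a family of prescribed length -/
theorem exists_fam {W : Type} [AddCommGroup W] [Module K W] [Module.Finite K W] {n : ℕ}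
    (h : Module.finrank K W ≤ n) :
    ∃ f : Fin n → W, ∀ x : W, ∃ a : Fin n → K, x = ∑ i, a i • f i := by
  classical
  let b := Module.finBasis K W
  refine ⟨fun i => if hi : i.val < Module.finrank K W then b ⟨i.val, hi⟩ else 0, fun x => ?_⟩
  refine ⟨fun i => if hi : i.val < Module.finrank K W then b.repr x ⟨i.val, hi⟩ else 0, ?_⟩
  have h1 : x = ∑ j : Fin (Module.finrank K W), b.repr x j • b j := (b.sum_repr x).symm
  conv_lhs => rw [h1]
  symm
  have h2 : ∀ i : Fin n, ((if hi : i.val < Module.finrank K W then b.repr x ⟨i.val, hi⟩ else 0) •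
      (if hi : i.val < Module.finrank K W then b ⟨i.val, hi⟩ else 0) : W) =
      if hi : i.val < Module.finrank K W then b.repr x ⟨i.val, hi⟩ • b ⟨i.val, hi⟩ else 0 := by
    intro i
    split_ifs <;> simp
  rw [Finset.sum_congr rfl fun i _ => h2 i]
  have h3 := Finset.sum_bij_ne_zero (s := (Finset.univ : Finset (Fin n)))
    (t := (Finset.univ : Finset (Fin (Module.finrank K W))))
    (f := fun i : Fin n => if hi : i.val < Module.finrank K W then
      b.repr x ⟨i.val, hi⟩ • b ⟨i.val, hi⟩ else 0)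
    (g := fun j => b.repr x j • b j)
    (fun i _ hi => ⟨i.val, by
      by_contra hc
      apply hi
      simp [hc]⟩)
    (fun _ _ _ => Finset.mem_univ _)
    (fun a₁ _ _ a₂ _ _ he => by
      apply Fin.ext
      simpa using he)
    (fun j _ hj => ⟨⟨j.val, lt_of_lt_of_le j.2 h⟩, Finset.mem_univ _, by
      simpa [j.2] using hj, by simp⟩)
    (fun i _ hi => by
      have hlt : i.val < Module.finrank K W := by
        by_contra hc
        apply hi
        simp [hc]
      simp [hlt])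
  exact h3

theorem Z_zero {m : ℕ} {c : I A V → I A V → A.C} {x : I A V → A.C} (hx : x ∈ Z A V m c)
    {σ : I A V} (hσ : m < σ.1) : x σ = 0 :=
  neg (hx.1 σ) (by omega)

/-- restriction to the cells of level at most `m` -/
noncomputable def res (m : ℕ) (c : I A V → I A V → A.C) : Z A V m c →ₗ[K] (FF A V m → A.C) where
  toFun x σ := x.1 σ.1
  map_add' _ _ := rfl
  map_smul' _ _ := rfl

theorem res_inj (m : ℕ) (c : I A V → I A V → A.C) : Function.Injective (res m c) := by
  intro x y hxy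
  apply Subtype.ext
  funext σ
  by_cases hσ : σ.1 ≤ m
  · exact congrFun hxy ⟨σ, (mem_FF m σ).2 hσ⟩
  · rw [Z_zero x.2 (by omega), Z_zero y.2 (by omega)]

theorem fin_Z (m : ℕ) (c : I A V → I A V → A.C) : Module.Finite K (Z A V m c) :=
  Module.Finite.of_injective (res m c) (res_inj m c)

theorem finrank_Z (m : ℕ) (c : I A V → I A V → A.C) :
    Module.finrank K (Z A V m c) ≤ N A V (m + 1) := by
  refine (LinearMap.finrank_le_finrank_of_injective (res_inj m c)).trans ?_
  rw [Module.finrank_pi_fintype]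
  simp only [Finset.sum_const, Finset.card_univ, Fintype.card_coe, smul_eq_mul]
  exact (card_FF m).le

theorem exists_fam_Z (m : ℕ) (c : I A V → I A V → A.C) :
    ∃ f : Fin (N A V (m + 1)) → (I A V → A.C), (∀ i, f i ∈ Z A V m c) ∧
      ∀ x ∈ Z A V m c, ∃ a : Fin (N A V (m + 1)) → K, x = ∑ i, a i • f i := by
  haveI := fin_Z m c
  obtain ⟨f, hf⟩ := exists_fam (K := K) (finrank_Z m c)
  refine ⟨fun i => (f i).1, fun i => (f i).2, fun x hx => ?_⟩
  obtain ⟨a, ha⟩ := hf ⟨x, hx⟩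
  refine ⟨a, ?_⟩
  have := congrArg Subtype.val ha
  simpa using this

variable (A V)

/-- the chosen spanning family of the cycles -/
noncomputable def fam (m : ℕ) (c : I A V → I A V → A.C) : Fin (N A V (m + 1)) → (I A V → A.C) :=
  Classical.choose (exists_fam_Z m c)

variable {A V}

theorem fam_mem (m : ℕ) (c : I A V → I A V → A.C) (i) : fam A V m c i ∈ Z A V m c :=
  (Classical.choose_spec (exists_fam_Z m c)).1 i

theorem fam_span (m : ℕ) (c : I A V → I A V → A.C) : ∀ x ∈ Z A V m c,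
    ∃ a : Fin (N A V (m + 1)) → K, x = ∑ i, a i • fam A V m c i :=
  (Classical.choose_spec (exists_fam_Z m c)).2

variable (A V)

/-- one more level -/
noncomputable def step (m : ℕ) (c : I A V → I A V → A.C) : I A V → I A V → A.C :=
  fun σ => match σ with
  | ⟨0, _⟩ => c σ
  | ⟨j + 1, i⟩ => if h : j = m then fam A V m c (h ▸ i) else c σ

/-- the structure constants of the cells of level at most `m` -/
noncomputable def cc : ℕ → I A V → I A V → A.C
  | 0 => fun _ _ => 0
  | m + 1 => step A V m (cc m)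

variable {A V}

theorem cc_succ_self (m : ℕ) (i : Fin (N A V (m + 1))) :
    cc A V (m + 1) ⟨m + 1, i⟩ = fam A V m (cc A V m) i := by
  show step A V m (cc A V m) ⟨m + 1, i⟩ = _
  simp [step]

theorem cc_succ_ne (m : ℕ) {σ : I A V} (h : σ.1 ≠ m + 1) : cc A V (m + 1) σ = cc A V m σ := by
  show step A V m (cc A V m) σ = _
  obtain ⟨j, i⟩ := σ
  cases j with
  | zero => rfl
  | succ j =>
    have hj : j ≠ m := fun e => h (by simp [e])
    simp [step, hj]

theorem cc_stable {σ : I A V} : ∀ m, σ.1 ≤ m → cc A V m σ = cc A V σ.1 σ := by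
  intro m
  induction m with
  | zero =>
    intro h
    have : σ.1 = 0 := by omega
    rw [this]
  | succ m ih =>
    intro h
    by_cases h' : σ.1 = m + 1
    · rw [h']
    · rw [cc_succ_ne m h', ih (by omega)]

variable (A V)

/-- the structure constants -/
noncomputable def ct (σ : I A V) : I A V → A.C := cc A V σ.1 σ

variable {A V}

theorem Z_congr (m : ℕ) : Z A V m (cc A V m) = Z A V m (ct A V) := by
  ext x
  have h : ∀ τ, ∑ σ ∈ FF A V m, x σ * cc A V m σ τ = ∑ σ ∈ FF A V m, x σ * ct A V σ τ := by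
    intro τ
    refine Finset.sum_congr rfl fun σ hσ => ?_
    rw [cc_stable m ((mem_FF m σ).1 hσ)]
    rfl
  constructor
  · rintro ⟨h1, h2, h3⟩
    exact ⟨h1, fun τ => by rw [← h τ]; exact h2 τ, h3⟩
  · rintro ⟨h1, h2, h3⟩
    exact ⟨h1, fun τ => by rw [h τ]; exact h2 τ, h3⟩

theorem ct_zero (i : Fin (N A V 0)) : ct A V ⟨0, i⟩ = 0 := rfl

theorem ct_succ (m : ℕ) (i : Fin (N A V (m + 1))) :
    ct A V ⟨m + 1, i⟩ = fam A V m (cc A V m) i := cc_succ_self m i

theorem ct_row (m : ℕ) (i : Fin (N A V (m + 1))) : ct A V ⟨m + 1, i⟩ ∈ Z A V m (ct A V) := by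
  rw [ct_succ, ← Z_congr]
  exact fam_mem _ _ _

theorem ct_span (m : ℕ) {x : I A V → A.C} (hx : x ∈ Z A V m (ct A V)) :
    ∃ a : Fin (N A V (m + 1)) → K, x = ∑ i, a i • ct A V ⟨m + 1, i⟩ := by
  rw [← Z_congr] at hx
  obtain ⟨a, ha⟩ := fam_span m _ x hx
  exact ⟨a, by simpa only [ct_succ] using ha⟩

theorem ct_mem (σ τ : I A V) : ct A V σ τ ∈ A.G ((σ.1 : ℤ) - τ.1 - 1) := by
  obtain ⟨j, i⟩ := σ
  cases j with
  | zero => rw [ct_zero]; exact Submodule.zero_mem _
  | succ m =>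
    have := (ct_row m i).1 τ
    have e : (((m + 1 : ℕ) : ℤ) - τ.1 - 1) = (m : ℤ) - τ.1 := by push_cast; ring
    rw [e]; exact this

theorem ct_small {σ τ : I A V} (h : σ.1 ≤ τ.1) : ct A V σ τ = 0 :=
  neg (ct_mem σ τ) (by omega)

/-- coefficients at the cells of level `n` -/
noncomputable def at_ (n : ℕ) (a : Fin (N A V n) → K) : I A V → A.C :=
  fun σ => if h : σ.1 = n then algebraMap K A.C (a (h ▸ σ.2)) else 0

theorem at_self (n : ℕ) (a : Fin (N A V n) → K) (i : Fin (N A V n)) :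
    at_ (A := A) n a ⟨n, i⟩ = algebraMap K A.C (a i) := by simp [at_]

theorem at_ne {n : ℕ} (a : Fin (N A V n) → K) {σ : I A V} (h : σ.1 ≠ n) :
    at_ n a σ = 0 := by simp [at_, h]

theorem sum_at (n M : ℕ) (hn : n ≤ M) {W : Type} [AddCommMonoid W] (f : I A V → W)
    (hf : ∀ σ, σ.1 ≠ n → f σ = 0) : ∑ σ ∈ FF A V M, f σ = ∑ i : Fin (N A V n), f ⟨n, i⟩ := by
  rw [FF, Finset.sum_sigma]
  rw [Finset.sum_eq_single n]
  · intro j _ hj
    exact Finset.sum_eq_zero fun i _ => hf ⟨j, i⟩ hj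
  · intro h
    exact absurd (Finset.mem_range.2 (by omega)) h

theorem at_mem (n : ℕ) (a : Fin (N A V n) → K) (σ : I A V) :
    at_ n a σ ∈ A.G ((n : ℤ) - σ.1) := by
  by_cases h : σ.1 = n
  · subst h
    have e : ((σ.1 : ℤ) - σ.1) = 0 := by ring
    rw [e]
    obtain ⟨m, i⟩ := σ
    rw [at_self, Algebra.algebraMap_eq_smul_one]
    exact Submodule.smul_mem _ _ A.one_mem
  · rw [at_ne a h]; exact Submodule.zero_mem _

theorem D_at (n : ℕ) (a : Fin (N A V n) → K) (σ : I A V) : A.D (at_ n a σ) = 0 := by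
  by_cases h : σ.1 = n
  · subst h
    obtain ⟨m, i⟩ := σ
    rw [at_self, Algebra.algebraMap_eq_smul_one, map_smul, D_one, smul_zero]
  · rw [at_ne a h, map_zero]

theorem bound {n : ℕ} {x : I A V → A.C} (hx : x ∈ Z A V n (ct A V)) :
    ∃ y : I A V → A.C, (∀ σ, y σ ∈ A.G ((n : ℤ) + 1 - σ.1)) ∧
      ∀ τ, x τ = A.D (y τ) + ∑ σ ∈ FF A V (n + 1), y σ * ct A V σ τ := by
  obtain ⟨a, ha⟩ := ct_span n hx
  refine ⟨at_ (n + 1) a, fun σ => ?_, fun τ => ?_⟩
  · have := at_mem (A := A) (V := V) (n + 1) a σ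
    push_cast at this
    exact this
  · rw [D_at, zero_add, sum_at (n + 1) (n + 1) le_rfl]
    · rw [ha, Finset.sum_apply]
      refine Finset.sum_congr rfl fun i _ => ?_
      rw [at_self, Pi.smul_apply, Algebra.smul_def]
    · intro σ hσ
      rw [at_ne a hσ, zero_mul]

theorem vv_pos {σ : I A V} (h : σ.1 ≠ 0) : vv A V σ = 0 := by
  obtain ⟨j, i⟩ := σ
  cases j with
  | zero => exact absurd rfl h
  | succ j => rfl

variable (A V)

/-- the abstract resolution -/
noncomputable def pre : Pre A V where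
  ι := I A V
  s := Sigma.fst
  F := FF A V
  mem_F := mem_FF
  e := fun _ => 1
  e_mem := fun _ => A.one_mem
  e_idem := fun _ => one_mul 1
  c := ct A V
  c_mem := ct_mem
  c_left := fun _ _ => one_mul _
  c_right := fun _ _ => mul_one _
  mc := by
    rintro ⟨j, i⟩ τ
    cases j with
    | zero => simp [ct_zero]
    | succ m =>
      have h := (ct_row m i).2.1 τ
      show A.D _ + ∑ ρ ∈ FF A V (m + 1), _ = 0
      have e : ∑ ρ ∈ FF A V (m + 1), ct A V ⟨m + 1, i⟩ ρ * ct A V ρ τ =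
          ∑ ρ ∈ FF A V m, ct A V ⟨m + 1, i⟩ ρ * ct A V ρ τ := by
        symm
        refine Finset.sum_subset (fun σ hσ => (mem_FF _ _).2 (((mem_FF _ _).1 hσ).trans (by omega)))
          fun ρ _ hρ => ?_
        rw [ct_small (by
          have := (not_congr (mem_FF m ρ)).1 hρ
          show m + 1 ≤ ρ.1
          omega), zero_mul]
      rw [e]; exact h
  v := vv A V
  v_e := fun _ => one_smul _ _
  v_zero := fun _ h => vv_pos h
  v_aug := by
    rintro ⟨j, i⟩ h
    obtain rfl : j = 1 := h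
    exact (ct_row 0 i).2.2 rfl
  exR := by
    intro m x h1 _ h2
    have hx : x ∈ Z A V (m + 1) (ct A V) :=
      ⟨fun σ => by have := h1 σ; push_cast; exact this, h2, fun h => absurd h (by omega)⟩
    obtain ⟨y, hy1, hy2⟩ := bound hx
    refine ⟨y, fun σ => ?_, fun σ => mul_one _, hy2⟩
    have := hy1 σ
    have e : (((m + 1 : ℕ) : ℤ) + 1 - σ.1) = (m : ℤ) + 2 - σ.1 := by push_cast; ring
    rwa [e] at this
  exR0 := by
    intro x h1 _ h2
    have hx : x ∈ Z A V 0 (ct A V) := by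
      refine ⟨fun σ => ?_, fun τ => ?_, fun _ => h2⟩
      · have := h1 σ
        rwa [show (((0 : ℕ) : ℤ) - σ.1) = -(σ.1 : ℤ) by push_cast; ring]
      · rw [D_neg (h1 τ) (by omega), zero_add]
        refine Finset.sum_eq_zero fun σ hσ => ?_
        rw [ct_small (by have := (mem_FF 0 σ).1 hσ; omega), mul_zero]
    obtain ⟨y, hy1, hy2⟩ := bound hx
    refine ⟨y, fun σ => ?_, fun σ => mul_one _, hy2⟩
    have := hy1 σ
    rwa [show (((0 : ℕ) : ℤ) + 1 - σ.1) = (1 : ℤ) - σ.1 by push_cast; ring] at this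
  gen := by
    intro w
    refine ⟨at_ 0 (fun i => (Module.finBasis K V).repr w i), fun σ => ?_, ?_⟩
    · have := at_mem (A := A) (V := V) 0 (fun i => (Module.finBasis K V).repr w i) σ
      rwa [show (((0 : ℕ) : ℤ) - σ.1) = -(σ.1 : ℤ) by push_cast; ring] at this
    · rw [sum_at 0 0 le_rfl]
      · conv_rhs => rw [← (Module.finBasis K V).sum_repr w]
        refine Finset.sum_congr rfl fun i _ => ?_
        rw [at_self, Algebra.algebraMap_eq_smul_one, smul_assoc, one_smul]
        rfl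
      · intro σ hσ
        rw [at_ne _ hσ, zero_smul]

end constr


end Crest.Agent.R186.SemiFree515
private theorem rz_200b9e3682 : type_of% @_root_.Crest.Agent.R186.SemiFree515.NN.eq_def := @_root_.Crest.Agent.R186.SemiFree515.NN.eq_def -- L54
private theorem rz_63ebd0515b : type_of% @_root_.Crest.Agent.R186.SemiFree515.NN.eq_1 := @_root_.Crest.Agent.R186.SemiFree515.NN.eq_1 -- L54
private theorem rz_b9190f6c47 : type_of% @_root_.Crest.Agent.R186.SemiFree515.step.eq_1 := @_root_.Crest.Agent.R186.SemiFree515.step.eq_1 -- L221
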