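import Crest.Agent.R186.WinB_810
import Crest.Agent.R186.SemiFree_515

/-!
# Row 186, half (A) (helper221): graded cells over a window (generic)

`GLC w` = cells with positions and attaching elements in `w.S` (no module); `cw`, `cw_mc`, ...;
`GLC.Res X M` = `X` resolves the window module `M` (statements about homogeneous elements);
`Res.toPre : SemiFree515.Pre w.dga M.VM`.
`homEx_iff`-type statements: `X.HomEx N` (homogeneous elements) gives exactness of the Hom complex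
of the window algebra with values in `N.VM`.
-/

set_option autoImplicit false
set_option linter.style.haveILetI false

noncomputable section

namespace Crest.Agent.R186.Win810

open Hat827 WD WMod

variable {K : Type} [Field K]

instance WMod.instModDga {w : WD K} (M : WMod w) : Module w.dga.C M.VM :=
  inferInstanceAs (Module w.Win M.VM)

instance WMod.instTowerDga {w : WD K} (M : WMod w) : IsScalarTower K w.dga.C M.VM :=
  inferInstanceAs (IsScalarTower K w.Win M.VM)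

/-- graded cells over the window data `w` -/
structure GLC (w : WD K) where
  ι : Type
  s : ι → ℕ
  F : ℕ → Finset ι
  mem_F : ∀ m σ, σ ∈ F m ↔ s σ ≤ m
  o : ι → w.Ob
  c : ι → ι → w.S
  c_mem : ∀ σ τ, c σ τ ∈ w.q (o σ) (o τ) ((s σ : ℤ) - s τ - 1)
  mc : ∀ σ τ, w.D (c σ τ) + ∑ ρ ∈ F (s σ), c σ ρ * c ρ τ = 0

namespace GLC

variable {w : WD K} (X : GLC w)

/-- the attaching elements in the window algebra -/
def cw (σ τ : X.ι) : w.Win := ws (X.o σ) (X.o τ) (X.c σ τ) (q_le _ _ _ (X.c_mem σ τ))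

/-- the idempotents -/
def ew (σ : X.ι) : w.Win := WD.e (X.o σ)

theorem cw_mem (σ τ : X.ι) : X.cw σ τ ∈ w.G ((X.s σ : ℤ) - X.s τ - 1) := ws_mem_G (X.c_mem σ τ)

theorem cw_apply (σ τ : X.ι) (i j : w.Ob) :
    (X.cw σ τ).1 i j = if X.o σ = i ∧ X.o τ = j then X.c σ τ else 0 := by
  unfold cw
  rw [ws_apply]

theorem cw_left (σ τ : X.ι) : X.ew σ * X.cw σ τ = X.cw σ τ := by
  refine (row_iff _ _).2 fun i j h => ?_
  rw [cw_apply, if_neg fun h0 => h h0.1]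

theorem cw_right (σ τ : X.ι) : X.cw σ τ * X.ew τ = X.cw σ τ := by
  refine (col_iff _ _).2 fun i j h => ?_
  rw [cw_apply, if_neg fun h0 => h h0.2]



theorem sum_apply {κ : Type} (s : Finset κ) (f : κ → w.Win) (i j : w.Ob) :
    (∑ k ∈ s, f k).1 i j = ∑ k ∈ s, (f k).1 i j := by
  classical
  induction s using Finset.induction_on with
  | empty => rfl
  | insert a s ha ih =>
    rw [Finset.sum_insert ha, Finset.sum_insert ha, ← ih]
    rfl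

theorem vsum_apply {M : WMod w} {κ : Type} (s : Finset κ) (f : κ → M.VM) (i : w.Ob) :
    ((∑ k ∈ s, f k : M.VM) i).1 = ∑ k ∈ s, (f k i).1 := by
  classical
  induction s using Finset.induction_on with
  | empty => rfl
  | insert a s ha ih =>
    rw [Finset.sum_insert ha, Finset.sum_insert ha, ← ih]
    rfl

theorem cw_smul {M : WMod w} (σ τ : X.ι) (u : M.VM) (l : w.Ob) :
    ((X.cw σ τ • u : M.VM) l).1 = if X.o σ = l then M.rho (X.c σ τ) (u (X.o τ)).1 else 0 :=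
  M.ws_smul _ _ _



/-- `X` resolves the window module `M` -/
structure Res (M : WMod w) where
  v : X.ι → M.V
  v_mem : ∀ σ, v σ ∈ M.W (X.o σ)
  v_zero : ∀ σ, X.s σ ≠ 0 → v σ = 0
  v_aug : ∀ σ, X.s σ = 1 → ∑ τ ∈ X.F 0, M.rho (X.c σ τ) (v τ) = 0
  exR : ∀ (m : ℕ) (i : w.Ob) (x : X.ι → w.S), (∀ σ, x σ ∈ w.q i (X.o σ) ((m : ℤ) + 1 - X.s σ)) →
    (∀ τ, w.D (x τ) + ∑ σ ∈ X.F (m + 1), x σ * X.c σ τ = 0) →
    ∃ y : X.ι → w.S, (∀ σ, y σ ∈ w.q i (X.o σ) ((m : ℤ) + 2 - X.s σ)) ∧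
      ∀ τ, x τ = w.D (y τ) + ∑ σ ∈ X.F (m + 2), y σ * X.c σ τ
  exR0 : ∀ (i : w.Ob) (x : X.ι → w.S), (∀ σ, x σ ∈ w.q i (X.o σ) (-(X.s σ : ℤ))) →
    ∑ σ ∈ X.F 0, M.rho (x σ) (v σ) = 0 →
    ∃ y : X.ι → w.S, (∀ σ, y σ ∈ w.q i (X.o σ) ((1 : ℤ) - X.s σ)) ∧
      ∀ τ, x τ = w.D (y τ) + ∑ σ ∈ X.F 1, y σ * X.c σ τ
  gen : ∀ (i : w.Ob) (u : M.V), u ∈ M.W i →
    ∃ x : X.ι → w.S, (∀ σ, x σ ∈ w.q i (X.o σ) (-(X.s σ : ℤ))) ∧
      ∑ σ ∈ X.F 0, M.rho (x σ) (v σ) = u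

namespace Res

variable {X} {M : WMod w} (R : X.Res M)


end Res

/-- exactness of `Hom(X, N)` in all degrees, homogeneous elements -/
def HomEx (N : WMod w) : Prop :=
  (∀ (m : ℕ) (φ : X.ι → N.V), (∀ σ, φ σ ∈ N.W (X.o σ)) → (∀ σ, X.s σ ≠ m + 1 → φ σ = 0) →
    (∀ σ, X.s σ = m + 2 → ∑ τ ∈ X.F (m + 1), N.rho (X.c σ τ) (φ τ) = 0) →
    ∃ ψ : X.ι → N.V, (∀ σ, ψ σ ∈ N.W (X.o σ)) ∧ (∀ σ, X.s σ ≠ m → ψ σ = 0) ∧
      ∀ σ, X.s σ = m + 1 → φ σ = ∑ τ ∈ X.F m, N.rho (X.c σ τ) (ψ τ)) ∧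
  (∀ φ : X.ι → N.V, (∀ σ, φ σ ∈ N.W (X.o σ)) → (∀ σ, X.s σ ≠ 0 → φ σ = 0) →
    (∀ σ, X.s σ = 1 → ∑ τ ∈ X.F 0, N.rho (X.c σ τ) (φ τ) = 0) → φ = 0)

variable {X} in
/-- **exactness of `Hom(X, N)` over the window algebra**, positive degrees -/
theorem HomEx.pos {N : WMod w} (h : X.HomEx N) (m : ℕ) (φ : X.ι → N.VM)
    (h0 : ∀ σ, X.s σ ≠ m + 1 → φ σ = 0) (he : ∀ σ, X.ew σ • φ σ = φ σ)
    (hc : ∀ σ, X.s σ = m + 2 → ∑ τ ∈ X.F (m + 1), X.cw σ τ • φ τ = 0) :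
    ∃ ψ : X.ι → N.VM, (∀ σ, X.s σ ≠ m → ψ σ = 0) ∧ (∀ σ, X.ew σ • ψ σ = ψ σ) ∧
      ∀ σ, X.s σ = m + 1 → φ σ = ∑ τ ∈ X.F m, X.cw σ τ • ψ τ := by
  have hφ : ∀ σ j, X.o σ ≠ j → (φ σ j).1 = 0 := fun σ => (N.e_smul_iff _ _).1 (he σ)
  have hφ0 : ∀ σ, X.s σ ≠ m + 1 → ∀ j, (φ σ j).1 = 0 := by
    intro σ hσ j
    rw [h0 σ hσ]
    rfl
  obtain ⟨ψ, hψ, hψ0, hh⟩ := h.1 m (fun σ => (φ σ (X.o σ)).1) (fun σ => (φ σ (X.o σ)).2)
    (fun σ hσ => hφ0 σ hσ _) (fun σ hσ => by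
      have h := congrArg (fun z : N.VM => (z (X.o σ)).1) (hc σ hσ)
      change ((∑ τ ∈ X.F (m + 1), (X.cw σ τ • φ τ : N.VM) : N.VM) (X.o σ)).1 = 0 at h
      rw [vsum_apply] at h
      simpa only [cw_smul, if_true] using h)
  refine ⟨fun σ => N.mkV (X.o σ) (ψ σ) (hψ σ), ?_, ?_, ?_⟩
  · intro σ hσ
    apply N.vext
    intro i
    rw [mkV_apply, hψ0 σ hσ]
    split_ifs <;> rfl
  · intro σ
    refine (N.e_smul_iff _ _).2 fun j hj => ?_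
    rw [mkV_apply, if_neg hj]
  · intro σ hσ
    apply N.vext
    intro i
    change _ = ((∑ τ ∈ X.F m, (X.cw σ τ • N.mkV (X.o τ) (ψ τ) (hψ τ) : N.VM) : N.VM) i).1
    rw [vsum_apply]
    simp only [cw_smul, mkV_apply, if_true]
    by_cases h : X.o σ = i
    · subst h
      simp only [if_true]
      exact hh σ hσ
    · simp only [if_neg h, Finset.sum_const_zero]
      exact hφ σ i h

variable {X} in
/-- **exactness of `Hom(X, N)` over the window algebra**, degree zero -/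
theorem HomEx.zero {N : WMod w} (h : X.HomEx N) (φ : X.ι → N.VM)
    (h0 : ∀ σ, X.s σ ≠ 0 → φ σ = 0) (he : ∀ σ, X.ew σ • φ σ = φ σ)
    (hc : ∀ σ, X.s σ = 1 → ∑ τ ∈ X.F 0, X.cw σ τ • φ τ = 0) : φ = 0 := by
  have hφ : ∀ σ j, X.o σ ≠ j → (φ σ j).1 = 0 := fun σ => (N.e_smul_iff _ _).1 (he σ)
  have key := h.2 (fun σ => (φ σ (X.o σ)).1) (fun σ => (φ σ (X.o σ)).2)
    (fun σ hσ => by rw [h0 σ hσ]; rfl) (fun σ hσ => by
      have h := congrArg (fun z : N.VM => (z (X.o σ)).1) (hc σ hσ)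
      change ((∑ τ ∈ X.F 0, (X.cw σ τ • φ τ : N.VM) : N.VM) (X.o σ)).1 = 0 at h
      rw [vsum_apply] at h
      simpa only [cw_smul, if_true] using h)
  funext σ
  apply N.vext
  intro i
  by_cases hi : X.o σ = i
  · subst hi
    exact congrFun key σ
  · exact hφ σ i hi

end GLC

end Crest.Agent.R186.Win810
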