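import Crest.Agent.R186.WinR_810
import Crest.Agent.R186.KHr_302
import Crest.Agent.R186.SMp_890
import Crest.Agent.R186.C2L_221

-- ▼ part R186/WinG_810
section

/-!
Row 186 (helper810): projections onto the cohomological degrees in a window algebra.

* `Prj w` : projections `pr k` of `w.S` compatible with the pieces.
* `Prj.pi k : w.Win →ₗ[K] w.Win` with `pi_mem`, `pi_same`, `pi_diff`, `pi_sum`, `pi_mul`, `mul_pi`, `pi_D`.
* `PrjR π : Prj (WR π)`.
-/

set_option autoImplicit false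
set_option linter.style.haveILetI false

namespace Crest.Agent.R186.Win810

open Hat827

/-- projections onto the cohomological degrees -/
structure Prj {K : Type} [Field K] (w : WD K) where
  pr : ℤ → w.S →ₗ[K] w.S
  same : ∀ {P A C : ℤ} {a : w.S}, a ∈ w.pc P A C → pr C a = a
  diff : ∀ {P A C C' : ℤ} {a : w.S}, a ∈ w.pc P A C → C' ≠ C → pr C' a = 0

namespace Prj

open WD

variable {K : Type} [Field K] {w : WD K} (p : Prj w)

include p

theorem pr_mem {i j : w.Ob} {a : w.S} (ha : a ∈ w.E i j) (k : ℤ) : p.pr k a ∈ w.q i j k := by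
  have key : w.E i j ≤ (w.q i j k).comap (p.pr k) := by
    refine iSup_le fun C => ?_
    intro x hx
    rw [Submodule.mem_comap]
    by_cases h : k = C
    · subst h
      rw [p.same hx]
      exact hx
    · rw [p.diff hx h]
      exact Submodule.zero_mem _
  exact key ha







/-- the projection onto degree `k` of the window algebra -/
def pi (k : ℤ) : w.Win →ₗ[K] w.Win where
  toFun m := ⟨Matrix.of fun i j => p.pr k (m.1 i j), fun i j => q_le i j k (p.pr_mem (m.2 i j) k)⟩
  map_add' a b := by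
    apply Subtype.ext
    ext i j
    exact map_add (p.pr k) _ _
  map_smul' r a := by
    apply Subtype.ext
    ext i j
    exact map_smul (p.pr k) _ _

@[simp] theorem pi_apply (k : ℤ) (m : w.Win) (i j : w.Ob) : (p.pi k m).1 i j = p.pr k (m.1 i j) := rfl










end Prj

/-! ### the algebra `R''` -/

open Crest.Agent.R186.DefsQ830 Crest.Agent.R186.PBW128 Crest.Agent.R186.Der580

variable {K : Type} [Field K] (π : Par K)

/-- coordinates of degree `k` -/
noncomputable def cpr (k : ℤ) : N K →ₗ[K] N K where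
  toFun n := n.filter (fun ν : Ix => ((dCx ν : ℕ) : ℤ) = k)
  map_add' _ _ := Finsupp.filter_add
  map_smul' _ _ := Finsupp.filter_smul

theorem cpr_same {P : ℤ} {A C : ℕ} {n : N K} (h : n ∈ NS K P A C) : cpr (C : ℤ) n = n := by
  refine Finsupp.filter_eq_self_iff _ _ |>.2 ?_
  intro ν hν
  have := (mem_NS_iff.1 h ν hν).2.2
  rw [this]

theorem cpr_diff {P : ℤ} {A C : ℕ} {k : ℤ} {n : N K} (h : n ∈ NS K P A C) (hk : k ≠ C) :
    cpr k n = 0 := by
  refine Finsupp.filter_eq_zero_iff _ _ |>.2 ?_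
  intro ν hν
  by_contra h0
  have := (mem_NS_iff.1 h ν h0).2.2
  rw [this] at hν
  exact hk hν.symm

/-- the part of degree `k` of an element of `R''` -/
noncomputable def prR (k : ℤ) : R π →ₗ[K] R π := (Psi π).comp ((cpr k).comp (ev π))



theorem prR_same {P A C : ℤ} {a : R π} (ha : a ∈ pcZ π P A C) : prR π C a = a := by
  rcases pcZ_cases π ha with rfl | ⟨A1, C1, rfl, rfl, ha2⟩
  · exact map_zero _
  · have h := (mem_pc_iff π).1 ha2
    change Psi π (cpr (C1 : ℤ) (ev π a)) = a
    rw [cpr_same h, Psi_ev]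

theorem prR_diff {P A C C' : ℤ} {a : R π} (ha : a ∈ pcZ π P A C) (h : C' ≠ C) :
    prR π C' a = 0 := by
  rcases pcZ_cases π ha with rfl | ⟨A1, C1, rfl, rfl, ha2⟩
  · exact map_zero _
  · have h1 := (mem_pc_iff π).1 ha2
    change Psi π (cpr C' (ev π a)) = 0
    rw [cpr_diff h1 h, map_zero]


end Crest.Agent.R186.Win810
end

-- ▼ part R186/KHc_302

/-!
Row 186 (A), leaf A.KH (helper302): the concrete closing data `CEr π s hs : KH186.CE (WG π s _)`,
`WG π s hs = (bdM π s hs).ext` the window data of `Γ = Gm π s hs` (890), `B = RL π` (221), cells of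
`Cells_221` / `C2b_44`.
-/

set_option autoImplicit false
set_option linter.style.haveILetI false

noncomputable section

namespace Crest.Agent.R186.KHc302

open DefsQ830 PBW128 Win810 SM890 WL221 C2b44 Cells221 KH186

variable {K : Type} [Field K] (π : Par K)

theorem gen_mul_inr {w : WD K} (B : SExt44.BD w) (x : B.ext.S) (m : B.M) :
    x * B.inr m = B.inr (B.lM (B.fst x) m) := by
  conv_lhs => rw [B.eq_inl_inr x]
  rw [add_mul, B.inr_mul_inr, add_zero, B.inl_mul_inr]

theorem gen_inr_mul {w : WD K} (B : SExt44.BD w) (m : B.M) (x : B.ext.S) :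
    B.inr m * x = B.inr (B.rM (B.fst x) m) := by
  conv_lhs => rw [B.eq_inl_inr x]
  rw [mul_add, B.inr_mul_inr, add_zero, B.inr_mul_inl]

/-- window data of `Γ` -/
abbrev WG (s : ℕ) (hs : 2 ≤ s) : WD K := (bdM π s hs).ext

/-! ### the projection and the socle -/

section wr

variable (s : ℕ) (hs : 2 ≤ s)

/-- first component -/
def fR : (WG π s hs).S →ₐ[K] R π := (bdM π s hs).fst

/-- the second component -/
def jn : MM π →ₗ[K] (WG π s hs).S := (bdM π s hs).inr

theorem mul_jn (x : (WG π s hs).S) (m : MM π) :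
    x * jn π s hs m = jn π s hs (repM π (fR π s hs x) m) := gen_mul_inr (bdM π s hs) x m

theorem jn_mul (m : MM π) (x : (WG π s hs).S) :
    jn π s hs m * x = jn π s hs (rho π (fR π s hs x) m) := gen_inr_mul (bdM π s hs) m x

theorem D_jn (m : MM π) : (WG π s hs).D (jn π s hs m) = jn π s hs (dMM π m) :=
  (bdM π s hs).D_inr m

theorem fR_jn (m : MM π) : fR π s hs (jn π s hs m) = 0 := rfl

theorem fR_D (x : (WG π s hs).S) : fR π s hs ((WG π s hs).D x) = Der580.D π (fR π s hs x) := rfl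

/-- `S → R'` -/
def pW : (WG π s hs).S →ₐ[K] RL π := (prL π).comp (fR π s hs)

/-- `r ↦ r o_1 κ` -/
def oW : RL π →ₗ[K] (WG π s hs).S := jn π s hs ∘ₗ soc π ∘ₗ (RL π).val.toLinearMap

theorem pW_apply (x : (WG π s hs).S) : pW π s hs x = prL π (fR π s hs x) := rfl

theorem oW_prL (r : R π) : oW π s hs (prL π r) = jn π s hs (soc π r) := by
  change jn π s hs (soc π (kill π r)) = _
  rw [soc_kill]

theorem W_mul_o (a : (WG π s hs).S) (b : RL π) :
    a * oW π s hs b = oW π s hs (pW π s hs a * b) := by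
  obtain ⟨b, rfl⟩ := prL_surj b
  rw [pW_apply, ← map_mul, oW_prL, oW_prL, mul_jn, soc_left]

theorem W_o_mul (b : RL π) (a : (WG π s hs).S) :
    oW π s hs b * a = oW π s hs (b * pW π s hs a) := by
  obtain ⟨b, rfl⟩ := prL_surj b
  rw [pW_apply, ← map_mul, oW_prL, oW_prL, jn_mul, soc_right]

theorem W_D_o (b : RL π) : (WG π s hs).D (oW π s hs b) = oW π s hs (WL221.DL π b) := by
  obtain ⟨b, rfl⟩ := prL_surj b
  rw [DL_prL, oW_prL, oW_prL, D_jn, soc_D]

theorem W_p_o (b : RL π) : pW π s hs (oW π s hs b) = 0 := by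
  change prL π (fR π s hs (jn π s hs _)) = 0
  rw [fR_jn, map_zero]

theorem W_p_D (a : (WG π s hs).S) : pW π s hs ((WG π s hs).D a) = WL221.DL π (pW π s hs a) := by
  rw [pW_apply, pW_apply, fR_D, DL_prL]

theorem W_p_mem {P A C : ℤ} {a : (WG π s hs).S} (h : a ∈ (WG π s hs).pc P A C) :
    pW π s hs a ∈ pcL π P A C := prL_mem h.1

theorem W_o_mem {P A C : ℤ} {b : RL π} (h : b ∈ pcL π P A C) :
    oW π s hs b ∈ (WG π s hs).pc (P - 1) A (C + s) := by
  refine (bdM π s hs).inr_mem ?_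
  change oM π .one b.1 ∈ pcM π s (P - 1) A (C + s)
  refine mem_pcM π s .one (C' := C) ?_ ?_
  · rw [show P - 1 + 1 = P by ring]
    exact h
  · simp [Wb.word, wC]

theorem W_big (P : ℤ) (i j : (WG π s hs).Ob) (C : ℤ) (h : ((8 : ℕ) : ℤ) < C) :
    pcL π P ((WG π s hs).A i - (WG π s hs).A j) C = ⊥ := by
  have hi := (i : DefsQ830.Ob).2.2
  have hj := (j : DefsQ830.Ob).2.2
  change pcL π P (((i : DefsQ830.Ob).2.val : ℤ) - ((j : DefsQ830.Ob).2.val : ℤ)) C = ⊥
  by_cases h0 : 0 ≤ (((i : DefsQ830.Ob).2.val : ℤ) - ((j : DefsQ830.Ob).2.val : ℤ))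
  · apply pcL_big _ _ h0
    push_cast at h
    omega
  · exact pcL_neg (Or.inl (by omega))

end wr

/-! ### the projections of `R'` -/

/-- projection of `R'` -/
def prRL (k : ℤ) : RL π →ₗ[K] RL π where
  toFun r := prL π (prR π k r.1)
  map_add' a b := by
    rw [← map_add, ← map_add]
    rfl
  map_smul' c a := by
    rw [RingHom.id_apply, ← map_smul, ← map_smul]
    rfl

theorem prRL_same {P A C : ℤ} {b : RL π} (hb : b ∈ pcL π P A C) : prRL π C b = b := by
  have h : prR π C b.1 = b.1 := prR_same (P := P) (A := A) π hb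
  change prL π (prR π C b.1) = b
  rw [h, prL_inL]

theorem prRL_diff {P A C : ℤ} {b : RL π} (C' : ℤ) (hb : b ∈ pcL π P A C) (h : C' ≠ C) :
    prRL π C' b = 0 := by
  have h1 : prR π C' b.1 = 0 := prR_diff (P := P) (A := A) π hb h
  change prL π (prR π C' b.1) = 0
  rw [h1, map_zero]

/-! ### cells -/

theorem W_cc_mem (s : ℕ) (hs : 2 ≤ s) (c c' : Cell) :
    cL π c c' ∈ pcL π ((WG π s hs).P (WL221.oc c) - (WG π s hs).P (WL221.oc c'))
      ((WG π s hs).A (WL221.oc c) - (WG π s hs).A (WL221.oc c')) ((cdeg c : ℤ) - cdeg c' - 1) := by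
  have h := cL_mem π c c'
  change cL π c c' ∈ pcL π
    ((((WL221.oc c).1.val : ℕ) : ℤ) - (((WL221.oc c').1.val : ℕ) : ℤ))
    ((((WL221.oc c).2.val : ℕ) : ℤ) - (((WL221.oc c').2.val : ℕ) : ℤ)) _
  rw [oc_P, oc_P, oc_A, oc_A, show (1 + cP c - (1 + cP c')) = cP c - cP c' by ring]
  exact h

theorem RL_two (a : RL π) : a + a = 0 := Subtype.ext (Der580.add_self π a.1)

theorem two_le {s : ℕ} (hs : 5 ≤ s) : 2 ≤ s := le_trans (by decide) hs

set_option maxHeartbeats 4000000 in
/-- **the concrete closing data** -/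
def CEr (s : ℕ) (hs : 5 ≤ s) : CE (WG π s (two_le hs)) where
  B := RL π
  two := RL_two π
  pb := pcL π
  pb_mul := pcL_mul
  pb_neg := fun _ _ _ h => pcL_neg (Or.inr h)
  Nb := 8
  pb_big := W_big π s (two_le hs)
  pb_fin := fun _ _ _ => inferInstance
  prB := prRL π
  prB_self := prRL_same π
  prB_ne := prRL_diff π
  D' := WL221.DL π
  D'_mul := DL_mul
  D'_D' := DL_DL
  D'_mem := pcL_D
  p := pW π s (two_le hs)
  p_mem := W_p_mem π s (two_le hs)
  p_D := W_p_D π s (two_le hs)
  o := oW π s (two_le hs)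
  s0 := s
  o_mem := W_o_mem π s (two_le hs)
  mul_o := W_mul_o π s (two_le hs)
  o_mul := W_o_mul π s (two_le hs)
  D_o := W_D_o π s (two_le hs)
  p_o := W_p_o π s (two_le hs)
  κ := Cell
  oc := WL221.oc
  cd := cdeg
  cd_le := fun c => by have := WL221.cdeg_le c; omega
  cc := cL π
  cc_mem := W_cc_mem π s (two_le hs)
  mc := cL_mc π


end Crest.Agent.R186.KHc302
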