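import Crest.Agent.R186.Glue_255
import Crest.Agent.R186.KHc_302
import Crest.Agent.R186.GPre_221

/-!
Row 186, half (A), integration (helper448): the module `V = V_{-1}` over `L''` (`V2`) and over
`Γ` (`VG`), its resolution over `Γ`, the concrete `CE`.
-/

set_option autoImplicit false
set_option linter.style.haveILetI false
set_option linter.unusedSectionVars false

noncomputable section

open MulOpposite

namespace Crest.Agent.R186.EndV448

open Hat827 Win810 Frame515 Res255 DefsQ830 SM890 KH186 FinV988 SemiFree515 Glue255 VOp220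

variable {K : Type} [Field K] (π : Par K)

theorem v_pos (n k : ℤ) (hk : 0 < k) (a : (WR π).dga.C) (ha : a ∈ (WR π).dga.G k)
    (w : (VR π n).VM) : a • w = 0 := WMod.smul_pos (VR π n) hk ha w

theorem v_D (n : ℤ) (a : (WR π).dga.C) (w : (VR π n).VM) : (WR π).dga.D a • w = 0 := by
  apply (VR π n).vext
  intro i
  refine (WMod.smul_apply (VR π n) ((WR π).DW a) w i).trans ?_
  exact Finset.sum_eq_zero fun j _ => rep_D_zero π (a.1 i j) (w j).1

/-- `V_{-1}` over `L''` -/
def V2 : LM (WR π).dga := honL (WR π).dga (VR π (-1)).VM (v_pos π (-1)) (v_D π (-1))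


theorem deg0_V2 : Deg0 (V2 π) := deg0_hon _ _

instance finV2 : Module.Finite K (V2 π).X := inferInstanceAs (Module.Finite K (VR π (-1)).VM)

/-- the vertex `(1, 0)` -/
def o10 : (WR π).Ob := ((1 : Fin 2), (0 : Fin 4))

theorem one_mem : mon K 0 0 ∈ (VR π (-1)).W (o10 π) := by
  change mon K 0 0 ∈ hom K (-1 + ((((1 : Fin 2) : ℕ)) : ℤ))
  exact Finsupp.single_mem_supported K _ (by
    change ((0 : ℕ) : ℤ) + ((0 : ℕ) : ℤ) = -1 + ((((1 : Fin 2) : ℕ)) : ℤ)
    simp)

instance ntV2 : Nontrivial (V2 π).X := by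
  refine ⟨⟨(VR π (-1)).mkV (o10 π) (mon K 0 0) (one_mem π), (0 : (VR π (-1)).VM), ?_⟩⟩
  intro h
  have h1 := congrArg (fun v : (VR π (-1)).VM => (v (o10 π)).1) h
  have h2 : ((VR π (-1)).mkV (o10 π) (mon K 0 0) (one_mem π) (o10 π)).1 = mon K 0 0 := by
    rw [WMod.mkV_apply, if_pos rfl]
  have h3 : mon K 0 0 = (0 : Pol K) := h2.symm.trans h1
  exact one_ne_zero (Finsupp.single_eq_zero.1 h3)

variable (s : ℕ) (hs : 5 ≤ s)

/-- `Γ` -/
abbrev Gam : DGA K := Gm π s (KHc302.two_le hs)

/-- `V_{-1}` over `Γ` -/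
def VG : LM (Gam π s hs) := resL (HmP π s (KHc302.two_le hs)) (V2 π)

theorem deg0_VG : Deg0 (VG π s hs) := deg0_res _ (deg0_V2 π)

instance finVG : Module.Finite K (VG π s hs).X := finRes _ _
instance ntVG : Nontrivial (VG π s hs).X := ntRes _ _

/-- 515's resolution of `V` over `Γ` -/
def XG : Pre (Gam π s hs) (VG π s hs).X := preN (VG π s hs)

/-- the cells -/
def XL : LCells (Gam π s hs) := lpre (XG π s hs)

/-- it resolves -/
def RX : LRes (XL π s hs) (VG π s hs) := lresN (VG π s hs) (deg0_VG π s hs) (XG π s hs)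

end Crest.Agent.R186.EndV448
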