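import Crest.Agent.R186.Vmod_220
import Crest.Agent.R186.Cells1_221
import Crest.Agent.R186.WL_221
import Crest.Agent.R186.GPre_221

-- ▼ part R186/InvV_439
section

/-!
# Row 186, half (A) (helper439): the INVERSE polynomials as a module over `R''`

The local cohomology module `x_0⁻¹ x_1⁻¹ K[x_0⁻¹, x_1⁻¹]` (`= ⊕ V_m[1]`, `m ≤ -2`).
Basis `mon a b ↔ x_0^(-a-1) x_1^(-b-1)` of the same space `Pol K`, P-degree `-a-b-2`.
`x_i` acts by `S0`, `S1` (`VOp_220`), `h ↦ 1`, `d_0 : mon a b ↦ q^(-a) [a+1]_q mon (a+1) b`,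
`d_1 : mon a b ↦ q^(-a-b) [b+1]_q mon a (b+1)` (`q = g⁻¹`), the other letters act by `0`.
Mirror of `Vmod_220`: `homI`, `repI`, `repI_D`, `repI_pcB`, `repI_ent`, `actI`.
-/

set_option autoImplicit false

namespace Crest.Agent.R186.Inv439

open Crest.Agent.R186.VOp220 Crest.Agent.R186.DefsQ830 Crest.Agent.R186.Vmod220

variable {K : Type} [Field K] (π : Par K)

/-- the operator of `d_0` on the inverse polynomials -/
noncomputable def F0 (g : K) : Pol K →ₗ[K] Pol K :=
  op (fun a _ => g ^ a * qn g⁻¹ (a + 1)) (fun a => a + 1) (fun b => b)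
/-- the operator of `d_1` on the inverse polynomials -/
noncomputable def F1 (g : K) : Pol K →ₗ[K] Pol K :=
  op (fun a b => g ^ (a + b) * qn g⁻¹ (b + 1)) (fun a => a) (fun b => b + 1)

section ops
variable {g : K}

@[simp] lemma F0_mon (a b : ℕ) : F0 g (mon K a b) = (g ^ a * qn g⁻¹ (a + 1)) • mon K (a + 1) b := by
  simp [F0]

@[simp] lemma F1_mon (a b : ℕ) :
    F1 g (mon K a b) = (g ^ (a + b) * qn g⁻¹ (b + 1)) • mon K a (b + 1) := by
  simp [F1]

lemma relI_x : (S0 : Pol K →ₗ[K] Pol K) * S1 = S1 * S0 := by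
  apply ext_mon; intro a b
  rcases a with _ | a <;> rcases b with _ | b <;> simp


/-- `g^a * ([a+1]_q - [a]_q) = 1` -/
lemma pow_mul_qn (hg : g ≠ 0) (a : ℕ) : g ^ a * qn g⁻¹ (a + 1) = 1 + g ^ a * qn g⁻¹ a := by
  rw [qn_succ', mul_add, inv_pow, mul_inv_cancel₀ (pow_ne_zero _ hg), add_comm]

lemma sI00 (hg : g ≠ 0) : (S0 : Pol K →ₗ[K] Pol K) * F0 g = 1 + g • (F0 g * S0) := by
  apply ext_mon; intro a b
  rcases a with _ | a
  · simp [qn_succ]
  · simp only [Module.End.mul_apply, LinearMap.add_apply, LinearMap.smul_apply, F0_mon, S0_mon,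
      map_smul, Module.End.one_apply, Nat.add_sub_cancel, if_neg (Nat.succ_ne_zero _), one_smul,
      smul_smul]
    rw [pow_mul_qn hg, add_smul, one_smul]
    congr 2
    ring

lemma sI01 (hg : g ≠ 0) : (S0 : Pol K →ₗ[K] Pol K) * F1 g = g • (F1 g * S0) := by
  apply ext_mon; intro a b
  rcases a with _ | a
  · simp
  · simp only [Module.End.mul_apply, LinearMap.smul_apply, F1_mon, S0_mon,
      map_smul, Nat.add_sub_cancel, if_neg (Nat.succ_ne_zero _), one_smul, smul_smul]
    congr 1
    ring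

lemma sI10 : (S1 : Pol K →ₗ[K] Pol K) * F0 g = F0 g * S1 := by
  apply ext_mon; intro a b
  rcases b with _ | b
  · simp
  · simp

lemma sI11 (hg : g ≠ 0) :
    (S1 : Pol K →ₗ[K] Pol K) * F1 g = 1 + g • (F1 g * S1) + (g - 1) • (F0 g * S0) := by
  have key : ∀ a : ℕ, (g - 1) * (g ^ a * qn g⁻¹ (a + 1)) = g ^ (a + 1) - 1 := fun a => by
    have h1 := sub_mul_qn g⁻¹ (a + 1)
    have h2 : (g - 1) = -(g * (g⁻¹ - 1)) := by rw [mul_sub, mul_inv_cancel₀ hg]; ring
    calc (g - 1) * (g ^ a * qn g⁻¹ (a + 1)) = -(g ^ (a + 1)) * ((g⁻¹ - 1) * qn g⁻¹ (a + 1)) := by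
          rw [h2, pow_succ]; ring
      _ = g ^ (a + 1) - 1 := by
          rw [h1, inv_pow, mul_sub, neg_mul, mul_inv_cancel₀ (pow_ne_zero _ hg)]; ring
  apply ext_mon; intro a b
  rcases a with _ | a
  · rcases b with _ | b
    · simp [qn_succ]
    · simp only [Module.End.mul_apply, LinearMap.add_apply, LinearMap.smul_apply, F1_mon, S0_mon,
        S1_mon, map_smul, Module.End.one_apply, Nat.add_sub_cancel, if_neg (Nat.succ_ne_zero _),
        if_true, zero_smul, one_smul, map_zero, smul_zero, add_zero, smul_smul, zero_add]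
      rw [pow_mul_qn hg, add_smul, one_smul]
      congr 2
      ring
  · rcases b with _ | b
    · simp only [Module.End.mul_apply, LinearMap.add_apply, LinearMap.smul_apply, F1_mon, F0_mon,
        S0_mon, S1_mon, map_smul, Module.End.one_apply, Nat.add_sub_cancel,
        if_neg (Nat.succ_ne_zero _), if_true, zero_smul, one_smul, map_zero, smul_zero, add_zero,
        smul_smul, zero_add, qn_succ, qn_zero, mul_zero, mul_one]
      have k := key a
      rw [qn_succ] at k
      rw [k, sub_smul, one_smul, add_sub_cancel]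
    · simp only [Module.End.mul_apply, LinearMap.add_apply, LinearMap.smul_apply, F1_mon, F0_mon,
        S0_mon, S1_mon, map_smul, Module.End.one_apply, Nat.add_sub_cancel,
        if_neg (Nat.succ_ne_zero _), one_smul, smul_smul]
      rw [key a, show mon K (a + 1) (b + 1) + (g * (g ^ (a + 1 + b) * qn g⁻¹ (b + 1))) •
          mon K (a + 1) (b + 1) + (g ^ (a + 1) - 1) • mon K (a + 1) (b + 1)
          = (1 + g * (g ^ (a + 1 + b) * qn g⁻¹ (b + 1)) + (g ^ (a + 1) - 1)) •
            mon K (a + 1) (b + 1) by rw [add_smul, add_smul, one_smul]]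
      congr 1
      rw [show a + 1 + (b + 1) = (a + 1) + (b + 1) from rfl, pow_add, mul_assoc, pow_mul_qn hg (b + 1)]
      ring

lemma sIdd : F1 g * F0 g = g • (F0 g * F1 g) := by
  apply ext_mon; intro a b
  simp only [Module.End.mul_apply, LinearMap.smul_apply, F0_mon, F1_mon, map_smul, smul_smul]
  congr 1
  ring

/-! ### degrees -/

/-- degree `m` part of the inverse polynomials (zero for `m > -2`) -/
def homI (K : Type) [Field K] (m : ℤ) : Submodule K (Pol K) := hom K (-m - 2)

instance homI_fd (m : ℤ) : FiniteDimensional K (homI K m) := hom_fd (-m - 2)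


lemma monI_mem {a b : ℕ} {m : ℤ} (h : -(a : ℤ) - b - 2 = m) : mon K a b ∈ homI K m :=
  mon_mem (by omega)

lemma homI_le {m : ℤ} {p : Submodule K (Pol K)} (H : ∀ a b : ℕ, -(a : ℤ) - b - 2 = m → mon K a b ∈ p) :
    homI K m ≤ p := hom_le fun a b hab => H a b (by omega)

lemma S0_homI {m : ℤ} {v : Pol K} (hv : v ∈ homI K m) : S0 v ∈ homI K (m + 1) := by
  have := S0_hom hv
  rwa [show -m - 2 - 1 = -(m + 1) - 2 by ring] at this

lemma S1_homI {m : ℤ} {v : Pol K} (hv : v ∈ homI K m) : S1 v ∈ homI K (m + 1) := by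
  have := S1_hom hv
  rwa [show -m - 2 - 1 = -(m + 1) - 2 by ring] at this



lemma F0_homI {m : ℤ} {v : Pol K} (hv : v ∈ homI K m) : F0 g v ∈ homI K (m - 1) := by
  have : homI K m ≤ (homI K (m - 1)).comap (F0 g) := homI_le fun a b hab => by
    rw [Submodule.mem_comap, F0_mon]
    exact Submodule.smul_mem _ _ (monI_mem (by push_cast; omega))
  exact this hv

lemma F1_homI {m : ℤ} {v : Pol K} (hv : v ∈ homI K m) : F1 g v ∈ homI K (m - 1) := by
  have : homI K m ≤ (homI K (m - 1)).comap (F1 g) := homI_le fun a b hab => by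
    rw [Submodule.mem_comap, F1_mon]
    exact Submodule.smul_mem _ _ (monI_mem (by push_cast; omega))
  exact this hv


/-! ### exactness facts -/

















end ops

/-! ## the representation -/

/-- operators of the letters -/
noncomputable def opI (g : K) : Gen → Module.End K (Pol K)
  | .x i => if i = 0 then S0 else S1
  | .h => 1
  | .d j => if j = 0 then F0 g else F1 g
  | _ => 0

/-- lift to the free algebra -/
noncomputable def repIF (g : K) : F K →ₐ[K] Module.End K (Pol K) := FreeAlgebra.lift K (opI g)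

@[simp] lemma repIF_L (g : K) (a : Gen) : repIF g (L K a) = opI g a := by
  simp [repIF, L]

lemma repIF_rel {a b : F K} (h : Rel π a b) : repIF π.g a = repIF π.g b := by
  induction h with
  | xx => simp only [map_mul, repIF_L, opI]; exact relI_x
  | hc a => simp only [map_mul, repIF_L]; simp [opI]
  | x0d0 => simp only [map_mul, map_add, map_smul, repIF_L]; simpa [opI] using sI00 π.g0
  | x0d1 => simp only [map_mul, map_add, map_smul, repIF_L]; simpa [opI] using sI01 π.g0
  | x1d0 => simp only [map_mul, map_add, map_smul, repIF_L]; simpa [opI] using sI10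
  | x1d1 => simp only [map_mul, map_add, map_smul, repIF_L]; simpa [opI] using sI11 π.g0
  | _ => simp only [map_mul, map_add, map_smul, repIF_L, map_zero]; simp [opI]

/-- the representation of `R''` on the inverse polynomials -/
noncomputable def repI : R π →ₐ[K] Module.End K (Pol K) :=
  RingQuot.liftAlgHom K ⟨repIF π.g, fun _ _ h => repIF_rel π h⟩

@[simp] lemma repI_mk (a : F K) : repI π (mk π a) = repIF π.g a := by
  simp [repI, mk]

@[simp] lemma repI_X (a : Gen) : repI π (X π a) = opI π.g a := by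
  rw [X, repI_mk, repIF_L]




lemma repI_rF : repIF π.g (rF π) = 0 := by
  have h := sIdd (K := K) (g := π.g)
  have h2 : (2 : K) = 0 := π.two
  simp only [rF, map_add, map_mul, map_smul, repIF_L]
  simp only [opI, if_true, if_neg (show ¬ ((1 : Fin 2) = 0) by decide)]
  rw [h, ← two_smul K, h2, zero_smul]

/-- the differential of a letter acts by zero -/
lemma repIF_dGen (a : Gen) : repIF π.g (dGen π a) = 0 := by
  cases a with
  | z j => simp only [dGen, map_mul, repI_rF, mul_zero]
  | zc => simp only [dGen, map_mul, map_add, map_smul, repIF_L]; simp [opI]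
  | e j => simp only [dGen, map_mul, map_add, map_smul, repIF_L]; simp [opI]
  | gj j => simp only [dGen, rhoF, map_mul, map_add, map_smul, repIF_L]; simp [opI]
  | gc => simp only [dGen, map_mul, map_add, map_smul, repIF_L]; simp [opI]
  | u s => simp only [dGen, map_mul, repIF_L]; simp [opI]
  | v s => simp only [dGen, map_mul, map_add, map_smul, repIF_L]; simp [opI]
  | _ => simp [dGen]

/-- the inverse polynomials are a dg module with zero differential: `D r` acts by zero -/
lemma repI_D {D : R π →ₗ[K] R π} (hD : IsDiff π D) (r : R π) : repI π (D r) = 0 := by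
  have hone : D 1 = 0 := by
    have := hD.leib 1 1
    rw [one_mul, mul_one, one_mul] at this
    simpa using this
  obtain ⟨a, rfl⟩ := RingQuot.mkAlgHom_surjective K (Rel π) r
  induction a using FreeAlgebra.induction with
  | grade0 c =>
    rw [AlgHom.commutes, Algebra.algebraMap_eq_smul_one, map_smul, hone, smul_zero, map_zero]
  | grade1 a =>
    have := hD.gen a
    rw [X, mk, L] at this
    rw [this]
    have e := repI_mk π (dGen π a)
    rw [mk] at e
    rw [e, repIF_dGen]
  | mul a b ha hb =>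
    rw [map_mul, hD.leib, map_add, map_mul, map_mul, ha, hb, zero_mul, mul_zero, add_zero]
  | add a b ha hb =>
    rw [map_add, map_add, map_add, ha, hb, add_zero]

/-! ## degrees -/

lemma opI_hom (g : K) (a : Gen) {m : ℤ} {v : Pol K} (hv : v ∈ homI K m) :
    opI g a v ∈ homI K (m + a.dP) := by
  cases a with
  | x i =>
    show (if i = 0 then S0 else S1 : Module.End K (Pol K)) v ∈ homI K (m + 1)
    split_ifs
    · exact S0_homI hv
    · exact S1_homI hv
  | h => show v ∈ homI K (m + 0); rwa [add_zero]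
  | d j =>
    show (if j = 0 then F0 g else F1 g : Module.End K (Pol K)) v ∈ homI K (m + -1)
    split_ifs
    · exact F0_homI hv
    · exact F1_homI hv
  | _ => exact Submodule.zero_mem _

lemma repI_wd (w : List Gen) {m : ℤ} {v : Pol K} (hv : v ∈ homI K m) :
    repI π (wd π w) v ∈ homI K (m + wP w) := by
  induction w with
  | nil => simpa [wd, wP] using hv
  | cons a w ih =>
    have e1 : wd π (a :: w) = X π a * wd π w := by simp [wd]
    have e2 : wP (a :: w) = a.dP + wP w := by simp [wP]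
    rw [e1, map_mul, Module.End.mul_apply, repI_X, e2, show m + (a.dP + wP w) = (m + wP w) + a.dP by ring]
    exact opI_hom _ a ih

/-- `R''_(P,A)` maps degree `m` to degree `m + P` -/
lemma repI_pcB {P : ℤ} {A : ℕ} {r : R π} (hr : r ∈ pcB π P A) {m : ℤ} {v : Pol K} (hv : v ∈ homI K m) :
    repI π r v ∈ homI K (m + P) := by
  have : pcB π P A ≤ (homI K (m + P)).comap
      ((LinearMap.applyₗ (R := K) (M₂ := Pol K) v).comp (repI π).toLinearMap) := by
    rw [pcB, Submodule.span_le]
    rintro r ⟨w, hP, _, rfl⟩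
    rw [← hP]
    exact repI_wd π w hv
  exact this hr

/-- `V_n (i, b)`, `n ≤ -2` (placed in cohomological degree `1`) -/
abbrev VVI (K : Type) [Field K] (n : ℤ) (o : Ob) : Submodule K (Pol K) := homI K (n + (o.1.val : ℤ))

lemma repI_ent {n : ℤ} {o o' : Ob} {r : R π} (hr : r ∈ ent π o' o) {v : Pol K} (hv : v ∈ VVI K n o) :
    repI π r v ∈ VVI K n o' := by
  unfold ent at hr
  split_ifs at hr with h
  · have := repI_pcB π hr hv
    have e : n + (o.1.val : ℤ) + difP o o' = n + (o'.1.val : ℤ) := by unfold difP; ring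
    rwa [e] at this
  · have : r = 0 := by simpa using hr
    rw [this, map_zero]
    exact Submodule.zero_mem _

/-- action of an entry as a linear map `V_n(o) → V_n(o')` -/
noncomputable def actI (n : ℤ) (o' o : Ob) : ent π o' o →ₗ[K] VVI K n o →ₗ[K] VVI K n o' where
  toFun r := ((repI π r.1).restrict (fun v hv => repI_ent π r.2 hv))
  map_add' r s := by ext v; simp
  map_smul' c r := by ext v; simp

@[simp] lemma actI_coe (n : ℤ) (o' o : Ob) (r : ent π o' o) (v : VVI K n o) :
    (actI π n o' o r v : Pol K) = repI π r.1 v.1 := rfl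


end Crest.Agent.R186.Inv439
private theorem rz_7d0eda9e53 : type_of% @_root_.Crest.Agent.R186.Inv439.opI.eq_1 := @_root_.Crest.Agent.R186.Inv439.opI.eq_1 -- L361
end

-- ▼ part R186/InvCells_439
section

/-!
# Row 186, half (A) (helper439): the sixteen cells with values in the INVERSE polynomials

Mirror of `Cells_221` (same `Cell`, `cdeg`, `cP`, `Sup`, `pr`) for the modules `V_m`, `m ≤ -2`
(`= x_0⁻¹ x_1⁻¹ K[x_0⁻¹, x_1⁻¹]`, `InvV_439`): `D0I π` = the Hom complex of the 16-cell resolution
with values there.  `exactI_pos`, `exactI_zero`: it is exact for every `m ≤ -2`.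
`D0I_eq`: `D0I` is the table `cf` of `Cells1_221` acting through `repI`.
-/

set_option autoImplicit false

namespace Crest.Agent.R186.Inv439

open Crest.Agent.R186.VOp220 Crest.Agent.R186.DefsQ830 Crest.Agent.R186.Vmod220
open Crest.Agent.R186.Cells221 Crest.Agent.R186.Der580
open Crest.Agent.R186.PBW128 (E)

variable {K : Type} [Field K] (π : Par K)

/-- the operator of `x_i` -/
noncomputable def XXI (K : Type) [Field K] (i : Fin 2) : Pol K →ₗ[K] Pol K := if i = 0 then S0 else S1
/-- the operator of `d_j` -/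
noncomputable def EEI (g : K) (j : Fin 2) : Pol K →ₗ[K] Pol K := if j = 0 then F0 g else F1 g
/-- the operator of `t` -/
noncomputable def TTI (g : K) : Pol K →ₗ[K] Pol K :=
  LinearMap.id + (g - 1) • (F0 g ∘ₗ S0 + F1 g ∘ₗ S1)

/-- the components of the differential -/
noncomputable def D0Ic : Cell → ((Cell → Pol K) →ₗ[K] Pol K)
  | none => 0
  | some (.d j) => EEI π.g j ∘ₗ pj K none
  | some .f => 0
  | some (.z j) => XXI K j ∘ₗ (F1 π.g ∘ₗ pj K (some (.d 0)) + π.g • (F0 π.g ∘ₗ pj K (some (.d 1))))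
  | some .zc => S0 ∘ₗ pj K (some (.z 1)) + S1 ∘ₗ pj K (some (.z 0)) + pj K (some .f)
  | some (.u _) => 0
  | some (.e j) => π.c j • (EEI π.g j ∘ₗ pj K (some .f))
  | some (.gj j) => (π.c j)⁻¹ • (XXI K j ∘ₗ
      (π.g • (F1 π.g ∘ₗ pj K (some (.e 0))) + π.g ^ 3 • (F0 π.g ∘ₗ pj K (some (.e 1)))))
  | some .gc => (π.c 0)⁻¹ • (S0 ∘ₗ pj K (some (.gj 1))) + (π.c 1)⁻¹ • (S1 ∘ₗ pj K (some (.gj 0)))
  | some (.v s) => (TTI π.g + (π.g ^ 2)⁻¹ • LinearMap.id) ∘ₗ pj K (some (.u s))

/-- the differential of the Hom complex with values in the inverse polynomials -/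
noncomputable def D0I : (Cell → Pol K) →ₗ[K] (Cell → Pol K) := LinearMap.pi (D0Ic π)

section formulas

variable (φ : Cell → Pol K)

@[simp] lemma D0I_none : D0I π φ none = 0 := rfl
@[simp] lemma D0I_d0 : D0I π φ (some (.d 0)) = F0 π.g (φ none) := rfl
@[simp] lemma D0I_d1 : D0I π φ (some (.d 1)) = F1 π.g (φ none) := rfl
@[simp] lemma D0I_f : D0I π φ (some .f) = 0 := rfl
@[simp] lemma D0I_z0 : D0I π φ (some (.z 0)) =
    S0 (F1 π.g (φ (some (.d 0))) + π.g • F0 π.g (φ (some (.d 1)))) := rfl
@[simp] lemma D0I_z1 : D0I π φ (some (.z 1)) =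
    S1 (F1 π.g (φ (some (.d 0))) + π.g • F0 π.g (φ (some (.d 1)))) := rfl
@[simp] lemma D0I_zc : D0I π φ (some .zc) =
    S0 (φ (some (.z 1))) + S1 (φ (some (.z 0))) + φ (some .f) := rfl
@[simp] lemma D0I_u (s : Fin 2) : D0I π φ (some (.u s)) = 0 := rfl
@[simp] lemma D0I_e0 : D0I π φ (some (.e 0)) = π.c 0 • F0 π.g (φ (some .f)) := rfl
@[simp] lemma D0I_e1 : D0I π φ (some (.e 1)) = π.c 1 • F1 π.g (φ (some .f)) := rfl
@[simp] lemma D0I_gj0 : D0I π φ (some (.gj 0)) = (π.c 0)⁻¹ •
    S0 (π.g • F1 π.g (φ (some (.e 0))) + π.g ^ 3 • F0 π.g (φ (some (.e 1)))) := rfl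
@[simp] lemma D0I_gj1 : D0I π φ (some (.gj 1)) = (π.c 1)⁻¹ •
    S1 (π.g • F1 π.g (φ (some (.e 0))) + π.g ^ 3 • F0 π.g (φ (some (.e 1)))) := rfl
@[simp] lemma D0I_gc : D0I π φ (some .gc) =
    (π.c 0)⁻¹ • S0 (φ (some (.gj 1))) + (π.c 1)⁻¹ • S1 (φ (some (.gj 0))) := rfl
@[simp] lemma D0I_v (s : Fin 2) : D0I π φ (some (.v s)) =
    TTI π.g (φ (some (.u s))) + (π.g ^ 2)⁻¹ • φ (some (.u s)) := rfl

end formulas




/-! ### degrees -/




/-! ### exactness -/

section exact

variable {π}






end exact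

/-! ### the table acting on the inverse polynomials -/





end Crest.Agent.R186.Inv439
private theorem rz_06765d667a : type_of% @_root_.Crest.Agent.R186.Inv439.D0Ic.eq_1 := @_root_.Crest.Agent.R186.Inv439.D0Ic.eq_1 -- L32
end

-- ▼ part R186/WL2_221

/-!
# Row 186, half (A) (helper221): the modules `V_n` (all `n`) over `L''` and `L`, the sixteen cells
over `L`, (f1)

* `HRep π` : a representation of `R π` on `Pol K` with P-graded pieces `H m`, killing positive
  cohomological degree, boundaries and the W-letters; `hr π` (= `rep`, `hom`), `hi π`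
  (= 439's `repI`, `homI`).
* `VW h n : WMod (WR π)`, `VWL h n : WMod (WL π)`.
* `KKc π : GLC (WL π)` the sixteen cells, `KKres π : (KKc π).Res (VWL (hr π) (-1))`, `preKK`.
* (f1): `KK_hom_pos : 0 ≤ n → (KKc π).HomEx (VWL (hr π) n)`,
  `KK_hom_inv : n ≤ -2 → (KKc π).HomEx (VWL (hi π) n)`.
-/

set_option autoImplicit false
set_option linter.style.haveILetI false

noncomputable section

namespace Crest.Agent.R186.WL221

open Crest.Agent.R186.DefsQ830 Crest.Agent.R186.PBW128 Crest.Agent.R186.Der580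
open Crest.Agent.R186.Win810 Crest.Agent.R186.C2b44 Crest.Agent.R186.Cells221
open Crest.Agent.R186.VOp220 Crest.Agent.R186.Vmod220 Crest.Agent.R186.Inv439

variable {K : Type} [Field K] (π : Par K)

/-- representations on polynomials -/
structure HRep where
  rho : R π →ₐ[K] Module.End K (Pol K)
  H : ℤ → Submodule K (Pol K)
  mem : ∀ {P A C m : ℤ} {a : R π} {v : Pol K}, a ∈ pcZ π P A C → v ∈ H m → rho a v ∈ H (m + P)
  pos : ∀ {P A C : ℤ} {a : R π}, 0 < C → a ∈ pcZ π P A C → rho a = 0
  Dz : ∀ a : R π, rho (Der580.D π a) = 0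
  kil : ∀ r : R π, rho (kill π r) = rho r
  fd : ∀ m : ℤ, Module.Finite K (H m)

/-- the polynomial modules -/
def hr : HRep π where
  rho := Vmod220.rep π
  H := hom K
  mem ha hv := rep_pcZ_mem π ha rfl hv
  pos {P A C a} hC ha := LinearMap.ext fun v => rep_pcZ_pos π hC ha v
  Dz a := LinearMap.ext fun v => rep_D_zero π a v
  kil r := rep_kill π r
  fd m := hom_fd _

theorem opI_pos (g : K) {a : Gen} (h : 0 < a.dC) : opI g a = 0 := by
  cases a <;> simp_all [Gen.dC, opI]

theorem repI_wd_pos (w : List Gen) (h : 0 < wC w) : repI π (wd π w) = 0 := by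
  induction w with
  | nil => simp [wC] at h
  | cons a w ih =>
    have e1 : wd π (a :: w) = X π a * wd π w := by simp [wd]
    rw [e1, map_mul]
    by_cases h0 : 0 < a.dC
    · rw [repI_X, opI_pos _ h0, zero_mul]
    · have h2 : wC (a :: w) = a.dC + wC w := by simp [wC]
      rw [ih (by omega), mul_zero]

theorem repI_pc_pos {P : ℤ} {A C : ℕ} (hC : 0 < C) {a : R π} (ha : a ∈ pc π P A C) :
    repI π a = 0 := by
  have h : pc π P A C ≤ LinearMap.ker (repI π).toLinearMap := by
    rw [pc, Submodule.span_le]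
    rintro r ⟨w, _, _, hw, rfl⟩
    exact repI_wd_pos π w (by omega)
  exact h ha

/-- the inverse polynomials -/
def hi : HRep π where
  rho := repI π
  H := homI K
  mem {P A C m a v} ha hv := by
    rcases pcZ_cases π ha with rfl | ⟨A1, C1, _, _, ha⟩
    · rw [map_zero]
      exact Submodule.zero_mem _
    · exact repI_pcB π (PBW128.pc_le_pcB π _ _ _ ha) hv
  pos {P A C a} hC ha := by
    rcases pcZ_cases π ha with rfl | ⟨A1, C1, _, hC', ha⟩
    · exact map_zero _
    · exact repI_pc_pos π (by omega) ha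
  Dz a := repI_D π (Der580.isDiff π) a
  kil r := by
    refine PBW128.R_ind π (P := fun r => repI π (kill π r) = repI π r) ?_ ?_ ?_ ?_ r
    · intro c; rw [AlgHom.commutes]
    · intro a; cases a <;> simp [opI]
    · intro a b ha hb; rw [map_mul, map_mul, map_mul, ha, hb]
    · intro a b ha hb; rw [map_add, map_add, map_add, ha, hb]
  fd m := homI_fd _

variable {π}

theorem HRep.pos' (h : HRep π) {P A C : ℤ} {a : R π} (hC : 0 < C) (ha : a ∈ pcZ π P A C)
    (v : Pol K) : h.rho a v = 0 := by rw [h.pos hC ha]; rfl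

theorem HRep.Dz' (h : HRep π) (a : R π) (v : Pol K) : h.rho (Der580.D π a) v = 0 := by
  rw [h.Dz]; rfl

theorem HRep.kDz' (h : HRep π) (a : R π) (v : Pol K) : h.rho (kill π (Der580.D π a)) v = 0 := by
  rw [h.kil, h.Dz]; rfl

theorem HRep.memZ (h : HRep π) {P A C m m' : ℤ} {a : R π} {v : Pol K} (ha : a ∈ pcZ π P A C)
    (hv : v ∈ h.H m) (e : m + P = m') : h.rho a v ∈ h.H m' := e ▸ h.mem ha hv

/-- the window module over `L''` -/
def VW (h : HRep π) (n : ℤ) : WMod (WR π) where
  V := Pol K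
  rho := h.rho
  W := fun o : DefsQ830.Ob => h.H (n + (o.1.val : ℤ))
  act {i j C a v} ha hv := by
    refine h.memZ ha hv ?_
    change n + (((j : DefsQ830.Ob).1.val : ℕ) : ℤ) + ((((i : DefsQ830.Ob).1.val : ℕ) : ℤ) -
      (((j : DefsQ830.Ob).1.val : ℕ) : ℤ)) = n + (((i : DefsQ830.Ob).1.val : ℕ) : ℤ)
    ring
  act0 {i j C a v} ha hC _ := h.pos' hC ha v
  actD {i j a v} _ _ := h.Dz' a v
  fin _ := h.fd _

/-- the window module over `L` -/
def VWL (h : HRep π) (n : ℤ) : WMod (WL π) where
  V := Pol K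
  rho := h.rho.comp (RL π).val
  W := fun o : DefsQ830.Ob => h.H (n + (o.1.val : ℤ))
  act {i j C a v} ha hv := (VW h n).act (i := i) (j := j) (C := C) (a := a.1) ha hv
  act0 {i j C a v} ha hC hv := (VW h n).act0 (i := i) (j := j) (C := C) (a := a.1) ha hC hv
  actD {i j a v} _ _ := h.kDz' a.1 v
  fin _ := h.fd _





end Crest.Agent.R186.WL221
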