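import Crest.Agent.R186.Indep_667
import Crest.Agent.R186.DefsQ_830
import Crest.Agent.R186.Hat_827
import Crest.Agent.R186.Spine_700
import Crest.Agent.R186.FinD_384
import Crest.Agent.R186.FinV_988
import Crest.Agent.R186.KHr_302
import Crest.Agent.R186.SMp_890
import Crest.Agent.R186.Res3_255
import Crest.Agent.R186.WL2_221
import Crest.Agent.R186.EndV_448
import Crest.Agent.R186.KX_378
import Crest.Agent.R186.FinD_988

-- ▼ part R186/TopA_226
section

/-!
Row 186, half (A), top (helper226): the parameters over the ground field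
`k0 = Frac F₂[x₀, x₁, x₂]`, and the data `AR` (hence S0280, S0282 ... S0285) from one family of
cells over a strict dg algebra over `k0`.
-/

set_option autoImplicit false
set_option linter.style.haveILetI false

namespace Crest.Agent.R186.TopA226

/-! ### the parameters -/

/-- four independent parameters of `k0` -/
noncomputable def par0 : DefsQ830.Par Spine700.k0 where
  g := Indep667.par 3
  p := Indep667.par 0
  q1 := Indep667.par 1
  q2 := Indep667.par 2
  g0 := Indep667.par_ne_zero 3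
  p0 := Indep667.par_ne_zero 0
  q10 := Indep667.par_ne_zero 1
  q20 := Indep667.par_ne_zero 2
  two := by
    have := CharP.cast_eq_zero Indep667.k0 2
    exact_mod_cast this
  gn := by
    intro n hn h
    have h1 := Indep667.par_indep4 0 0 0 (n : ℤ) (by
      rw [zpow_zero, zpow_zero, zpow_zero, zpow_natCast, one_mul, one_mul, one_mul]
      exact h)
    omega
  ind := fun i j k h => Indep667.par_indep3 i j k h


/-! ### the data -/


end Crest.Agent.R186.TopA226
end

-- ▼ part R186/EndA_448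
section

/-!
Row 186, half (A), integration (helper448): the concrete objects and the chain of Props from the
open leaves to the null pair.
-/

set_option autoImplicit false
set_option linter.style.haveILetI false
set_option linter.unusedSectionVars false

noncomputable section

open MulOpposite

namespace Crest.Agent.R186.EndA448

open Hat827 Win810 Frame515 Res255 DefsQ830 SM890 WL221 KH186 FinD384 ConeHyp462 Adapt186
open FinV988 SemiFree515

variable {K : Type} [Field K]

/-! ### abstract skeleton: any window data, any `CE`, any module in degree zero -/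

section abs

variable {w : WD K} (E : CE w) (N : LM w.dga) [Module.Finite K N.X] [Nontrivial N.X]
  (h0 : Deg0 N) (X : Pre w.dga N.X)


/-- **(KX), the shape of 378's output** -/
structure KXOut (X : PCells w.dga) where
  kt : X.ι → E.toIn.Y
  kt_deg : ∀ σ, kt σ ∈ E.toIn.gr.G (X.s σ)
  kt_e : ∀ σ, E.toIn.L (X.e σ) (kt σ) = kt σ
  kt_d : ∀ σ, E.toIn.dY (kt σ) + ∑ τ ∈ X.F (X.s σ), E.toIn.L (X.c σ τ) (kt τ) = 0
  kt_ne : kt ≠ 0
  KX : ∀ (p : ℤ) (κ : X.ι → E.toIn.Y), (∀ σ, κ σ ∈ E.toIn.gr.G ((X.s σ : ℤ) - p)) →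
    (∀ σ, E.toIn.L (X.e σ) (κ σ) = κ σ) →
    (∀ σ, E.toIn.dY (κ σ) + ∑ τ ∈ X.F (X.s σ), E.toIn.L (X.c σ τ) (κ τ) = 0) →
    ∃ (ψ : X.ι → E.toIn.Y) (r : K), (∀ σ, ψ σ ∈ E.toIn.gr.G ((X.s σ : ℤ) - p + 1)) ∧
      (∀ σ, E.toIn.L (X.e σ) (ψ σ) = ψ σ) ∧ (p ≠ 0 → r = 0) ∧
      ∀ σ, κ σ = r • kt σ + (E.toIn.dY (ψ σ) + ∑ τ ∈ X.F (X.s σ), E.toIn.L (X.c σ τ) (ψ τ))

/-- **(D), the shape of D1, D2** -/
structure DOut (X : PCells w.dga) (kt : X.ι → E.toIn.Y) : Prop where
  D1 : ∀ (p : ℤ) (φ : X.ι → w.dga.C), (∀ σ, φ σ ∈ w.dga.G ((X.s σ : ℤ) - p)) →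
    (∀ σ, X.e σ * φ σ = φ σ) →
    (∀ σ, w.dga.D (φ σ) + ∑ τ ∈ X.F (X.s σ), X.c σ τ * φ τ = 0) →
    ∃ η ∈ E.toIn.gs.G (-p), E.toIn.dZ η = 0 ∧
      IsCob w.dga X p (fun σ => φ σ + E.toIn.ev (kt σ) η)
  D2 : ∀ (p : ℤ), ∀ η ∈ E.toIn.gs.G (-p), E.toIn.dZ η = 0 →
    IsCob w.dga X p (fun σ => E.toIn.ev (kt σ) η) → ∃ η' ∈ E.toIn.gs.G (-p + 1), η = E.toIn.dZ η'

/-- **the null pair from the leaves** -/
theorem null_abs
    (evV : ∀ (y : E.toIn.Y) (z : E.toIn.Z) (v : N.X), E.toIn.ev y z • v = 0)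
    (hV : ∀ k : ℤ, 1 ≤ k → ExAt (tG (DR N) (lpre X)) k)
    (hH : Ac (tG E.Hrm (lpre X)))
    (hK : KXOut E (pcells N h0 X hV))
    (hD : DOut E (pcells N h0 X hV) hK.kt) : Nonempty (Spine700.Null.{0, 0} K) := by
  have H : HIn E.toIn (pcells N h0 X hV) :=
    { evV := evV
      H := H_of E.toIn (pcells N h0 X hV) hH
      kt := hK.kt
      kt_deg := hK.kt_deg
      kt_e := hK.kt_e
      kt_d := hK.kt_d
      kt_ne := hK.kt_ne
      KX := hK.KX
      D1 := hD.D1
      D2 := hD.D2 }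
  exact H.null

end abs

end Crest.Agent.R186.EndA448
end
end

-- ▼ part R186/EndB_448

/-!
Row 186, half (A), integration (helper448): the null pair from (H), (V), (K), (D) on the concrete
objects.
-/

set_option autoImplicit false
set_option linter.style.haveILetI false
set_option linter.unusedSectionVars false

noncomputable section

open MulOpposite

namespace Crest.Agent.R186.EndB448

open Hat827 Win810 Frame515 Res255 DefsQ830 SM890 KH186 FinD384 ConeHyp462 Adapt186
open FinV988 SemiFree515 EndA448 EndV448 FinD988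

variable {K : Type} [Field K] (π : Par K) (s : ℕ) (hs : 5 ≤ s)

/-- the concrete `CE` -/
abbrev EG : CE (KHc302.WG π s (KHc302.two_le hs)) := KHc302.CEr π s hs

/-- the concrete input of the cone -/
abbrev IG : In (Gam π s hs) := (EG π s hs).toIn

theorem HmP_ev (y : (IG π s hs).Y) (z : (IG π s hs).Z) :
    (HmP π s (KHc302.two_le hs)).f ((IG π s hs).ev y z) = 0 := by
  apply Subtype.ext
  ext i j
  change (bdM π s (KHc302.two_le hs)).fst ((CE.evK (E := EG π s hs) y z).1 i j) = 0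
  rw [CE.evK_apply]
  rfl

/-- `ev` kills `V` -/
theorem evV (y : (IG π s hs).Y) (z : (IG π s hs).Z) (v : (VG π s hs).X) :
    (IG π s hs).ev y z • v = 0 := by
  change (HmP π s (KHc302.two_le hs)).f ((IG π s hs).ev y z) • (show (V2 π).X from v) = 0
  rw [HmP_ev, zero_smul]

/-- (V) -/
def PV : Prop := ∀ k : ℤ, 1 ≤ k → ExAt (tG (DR (VG π s hs)) (XL π s hs)) k

/-- (H) -/
def PH : Prop := Ac (tG (EG π s hs).Hrm (XL π s hs))

variable {π s hs}

/-- the cells with rigidity -/
def PG (hV : PV π s hs) : PCells (Gam π s hs) :=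
  pcells (VG π s hs) (deg0_VG π s hs) (XG π s hs) hV


/-- **(K) + (D)** on the concrete objects -/
theorem null_B (hH : PH π s hs) (hV : PV π s hs) (U : KX378.Aug (IG π s hs) (PG hV))
    (hD : ∀ (kt : (PG hV).ι → (IG π s hs).Y) (hk : ∀ σ, kt σ ∈ (IG π s hs).gr.G ((PG hV).s σ))
      (hd : KtD (IG π s hs) (PG hV) kt), (∀ σ, (IG π s hs).L ((PG hV).e σ) (kt σ) = kt σ) →
      (∀ σ, U.a (kt σ) = (PG hV).v σ) → QI (gD (IG π s hs) (PG hV) kt hk hd)) :
    Nonempty (Spine700.Null.{0, 0} K) := by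
  obtain ⟨kt, k1, k2, k3, k4, k5, k6⟩ := U.kt_KX
  have hq : QI (gD (IG π s hs) (PG hV) kt k1 k3) := hD kt k1 k3 k2 k5
  exact null_abs (EG π s hs) (VG π s hs) (deg0_VG π s hs) (XG π s hs) (evV π s hs) hV hH
    { kt := kt, kt_deg := k1, kt_e := k2, kt_d := k3, kt_ne := k4, KX := k6 }
    { D1 := D1_of (prlSelf (grM π s (KHc302.two_le hs))) k1 k2 k3 hq
      D2 := D2_of k1 k3 hq }

end Crest.Agent.R186.EndB448
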