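import Crest.Agent.R186.FinV_988
import Crest.Agent.R186.Res3_255

/-!
Row 186 (A), helper255: glue between the resolutions of `Res_255`, 515's `Pre` and 988's letters.

* `deg0_hon`, `deg0_res` : `Deg0` for honest modules and restrictions.
* `lresN N h0 X : LRes (lpre X) N` : 515's `Pre` of a dg module in degree zero is a resolution.
* `preN N : Pre A N.X`.
* `DR_res`, `tG_DR_res` : the dual of a restriction is the restriction of the dual.
-/

set_option autoImplicit false
set_option linter.style.haveILetI false
set_option linter.unusedSectionVars false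

open MulOpposite

namespace Crest.Agent.R186.Glue255

open Hat827 Hat827.DGA Frame515 Res255 SemiFree515 FinV988

variable {K : Type} [Field K] {A B : DGA K}

section hon

variable {V : Type} [AddCommGroup V] [Module K V] [Module A.C V]
variable [IsScalarTower K A.C V] (hpos : ∀ k : ℤ, 0 < k → ∀ a ∈ A.G k, ∀ w : V, a • w = 0)
  (hD : ∀ (a : A.C) (w : V), A.D a • w = 0)

theorem deg0_hon : Deg0 (honL A V hpos hD) where
  top := fun (x : V) => by
    have h : x ∈ (if (0 : ℤ) = 0 then (⊤ : Submodule K V) else ⊥) := by
      rw [if_pos rfl]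
      exact Submodule.mem_top
    exact h
  bot {k x} hx hk := mem_hon hpos hD hk hx

end hon

theorem deg0_res (h : Hm A B) {N : LM B} (h0 : Deg0 N) : Deg0 (resL h N) where
  top x := h0.top x
  bot hx hk := h0.bot hx hk

/-- 515's resolution of a dg module in degree zero -/
noncomputable def preN (N : LM A) [Module.Finite K N.X] : Pre A N.X := SemiFree515.pre A N.X

theorem pos0 {N : LM A} (h0 : Deg0 N) (k : ℤ) (hk : 0 < k) (a : A.C) (ha : a ∈ A.G k) (w : N.X) :
    a • w = 0 := h0.bot (N.smul_mem ha (h0.top w)) (by omega)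

/-- **515's resolution resolves** -/
noncomputable def lresN (N : LM A) (h0 : Deg0 N) (X : Pre A N.X) : LRes (lpre X) N where
  lo := 0
  v := X.v
  v_mem σ := by
    change X.v σ ∈ N.gr ((0 : ℤ) + (X.s σ : ℤ))
    by_cases h : X.s σ = 0
    · rw [h]
      exact h0.top _
    · rw [X.v_zero σ h]
      exact Submodule.zero_mem _
  v_e := X.v_e
  v_d σ := by
    have h := (lresPre (A := A) (V := N.X) (pos0 h0) h0.D X).v_d σ
    rw [h0.d]
    exact h
  ex k x n hx hd hn hsum := by
    have hc : ∀ (j : ℤ) (y : N.X), y ∈ N.gr j →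
        y ∈ (honL A N.X (pos0 h0) h0.D).gr j := by
      intro j y hy
      change y ∈ (if j = 0 then (⊤ : Submodule K N.X) else ⊥)
      by_cases hj : j = 0
      · rw [if_pos hj]
        exact Submodule.mem_top
      · rw [if_neg hj, h0.bot hy hj]
        exact Submodule.zero_mem _
    have hc' : ∀ (j : ℤ) (y : N.X), y ∈ (honL A N.X (pos0 h0) h0.D).gr j → y ∈ N.gr j := by
      intro j y hy
      change y ∈ (if j = 0 then (⊤ : Submodule K N.X) else ⊥) at hy
      by_cases hj : j = 0
      · rw [hj]
        exact h0.top y
      · rw [if_neg hj] at hy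
        rw [(Submodule.mem_bot K).1 hy]
        exact Submodule.zero_mem _
    obtain ⟨y, hy, n', hn', h1, h2⟩ :=
      (lresPre (A := A) (V := N.X) (pos0 h0) h0.D X).ex k x n hx hd (hc _ _ hn) (by
        rw [h0.d n] at hsum
        exact hsum)
    refine ⟨y, hy, n', hc' _ _ hn', h1, ?_⟩
    rw [h0.d n']
    exact h2


/-! ### the dual of a restriction -/



instance finRes (h : Hm A B) (N : LM B) [i : Module.Finite K N.X] : Module.Finite K (resL h N).X := i
instance ntRes (h : Hm A B) (N : LM B) [i : Nontrivial N.X] : Nontrivial (resL h N).X := i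

end Crest.Agent.R186.Glue255
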