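import Crest.Agent.R186.KHr_302
import Crest.Agent.R186.GPre_221
import Crest.Agent.R186.C2L_221
import Crest.Agent.R186.SMp_890

-- ▼ part R186/KV_186
section

/-!
Row 186 (A), leaf A.KH (helper186): the augmentation `KK → V` is a quasi-isomorphism.

`Vlm M : LM w.dga` : a window module as dg module in degree `0`.
`KRes E M` : the cells of `E : CE w` resolve `M` (rows over `B`).
`aug`, `aug_L`, `aug_deg`, `aug_d`, `aug_surj`, `aug_ex`; `augH : GCHom`, `augQI : QI`.
-/

set_option autoImplicit false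
set_option linter.style.haveILetI false

namespace Crest.Agent.R186.KH186

open Hat827 Win810 Adapt186 Frame515

variable {K : Type} [Field K]

/-! ### window modules as dg modules in degree `0` -/

section Vlm

variable {w : WD K} (M : WMod w)

/-- degree pieces of a module in degree `0` -/
def gr0 (V : Type) [AddCommGroup V] [Module K V] (k : ℤ) : Submodule K V := if k = 0 then ⊤ else ⊥

theorem mem_gr0 {V : Type} [AddCommGroup V] [Module K V] {k : ℤ} {x : V} :
    x ∈ gr0 (K := K) V k ↔ (k ≠ 0 → x = 0) := by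
  unfold gr0
  by_cases h : k = 0
  · rw [if_pos h]
    exact ⟨fun _ h' => absurd h h', fun _ => Submodule.mem_top⟩
  · rw [if_neg h, Submodule.mem_bot]
    exact ⟨fun hx _ => hx, fun hx => hx h⟩

theorem WMod_smul_G {k : ℤ} {a : w.Win} (ha : a ∈ w.G k) (hk : 0 < k) (x : M.VM) : a • x = 0 := by
  apply M.vext
  intro i
  rw [WMod.smul_apply]
  exact Finset.sum_eq_zero fun j _ => M.act0 (ha i j) hk (x j).2

theorem WMod_smul_D (a : w.Win) (x : M.VM) : w.DW a • x = 0 := by
  apply M.vext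
  intro i
  rw [WMod.smul_apply]
  refine Finset.sum_eq_zero fun j _ => ?_
  rw [WD.DW_apply]
  have key : w.E i j ≤ LinearMap.ker (((LinearMap.applyₗ (x j).1).comp
      M.rho.toLinearMap).comp w.D) := by
    refine iSup_le fun C => ?_
    intro y hy
    rw [LinearMap.mem_ker]
    change M.rho (w.D y) (x j).1 = 0
    by_cases h1 : C ≤ 0
    · have h2 := WD.q_D hy
      unfold WD.q at h2
      rw [w.neg i j (C - 1) (by omega), Submodule.mem_bot] at h2
      rw [h2, map_zero]
      rfl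
    · by_cases h3 : C = 1
      · subst h3
        exact M.actD hy (x j).2
      · exact M.act0 (WD.q_D hy) (by omega) (x j).2
  exact key (a.2 i j)

/-- a window module as dg module in degree `0` -/
noncomputable def Vlm : LM w.dga where
  X := M.VM
  gr := gr0 M.VM
  d := 0
  d_mem _ := Submodule.zero_mem _
  d_d _ := rfl
  act := inferInstanceAs (Module w.Win M.VM)
  tower := inferInstanceAs (IsScalarTower K w.Win M.VM)
  smul_mem {k l a x} ha hx := by
    rw [mem_gr0] at hx ⊢
    intro h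
    by_cases hl : l = 0
    · subst hl
      rcases lt_or_ge 0 k with hk | hk
      · exact WMod_smul_G M ha hk x
      · have h0 : a = 0 := by
          have h1 : a ∈ w.G k := ha
          have hk' : k < 0 := by omega
          have h2 : w.G k = ⊥ := w.dga.G_neg k hk'
          rw [h2] at h1
          exact (Submodule.mem_bot K).1 h1
        rw [h0]
        exact zero_smul w.Win x
    · rw [hx hl]
      exact smul_zero (M := w.Win) (A := M.VM) a
  leib a x := by
    change (0 : M.VM) = (show w.Win from w.DW a) • x + (show w.Win from a) • (0 : M.VM)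
    rw [smul_zero, add_zero]
    exact (WMod_smul_D M a x).symm


end Vlm

/-! ### the cells resolve a window module -/

/-- the cells of `E` resolve the window module `M` (statements row by row over `B`) -/
structure KRes {w : WD K} (E : CE w) (M : WMod w) where
  rB : E.B →ₐ[K] Module.End K M.V
  rB_p : ∀ a : w.S, M.rho a = rB (E.p a)
  rB_pos : ∀ {P A C : ℤ} {b : E.B}, b ∈ E.pb P A C → 0 < C → rB b = 0
  rB_D : ∀ b : E.B, rB (E.D' b) = 0
  rB_mem : ∀ {i j : w.Ob} {C : ℤ} {b : E.B} {u : M.V}, b ∈ E.pb (w.P i - w.P j) (w.A i - w.A j) C →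
    u ∈ M.W j → rB b u ∈ M.W i
  v : E.κ → M.V
  v_mem : ∀ c, v c ∈ M.W (E.oc c)
  v_zero : ∀ c, E.cd c ≠ 0 → v c = 0
  v_aug : ∀ c, E.cd c = 1 → ∑ c', rB (E.cc c c') (v c') = 0
  exR : ∀ (m : ℕ) (i : w.Ob) (x : E.κ → E.B),
    (∀ c, x c ∈ E.pb (w.P i - w.P (E.oc c)) (w.A i - w.A (E.oc c)) ((m : ℤ) + 1 - E.cd c)) →
    (∀ c', E.D' (x c') + ∑ c, x c * E.cc c c' = 0) →
    ∃ y : E.κ → E.B,
      (∀ c, y c ∈ E.pb (w.P i - w.P (E.oc c)) (w.A i - w.A (E.oc c)) ((m : ℤ) + 2 - E.cd c)) ∧
      ∀ c', x c' = E.D' (y c') + ∑ c, y c * E.cc c c'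
  exR0 : ∀ (i : w.Ob) (x : E.κ → E.B),
    (∀ c, x c ∈ E.pb (w.P i - w.P (E.oc c)) (w.A i - w.A (E.oc c)) (-(E.cd c : ℤ))) →
    ∑ c, rB (x c) (v c) = 0 →
    ∃ y : E.κ → E.B,
      (∀ c, y c ∈ E.pb (w.P i - w.P (E.oc c)) (w.A i - w.A (E.oc c)) (1 - (E.cd c : ℤ))) ∧
      ∀ c', x c' = E.D' (y c') + ∑ c, y c * E.cc c c'
  gen : ∀ (i : w.Ob) (u : M.V), u ∈ M.W i → ∃ x : E.κ → E.B,
    (∀ c, x c ∈ E.pb (w.P i - w.P (E.oc c)) (w.A i - w.A (E.oc c)) (-(E.cd c : ℤ))) ∧
      ∑ c, rB (x c) (v c) = u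

namespace KRes

variable {w : WD K} {E : CE w} {M : WMod w} (R : KRes E M)

theorem rB_EB {i j : w.Ob} {b : E.B} {u : M.V} (hb : b ∈ E.EB (w.P i - w.P j) (w.A i - w.A j))
    (hu : u ∈ M.W j) : R.rB b u ∈ M.W i := by
  have key : E.EB (w.P i - w.P j) (w.A i - w.A j) ≤
      (M.W i).comap ((LinearMap.applyₗ u).comp R.rB.toLinearMap) := by
    refine iSup_le fun C => ?_
    intro x hx
    exact R.rB_mem hx hu
  exact key hb

theorem rB_neg {P A C : ℤ} {b : E.B} (hb : b ∈ E.pb P A C) (hC : C ≠ 0) : R.rB b = 0 := by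
  rcases lt_or_gt_of_ne hC with h | h
  · rw [E.pb_neg _ _ _ h, Submodule.mem_bot] at hb
    rw [hb, map_zero]
  · exact R.rB_pos hb h

/-- the relation of the augmentation at every cell -/
theorem v_aug' (c : E.κ) : ∑ c', R.rB (E.cc c c') (R.v c') = 0 := by
  by_cases h : E.cd c = 1
  · exact R.v_aug c h
  · refine Finset.sum_eq_zero fun c' _ => ?_
    by_cases h' : E.cd c' = 0
    · rw [R.rB_neg (E.cc_mem c c') (by omega)]
      rfl
    · rw [R.v_zero c' h', map_zero]

/-- **the augmentation** -/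
def aug : E.KK →ₗ[K] M.VM where
  toFun x := fun i => ⟨∑ c, R.rB (x.1 i c) (R.v c), Submodule.sum_mem _ fun c _ =>
    R.rB_EB (x.2 i c) (R.v_mem c)⟩
  map_add' x y := by
    apply M.vext
    intro i
    change ∑ c, R.rB (x.1 i c + y.1 i c) (R.v c) =
      ∑ c, R.rB (x.1 i c) (R.v c) + ∑ c, R.rB (y.1 i c) (R.v c)
    simp only [map_add, LinearMap.add_apply, Finset.sum_add_distrib]
  map_smul' r x := by
    apply M.vext
    intro i
    change ∑ c, R.rB (r • x.1 i c) (R.v c) = r • ∑ c, R.rB (x.1 i c) (R.v c)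
    simp only [map_smul, LinearMap.smul_apply, Finset.smul_sum]

theorem aug_apply (x : E.KK) (i : w.Ob) : (R.aug x i).1 = ∑ c, R.rB (x.1 i c) (R.v c) := rfl

/-- (a1) -/
theorem aug_L (m : w.Win) (x : E.KK) : R.aug (E.L m x) = m • R.aug x := by
  apply M.vext
  intro i
  rw [WMod.smul_apply, aug_apply]
  simp only [aug_apply, CE.L_apply, map_sum, map_mul, LinearMap.sum_apply, Module.End.mul_apply,
    R.rB_p]
  exact Finset.sum_comm

/-- (a2) -/
theorem aug_deg {k : ℤ} (hk : k ≠ 0) {x : E.KK} (hx : x ∈ E.gr.G k) : R.aug x = 0 := by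
  rw [CE.mem_gr] at hx
  apply M.vext
  intro i
  rw [aug_apply]
  refine Finset.sum_eq_zero fun c _ => ?_
  by_cases h : E.cd c = 0
  · rw [R.rB_neg (hx i c) (by omega)]
    rfl
  · rw [R.v_zero c h, map_zero]

/-- (a3) -/
theorem aug_d (x : E.KK) : R.aug (E.dY x) = 0 := by
  apply M.vext
  intro i
  rw [aug_apply]
  simp only [CE.dY_apply, map_add, map_sum, map_mul, LinearMap.sum_apply,
    Module.End.mul_apply, R.rB_D, zero_add]
  rw [Finset.sum_comm]
  refine Finset.sum_eq_zero fun c _ => ?_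
  rw [← map_sum, R.v_aug' c, map_zero]

/-- elements of `KK` from homogeneous rows -/
theorem exists_mk {k : ℤ} (y : w.Ob → E.κ → E.B)
    (hy : ∀ i c, y i c ∈ E.pb (w.P i - w.P (E.oc c)) (w.A i - w.A (E.oc c)) (k - E.cd c)) :
    ∃ z : E.KK, z ∈ E.gr.G k ∧ z.1 = y :=
  ⟨⟨y, fun i c => E.pb_le _ _ _ (hy i c)⟩, CE.mem_gr.2 hy, rfl⟩

/-- (a4) -/
theorem aug_surj (u : M.VM) : ∃ x ∈ E.gr.G 0, R.aug x = u := by
  have key := fun i : w.Ob => R.gen i (u i).1 (u i).2
  choose x hx hu using key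
  obtain ⟨z, hz, rfl⟩ := exists_mk (k := 0) x fun i c => by
    have := hx i c
    rwa [← zero_sub] at this
  refine ⟨z, hz, ?_⟩
  apply M.vext
  intro i
  exact hu i

/-- (a5) -/
theorem aug_ex {n : ℤ} {x : E.KK} (hx : x ∈ E.gr.G n) (hd : E.dY x = 0)
    (h0 : n = 0 → R.aug x = 0) : ∃ y ∈ E.gr.G (n + 1), x = E.dY y := by
  rw [CE.mem_gr] at hx
  have hd' : ∀ i c', E.D' (x.1 i c') + ∑ c, x.1 i c * E.cc c c' = 0 := fun i c' =>
    congrFun (congrFun (congrArg Subtype.val hd) i) c'
  rcases lt_trichotomy n 0 with hn | hn | hn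
  · refine ⟨0, Submodule.zero_mem _, ?_⟩
    rw [map_zero]
    apply Subtype.ext
    funext i c
    have := hx i c
    rw [E.pb_neg _ _ _ (by omega), Submodule.mem_bot] at this
    exact this
  · subst hn
    have ha := h0 rfl
    have key := fun i : w.Ob => R.exR0 i (x.1 i) (fun c => by
      have := hx i c
      rwa [zero_sub] at this) (by
      have := congrArg (fun z : M.VM => (z i).1) ha
      exact this)
    choose y hy hxy using key
    obtain ⟨z, hz, rfl⟩ := exists_mk (k := 0 + 1) y fun i c => by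
      have := hy i c
      rwa [zero_add]
    refine ⟨z, hz, ?_⟩
    apply Subtype.ext
    funext i c'
    exact hxy i c'
  · obtain ⟨m, rfl⟩ : ∃ m : ℕ, n = (m : ℤ) + 1 := ⟨(n - 1).toNat, by omega⟩
    have key := fun i : w.Ob => R.exR m i (x.1 i) (hx i) (hd' i)
    choose y hy hxy using key
    obtain ⟨z, hz, rfl⟩ := exists_mk (k := (m : ℤ) + 1 + 1) y fun i c => by
      have := hy i c
      rwa [show (m : ℤ) + 1 + 1 = (m : ℤ) + 2 by ring]
    refine ⟨z, hz, ?_⟩
    apply Subtype.ext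
    funext i c'
    exact hxy i c'

/-! ### on the frame -/





end KRes

end Crest.Agent.R186.KH186
end

-- ▼ part R186/KVc_186

/-!
Row 186 (A), leaf A.KH (helper186): the concrete closing data over `Γ = (bdM π s hs).ext`, and
`KK → V_{-1}` is a quasi-isomorphism of dg modules over `Γ`.
-/

set_option autoImplicit false
set_option linter.style.haveILetI false

noncomputable section

namespace Crest.Agent.R186.KHc186

open Crest.Agent.R186.DefsQ830 Crest.Agent.R186.PBW128 Crest.Agent.R186.Der580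
open Crest.Agent.R186.Win810 Crest.Agent.R186.C2b44 Crest.Agent.R186.Cells221
open Crest.Agent.R186.VOp220 Crest.Agent.R186.Vmod220 Crest.Agent.R186.WL221
open Crest.Agent.R186.SM890 Crest.Agent.R186.KH186

variable {K : Type} [Field K] (π : Par K)

/-! ### projections on the cohomological degree -/

open Classical in
/-- projection of the normal forms -/
def pN (K : Type) [Field K] (C : ℤ) : N K →ₗ[K] N K :=
  Finsupp.linearCombination K (fun ν : Ix => if (dCx ν : ℤ) = C then Finsupp.single ν 1 else 0)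

theorem pN_bv (C : ℤ) (i j k : ℕ) (w : List E) (q : Wb) :
    pN K C (bv K i j k w q) = if (dCx (i, j, k, w, q) : ℤ) = C then bv K i j k w q else 0 := by
  simp [pN, bv]

/-- projection of `R''` -/
def pR (C : ℤ) : R π →ₗ[K] R π := (Psi π) ∘ₗ (pN K C) ∘ₗ (ev π)

theorem pR_same {P A C : ℤ} {r : R π} (hr : r ∈ pcZ π P A C) : pR π C r = r := by
  have h := map_pcZ π (φ := (Psi π) ∘ₗ (pN K C) - Psi π) (T := ⊥) ?_ hr
  · rw [Submodule.mem_bot, LinearMap.sub_apply, LinearMap.comp_apply, Psi_ev, sub_eq_zero] at h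
    exact h
  · intro i j k w q _ _ h3
    rw [Submodule.mem_bot, LinearMap.sub_apply, LinearMap.comp_apply, pN_bv, if_pos h3,
      sub_self]

theorem pR_ne {P A C C' : ℤ} {r : R π} (hC : C' ≠ C) (hr : r ∈ pcZ π P A C) :
    pR π C' r = 0 := by
  have h := map_pcZ π (φ := (Psi π) ∘ₗ (pN K C')) (T := ⊥) ?_ hr
  · rw [Submodule.mem_bot, LinearMap.comp_apply] at h
    exact h
  · intro i j k w q _ _ h3
    rw [Submodule.mem_bot, LinearMap.comp_apply, pN_bv, if_neg (fun h => hC (h.symm.trans h3)),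
      map_zero]

/-- projection of `R'` -/
def pL (C : ℤ) : RL π →ₗ[K] RL π :=
  (prL π).toLinearMap ∘ₗ (pR π C) ∘ₗ (RL π).val.toLinearMap

theorem pL_same {P A C : ℤ} {b : RL π} (hb : b ∈ pcL π P A C) : pL π C b = b := by
  change prL π (pR π C b.1) = b
  rw [show pR π C b.1 = b.1 from pR_same π hb]
  exact prL_inL b

theorem pL_ne {P A C : ℤ} {b : RL π} (C' : ℤ) (hb : b ∈ pcL π P A C) (hC : C' ≠ C) :
    pL π C' b = 0 := by
  change prL π (pR π C' b.1) = 0
  rw [show pR π C' b.1 = 0 from pR_ne π hC hb, map_zero]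

/-! ### the closing data -/

variable (s : ℕ) (hs : 5 ≤ s)

/-- the window data of `Γ` -/
abbrev wG (s : ℕ) (hs : 5 ≤ s) : WD K := (bdM π s (le_trans (by norm_num) hs)).ext

/-- `Γ → R'` -/
def pG : (wG π s hs).S →ₐ[K] RL π := (prL π).comp (bdM π s (le_trans (by norm_num) hs)).fst

/-- `b ↦ b o₁ κ` -/
def oG : RL π →ₗ[K] (wG π s hs).S :=
  (bdM π s (le_trans (by norm_num) hs)).inr ∘ₗ (soc π) ∘ₗ (RL π).val.toLinearMap



/-- **the closing data over `Γ`** -/
def CEr : CE (wG π s hs) where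
  B := RL π
  two b := Subtype.ext (Der580.add_self π b.1)
  pb := pcL π
  pb_mul := pcL_mul
  pb_neg P A C h := pcL_neg (Or.inr h)
  Nb := 8
  pb_big P i j C h := by
    have hi := (show DefsQ830.Ob from i).2.2
    have hj := (show DefsQ830.Ob from j).2.2
    change pcL π P ((((show DefsQ830.Ob from i).2.val : ℕ) : ℤ) -
      (((show DefsQ830.Ob from j).2.val : ℕ) : ℤ)) C = ⊥
    by_cases h0 : 0 ≤ (((show DefsQ830.Ob from i).2.val : ℕ) : ℤ) -
        (((show DefsQ830.Ob from j).2.val : ℕ) : ℤ)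
    · apply pcL_big _ _ h0
      push_cast at h
      omega
    · exact pcL_neg (Or.inl (by omega))
  pb_fin P A C := inferInstance
  prB := pL π
  prB_self := pL_same π
  prB_ne C' hb hC := pL_ne π C' hb hC
  D' := WL221.DL π
  D'_mul := DL_mul
  D'_D' := DL_DL
  D'_mem := pcL_D
  p := pG π s hs
  p_mem h := prL_mem h.1
  p_D a := (DL_prL a.1).symm
  o := oG π s hs
  s0 := s
  o_mem {P A C b} hb := by
    refine SExt44.BD.inr_mem _ ?_
    refine mem_pcM π s (C' := C) .one ?_ ?_
    · rw [sub_add_cancel]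
      exact hb
    · simp [Wb.word, wC]
  mul_o a b := by
    apply SExt44.BD.Car.ext
    · exact mul_zero _
    · change repM π a.1 (soc π b.1) + rho π 0 a.2 = soc π ((prL π a.1).1 * b.1)
      rw [map_zero, LinearMap.zero_apply, add_zero, soc_left, prL_val]
      rw [← soc_kill π ((show R π from a.1) * b.1), map_mul, kill_val]
  o_mul b a := by
    apply SExt44.BD.Car.ext
    · exact zero_mul _
    · change repM π 0 a.2 + rho π a.1 (soc π b.1) = soc π (b.1 * (prL π a.1).1)
      rw [map_zero, LinearMap.zero_apply, zero_add, soc_right, prL_val]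
      rw [← soc_kill π (b.1 * (show R π from a.1)), map_mul, kill_val]
  D_o b := by
    apply SExt44.BD.Car.ext
    · exact map_zero (Der580.D π)
    · change dMM π (soc π b.1) = soc π (WL221.DL π b).1
      rw [soc_D, DL_val, soc_kill]
  p_o b := map_zero (prL π)
  κ := Cell
  oc := oc
  cd := cdeg
  cd_le c := by
    have h1 := cdeg_le c
    push_cast
    omega
  cc := cL π
  cc_mem := cL_mem_q π
  mc := cL_mc π

/-! ### the module `V_n` over `Γ` -/

/-- the window module `V` over `Γ` -/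
def VX (h : HRep π) (n : ℤ) : WMod (wG π s hs) where
  V := Pol K
  rho := h.rho.comp (bdM π s (le_trans (by norm_num) hs)).fst
  W := fun o : DefsQ830.Ob => h.H (n + (o.1.val : ℤ))
  act {i j C a v} ha hv := (VW h n).act (i := i) (j := j) (C := C) (a := a.1) ha.1 hv
  act0 {i j C a v} ha hC hv := (VW h n).act0 (i := i) (j := j) (C := C) (a := a.1) ha.1 hC hv
  actD {i j a v} ha hv := (VW h n).actD (i := i) (j := j) (a := a.1) ha.1 hv
  fin _ := h.fd _


/-- **the sixteen cells resolve `V_{-1}`, over `Γ`** -/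
def kres : KRes (CEr π s hs) (VX π s hs (hr π) (-1)) where
  rB := (hr π).rho.comp (RL π).val
  rB_p a := ((hr π).kil a.1).symm
  rB_pos hb hC := (hr π).pos hC hb
  rB_D b := ((hr π).kil (Der580.D π b.1)).trans ((hr π).Dz b.1)
  rB_mem {i j C b u} hb hu := (VW (hr π) (-1)).act (i := i) (j := j) (C := C) (a := b.1) hb hu
  v := vKK (K := K)
  v_mem c := (KKres π).v_mem c
  v_zero c := (KKres π).v_zero c
  v_aug c hc := by
    have h := (KKres π).v_aug c hc
    change ∑ τ ∈ FC 0, Vmod220.rep π (cL π c τ).1 (vKK (K := K) τ) = 0 at h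
    rw [FC0, Finset.sum_singleton] at h
    change ∑ τ : Cell, Vmod220.rep π (cL π c τ).1 (vKK (K := K) τ) = 0
    rw [Finset.sum_eq_single none, h]
    · intro b _ hb
      rw [vKK, if_neg hb, map_zero]
    · intro h
      exact absurd (Finset.mem_univ _) h
  exR m i x hx hc := by
    obtain ⟨y, _, h1, h2⟩ := exRL π (P := (((show DefsQ830.Ob from i).1.val : ℕ) : ℤ) - 1)
      (A := (((show DefsQ830.Ob from i).2.val : ℕ) : ℤ)) (M := (m : ℤ) + 1) (by omega) x
      (fun σ => q_oc.1 (hx σ)) hc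
    refine ⟨y, fun σ => q_oc.2 ?_, h2⟩
    have := h1 σ
    rwa [show (m : ℤ) + 1 + 1 = (m : ℤ) + 2 by ring] at this
  exR0 i x hx hc := by
    change ∑ c : Cell, Vmod220.rep π (show RL π from x c).1 (vKK (K := K) c) = 0 at hc
    rw [Finset.sum_eq_single none (fun b _ hb => by rw [vKK, if_neg hb, map_zero])
      (fun h => absurd (Finset.mem_univ _) h), vKK, if_pos rfl] at hc
    obtain ⟨y, _, h1, h2⟩ := exR0L π (P := (((show DefsQ830.Ob from i).1.val : ℕ) : ℤ) - 1)
      (A := (((show DefsQ830.Ob from i).2.val : ℕ) : ℤ))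
      (by have := (show DefsQ830.Ob from i).1.2; omega) x (fun σ => q_oc.1 (hx σ)) hc
    exact ⟨y, fun σ => q_oc.2 (h1 σ), h2⟩
  gen i u hu := by
    obtain ⟨x, h1, h2⟩ := KK_gen π i hu
    refine ⟨x, h1, ?_⟩
    change ∑ c : Cell, Vmod220.rep π (x c).1 (vKK (K := K) c) = u
    rw [Finset.sum_eq_single none (fun b _ hb => by rw [vKK, if_neg hb, map_zero])
      (fun h => absurd (Finset.mem_univ _) h), vKK, if_pos rfl]
    exact h2

end Crest.Agent.R186.KHc186
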