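import Crest.Agent.R186.TB2_143
import Crest.Agent.R186.Frame2_515
import Crest.Agent.R186.Res_255
import Crest.Agent.R186.AcIff_492

/-!
Row 186 (A), helper153: join of leaf (V) of 306's short road.  Abstract part: homology in one
degree is invariant under quasi-isomorphisms, shifts, associativity, the balance of resolutions,
and the comparison `T_Γ(DV, V) = T_L''(DV, V)` for a split extension with acyclic kernel part.
-/

set_option autoImplicit false
set_option linter.style.haveILetI false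
set_option linter.unusedSectionVars false
set_option linter.unusedSimpArgs false

open MulOpposite

namespace Crest.Agent.R186.VJ153

open Hat827 Hat827.DGA Frame515 TB143 Res255
open AcIff492 (augL_mem augL_d augL_smul augR_mem augR_d augR_smul)

variable {K : Type} [Field K]

/-- homology of dimension one in degree `k` -/
def OneAt (P : GC K) (k : ℤ) : Prop :=
  ∃ x0 ∈ P.gr k, P.d x0 = 0 ∧ (¬ ∃ z ∈ P.gr (k + 1), P.d z = x0) ∧
    ∀ x ∈ P.gr k, P.d x = 0 → ∃ r : K, ∃ z ∈ P.gr (k + 1), x = r • x0 + P.d z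

/-- same homology up to the shift `l` (only vanishing and dimension one are recorded) -/
def Eqv (l : ℤ) (P Q : GC K) : Prop :=
  ∀ k k' : ℤ, k' = l + k → (Z P k ↔ Z Q k') ∧ (OneAt P k ↔ OneAt Q k')

theorem Eqv.symm {l l' : ℤ} {P Q : GC K} (h : Eqv l P Q) (hl : l' = -l) : Eqv l' Q P := by
  intro k k' hk
  have := h k' k (by rw [hk, hl]; ring)
  exact ⟨this.1.symm, this.2.symm⟩

theorem Eqv.trans {l l' m : ℤ} {P Q R : GC K} (h : Eqv l P Q) (h' : Eqv l' Q R)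
    (hm : m = l + l') : Eqv m P R := by
  intro k k' hk
  have h1 := h k (l + k) rfl
  have h2 := h' (l + k) k' (by rw [hk, hm]; ring)
  exact ⟨h1.1.trans h2.1, h1.2.trans h2.2⟩


theorem Eqv.of_qi {P Q : GC K} (f : GCHom P Q) (hf : QI f) : Eqv 0 P Q := by
  intro k k' hk
  obtain rfl : k = k' := by rw [hk, zero_add]
  refine ⟨QI.z_iff hf k, ?_, ?_⟩
  · rintro ⟨x0, hx0, hd0, hn, hs⟩
    refine ⟨f.f x0, f.f_mem hx0, by rw [← f.f_d, hd0, map_zero], ?_, ?_⟩
    · rintro ⟨z, hz, e⟩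
      obtain ⟨w, hw, e'⟩ := hf.inj k x0 hx0 hd0 ⟨z, hz, e.symm⟩
      exact hn ⟨w, hw, e'.symm⟩
    · intro y hy hd
      obtain ⟨x, hx, hdx, z, hz, rfl⟩ := hf.surj k y hy hd
      obtain ⟨r, w, hw, rfl⟩ := hs x hx hdx
      refine ⟨r, f.f w + z, Submodule.add_mem _ (f.f_mem hw) hz, ?_⟩
      rw [map_add, map_smul, f.f_d, map_add]
      abel
  · rintro ⟨y0, hy0, hd0, hn, hs⟩
    obtain ⟨x0, hx0, hdx, z0, hz0, rfl⟩ := hf.surj k y0 hy0 hd0
    refine ⟨x0, hx0, hdx, ?_, ?_⟩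
    · rintro ⟨w, hw, rfl⟩
      exact hn ⟨f.f w + z0, Submodule.add_mem _ (f.f_mem hw) hz0, by rw [map_add, f.f_d]⟩
    · intro x hx hd
      obtain ⟨r, z, hz, e⟩ := hs (f.f x) (f.f_mem hx) (by rw [← f.f_d, hd, map_zero])
      obtain ⟨w, hw, e'⟩ := hf.inj k (x - r • x0)
        (Submodule.sub_mem _ hx (Submodule.smul_mem _ r hx0))
        (by rw [map_sub, map_smul, hd, hdx, smul_zero, sub_zero])
        ⟨r • z0 + z, Submodule.add_mem _ (Submodule.smul_mem _ r hz0) hz, by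
          rw [map_sub, map_smul, e, map_add, map_smul, smul_add]
          abel⟩
      exact ⟨r, w, hw, by rw [← e']; abel⟩

theorem Eqv.of_equiv {l : ℤ} {P Q : GC K} (f : P.X ≃ₗ[K] Q.X) (hd : ∀ x, f (P.d x) = Q.d (f x))
    (hg : ∀ k x, x ∈ P.gr k ↔ f x ∈ Q.gr (l + k)) : Eqv l P Q := by
  intro k k' hk
  subst hk
  have hg1 : ∀ x, x ∈ P.gr (k + 1) ↔ f x ∈ Q.gr (l + k + 1) := fun x => by
    rw [hg, add_assoc]
  have hb : ∀ x, (∃ z ∈ P.gr (k + 1), P.d z = x) ↔ ∃ z ∈ Q.gr (l + k + 1), Q.d z = f x := by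
    intro x
    constructor
    · rintro ⟨z, hz, rfl⟩
      exact ⟨f z, (hg1 z).1 hz, (hd z).symm⟩
    · rintro ⟨z, hz, e⟩
      obtain ⟨w, rfl⟩ := f.surjective z
      exact ⟨w, (hg1 w).2 hz, f.injective (by rw [hd, e])⟩
  constructor
  · constructor
    · intro h y hy hdy
      obtain ⟨x, rfl⟩ := f.surjective y
      exact (hb x).1 (h x ((hg k x).2 hy) (f.injective (by rw [hd, hdy, map_zero])))
    · intro h x hx hdx
      exact (hb x).2 (h (f x) ((hg k x).1 hx) (by rw [← hd, hdx, map_zero]))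
  · constructor
    · rintro ⟨x0, hx0, hd0, hn, hs⟩
      refine ⟨f x0, (hg k x0).1 hx0, by rw [← hd, hd0, map_zero], fun h => hn ((hb x0).2 h), ?_⟩
      intro y hy hdy
      obtain ⟨x, rfl⟩ := f.surjective y
      obtain ⟨r, z, hz, e⟩ := hs x ((hg k x).2 hy) (f.injective (by rw [hd, hdy, map_zero]))
      exact ⟨r, f z, (hg1 z).1 hz, by rw [e, map_add, map_smul, hd]⟩
    · rintro ⟨y0, hy0, hd0, hn, hs⟩
      obtain ⟨x0, rfl⟩ := f.surjective y0
      refine ⟨x0, (hg k x0).2 hy0, f.injective (by rw [hd, hd0, map_zero]),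
        fun h => hn ((hb x0).1 h), ?_⟩
      intro x hx hdx
      obtain ⟨r, z, hz, e⟩ := hs (f x) ((hg k x).1 hx) (by rw [← hd, hdx, map_zero])
      obtain ⟨w, rfl⟩ := f.surjective z
      exact ⟨r, w, (hg1 w).2 hz, f.injective (by rw [e, map_add, map_smul, hd])⟩

/-! ### homomorphisms of modules -/

section hom

variable {A B : DGA K}

/-- homomorphism of right dg modules -/
structure RHom (G G' : RM A) extends GCHom G.toGC G'.toGC where
  f_smul : ∀ (a : A.C) (x : G.X), f (op a • x) = op a • f x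

/-- homomorphism of left dg modules -/
structure LHom (N N' : LM A) extends GCHom N.toGC N'.toGC where
  f_smul : ∀ (a : A.C) (x : N.X), f (a • x) = a • f x

theorem twoR (G : RM A) (x : G.X) : x + x = 0 := by
  have : x = op (1 : A.C) • x := by rw [op_one, one_smul]
  rw [this, ← add_smul, ← op_add, A.two, op_zero, zero_smul]

theorem twoL (N : LM A) (x : N.X) : x + x = 0 := by
  have : x = (1 : A.C) • x := by rw [one_smul]
  rw [this, ← add_smul, A.two, zero_smul]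

/-- `G ⊗ X → G' ⊗ X` -/
noncomputable def hG {G G' : RM A} (f : RHom G G') (X : LCells A) :
    TwHom (twG G X) (twG G' X) where
  φ := f.toGCHom
  j := Equiv.refl _
  hs _ := rfl
  hp σ x := f.f_smul (X.e σ) x
  hm σ τ x := f.f_smul (X.c σ τ) x

/-- `Y ⊗ N → Y ⊗ N'` -/
noncomputable def hY (Y : RCells A) {N N' : LM A} (f : LHom N N') :
    TwHom (twY Y N) (twY Y N') where
  φ := f.toGCHom
  j := Equiv.refl _
  hs _ := rfl
  hp σ x := f.f_smul (Y.e σ) x
  hm σ τ x := f.f_smul (Y.c τ σ) x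

theorem eqvG {G G' : RM A} (f : RHom G G') (hf : QI f.toGCHom) (X : LCells A) :
    Eqv 0 (tG G X) (tG G' X) :=
  Eqv.of_qi (hG f X).map ((hG f X).qi (twoR G) hf)

theorem eqvY (Y : RCells A) {N N' : LM A} (f : LHom N N') (hf : QI f.toGCHom) :
    Eqv 0 (tY Y N) (tY Y N') :=
  Eqv.of_qi (hY Y f).map ((hY Y f).qi (twoL N) hf)

end hom

/-! ### shifts -/

section sh

variable {A : DGA K}

/-- shifted left module -/
def shL (l : ℤ) (N : LM A) : LM A where
  X := N.X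
  gr k := N.gr (l + k)
  d := N.d
  d_mem := by
    intro k x hx
    exact gr_cast (X := N.toGC) (N.d_mem hx) (by ring)
  d_d := N.d_d
  act := N.act
  tower := N.tower
  smul_mem := by
    intro k m a x ha hx
    exact gr_cast (X := N.toGC) (N.smul_mem ha hx) (by ring)
  leib := N.leib

/-- shifted right module -/
def shR (l : ℤ) (G : RM A) : RM A where
  X := G.X
  gr k := G.gr (l + k)
  d := G.d
  d_mem := by
    intro k x hx
    exact gr_cast (X := G.toGC) (G.d_mem hx) (by ring)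
  d_d := G.d_d
  act := G.act
  tower := G.tower
  smul_mem := by
    intro k m a x ha hx
    exact gr_cast (X := G.toGC) (G.smul_mem ha hx) (by ring)
  leib := G.leib

theorem eqv_shL (l : ℤ) (Y : RCells A) (N : LM A) : Eqv l (tY Y (shL l N)) (tY Y N) := by
  refine Eqv.of_equiv (P := tY Y (shL l N)) (Q := tY Y N) (LinearEquiv.refl K (Y.ι →₀ N.X))
    (fun x => rfl) fun k x => ?_
  have e : ∀ σ, l + (k - (Y.s σ : ℤ)) = l + k - (Y.s σ : ℤ) := fun σ => by ring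
  constructor
  · intro h σ
    exact ⟨gr_cast (X := N.toGC) (h σ).1 (e σ), (h σ).2⟩
  · intro h σ
    exact ⟨gr_cast (X := N.toGC) (h σ).1 (e σ).symm, (h σ).2⟩

theorem eqv_shR (l : ℤ) (G : RM A) (X : LCells A) : Eqv l (tG (shR l G) X) (tG G X) := by
  refine Eqv.of_equiv (P := tG (shR l G) X) (Q := tG G X) (LinearEquiv.refl K (X.ι →₀ G.X))
    (fun x => rfl) fun k x => ?_
  have e : ∀ σ, l + (k - (X.s σ : ℤ)) = l + k - (X.s σ : ℤ) := fun σ => by ring
  constructor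
  · intro h σ
    exact ⟨gr_cast (X := G.toGC) (h σ).1 (e σ), (h σ).2⟩
  · intro h σ
    exact ⟨gr_cast (X := G.toGC) (h σ).1 (e σ).symm, (h σ).2⟩

end sh

/-! ### augmentations -/

section aug

variable {A : DGA K}

/-- the left cells with their augmentation -/
noncomputable def aL {X : LCells A} {N : LM A} (R : LRes X N) :
    LHom (tP (selfB A) X) (shL R.lo N) where
  f := augL X N R.v
  f_mem hx := augL_mem R.toLAug hx
  f_d x := augL_d R.toLAug x
  f_smul a x := augL_smul R.toLAug a x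

/-- the right cells with their augmentation -/
noncomputable def aR {Y : RCells A} {G : RM A} (R : RRes Y G) :
    RHom (tQ Y (selfB A)) (shR R.lo G) where
  f := augR Y G R.v
  f_mem hx := augR_mem R.toRAug hx
  f_d x := augR_d R.toRAug x
  f_smul a x := by
    refine Eq.trans ?_ (augR_smul R.toRAug a x)
    rfl

theorem aL_surj {X : LCells A} {N : LM A} (R : LRes X N) (k : ℤ) (y : N.X)
    (hy : y ∈ N.gr (R.lo + k)) (hd : N.d y = 0) : ∃ x ∈ (tG (selfR A) X).gr k,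
      (tG (selfR A) X).d x = 0 ∧ ∃ z ∈ N.gr (R.lo + (k + 1)), y = augL X N R.v x + N.d z := by
  obtain ⟨x, hx, z, hz, hdx, e⟩ := R.ex k 0 y (Submodule.zero_mem _) (map_zero _) hy
    (by rw [map_zero, hd, add_zero])
  exact ⟨x, hx, hdx, z, gr_cast (X := N.toGC) hz (by ring), e⟩

theorem aL_inj {X : LCells A} {N : LM A} (R : LRes X N) (k : ℤ) (x : X.ι →₀ A.C)
    (hx : x ∈ (tG (selfR A) X).gr k) (hd : (tG (selfR A) X).d x = 0)
    (h : ∃ z ∈ N.gr (R.lo + (k + 1)), augL X N R.v x = N.d z) :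
    ∃ w ∈ (tG (selfR A) X).gr (k + 1), x = (tG (selfR A) X).d w := by
  obtain ⟨z, hz, e⟩ := h
  obtain ⟨w, hw, -, -, e', -⟩ := R.ex (k + 1) x z (gr_cast (X := tG (selfR A) X) hx (by ring)) hd hz
    (by rw [e]; exact VJ153.twoL N _)
  exact ⟨w, hw, e'.symm⟩

theorem aR_surj {Y : RCells A} {G : RM A} (R : RRes Y G) (k : ℤ) (y : G.X)
    (hy : y ∈ G.gr (R.lo + k)) (hd : G.d y = 0) : ∃ x ∈ (tY Y (selfL A)).gr k,
      (tY Y (selfL A)).d x = 0 ∧ ∃ z ∈ G.gr (R.lo + (k + 1)), y = augR Y G R.v x + G.d z := by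
  obtain ⟨x, hx, z, hz, hdx, e⟩ := R.ex k 0 y (Submodule.zero_mem _) (map_zero _) hy
    (by rw [map_zero, hd, add_zero])
  exact ⟨x, hx, hdx, z, gr_cast (X := G.toGC) hz (by ring), e⟩

theorem aR_inj {Y : RCells A} {G : RM A} (R : RRes Y G) (k : ℤ) (x : Y.ι →₀ A.C)
    (hx : x ∈ (tY Y (selfL A)).gr k) (hd : (tY Y (selfL A)).d x = 0)
    (h : ∃ z ∈ G.gr (R.lo + (k + 1)), augR Y G R.v x = G.d z) :
    ∃ w ∈ (tY Y (selfL A)).gr (k + 1), x = (tY Y (selfL A)).d w := by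
  obtain ⟨z, hz, e⟩ := h
  obtain ⟨w, hw, -, -, e', -⟩ := R.ex (k + 1) x z (gr_cast (X := tY Y (selfL A)) hx (by ring)) hd hz
    (by rw [e]; exact VJ153.twoR G _)
  exact ⟨w, hw, e'.symm⟩

theorem aL_qi {X : LCells A} {N : LM A} (R : LRes X N) : QI (aL R).toGCHom :=
  ⟨aL_surj R, aL_inj R⟩

theorem aR_qi {Y : RCells A} {G : RM A} (R : RRes Y G) : QI (aR R).toGCHom :=
  ⟨aR_surj R, aR_inj R⟩

/-- `Y ⊗ X → Y ⊗ N` -/
theorem eqv_Y (Y : RCells A) {X : LCells A} {N : LM A} (R : LRes X N) :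
    Eqv R.lo (tY Y (tP (selfB A) X)) (tY Y N) :=
  (eqvY Y (aL R) (aL_qi R)).trans (eqv_shL R.lo Y N) (by ring)

/-- `Y ⊗ X → G ⊗ X` -/
theorem eqv_G {Y : RCells A} {G : RM A} (R : RRes Y G) (X : LCells A) :
    Eqv R.lo (tG (tQ Y (selfB A)) X) (tG G X) :=
  (eqvG (aR R) (aR_qi R) X).trans (eqv_shR R.lo G X) (by ring)

theorem eqv_asc {A B : DGA K} (Y : RCells A) (P : BM A B) (X : LCells B) :
    Eqv 0 (tG (tQ Y P) X) (tY Y (tP P X)) :=
  Eqv.of_equiv (asc Y P X) (asc_d Y P X) fun k x => by rw [zero_add]; exact asc_gr Y P X k x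

/-- **balance**: `G ⊗ X ∼ Y ⊗ N` -/
theorem eqv_bal {Y : RCells A} {G : RM A} (R : RRes Y G) {X : LCells A} {N : LM A}
    (S : LRes X N) : Eqv (S.lo - R.lo) (tG G X) (tY Y N) :=
  ((eqv_G R X).symm rfl).trans ((eqv_asc Y (selfB A) X).trans (eqv_Y Y S) rfl) (by ring)


end aug

/-! ### split extensions -/

/-- split extension `A = B ⊕ M` -/
structure Ext (A B : DGA K) where
  inl : Hm B A
  fst : Hm A B
  fst_inl : ∀ b, fst.f (inl.f b) = b
  M : BM B A
  j : M.X →ₗ[K] A.C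
  j_mem : ∀ {k : ℤ} {m : M.X}, m ∈ M.gr k → j m ∈ A.G k
  j_d : ∀ m, j (M.d m) = A.D (j m)
  j_l : ∀ (b : B.C) (m : M.X), j (b • m) = inl.f b * j m
  j_r : ∀ (a : A.C) (m : M.X), j (op a • m) = j m * a
  j_inj : ∀ {k : ℤ} {m : M.X}, m ∈ M.gr k → j m = 0 → m = 0
  j_ex : ∀ {k : ℤ} {a : A.C}, a ∈ A.G k → fst.f a = 0 → ∃ m ∈ M.gr k, j m = a
  fst_j : ∀ {k : ℤ} {m : M.X}, m ∈ M.gr k → fst.f (j m) = 0

section ext

variable {A B : DGA K} (E : Ext A B)

/-- `A` as a `(B, A)`-bimodule -/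
noncomputable abbrev Ab : BM B A := resBL E.inl (selfB A)

/-- `B` as a `(B, A)`-bimodule -/
noncomputable abbrev Bb : BM B A := resBR E.fst (selfB B)

/-- `0 → M → A → B → 0` -/
noncomputable def S0 : SES E.M.toGC (Ab E).toGC (Bb E).toGC where
  i := ⟨E.j, E.j_mem, E.j_d⟩
  p := ⟨E.fst.f.toLinearMap, fun h => E.fst.mem h, fun a => E.fst.D a⟩
  zero := fun h => E.fst_j h
  inj := fun h e => E.j_inj h e
  ex := fun h e => E.j_ex h e
  sur := fun {_ z} h => ⟨E.inl.f z, E.inl.mem h, E.fst_inl z⟩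

theorem fst_mul_inl (b : B.C) (a : A.C) : E.fst.f (E.inl.f b * a) = b * E.fst.f a := by
  rw [map_mul, E.fst_inl]

/-- first map after `Y ⊗` -/
noncomputable def h1 (Y : RCells B) : TwHom (twY Y E.M.toLM) (twY Y (Ab E).toLM) where
  φ := (S0 E).i
  j := Equiv.refl _
  hs _ := rfl
  hp σ x := E.j_l (Y.e σ) x
  hm σ τ x := E.j_l (Y.c τ σ) x

/-- second map after `Y ⊗` -/
noncomputable def h2 (Y : RCells B) : TwHom (twY Y (Ab E).toLM) (twY Y (Bb E).toLM) where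
  φ := (S0 E).p
  j := Equiv.refl _
  hs _ := rfl
  hp σ x := fst_mul_inl E (Y.e σ) x
  hm σ τ x := fst_mul_inl E (Y.c τ σ) x

/-- `0 → Y ⊗ M → Y ⊗ A → Y ⊗ B → 0` -/
noncomputable def S1 (Y : RCells B) :
    SES (tQ Y E.M).toGC (tQ Y (Ab E)).toGC (tQ Y (Bb E)).toGC :=
  twSES (S0 E) (h1 E Y) (h2 E Y) rfl rfl

theorem S1_i (Y : RCells B) (a : A.C) (x : (tQ Y E.M).X) :
    (S1 E Y).i.f (op a • x) = (op a • (show (tQ Y (Ab E)).X from (S1 E Y).i.f x) :
      (tQ Y (Ab E)).X) := by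
  refine Finsupp.ext fun τ => ?_
  have e1 := (h1 E Y).lin_apply (op a • x) τ
  have e2 := (h1 E Y).lin_apply x τ
  refine e1.trans ?_
  refine (E.j_r a _).trans ?_
  exact congrArg (fun z => z * a) e2.symm

theorem S1_p (Y : RCells B) (a : A.C) (x : (tQ Y (Ab E)).X) :
    (S1 E Y).p.f (op a • x) = (op a • (show (tQ Y (Bb E)).X from (S1 E Y).p.f x) :
      (tQ Y (Bb E)).X) := by
  refine Finsupp.ext fun τ => ?_
  have e1 := (h2 E Y).lin_apply (op a • x) τ
  have e2 := (h2 E Y).lin_apply x τ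
  refine e1.trans ?_
  refine (map_mul E.fst.f _ _).trans ?_
  exact congrArg (fun z => z * E.fst.f a) e2.symm

/-- `0 → (Y ⊗ M) ⊗ X → (Y ⊗ A) ⊗ X → (Y ⊗ B) ⊗ X → 0` -/
noncomputable def S2 (Y : RCells B) (X : LCells A) :
    SES (tG (tQ Y E.M) X) (tG (tQ Y (Ab E)) X) (tG (tQ Y (Bb E)) X) :=
  twSES (S1 E Y)
    { φ := (S1 E Y).i, j := Equiv.refl _, hs := fun _ => rfl, hp := fun _ x => S1_i E Y _ x,
      hm := fun _ _ x => S1_i E Y _ x : TwHom (twG (tQ Y E.M) X) (twG (tQ Y (Ab E)) X) }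
    { φ := (S1 E Y).p, j := Equiv.refl _, hs := fun _ => rfl, hp := fun _ x => S1_p E Y _ x,
      hm := fun _ _ x => S1_p E Y _ x : TwHom (twG (tQ Y (Ab E)) X) (twG (tQ Y (Bb E)) X) }
    rfl rfl

/-- `(Y ⊗ A) ⊗ X → (Y ⊗ B) ⊗ X` is a quasi-isomorphism if `(Y ⊗ M) ⊗ X` is acyclic -/
theorem eqv_S2 (Y : RCells B) (X : LCells A) (hM : Ac (tG (tQ Y E.M) X)) :
    Eqv 0 (tG (tQ Y (Ab E)) X) (tG (tQ Y (Bb E)) X) :=
  Eqv.of_qi (S2 E Y X).p ((S2 E Y X).qi_p.2 hM)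

/-- `Y ⊗ B → DV` over `A` -/
noncomputable def aRE {Y : RCells B} {DV : RM B} (R : RRes Y DV) :
    RHom (tQ Y (Bb E)) (shR R.lo (resR E.fst DV)) where
  f := augR Y DV R.v
  f_mem hx := augR_mem R.toRAug hx
  f_d x := augR_d R.toRAug x
  f_smul a x := (aR R).f_smul (E.fst.f a) x

theorem eqv_a {Y : RCells B} {DV : RM B} (R : RRes Y DV) (X : LCells A) :
    Eqv R.lo (tG (tQ Y (Bb E)) X) (tG (resR E.fst DV) X) :=
  (eqvG (aRE E R) ⟨aR_surj R, aR_inj R⟩ X).trans (eqv_shR R.lo (resR E.fst DV) X) (by ring)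

/-- the left `A`-cells of `V`, restricted to `B` -/
noncomputable def aLE {X : LCells A} {V : LM B} (R : LRes X (resL E.fst V)) :
    LHom (tP (Ab E) X) (shL R.lo V) where
  f := augL X (resL E.fst V) R.v
  f_mem hx := augL_mem R.toLAug hx
  f_d x := augL_d R.toLAug x
  f_smul b x := by
    refine ((aL R).f_smul (E.inl.f b) x).trans ?_
    exact congrArg (fun c : B.C => c • (show V.X from augL X (resL E.fst V) R.v x))
      (E.fst_inl b)

theorem eqv_d (Y : RCells B) {X : LCells A} {V : LM B} (R : LRes X (resL E.fst V)) :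
    Eqv R.lo (tY Y (tP (Ab E) X)) (tY Y V) :=
  (eqvY Y (aLE E R) ⟨aL_surj R, aL_inj R⟩).trans (eqv_shL R.lo Y V) (by ring)

/-- `(Y ⊗ A) ⊗ X ∼ Y ⊗ V` -/
theorem eqv_YA (Y : RCells B) {X : LCells A} {V : LM B} (R : LRes X (resL E.fst V)) :
    Eqv R.lo (tG (tQ Y (Ab E)) X) (tY Y V) :=
  (eqv_asc Y (Ab E) X).trans (eqv_d E Y R) (by ring)

/-- **join**: `T_A(DV, V) ∼ T_B(DV, V)` as soon as `(Y ⊗ M) ⊗ X` is acyclic -/
theorem eqv_main {Y : RCells B} {DV : RM B} (RY : RRes Y DV) {V : LM B} {X : LCells A}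
    (SX : LRes X (resL E.fst V)) {X2 : LCells B} (SX2 : LRes X2 V)
    (hM : Ac (tG (tQ Y E.M) X)) :
    Eqv (SX.lo - SX2.lo) (tG (resR E.fst DV) X) (tG DV X2) :=
  ((eqv_a E RY X).symm rfl).trans (((eqv_S2 E Y X hM).symm rfl).trans
    ((eqv_YA E Y SX).trans ((eqv_bal RY SX2).symm rfl) rfl) rfl) (by ring)

end ext

end Crest.Agent.R186.VJ153
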