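import Crest.Agent.R186.Bas_735
import Crest.Agent.R186.VQ_735
import Crest.Agent.R186.C2c_354
import Crest.Agent.R186.C2b_44
import Crest.Agent.R186.SemiFree_515
import Crest.Agent.R186.Frame_515
import Crest.Agent.R186.C3m1_788
import Crest.Agent.R186.Res2_255
import Crest.Agent.R186.Glue_255
import Crest.Agent.R186.EndB_448
import Crest.Agent.R186.VJ_153
import Crest.Agent.R186.MW_890
import Crest.Agent.R186.KVc_186
import Crest.Agent.R186.KHc_302
import Crest.Agent.R186.KX_378
import Crest.Agent.R186.VEnd_701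
import Crest.Agent.R186.Core_890

-- ▼ part R186/QB_735
section

/-!
# Row 186, half (A), leaf QB (helper735): the bimodule `R'' ⊗ Q^*` at the level of `R''`
-/

set_option autoImplicit false

namespace Crest.Agent.R186.VQ735

open Crest.Agent.R186.VOp220 Crest.Agent.R186.DefsQ830 Crest.Agent.R186.Vmod220
open Crest.Agent.R186.Cells221 Crest.Agent.R186.Der580
open Crest.Agent.R186.PBW128 (E)
open Crest.Agent.R186.Loc261 (Lt li sc Q_ind wt Qc Qg prj)
open TensorProduct

variable {K : Type} [Field K] (π : Par K)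

/-! ### triangularity of the right action -/

theorem cA_diag_ne (r : R π) (s : Lt → K) {q q' : Bt π} (h : q ≠ q') :
    cA π q q' (r ⊗ₜ SC π s) = 0 := by
  rw [cA_tmul, coef_SC, if_neg h, zero_smul]

theorem cA_diag (r : R π) (s : Lt → K) (q : Bt π) :
    cA π q q (r ⊗ₜ SC π s) = pw s q.1 • r := by
  rw [cA_tmul, coef_SC, if_pos rfl]

theorem cA_E_zero (r : R π) (g : Lt) {q q' : Bt π} (h : ln q' ≤ ln q) :
    cA π q q' (r ⊗ₜ EQ π g) = 0 := by
  rw [cA_tmul, coef_EQ_ne, zero_smul]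
  intro h1
  unfold ln at h
  rw [h1, Multiset.card_cons] at h
  omega

theorem pw_const (c : K) (m : Multiset Lt) : pw (fun _ => c) m = c ^ m.card := by
  simp [pw]

/-- the character of a letter at a content -/
noncomputable def ch (m : Multiset Lt) : Gen → K
  | .x i => (π.c i)⁻¹ ^ m.card
  | .h => 1
  | .d j => π.c j ^ m.card
  | .f => 1
  | .z j => π.cz j ^ m.card
  | .zc => 1
  | .u s => pw (fun l => sg ((lp π).c l) s) m
  | .e j => π.c j ^ m.card
  | .gj j => π.cz j ^ m.card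
  | .gc => 1
  | .v s => pw (fun l => sg ((lp π).c l) s) m
  | .y _ => 0
  | .yb _ => 0

theorem one_eq : (1 : Module.End K (Q π)) = SC π (fun _ => 1) := (SC_one π).symm

theorem cA_dl_lt (a : Gen) {q q' : Bt π} (h : ln q' < ln q) : cA π q q' (dl π a) = 0 := by
  have hne : q ≠ q' := by rintro rfl; exact lt_irrefl _ h
  cases a <;> simp only [dl, scl, CH, one_eq, map_add, map_zero, cA_diag_ne π _ _ hne,
    cA_E_zero π _ _ h.le, add_zero]

theorem cA_dl_ne (a : Gen) {q q' : Bt π} (h : ln q' = ln q) (hne : q ≠ q') :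
    cA π q q' (dl π a) = 0 := by
  cases a <;> simp only [dl, scl, CH, one_eq, map_add, map_zero, cA_diag_ne π _ _ hne,
    cA_E_zero π _ _ h.le, add_zero]

theorem cA_dl_diag (a : Gen) (q : Bt π) : cA π q q (dl π a) = ch π q.1 a • X π a := by
  cases a <;> simp only [dl, scl, CH, one_eq, map_add, map_zero, cA_diag, cA_E_zero π _ _ le_rfl,
    add_zero, ch, pw_const, one_pow, zero_smul]

/-- all triangularity facts at once -/
theorem cA_Dl_tri (r : R π) : (∀ q q' : Bt π, ln q' < ln q → cA π q q' (Dl π r) = 0) ∧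
    (∀ q q' : Bt π, ln q' = ln q → q ≠ q' → cA π q q' (Dl π r) = 0) ∧
    (∀ q q' : Bt π, q.1 = q'.1 → cA π q q (Dl π r) = cA π q' q' (Dl π r)) := by
  induction r using R_ind π with
  | hc c =>
    have e : Dl π (algebraMap K (R π) c) = algebraMap K (R π) c ⊗ₜ SC π (fun _ => 1) := by
      rw [AlgHom.commutes, SC_one]; rfl
    refine ⟨fun q q' h => ?_, fun q q' _ h => ?_, fun q q' h => ?_⟩
    · rw [e, cA_diag_ne]; rintro rfl; exact lt_irrefl _ h
    · rw [e, cA_diag_ne π _ _ h]
    · rw [e, cA_diag, cA_diag, h]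
  | hX a =>
    rw [Dl_X]
    exact ⟨fun q q' h => cA_dl_lt π a h, fun q q' h h' => cA_dl_ne π a h h',
      fun q q' h => by rw [cA_dl_diag, cA_dl_diag, h]⟩
  | ha a b ha hb =>
    rw [map_add]
    refine ⟨fun q q' h => ?_, fun q q' h h' => ?_, fun q q' h => ?_⟩
    · rw [map_add, ha.1 q q' h, hb.1 q q' h, add_zero]
    · rw [map_add, ha.2.1 q q' h h', hb.2.1 q q' h h', add_zero]
    · rw [map_add, map_add, ha.2.2 q q' h, hb.2.2 q q' h]
  | hm a b ha hb =>
    rw [map_mul]
    have key : ∀ q q' : Bt π, ln q' ≤ ln q → q ≠ q' → cA π q q' (Dl π a * Dl π b) = 0 := by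
      intro q q' h hne
      obtain ⟨S0, hS⟩ := cA_mul_right π q' (Dl π b)
      rw [hS S0 (Finset.Subset.refl _)]
      apply Finset.sum_eq_zero
      intro q'' _
      rcases lt_trichotomy (ln q'') (ln q) with h1 | h1 | h1
      · rw [ha.1 q q'' h1, zero_mul]
      · by_cases h2 : q = q''
        · subst h2
          rcases h.lt_or_eq with h3 | h3
          · rw [hb.1 q q' h3, mul_zero]
          · rw [hb.2.1 q q' h3 hne, mul_zero]
        · rw [ha.2.1 q q'' h1 h2, zero_mul]
      · rw [hb.1 q'' q' (by omega), mul_zero]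
    have key2 : ∀ q : Bt π, cA π q q (Dl π a * Dl π b) = cA π q q (Dl π a) * cA π q q (Dl π b) := by
      intro q
      obtain ⟨S0, hS⟩ := cA_mul_right π q (Dl π b)
      rw [hS (insert q S0) (Finset.subset_insert _ _), Finset.sum_eq_single q]
      · intro q'' _ h2
        rcases lt_trichotomy (ln q'') (ln q) with h1 | h1 | h1
        · rw [ha.1 q q'' h1, zero_mul]
        · rw [ha.2.1 q q'' h1 (Ne.symm h2), zero_mul]
        · rw [hb.1 q'' q h1, mul_zero]
      · intro h; exact absurd (Finset.mem_insert_self _ _) h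
    refine ⟨fun q q' h => key q q' h.le (by rintro rfl; exact lt_irrefl _ h),
      fun q q' h h' => key q q' h.le h', fun q q' h => ?_⟩
    rw [key2, key2, ha.2.2 q q' h, hb.2.2 q q' h]

theorem cA_Dl_lt (r : R π) {q q' : Bt π} (h : ln q' < ln q) : cA π q q' (Dl π r) = 0 :=
  (cA_Dl_tri π r).1 q q' h

theorem cA_Dl_ne (r : R π) {q q' : Bt π} (h : ln q' = ln q) (hne : q ≠ q') :
    cA π q q' (Dl π r) = 0 := (cA_Dl_tri π r).2.1 q q' h hne

/-- the twist of `R''` at a basis element: kills the `W`-letters, multiplies the others by `ch` -/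
noncomputable def tw (q : Bt π) : R π →ₐ[K] R π where
  toFun r := cA π q q (Dl π r)
  map_zero' := by rw [map_zero, map_zero]
  map_add' a b := by rw [map_add, map_add]
  commutes' c := by
    have e : Dl π (algebraMap K (R π) c) = algebraMap K (R π) c ⊗ₜ SC π (fun _ => 1) := by
      rw [AlgHom.commutes, SC_one]; rfl
    rw [e, cA_diag, pw_const, one_pow, one_smul]
  map_one' := by
    rw [map_one]
    show cA π q q ((1 : R π) ⊗ₜ 1) = 1
    rw [one_eq, cA_diag, pw_const, one_pow, one_smul]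
  map_mul' a b := by
    obtain ⟨S0, hS⟩ := cA_mul_right π q (Dl π b)
    rw [map_mul, hS (insert q S0) (Finset.subset_insert _ _), Finset.sum_eq_single q]
    · intro q'' _ h2
      rcases lt_trichotomy (ln q'') (ln q) with h1 | h1 | h1
      · rw [cA_Dl_lt π a h1, zero_mul]
      · rw [cA_Dl_ne π a h1 (Ne.symm h2), zero_mul]
      · rw [cA_Dl_lt π b h1, mul_zero]
    · intro h; exact absurd (Finset.mem_insert_self _ _) h

theorem tw_apply (q : Bt π) (r : R π) : tw π q r = cA π q q (Dl π r) := rfl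

@[simp] theorem tw_X (q : Bt π) (a : Gen) : tw π q (X π a) = ch π q.1 a • X π a := by
  rw [tw_apply, Dl_X, cA_dl_diag]


/-- `θ` raises the word length by one -/
theorem cA_th_ne {q q' : Bt π} (h : ln q ≠ ln q' + 1) : cA π q q' (th π) = 0 := by
  rw [th, map_sum]
  apply Finset.sum_eq_zero
  intro g _
  rw [cA_tmul, coef_MQ_ne, zero_smul]
  intro h1
  apply h
  unfold ln
  rw [h1, Multiset.card_cons]

/-- the entries of `θ` are combinations of the `W`-letters -/
theorem cA_th (q q' : Bt π) : cA π q q' (th π) = ∑ g, coef π q q' (MQ π g) • yl π g := by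
  rw [th, map_sum]; rfl

end Crest.Agent.R186.VQ735
private theorem rz_9a04b4fd53 : type_of% @_root_.Crest.Agent.R186.VQ735.ch.eq_1 := @_root_.Crest.Agent.R186.VQ735.ch.eq_1 -- L41
end

-- ▼ part R186/C2q_667
section

/-!
# Row 186, half (A), leaf C2a (helper667), part 1: the local algebra `Q`

* `presR` : right presentation of the augmentation ideal of `Q`;
* `LD` : left division by `x'` (`LD (x' u) = u`), homogeneous;
* `exists_of_comp` : linear maps on `Q` with given compositions with the `MQ g`;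
* `lenP n` : projection on words of length `n`.
-/

set_option autoImplicit false

namespace Crest.Agent.R186.C2q667

open Crest.Agent.R186.Loc261 Crest.Agent.R186.VQ735

section local_algebra

variable {K : Type} [Field K] (P : Loc261.Par K)

/-- the swap of `x` and `x'` -/
def sw : Lt → Lt
  | .x => .x' | .x' => .x | .a => .a | .b => .b

theorem sw_sw (g : Lt) : sw (sw g) = g := by cases g <;> rfl

/-- reversal of words together with the swap -/
noncomputable def revA : Q P →ₐ[K] (Q P)ᵐᵒᵖ :=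
  lft P (fun l => MulOpposite.op (li P (sw l))) (by
    rw [← MulOpposite.op_mul, ← MulOpposite.op_mul, ← MulOpposite.op_smul]
    exact congrArg MulOpposite.op (rel P))

noncomputable def rev : Q P →ₗ[K] Q P :=
  (MulOpposite.opLinearEquiv K).symm.toLinearMap ∘ₗ (revA P).toLinearMap

theorem rev_apply (u : Q P) : rev P u = (revA P u).unop := rfl

theorem rev_mul (u v : Q P) : rev P (u * v) = rev P v * rev P u := by
  rw [rev_apply, map_mul, MulOpposite.unop_mul]; rfl

theorem rev_one : rev P 1 = 1 := by rw [rev_apply, map_one]; rfl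

theorem rev_li (g : Lt) : rev P (li P g) = li P (sw g) := by
  rw [rev_apply, revA, lft_li, MulOpposite.unop_op]

theorem rev_rev (u : Q P) : rev P (rev P u) = u := by
  induction u using Q_ind P with
  | one => rw [rev_one, rev_one]
  | add u v hu hv => rw [map_add, map_add, hu, hv]
  | smul r u hu => rw [map_smul, map_smul, hu]
  | mul g u hu =>
    rw [rev_mul, rev_mul, hu, rev_li, rev_li, sw_sw]

theorem sumL' {M : Type*} [AddCommMonoid M] (F : Lt → M) : ∑ g, F g = F .x + F .a + F .x' + F .b :=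
  sumL F

/-- **right presentation** -/
theorem presR (b : Lt → Q P) (h : ∑ g, li P g * b g = 0) :
    ∃ y, b .x = li P .x' * y ∧ b .x' = -(P.p⁻¹ • (li P .x * y)) ∧ b .a = 0 ∧ b .b = 0 := by
  have h1 : ∑ g, rev P (b (sw g)) * li P g = 0 := by
    have h2 := congrArg (rev P) h
    rw [map_zero, map_sum] at h2
    simp only [rev_mul, rev_li] at h2
    rw [sumL'] at h2 ⊢
    simp only [sw] at h2 ⊢
    rw [← h2]
    abel
  obtain ⟨y, hy⟩ := pres P _ h1
  have e : ∀ g, b g = rev P (nu P y (sw g)) := fun g => by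
    have := congrFun hy (sw g)
    simp only [sw_sw] at this
    rw [← this, rev_rev]
  refine ⟨rev P y, ?_, ?_, ?_, ?_⟩
  · rw [e, show sw .x = .x' from rfl, nu_x', rev_mul, rev_li]; rfl
  · rw [e, show sw .x' = .x from rfl, nu_x, map_neg, map_smul, rev_mul, rev_li]; rfl
  · rw [e, show sw .a = .a from rfl, nu_a, map_zero]
  · rw [e, show sw .b = .b from rfl, nu_b, map_zero]

/-! ### left division by `x'` -/

noncomputable def UL (l : Lt) : Module.End K (Q P × Q P) :=
  LinearMap.prod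
    (match l with
      | .x' => LinearMap.snd K _ _
      | .x => P.p⁻¹ • (LinearMap.mulLeft K (li P .x)).comp (LinearMap.fst K _ _)
      | .a => 0
      | .b => 0)
    ((LinearMap.mulLeft K (li P l)).comp (LinearMap.snd K _ _))

theorem UL_snd (l : Lt) (t : Q P × Q P) : (UL P l t).2 = li P l * t.2 := rfl
theorem UL_x' (t : Q P × Q P) : (UL P .x' t).1 = t.2 := rfl
theorem UL_x (t : Q P × Q P) : (UL P .x t).1 = P.p⁻¹ • (li P .x * t.1) := rfl
theorem UL_a (t : Q P × Q P) : (UL P .a t).1 = 0 := rfl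
theorem UL_b (t : Q P × Q P) : (UL P .b t).1 = 0 := rfl

noncomputable def Lh : Q P →ₐ[K] Module.End K (Q P × Q P) :=
  lft P (UL P) (by
    apply LinearMap.ext
    intro t
    refine Prod.ext ?_ ?_
    · rw [Module.End.mul_apply, LinearMap.smul_apply, Module.End.mul_apply, Prod.smul_fst, UL_x,
        UL_x', UL_x', UL_snd]
    · rw [Module.End.mul_apply, LinearMap.smul_apply, Module.End.mul_apply, Prod.smul_snd, UL_snd,
        UL_snd, UL_snd, UL_snd, ← mul_assoc, ← mul_assoc, rel, smul_mul_assoc])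

/-- left division by `x'` -/
noncomputable def LD : Q P →ₗ[K] Q P :=
  (LinearMap.fst K (Q P) (Q P)).comp
    ((LinearMap.applyₗ ((0 : Q P), (1 : Q P))).comp (Lh P).toLinearMap)

theorem LD_apply (u : Q P) : LD P u = (Lh P u (0, 1)).1 := rfl

theorem Lh_mul (l : Lt) (u : Q P) : Lh P (li P l * u) (0, 1) = UL P l (Lh P u (0, 1)) := by
  rw [map_mul, Module.End.mul_apply]
  simp [Lh]

theorem Lh_snd (u : Q P) : (Lh P u (0, 1)).2 = u := by
  induction u using Q_ind P with
  | one => simp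
  | add u v hu hv => simp [hu, hv]
  | smul r u hu => simp [hu]
  | mul l u hu => rw [Lh_mul, UL_snd, hu]

theorem LD_one : LD P 1 = 0 := by simp [LD_apply]

theorem LD_x' (u : Q P) : LD P (li P .x' * u) = u := by
  rw [LD_apply, Lh_mul, UL_x', Lh_snd]

theorem LD_x (u : Q P) : LD P (li P .x * u) = P.p⁻¹ • (li P .x * LD P u) := by
  rw [LD_apply, Lh_mul, UL_x]; rfl

theorem LD_a (u : Q P) : LD P (li P .a * u) = 0 := by
  rw [LD_apply, Lh_mul, UL_a]

theorem LD_b (u : Q P) : LD P (li P .b * u) = 0 := by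
  rw [LD_apply, Lh_mul, UL_b]

/-! ### grading by degree and by length -/

/-- degree of the letters -/
def qd : Lt → ℕ
  | .x => 1 | .a => 2 | .x' => 2 | .b => 3

theorem qd_pos (g : Lt) : 1 ≤ qd g := by cases g <;> decide

def qs (w : List Lt) : ℕ := (w.map qd).sum

@[simp] theorem qs_nil : qs [] = 0 := rfl
@[simp] theorem qs_cons (g : Lt) (w : List Lt) : qs (g :: w) = qd g + qs w := rfl

theorem len_le (w : List Lt) : w.length ≤ qs w := by
  induction w with
  | nil => simp
  | cons g w ih =>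
    have := qd_pos g
    simp only [List.length_cons, qs_cons]; omega

/-- the part of degree `k` -/
noncomputable def Qd (k : ℤ) : Submodule K (Q P) :=
  Submodule.span K {u | ∃ w : List Lt, (qs w : ℤ) = k ∧ wp P w = u}

theorem wp_Qd (w : List Lt) : wp P w ∈ Qd P (qs w : ℤ) := Submodule.subset_span ⟨w, rfl, rfl⟩

theorem Qd_le {k : ℤ} {N : Submodule K (Q P)} (h : ∀ w : List Lt, (qs w : ℤ) = k → wp P w ∈ N) :
    Qd P k ≤ N := by
  unfold Qd
  rw [Submodule.span_le]
  rintro u ⟨w, hw, rfl⟩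
  exact h w hw

theorem li_Qd (g : Lt) {k : ℤ} {u : Q P} (hu : u ∈ Qd P k) : li P g * u ∈ Qd P (k + qd g) := by
  have : Qd P k ≤ (Qd P (k + qd g)).comap (LinearMap.mulLeft K (li P g)) := by
    refine Qd_le P ?_
    intro w hw
    have := wp_Qd P (g :: w)
    rw [wp_cons, qs_cons] at this
    rw [← hw]
    rw [show ((qs w : ℤ) + qd g) = ((qd g + qs w : ℕ) : ℤ) by push_cast; ring]
    exact this
  exact this hu

theorem sc_Qd (s : Lt → K) {k : ℤ} {u : Q P} (hu : u ∈ Qd P k) : sc P s u ∈ Qd P k := by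
  have : Qd P k ≤ (Qd P k).comap (sc P s).toLinearMap := by
    refine Qd_le P ?_
    intro w hw
    show sc P s (wp P w) ∈ Qd P k
    rw [sc_wp]
    refine Submodule.smul_mem _ _ ?_
    rw [← hw]
    exact wp_Qd P w
  exact this hu

theorem LD_wp (w : List Lt) : LD P (wp P w) ∈ Qd P ((qs w : ℤ) - 2) := by
  induction w with
  | nil => rw [wp_nil, LD_one]; exact Submodule.zero_mem _
  | cons g w ih =>
    rw [wp_cons]
    cases g with
    | x =>
      rw [LD_x]
      refine Submodule.smul_mem _ _ ?_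
      have h2 := li_Qd P .x ih
      have e : (qs w : ℤ) - 2 + (qd .x : ℤ) = (qs (.x :: w) : ℤ) - 2 := by
        rw [qs_cons]; push_cast; ring
      rwa [e] at h2
    | x' =>
      rw [LD_x']
      have e : (qs w : ℤ) = (qs (.x' :: w) : ℤ) - 2 := by
        rw [qs_cons]; push_cast; simp [qd]
      rw [← e]
      exact wp_Qd P w
    | a => rw [LD_a]; exact Submodule.zero_mem _
    | b => rw [LD_b]; exact Submodule.zero_mem _

theorem LD_Qd {k : ℤ} {u : Q P} (hu : u ∈ Qd P k) : LD P u ∈ Qd P (k - 2) := by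
  have : Qd P k ≤ (Qd P (k - 2)).comap (LD P) := by
    refine Qd_le P ?_
    intro w hw
    have h := LD_wp P w
    rw [hw] at h
    exact h
  exact this hu

/-- length grading -/
noncomputable def grn : Q P →ₐ[K] AddMonoidAlgebra (Q P) ℕ :=
  lft P (fun l => AddMonoidAlgebra.single 1 (li P l)) (by
    rw [AddMonoidAlgebra.single_mul_single, AddMonoidAlgebra.single_mul_single, rel,
      AddMonoidAlgebra.smul_single])

theorem grn_wp (w : List Lt) : grn P (wp P w) = AddMonoidAlgebra.single w.length (wp P w) := by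
  induction w with
  | nil => simp [AddMonoidAlgebra.one_def]
  | cons l w ih =>
    rw [wp_cons, map_mul, ih]
    simp [grn, AddMonoidAlgebra.single_mul_single, add_comm]

/-- projection on length `n` -/
noncomputable def lenP (n : ℕ) : Q P →ₗ[K] Q P where
  toFun u := (grn P u).coeff n
  map_add' u v := by simp
  map_smul' r u := by simp

theorem lenP_wp (n : ℕ) (w : List Lt) : lenP P n (wp P w) = if w.length = n then wp P w else 0 := by
  show (grn P (wp P w)).coeff n = _
  rw [grn_wp]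
  simp [Finsupp.single_apply]

/-- augmentation -/
noncomputable def aug : Q P →ₐ[K] K := lft P (fun _ => (0 : K)) (by simp)

theorem aug_li (g : Lt) (u : Q P) : aug P (li P g * u) = 0 := by
  rw [map_mul, aug, lft_li, zero_mul]

end local_algebra

section rescaled

variable {K : Type} [Field K] (π : DefsQ830.Par K)

theorem SC_inj (s : Lt → K) (hs : ∀ l, s l ≠ 0) : Function.Injective (SC π s) := by
  have h : SC π (fun l => (s l)⁻¹) * SC π s = 1 := by
    rw [SC_mul, ← SC_one]
    congr 1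
    funext l
    exact inv_mul_cancel₀ (hs l)
  intro u v huv
  have := congrArg (SC π (fun l => (s l)⁻¹)) huv
  rw [← Module.End.mul_apply, ← Module.End.mul_apply, h] at this
  exact this

theorem SC_surj (s : Lt → K) (hs : ∀ l, s l ≠ 0) (v : Q (lp π)) : ∃ u, SC π s u = v := by
  have h : SC π s * SC π (fun l => (s l)⁻¹) = 1 := by
    rw [SC_mul, ← SC_one]
    congr 1
    funext l
    exact mul_inv_cancel₀ (hs l)
  exact ⟨SC π (fun l => (s l)⁻¹) v, by rw [← Module.End.mul_apply, h]; rfl⟩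

theorem MQ_eq (g : Lt) (u : Q (lp π)) :
    MQ π g u = li (lp π) g * SC π (fun l => (lp π).chi l g) u := rfl

/-- homogeneous left division by `MQ x'` -/
noncomputable def LM : Q (lp π) →ₗ[K] Q (lp π) :=
  (SC π (fun l => ((lp π).chi l .x')⁻¹)).comp (LD (lp π))

theorem LM_MQ (u : Q (lp π)) : LM π (MQ π .x' u) = u := by
  show SC π (fun l => ((lp π).chi l .x')⁻¹) (LD (lp π) (MQ π .x' u)) = u
  rw [MQ_eq, LD_x', ← Module.End.mul_apply, SC_mul]
  rw [SC_congr π (t := fun _ => 1) (fun l => inv_mul_cancel₀ ((lp π).chi_ne l .x')), SC_one]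
  rfl

theorem MQ_x'_inj : Function.Injective (MQ π .x') := fun u v h => by
  rw [← LM_MQ π u, h, LM_MQ]

theorem LM_Qd {k : ℤ} {u : Q (lp π)} (hu : u ∈ Qd (lp π) k) : LM π u ∈ Qd (lp π) (k - 2) :=
  sc_Qd (lp π) _ (LD_Qd (lp π) hu)

theorem MQ_Qd (g : Lt) {k : ℤ} {u : Q (lp π)} (hu : u ∈ Qd (lp π) k) :
    MQ π g u ∈ Qd (lp π) (k + qd g) := li_Qd (lp π) g (sc_Qd (lp π) _ hu)

theorem aug_MQ (g : Lt) (u : Q (lp π)) : aug (lp π) (MQ π g u) = 0 := aug_li _ _ _

/-- a nonempty word is a multiple of `MQ g (shorter word)` -/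
theorem wp_MQ (g : Lt) (w : List Lt) : ∃ c : K, c ≠ 0 ∧ wp (lp π) (g :: w) = c • MQ π g (wp (lp π) w) := by
  refine ⟨((w.map (fun l => (lp π).chi l g)).prod)⁻¹, ?_, ?_⟩
  · apply inv_ne_zero
    intro h
    rw [List.prod_eq_zero_iff] at h
    obtain ⟨l, -, hl⟩ := List.mem_map.1 h
    exact (lp π).chi_ne l g hl
  · rw [MQ_eq, SC_apply, sc_wp, mul_smul_comm, smul_smul, inv_mul_cancel₀, one_smul, wp_cons]
    intro h
    rw [List.prod_eq_zero_iff] at h
    obtain ⟨l, -, hl⟩ := List.mem_map.1 h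
    exact (lp π).chi_ne l g hl

/-- a map vanishing on `1` and on all `MQ g v` vanishes -/
theorem ext_MQ {M : Type*} [AddCommGroup M] [Module K M] {f : Q (lp π) →ₗ[K] M}
    (h1 : f 1 = 0) (h : ∀ g v, f (MQ π g v) = 0) : f = 0 := by
  apply ext_wp
  intro w
  cases w with
  | nil => rw [wp_nil, h1, LinearMap.zero_apply]
  | cons g w =>
    obtain ⟨c, -, e⟩ := wp_MQ π g w
    rw [e, map_smul, h, smul_zero, LinearMap.zero_apply]

/-- the kernel of `(b_g) ↦ Σ MQ g b_g` -/
theorem ker_MQ (b : Lt → Q (lp π)) (h : ∑ g, MQ π g (b g) = 0) :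
    ∃ v, b .x = MQ π .x' v ∧ b .x' = π.p • MQ π .x v ∧ b .a = 0 ∧ b .b = 0 := by
  have h0 : ∑ g, li (lp π) g * SC π (fun l => (lp π).chi l g) (b g) = 0 := h
  obtain ⟨y, h1, -, h3, h4⟩ := presR (lp π) _ h0
  have ha : b .a = 0 := SC_inj π _ (fun l => (lp π).chi_ne l .a) (by rw [h3, map_zero])
  have hb : b .b = 0 := SC_inj π _ (fun l => (lp π).chi_ne l .b) (by rw [h4, map_zero])
  -- `b x` is in the range of `MQ x'`
  obtain ⟨v, hv⟩ : ∃ v, b .x = MQ π .x' v := by
    obtain ⟨y1, hy1⟩ := SC_surj π (fun l => (lp π).chi l .x) (fun l => (lp π).chi_ne l .x) y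
    obtain ⟨y2, hy2⟩ := SC_surj π (fun l => (lp π).chi l .x') (fun l => (lp π).chi_ne l .x') y1
    refine ⟨((lp π).chi .x' .x)⁻¹ • y2, ?_⟩
    apply SC_inj π (fun l => (lp π).chi l .x) (fun l => (lp π).chi_ne l .x)
    show SC π _ (b .x) = _
    rw [h1, map_smul, map_smul, MQ_eq, hy2, SC_apply, map_mul, sc_li, smul_mul_assoc, smul_smul,
      inv_mul_cancel₀ ((lp π).chi_ne _ _), one_smul, ← hy1, SC_apply]
  refine ⟨v, hv, ?_, ha, hb⟩
  apply MQ_x'_inj π
  rw [sumL, ha, hb, map_zero, map_zero, add_zero, add_zero, hv] at h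
  have h5 : MQ π .x (MQ π .x' v) = π.p • MQ π .x' (MQ π .x v) := by
    have := LinearMap.congr_fun (MQ_MQ π) v
    exact this
  rw [h5] at h
  rw [map_smul]
  have h6 : ∀ u v : Q (lp π), u + v = 0 → v = u := fun u v h => by
    have h7 : u + u = 0 := by rw [← two_smul K, π.two, zero_smul]
    calc v = (u + u) + v := by rw [h7, zero_add]
      _ = u + (u + v) := by abel
      _ = u := by rw [h, add_zero]
  exact h6 _ _ h

/-- **linear maps on `Q` with prescribed compositions with the `MQ g`** -/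
theorem exists_of_comp {M : Type*} [AddCommGroup M] [Module K M] (X : Lt → Q (lp π) →ₗ[K] M)
    (h : ∀ v, X .x (MQ π .x' v) + π.p • X .x' (MQ π .x v) = 0) :
    ∃ y : Q (lp π) →ₗ[K] M, (∀ g v, y (MQ π g v) = X g v) ∧ y 1 = 0 := by
  let Φ : (Lt → Q (lp π)) →ₗ[K] Q (lp π) := ∑ g, (MQ π g).comp (LinearMap.proj g)
  let Ψ : (Lt → Q (lp π)) →ₗ[K] M := ∑ g, (X g).comp (LinearMap.proj g)
  have hΦ : ∀ b, Φ b = ∑ g, MQ π g (b g) := fun b => by
    simp only [Φ, LinearMap.sum_apply, LinearMap.comp_apply, LinearMap.proj_apply]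
  have hΨ : ∀ b, Ψ b = ∑ g, X g (b g) := fun b => by
    simp only [Ψ, LinearMap.sum_apply, LinearMap.comp_apply, LinearMap.proj_apply]
  have hk : LinearMap.ker Φ ≤ LinearMap.ker Ψ := by
    intro b hb
    rw [LinearMap.mem_ker, hΦ] at hb
    obtain ⟨v, h1, h2, h3, h4⟩ := ker_MQ π b hb
    rw [LinearMap.mem_ker, hΨ, sumL, h1, h2, h3, h4, map_zero, map_zero, add_zero, add_zero,
      map_smul]
    exact h v
  let y1 : LinearMap.range Φ →ₗ[K] M :=
    ((LinearMap.ker Φ).liftQ Ψ hk).comp (Φ.quotKerEquivRange.symm.toLinearMap)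
  obtain ⟨y, hy⟩ := LinearMap.exists_extend y1
  have hyΦ : ∀ b, y (Φ b) = Ψ b := by
    intro b
    have e1 : y (Φ b) = y1 ⟨Φ b, b, rfl⟩ := by
      rw [← hy]; rfl
    rw [e1]
    show ((LinearMap.ker Φ).liftQ Ψ hk) (Φ.quotKerEquivRange.symm ⟨Φ b, b, rfl⟩) = _
    have e2 : Φ.quotKerEquivRange.symm ⟨Φ b, b, rfl⟩ = (LinearMap.ker Φ).mkQ b := by
      rw [LinearEquiv.symm_apply_eq]
      rfl
    rw [e2]
    exact (LinearMap.ker Φ).liftQ_apply Ψ b
  have hyM : ∀ g v, y (MQ π g v) = X g v := by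
    intro g v
    have e := hyΦ (Pi.single g v)
    rw [hΦ, hΨ] at e
    rw [Finset.sum_eq_single g, Finset.sum_eq_single g] at e
    · simpa using e
    · intro g' _ hg; rw [Pi.single_eq_of_ne hg, map_zero]
    · intro hg; exact absurd (Finset.mem_univ _) hg
    · intro g' _ hg; rw [Pi.single_eq_of_ne hg, map_zero]
    · intro hg; exact absurd (Finset.mem_univ _) hg
  refine ⟨y - (LinearMap.toSpanSingleton K M (y 1)).comp (aug (lp π)).toLinearMap, ?_, ?_⟩
  · intro g v
    rw [LinearMap.sub_apply, LinearMap.comp_apply, AlgHom.toLinearMap_apply, aug_MQ, map_zero,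
      sub_zero, hyM]
  · rw [LinearMap.sub_apply, LinearMap.comp_apply, AlgHom.toLinearMap_apply, map_one (aug (lp π)),
      LinearMap.toSpanSingleton_apply, one_smul, sub_self]

end rescaled

end Crest.Agent.R186.C2q667
private theorem rz_0fef1a25f5 : type_of% @_root_.Crest.Agent.R186.C2q667.qd.eq_1 := @_root_.Crest.Agent.R186.C2q667.qd.eq_1 -- L142
private theorem rz_b0f761525c : type_of% @_root_.Crest.Agent.R186.C2q667.sw.eq_1 := @_root_.Crest.Agent.R186.C2q667.sw.eq_1 -- L23
end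

-- ▼ part R186/C2x_354
section

/-!
# Row 186, half (A), leaf C2x (helper354): `X''` over `L''` = window of `R''`

`XR π : XC (WR π)` = the cells `Cell × Bt π` of 735 (`cI`, `FI`) as an instance of `C2c_354`;
everything except `HA` (C2a) is proved: `hB`, `hB0`, `hG`.
-/

set_option autoImplicit false

noncomputable section

namespace Crest.Agent.R186.C2x354

open Crest.Agent.R186.DefsQ830 Crest.Agent.R186.Cells221 Crest.Agent.R186.Win810
open Crest.Agent.R186.C2c354
open Crest.Agent.R186.PBW128 (E)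
open Crest.Agent.R186.C2b44 (kill c0 bd v0 kill_cf kill_E kill_D_zero)
open Crest.Agent.R186.VQ735 (Bt Io qd ln sI cI FI mem_FI md Cm Dl th tw yl lp)
open Crest.Agent.R186.Loc261 (Lt)

variable {K : Type} [Field K] (π : Par K)

/-- positions of the sixteen cells in the window -/
def oc : Cell → DefsQ830.Ob
  | none => (1, 0)
  | some (.d _) => (0, 1)
  | some .f => (1, 1)
  | some (.z _) => (0, 2)
  | some .zc => (1, 2)
  | some (.u s) => (1, ⟨1 + s.val, by omega⟩)
  | some (.e _) => (0, 2)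
  | some (.gj _) => (0, 3)
  | some .gc => (1, 3)
  | some (.v s) => (1, ⟨2 + s.val, by omega⟩)

theorem oc_fst (c : Cell) : (((oc c).1.val : ℕ) : ℤ) = 1 + cP c := by
  rcases c with _ | c
  · rfl
  · cases c <;> rfl

theorem oc_snd (c : Cell) : (((oc c).2.val : ℕ) : ℤ) = C2b44.cA c := by
  rcases c with _ | c
  · rfl
  · cases c <;> rfl

theorem cAd_eq (c : Cell) : ((VQ735.cAd c : ℕ) : ℤ) = C2b44.cA c := by
  rcases c with _ | c
  · rfl
  · rfl

theorem pz_pcZ (P A C : ℤ) : VQ735.pz π P A C = pcZ π P A C := by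
  by_cases hA : 0 ≤ A
  · by_cases hC : 0 ≤ C
    · obtain ⟨a, rfl⟩ : ∃ a : ℕ, A = a := ⟨A.toNat, by omega⟩
      obtain ⟨c, rfl⟩ : ∃ c : ℕ, C = c := ⟨C.toNat, by omega⟩
      rw [VQ735.pz_eq_pc, pcZ_nat]
    · rw [VQ735.pz_neg π (by omega), pcZ_neg π (by omega)]
  · rw [VQ735.pz_negA π (by omega), pcZ_neg π (by omega)]

/-! ### the basis element of degree zero -/

theorem one_ne : (1 : VQ735.Q π) ≠ 0 := by
  intro h
  have := congrArg (C2q667.aug (lp π)) h
  rw [map_one, map_zero] at this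
  exact one_ne_zero this

theorem Qc_zero : Loc261.Qc (lp π) 0 = Submodule.span K {(1 : VQ735.Q π)} := by
  unfold Loc261.Qc
  congr 1
  ext u
  simp only [Set.mem_ofPred_eq, Set.mem_singleton_iff]
  constructor
  · rintro ⟨w, hw, rfl⟩
    rw [Multiset.coe_eq_zero] at hw
    subst hw
    rfl
  · rintro rfl
    exact ⟨[], rfl, rfl⟩

theorem finrank_zero : Module.finrank K (Loc261.Qc (lp π) 0) = 1 := by
  rw [Qc_zero]
  exact finrank_span_singleton (one_ne π)

/-- the basis element of content zero -/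
def eo : Bt π := ⟨0, ⟨0, by rw [finrank_zero]; exact Nat.one_pos⟩⟩

theorem content_eq {b : Bt π} (h : b.1 = 0) : b = eo π := by
  obtain ⟨m, i⟩ := b
  have h' : m = 0 := h
  subst h'
  unfold eo
  congr 1
  apply Fin.ext
  have h1 := i.2
  have h2 := finrank_zero π
  show i.val = 0
  omega

theorem qd_zero (b : Bt π) : qd b = 0 ↔ b = eo π := by
  constructor
  · intro h
    apply content_eq
    have h1 := VQ735.card_le_md b.1
    unfold qd at h
    rw [h] at h1
    exact Multiset.card_eq_zero.1 (Nat.le_zero.1 h1)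
  · rintro rfl
    simp [qd, eo, md]

theorem ln_eo : ln (eo π) = 0 := by simp [ln, eo]

theorem ln_pos {b : Bt π} (h : b ≠ eo π) : 0 < ln b := by
  rw [Nat.pos_iff_ne_zero]
  intro h0
  exact h (content_eq π (Multiset.card_eq_zero.1 h0))

/-! ### the twist at `eo` is `kill` -/

theorem ch_zero (a : Gen) : VQ735.ch π 0 a • X π a = C2b44.kg π a := by
  cases a <;> simp [VQ735.ch, C2b44.kg, VQ735.pw]

theorem tw_eo (r : R π) : tw π (eo π) r = kill π r := by
  have h : tw π (eo π) = kill π := by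
    apply RingQuot.ringQuot_ext'
    apply FreeAlgebra.hom_ext
    funext a
    show tw π (eo π) (X π a) = kill π (X π a)
    rw [VQ735.tw_X, C2b44.kill_X]
    exact ch_zero π a
  rw [h]

theorem cA_th_eo : VQ735.cA π (eo π) (eo π) (th π) = 0 :=
  VQ735.cA_th_ne π (by rw [ln_eo]; omega)

theorem kill_yl (g : Lt) : kill π (yl π g) = 0 := by
  cases g
  · exact C2b44.kill_y π 0
  · exact C2b44.kill_yb π 0
  · exact C2b44.kill_y π 1
  · exact C2b44.kill_yb π 1

theorem kill_th (q q' : Bt π) : kill π (VQ735.cA π q q' (th π)) = 0 := by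
  rw [VQ735.cA_th, map_sum]
  refine Finset.sum_eq_zero fun g _ => ?_
  rw [map_smul, kill_yl, smul_zero]

theorem kill_cI_e (a a' : Cell) : kill π (cI π (a, eo π) (a', eo π) - c0 π a a') = 0 := by
  unfold cI
  rcases a with _ | l
  · rcases a' with _ | l'
    · show kill π (VQ735.cA π (eo π) (eo π) (th π) - 0) = 0
      rw [cA_th_eo, sub_zero, map_zero]
    · show kill π (VQ735.cA π (eo π) (eo π) 0 - 0) = 0
      rw [map_zero, sub_zero, map_zero]
  · rcases a' with _ | l'
    · show kill π (tw π (eo π) (X π l.toGen) - X π l.toGen) = 0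
      rw [tw_eo, map_sub, C2b44.kill_kill, sub_self]
    · show kill π (VQ735.cA π (eo π) (eo π) (Dl π (cf π l l') + if l = l' then th π else 0)
        - cf π l l') = 0
      have h1 : VQ735.cA π (eo π) (eo π) (if l = l' then th π else 0) = 0 := by
        split_ifs
        · exact cA_th_eo π
        · exact map_zero _
      rw [map_add, h1, add_zero, ← VQ735.tw_apply, tw_eo, map_sub, C2b44.kill_kill, sub_self]

theorem kill_cI_ne (a a' : Cell) {b : Bt π} (hb : b ≠ eo π) :
    kill π (cI π (a, b) (a', eo π)) = 0 := by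
  have hl : ln (eo π) < ln b := by rw [ln_eo]; exact ln_pos π hb
  unfold cI
  rcases a with _ | l
  · rcases a' with _ | l'
    · exact kill_th π _ _
    · show kill π (VQ735.cA π b (eo π) 0) = 0
      rw [map_zero, map_zero]
  · rcases a' with _ | l'
    · show kill π (VQ735.cA π b (eo π) (Dl π (X π l.toGen))) = 0
      rw [VQ735.cA_Dl_lt π _ hl, map_zero]
    · show kill π (VQ735.cA π b (eo π) (Dl π (cf π l l') + if l = l' then th π else 0)) = 0
      rw [map_add, VQ735.cA_Dl_lt π _ hl, zero_add]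
      split_ifs
      · exact kill_th π _ _
      · rw [map_zero, map_zero]

theorem cf_self (l : E) : cf π l l = 0 := by cases l <;> rfl

theorem cf_tri {l l' : E} (h : l.toGen.dC ≤ l'.toGen.dC) : cf π l l' = 0 := by
  rcases cf_mem π l l' with h0 | ⟨A, C, _, hC, _⟩
  · exact h0
  · omega

theorem cI_diag (a : Cell) (b b' : Bt π) : cI π (a, b) (a, b') = VQ735.cA π b b' (th π) := by
  unfold cI
  rcases a with _ | l
  · rfl
  · show VQ735.cA π b b' (Dl π (cf π l l) + if l = l then th π else 0) = _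
    rw [cf_self, map_zero, zero_add, if_pos rfl]

theorem cI_tri {a a' : Cell} (b b' : Bt π) (hne : a ≠ a') (h : cdeg a ≤ cdeg a') :
    cI π (a, b) (a', b') = 0 := by
  unfold cI
  rcases a with _ | l
  · rcases a' with _ | l'
    · exact absurd rfl hne
    · exact map_zero _
  · rcases a' with _ | l'
    · rw [C2b44.cdeg_some] at h
      have : cdeg none = 0 := rfl
      omega
    · show VQ735.cA π b b' (Dl π (cf π l l') + if l = l' then th π else 0) = 0
      rw [C2b44.cdeg_some, C2b44.cdeg_some] at h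
      rw [cf_tri π (by omega), map_zero, zero_add, if_neg (fun h' => hne (by rw [h'])), map_zero]

/-- the ideal of the `W`-letters -/
def J : Submodule K (R π) := LinearMap.ker (kill π).toLinearMap


/-- pieces of the window in the position of a cell -/
theorem q_eq (i : DefsQ830.Ob) (c : Cell) (C : ℤ) : (WR π).q i (oc c) C =
    pcZ π (((i.1.val : ℕ) : ℤ) - 1 - cP c) (((i.2.val : ℕ) : ℤ) - C2b44.cA c) C := by
  show pcZ π (((i.1.val : ℕ) : ℤ) - (((oc c).1.val : ℕ) : ℤ))
    (((i.2.val : ℕ) : ℤ) - (((oc c).2.val : ℕ) : ℤ)) C = _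
  rw [oc_fst, oc_snd]
  congr 1
  ring

theorem mem_q (i : DefsQ830.Ob) (c : Cell) (C : ℤ) (r : (WR π).S) : r ∈ (WR π).q i (oc c) C ↔
    (show R π from r) ∈ pcZ π (((i.1.val : ℕ) : ℤ) - 1 - cP c)
      (((i.2.val : ℕ) : ℤ) - C2b44.cA c) C :=
  SetLike.ext_iff.1 (q_eq π i c C) r

/-- **`X''` over the window of `R''`** -/
def XR : XC (WR π) where
  κ := Cell
  β := Bt π
  e := eo π
  cd := cdeg
  oc := oc
  qd := qd
  qd_e := qd_zero π
  F := FI π
  mem_F m σ := mem_FI π
  th b b' := VQ735.cA π b b' (th π)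
  cc := c0 π
  c := cI π
  c_mem σ τ := by
    have h := VQ735.cI_pz π σ τ
    rw [pz_pcZ, cAd_eq, cAd_eq] at h
    rw [q_eq, oc_fst, oc_snd]
    have e1 : 1 + cP σ.1 - 1 - cP τ.1 = cP σ.1 - cP τ.1 := by ring
    rw [e1]
    exact h
  mc σ τ := VQ735.cI_mc π σ τ
  c_diag a b b' := cI_diag π a b b'
  c_tri a a' b b' h1 h2 := cI_tri π b b' h1 h2
  J := J π
  J_left := fun s _ hj => C2b44.kill_mul_zero_left π hj s
  J_right := fun s hj => C2b44.kill_mul_zero_right π hj s
  J_D := fun hj => kill_D_zero π hj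
  c_e a a' := kill_cI_e π a a'
  c_J a a' b hb := kill_cI_ne π a a' hb

/-- C2b in positive degrees -/
theorem hB : (XR π).HB := by
  intro m i x hx hd
  change Cell → R π at x
  have hx' : ∀ σ, x σ ∈ pcZ π (((i.1.val : ℕ) : ℤ) - 1 - cP σ) (((i.2.val : ℕ) : ℤ) - C2b44.cA σ)
      ((m : ℤ) + 1 - cdeg σ) := fun σ => (mem_q π i σ _ (x σ)).1 (hx σ)
  obtain ⟨y, _, h1, h2⟩ := C2b44.exR_mod π (by omega : (0 : ℤ) < (m : ℤ) + 1) x hx' hd
  refine ⟨y, fun a => ?_, h2⟩
  have := h1 a
  rw [show (m : ℤ) + 1 + 1 - (cdeg a : ℤ) = m + 2 - cdeg a by ring] at this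
  exact (mem_q π i a _ (y a)).2 this

/-- values of the cells in `V_{-1}` -/
def vc (K : Type) [Field K] : Cell → VOp220.Pol K
  | none => v0 K
  | some _ => 0

theorem vc_zero (a : Cell) (h : cdeg a ≠ 0) : vc K a = 0 := by
  rcases a with _ | l
  · exact absurd rfl h
  · rfl

theorem sum_vc (x : Cell → R π) :
    ∑ a, Vmod220.rep π (x a) (vc K a) = Vmod220.rep π (x none) (v0 K) := by
  rw [Fintype.sum_option]
  simp [vc]

/-- C2b in degree zero -/
theorem hB0 : (XR π).HB0 (M := VR π (-1)) (vc K) := by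
  intro i x hx hv
  change Cell → R π at x
  have hx' : ∀ σ, x σ ∈ pcZ π (((i.1.val : ℕ) : ℤ) - 1 - cP σ) (((i.2.val : ℕ) : ℤ) - C2b44.cA σ)
      (-(cdeg σ : ℤ)) := fun σ => (mem_q π i σ _ (x σ)).1 (hx σ)
  have hv' : Vmod220.rep π (x none) (v0 K) = 0 := by
    rw [← sum_vc]
    exact hv
  have hP : ((i.1.val : ℕ) : ℤ) - 1 ≤ 0 := by
    have := i.1.2
    omega
  obtain ⟨y, _, h1, h2⟩ := C2b44.exR0_mod π hP x hx' hv'
  exact ⟨y, fun a => (mem_q π i a _ (y a)).2 (h1 a), h2⟩

/-- C2b, generation -/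
theorem hG : (XR π).HG (M := VR π (-1)) (vc K) := by
  intro i u hu
  have hP : ((i.1.val : ℕ) : ℤ) - 1 ≤ 0 := by
    have := i.1.2
    omega
  have hu' : u ∈ VOp220.hom K (((i.1.val : ℕ) : ℤ) - 1) := by
    have h : u ∈ VOp220.hom K (-1 + ((i.1.val : ℕ) : ℤ)) := hu
    rwa [show (-1 : ℤ) + ((i.1.val : ℕ) : ℤ) = ((i.1.val : ℕ) : ℤ) - 1 by ring] at h
  obtain ⟨r, h1, h2⟩ := C2b44.gen_mod π (A := ((i.2.val : ℕ) : ℤ)) (by omega) hP hu'
  refine ⟨fun a => match a with | none => r | some _ => 0, fun a => ?_, ?_⟩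
  · rcases a with _ | l
    · refine (mem_q π i none _ r).2 ?_
      have e1 : ((i.1.val : ℕ) : ℤ) - 1 - cP none = ((i.1.val : ℕ) : ℤ) - 1 := by
        simp [cP]
      have e2 : ((i.2.val : ℕ) : ℤ) - C2b44.cA none = ((i.2.val : ℕ) : ℤ) := by
        simp [C2b44.cA]
      rw [e1, e2]
      exact h1
    · exact Submodule.zero_mem _
  · have := sum_vc π (fun a => match a with | none => r | some _ => 0)
    exact this.trans h2

/-- the augmentation kills the boundaries -/
theorem aug_cI (σ : Io π) : Vmod220.rep π (cI π σ (none, eo π)) (v0 K) = 0 := by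
  rw [← C2b44.rep_kill]
  obtain ⟨a, b⟩ := σ
  by_cases hb : b = eo π
  · subst hb
    have h := kill_cI_e π a none
    rw [map_sub, sub_eq_zero] at h
    rw [h]
    rcases a with _ | l
    · show Vmod220.rep π (kill π 0) (v0 K) = 0
      rw [map_zero, map_zero]; rfl
    · show Vmod220.rep π (kill π (X π l.toGen)) (v0 K) = 0
      rw [kill_E]
      exact C2b44.rep_E_v0 π l
  · rw [kill_cI_ne π a none hb, map_zero]; rfl

theorem vc_mem (a : Cell) : vc K a ∈ (VR π (-1)).W (oc a) := by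
  rcases a with _ | l
  · show v0 K ∈ VOp220.hom K (-1 + ((((1 : Fin 2)).val : ℕ) : ℤ))
    exact VOp220.mon_mem (by norm_num)
  · exact Submodule.zero_mem _

end Crest.Agent.R186.C2x354
end
private theorem rz_63290a8b10 : type_of% @_root_.Crest.Agent.R186.C2x354.vc.eq_1 := @_root_.Crest.Agent.R186.C2x354.vc.eq_1 -- L283
end

-- ▼ part R186/C2p_354
section

/-!
# Row 186, half (A), leaf C2p (helper354): `X''` as a `Pre` over the window algebra

`GPre w M` = the fields of 810's `GCells` without `exV`, `exC`; `GPre.toPre : SemiFree515.Pre w.dga M.VM`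
(the proofs of 810's `toCells`); `XC.gpre` : from `XC` with `HA`, `HB`, `HB0`, `HG`; `preX π` : `X''`
over `L''` = window of `R''`, given C2a.
-/

set_option autoImplicit false
set_option linter.style.haveILetI false

namespace Crest.Agent.R186.C2p354

open Hat827 Crest.Agent.R186.Win810 Crest.Agent.R186.Win810.WD Crest.Agent.R186.Win810.WMod

variable {K : Type} [Field K]

/-- the window algebra acts (as `w.dga.C`) -/
noncomputable instance modC {w : WD K} (M : WMod w) : Module w.dga.C M.VM :=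
  inferInstanceAs (Module w.Win M.VM)

/-- graded cells over `S` resolving `M` -/
structure GPre (w : WD K) (M : WMod w) where
  ι : Type
  s : ι → ℕ
  F : ℕ → Finset ι
  mem_F : ∀ m σ, σ ∈ F m ↔ s σ ≤ m
  o : ι → w.Ob
  c : ι → ι → w.S
  c_mem : ∀ σ τ, c σ τ ∈ w.q (o σ) (o τ) ((s σ : ℤ) - s τ - 1)
  mc : ∀ σ τ, w.D (c σ τ) + ∑ ρ ∈ F (s σ), c σ ρ * c ρ τ = 0
  v : ι → M.V
  v_mem : ∀ σ, v σ ∈ M.W (o σ)
  v_zero : ∀ σ, s σ ≠ 0 → v σ = 0
  v_aug : ∀ σ, s σ = 1 → ∑ τ ∈ F 0, M.rho (c σ τ) (v τ) = 0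
  exR : ∀ (m : ℕ) (i : w.Ob) (x : ι → w.S), (∀ σ, x σ ∈ w.q i (o σ) ((m : ℤ) + 1 - s σ)) →
    (∀ τ, w.D (x τ) + ∑ σ ∈ F (m + 1), x σ * c σ τ = 0) →
    ∃ y : ι → w.S, (∀ σ, y σ ∈ w.q i (o σ) ((m : ℤ) + 2 - s σ)) ∧
      ∀ τ, x τ = w.D (y τ) + ∑ σ ∈ F (m + 2), y σ * c σ τ
  exR0 : ∀ (i : w.Ob) (x : ι → w.S), (∀ σ, x σ ∈ w.q i (o σ) (-(s σ : ℤ))) →
    ∑ σ ∈ F 0, M.rho (x σ) (v σ) = 0 →
    ∃ y : ι → w.S, (∀ σ, y σ ∈ w.q i (o σ) ((1 : ℤ) - s σ)) ∧
      ∀ τ, x τ = w.D (y τ) + ∑ σ ∈ F 1, y σ * c σ τ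
  gen : ∀ (i : w.Ob) (u : M.V), u ∈ M.W i →
    ∃ x : ι → w.S, (∀ σ, x σ ∈ w.q i (o σ) (-(s σ : ℤ))) ∧ ∑ σ ∈ F 0, M.rho (x σ) (v σ) = u

namespace GPre

variable {w : WD K} {M : WMod w} (R : GPre w M)

/-- the attaching elements in the window algebra -/
def cw (σ τ : R.ι) : w.Win := ws (R.o σ) (R.o τ) (R.c σ τ) (q_le _ _ _ (R.c_mem σ τ))

theorem mul_cw_apply (σ τ : R.ι) (x : w.Win) (i l : w.Ob) :
    (x * R.cw σ τ).1 i l = if R.o τ = l then x.1 i (R.o σ) * R.c σ τ else 0 :=
  mul_ws_apply _ _ _ _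

theorem cw_mul_apply (σ τ : R.ι) (x : w.Win) (i l : w.Ob) :
    (R.cw σ τ * x).1 i l = if R.o σ = i then R.c σ τ * x.1 (R.o τ) l else 0 :=
  ws_mul_apply _ _ _ _

theorem sum_apply {κ : Type} (s : Finset κ) (f : κ → w.Win) (i j : w.Ob) :
    (∑ k ∈ s, f k).1 i j = ∑ k ∈ s, (f k).1 i j := by
  classical
  induction s using Finset.induction_on with
  | empty => rfl
  | insert a s ha ih =>
    rw [Finset.sum_insert ha, Finset.sum_insert ha, ← ih]
    rfl

theorem vsum_apply {κ : Type} (s : Finset κ) (f : κ → M.VM) (i : w.Ob) :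
    ((∑ k ∈ s, f k : M.VM) i).1 = ∑ k ∈ s, (f k i).1 := by
  classical
  induction s using Finset.induction_on with
  | empty => rfl
  | insert a s ha ih =>
    rw [Finset.sum_insert ha, Finset.sum_insert ha, ← ih]
    rfl

theorem add_apply (a b : w.Win) (i j : w.Ob) : (a + b).1 i j = a.1 i j + b.1 i j := rfl

theorem cw_smul (σ τ : R.ι) (u : M.VM) (l : w.Ob) :
    ((R.cw σ τ • u : M.VM) l).1 = if R.o σ = l then M.rho (R.c σ τ) (u (R.o τ)).1 else 0 :=
  M.ws_smul _ _ _

theorem rho_sum_col (x : w.Win) (o : w.Ob) (u : M.V) (hu : u ∈ M.W o) (i : w.Ob) :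
    ((x • M.mkV o u hu : M.VM) i).1 = M.rho (x.1 i o) u := by
  rw [WMod.smul_apply, Finset.sum_eq_single o]
  · rw [mkV_apply, if_pos rfl]
  · intro j _ hj
    rw [mkV_apply, if_neg (Ne.symm hj), map_zero]
  · intro h
    exact absurd (Finset.mem_univ _) h

/-- **graded cells give a `Pre` over the window algebra** -/
noncomputable def toPre : SemiFree515.Pre w.dga M.VM where
  ι := R.ι
  s := R.s
  F := R.F
  mem_F := R.mem_F
  e σ := WD.e (R.o σ)
  e_mem σ := WD.e_mem _
  e_idem σ := e_mul_e _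
  c := R.cw
  c_mem σ τ := ws_mem_G (R.c_mem σ τ)
  c_left σ τ := by
    refine (row_iff _ _).2 fun i j h => ?_
    change (ws _ _ _ _ : w.Win).1 i j = 0
    rw [ws_apply, if_neg fun h0 => h h0.1]
  c_right σ τ := by
    refine (col_iff _ _).2 fun i j h => ?_
    change (ws _ _ _ _ : w.Win).1 i j = 0
    rw [ws_apply, if_neg fun h0 => h h0.2]
  mc σ τ := by
    apply Subtype.ext
    ext i j
    change w.D ((R.cw σ τ).1 i j) + (∑ ρ ∈ R.F (R.s σ), R.cw σ ρ * R.cw ρ τ).1 i j = 0
    rw [sum_apply]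
    have h1 : ∀ ρ, (R.cw σ ρ * R.cw ρ τ).1 i j =
        if R.o σ = i ∧ R.o τ = j then R.c σ ρ * R.c ρ τ else 0 := by
      intro ρ
      rw [cw_mul_apply]
      unfold cw
      rw [ws_apply]
      by_cases h : R.o σ = i
      · by_cases h' : R.o τ = j
        · simp [h, h']
        · simp [h']
      · simp [h]
    simp only [h1]
    unfold cw
    rw [ws_apply]
    by_cases h : R.o σ = i ∧ R.o τ = j
    · simp only [if_pos h]
      exact R.mc σ τ
    · simp only [if_neg h, map_zero, Finset.sum_const_zero, add_zero]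
  v σ := M.mkV (R.o σ) (R.v σ) (R.v_mem σ)
  v_e σ := by
    refine (M.e_smul_iff _ _).2 fun j hj => ?_
    rw [mkV_apply, if_neg hj]
  v_zero σ hσ := by
    apply M.vext
    intro i
    rw [mkV_apply, R.v_zero σ hσ]
    split_ifs <;> rfl
  v_aug σ hσ := by
    apply M.vext
    intro i
    change ((∑ τ ∈ R.F 0, (R.cw σ τ • M.mkV (R.o τ) (R.v τ) (R.v_mem τ) : M.VM) : M.VM) i).1 = 0
    rw [vsum_apply]
    have h1 : ∀ τ, ((R.cw σ τ • M.mkV (R.o τ) (R.v τ) (R.v_mem τ) : M.VM) i).1 =
        if R.o σ = i then M.rho (R.c σ τ) (R.v τ) else 0 := by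
      intro τ
      rw [cw_smul, mkV_apply, if_pos rfl]
    simp only [h1]
    by_cases h : R.o σ = i
    · simp only [if_pos h]
      exact R.v_aug σ hσ
    · simp only [if_neg h, Finset.sum_const_zero]
  exR := by
    intro m x hx hxe hc
    change R.ι → w.Win at x
    have key := fun i : w.Ob => R.exR m i (fun σ => (x σ).1 i (R.o σ)) (fun σ => hx σ i (R.o σ))
      (fun τ => by
        have h := congrArg (fun z : w.Win => z.1 i (R.o τ)) (hc τ)
        change w.D ((x τ).1 i (R.o τ)) + (∑ σ ∈ R.F (m + 1), x σ * R.cw σ τ).1 i (R.o τ) = 0 at h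
        rw [sum_apply] at h
        simpa only [mul_cw_apply, if_true] using h)
    choose y hy hxy using key
    refine ⟨fun σ => mkCol (R.o σ) (fun i => y i σ) (fun i => q_le _ _ _ (hy i σ)), ?_, ?_, ?_⟩
    · intro σ i l
      change (mkCol (R.o σ) (fun i => y i σ) _).1 i l ∈ _
      rw [mkCol_apply]
      split_ifs with h
      · subst h
        exact hy i σ
      · exact Submodule.zero_mem _
    · intro σ
      refine (col_iff _ _).2 fun i j h => ?_
      rw [mkCol_apply, if_neg h]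
    · intro τ
      apply Subtype.ext
      ext i l
      change (x τ).1 i l = w.D ((mkCol (R.o τ) (fun i => y i τ) _).1 i l) +
        (∑ σ ∈ R.F (m + 2), mkCol (R.o σ) (fun i => y i σ) _ * R.cw σ τ).1 i l
      rw [sum_apply]
      simp only [mul_cw_apply, mkCol_apply, if_true]
      by_cases h : R.o τ = l
      · subst h
        simp only [if_true]
        exact hxy i τ
      · simp only [if_neg h, map_zero, Finset.sum_const_zero, add_zero]
        exact (col_iff _ _).1 (hxe τ) i l h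
  exR0 := by
    intro x hx hxe hc
    change R.ι → w.Win at x
    have key := fun i : w.Ob => R.exR0 i (fun σ => (x σ).1 i (R.o σ)) (fun σ => hx σ i (R.o σ))
      (by
        have h := congrArg (fun z : M.VM => (z i).1) hc
        change ((∑ σ ∈ R.F 0, (x σ • M.mkV (R.o σ) (R.v σ) (R.v_mem σ) : M.VM) : M.VM) i).1 = 0 at h
        rw [vsum_apply] at h
        simpa only [rho_sum_col] using h)
    choose y hy hxy using key
    refine ⟨fun σ => mkCol (R.o σ) (fun i => y i σ) (fun i => q_le _ _ _ (hy i σ)), ?_, ?_, ?_⟩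
    · intro σ i l
      change (mkCol (R.o σ) (fun i => y i σ) _).1 i l ∈ _
      rw [mkCol_apply]
      split_ifs with h
      · subst h
        exact hy i σ
      · exact Submodule.zero_mem _
    · intro σ
      refine (col_iff _ _).2 fun i j h => ?_
      rw [mkCol_apply, if_neg h]
    · intro τ
      apply Subtype.ext
      ext i l
      change (x τ).1 i l = w.D ((mkCol (R.o τ) (fun i => y i τ) _).1 i l) +
        (∑ σ ∈ R.F 1, mkCol (R.o σ) (fun i => y i σ) _ * R.cw σ τ).1 i l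
      rw [sum_apply]
      simp only [mul_cw_apply, mkCol_apply, if_true]
      by_cases h : R.o τ = l
      · subst h
        simp only [if_true]
        exact hxy i τ
      · simp only [if_neg h, map_zero, Finset.sum_const_zero, add_zero]
        exact (col_iff _ _).1 (hxe τ) i l h
  gen := by
    intro u
    have key := fun i : w.Ob => R.gen i (u i).1 (u i).2
    choose x hx hu using key
    refine ⟨fun σ => mkCol (R.o σ) (fun i => x i σ) (fun i => q_le _ _ _ (hx i σ)), ?_, ?_⟩
    · intro σ i l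
      change (mkCol (R.o σ) (fun i => x i σ) _).1 i l ∈ _
      rw [mkCol_apply]
      split_ifs with h
      · subst h
        exact hx i σ
      · exact Submodule.zero_mem _
    · apply M.vext
      intro i
      change ((∑ σ ∈ R.F 0, (mkCol (R.o σ) (fun i => x i σ) _ •
        M.mkV (R.o σ) (R.v σ) (R.v_mem σ) : M.VM) : M.VM) i).1 = _
      rw [vsum_apply]
      simp only [rho_sum_col, mkCol_apply, if_true]
      exact hu i

end GPre

/-- **the cells of an `XC` resolve** -/
noncomputable def gpre {w : WD K} (X : C2c354.XC w) {M : WMod w} (vc : X.κ → M.V)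
    (hvm : ∀ a, vc a ∈ M.W (X.oc a)) (h0 : ∀ a, X.cd a ≠ 0 → vc a = 0)
    (h1 : ∀ σ : X.ι, X.s σ = 1 → ∑ a, M.rho (X.c σ (a, X.e)) (vc a) = 0)
    (hA : X.HA) (hB : X.HB) (hB0 : X.HB0 vc) (hG : X.HG vc) : GPre w M where
  ι := X.ι
  s := X.s
  F := X.F
  mem_F := X.mem_F
  o := X.o
  c := X.c
  c_mem := X.c_mem
  mc := X.mc
  v := X.v vc
  v_mem := C2c354.XC.v_mem hvm
  v_zero := C2c354.XC.v_zero h0
  v_aug := C2c354.XC.v_aug h0 h1
  exR := C2c354.XC.exR hA hB
  exR0 := C2c354.XC.exR0 hA hB0 h0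
  gen := C2c354.XC.gen hG h0

open Crest.Agent.R186.DefsQ830 in
/-- `X''` over `L''`, graded form -/
noncomputable def gpreX (π : Par K) (hA : (C2x354.XR π).HA) : GPre (WR π) (VR π (-1)) :=
  gpre (C2x354.XR π) (C2x354.vc K) (C2x354.vc_mem π) (fun a h => C2x354.vc_zero a h)
    (fun σ _ => by
      have := C2x354.sum_vc π (fun a => VQ735.cI π σ (a, C2x354.eo π))
      exact this.trans (C2x354.aug_cI π σ))
    hA (C2x354.hB π) (C2x354.hB0 π) (C2x354.hG π)

open Crest.Agent.R186.DefsQ830 in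
/-- **`X''` as a `Pre` over `L''`** (given C2a) -/
noncomputable def preX (π : Par K) (hA : (C2x354.XR π).HA) :
    SemiFree515.Pre (WR π).dga (VR π (-1)).VM := (gpreX π hA).toPre

end Crest.Agent.R186.C2p354
end

-- ▼ part R186/C2a_667
section

/-!
# Row 186, half (A), leaf C2a (helper667), part 2: the Koszul complex `R'' ⊗ Q^* = Hom (Q, R'')`

* `cw q : R'' → R''` : coefficient of the basis element `wq q` of `W`;
* `tx x v = Σ_g x (MQ g v) * y_g`;
* `kos` : exactness of `tx`.
-/

set_option autoImplicit false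

noncomputable section

namespace Crest.Agent.R186.C2a667

open Crest.Agent.R186.DefsQ830
open Crest.Agent.R186.PBW128 (Ix N Wb Y bv nf nf_mul_Y wq wkr wtr dPx dAx dCx Psi ev ev_nf Psi_bv
  wq_one wq_y wq_yb wq_pi)
open Crest.Agent.R186.Win810 Crest.Agent.R186.C2q667
open Crest.Agent.R186.C2b44 (kill kill_nf map_pcZ nf_mem_pcZ kill_mem kill_kill)
open Crest.Agent.R186.VQ735 (lp Q MQ EQ SC yl sumL MQ_MQ A2 DA th Cm Dl pz)
open Crest.Agent.R186.Loc261 (Lt li wp wp_nil ext_wp)

variable {K : Type} [Field K] (π : Par K)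

/-! ### coefficients with respect to `W` -/

/-- coefficient of `q` in coordinates -/
def cwN (q : Wb) : N K →ₗ[K] N K :=
  Finsupp.linearCombination K (fun ν : Ix =>
    if ν.2.2.2.2 = q then bv K ν.1 ν.2.1 ν.2.2.1 ν.2.2.2.1 .one else 0)

theorem cwN_bv (q : Wb) (i j k : ℕ) (w : List PBW128.E) (q' : Wb) :
    cwN q (bv K i j k w q') = if q' = q then bv K i j k w .one else 0 := by
  simp [cwN, bv]

/-- the coefficient of `wq q` -/
def cw (q : Wb) : R π →ₗ[K] R π := (Psi π) ∘ₗ (cwN q) ∘ₗ (ev π)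

theorem cw_nf (q : Wb) (i j k : ℕ) (w : List PBW128.E) (q' : Wb) :
    cw π q (nf π (i, j, k, w, q')) = if q' = q then nf π (i, j, k, w, .one) else 0 := by
  rw [cw, LinearMap.comp_apply, LinearMap.comp_apply, ev_nf, cwN_bv]
  split_ifs
  · exact Psi_bv π _ _ _ _ _
  · exact map_zero _

theorem ext_nf {M : Type*} [AddCommGroup M] [Module K M] {f g : R π →ₗ[K] M}
    (h : ∀ i j k w q, f (nf π (i, j, k, w, q)) = g (nf π (i, j, k, w, q))) : f = g := by
  refine (PBW128.basis π).ext ?_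
  rintro ⟨i, j, k, w, q⟩
  rw [PBW128.basis_apply]
  exact h i j k w q

theorem sumW {M : Type*} [AddCommMonoid M] (F : Wb → M) :
    ∑ q, F q = F .one + F (.y 0) + F (.y 1) + F (.yb 0) + F (.yb 1) + F .pi := by
  have h : (Finset.univ : Finset Wb) = {.one, .y 0, .y 1, .yb 0, .yb 1, .pi} := by decide
  rw [h, Finset.sum_insert (by decide), Finset.sum_insert (by decide),
    Finset.sum_insert (by decide), Finset.sum_insert (by decide), Finset.sum_insert (by decide),
    Finset.sum_singleton]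
  simp only [add_assoc]

theorem nf_one_mul (i j k : ℕ) (w : List PBW128.E) (q : Wb) :
    nf π (i, j, k, w, .one) * wq π q = nf π (i, j, k, w, q) := by
  simp only [nf, wq_one, mul_one]

theorem cw_sum (r : R π) : r = ∑ q, cw π q r * wq π q := by
  have : (LinearMap.id : R π →ₗ[K] R π) =
      ∑ q, (LinearMap.mulRight K (wq π q)) ∘ₗ (cw π q) := by
    apply ext_nf
    intro i j k w q
    simp only [LinearMap.id_apply, LinearMap.sum_apply, LinearMap.comp_apply,
      LinearMap.mulRight_apply, cw_nf]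
    rw [Finset.sum_eq_single q]
    · rw [if_pos rfl, nf_one_mul]
    · intro q' _ hq
      rw [if_neg (Ne.symm hq), zero_mul]
    · intro h; exact absurd (Finset.mem_univ _) h
  have h := LinearMap.congr_fun this r
  simpa only [LinearMap.id_apply, LinearMap.sum_apply, LinearMap.comp_apply,
      LinearMap.mulRight_apply] using h

theorem kill_eq (r : R π) : kill π r = cw π .one r := by
  have : (kill π).toLinearMap = cw π .one := by
    apply ext_nf
    intro i j k w q
    rw [AlgHom.toLinearMap_apply, kill_nf, cw_nf]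
    by_cases h : q = .one
    · subst h; simp
    · simp [h]
  exact LinearMap.congr_fun this r

theorem cw_cw (q : Wb) (r : R π) : cw π .one (cw π q r) = cw π q r := by
  have : (cw π .one) ∘ₗ (cw π q) = cw π q := by
    apply ext_nf
    intro i j k w q'
    rw [LinearMap.comp_apply, cw_nf]
    split_ifs
    · rw [cw_nf, if_pos rfl]
    · rw [map_zero]
  exact LinearMap.congr_fun this r

/-- the `Y`-letter of a letter of `Q` -/
def ly : Lt → Y
  | .x => .y 0 | .a => .yb 0 | .x' => .y 1 | .b => .yb 1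
/-- the `W`-basis element of a letter of `Q` -/
def wl : Lt → Wb
  | .x => .y 0 | .a => .yb 0 | .x' => .y 1 | .b => .yb 1

theorem yl_ly (g : Lt) : yl π g = X π (ly g).toGen := by cases g <;> rfl
theorem wq_wl (g : Lt) : wq π (wl g) = yl π g := by
  cases g
  · exact wq_y π 0
  · exact wq_yb π 0
  · exact wq_y π 1
  · exact wq_yb π 1

theorem nf_mul_yl (i j k : ℕ) (w : List PBW128.E) (q : Wb) (g : Lt) :
    nf π (i, j, k, w, q) * yl π g = wkr π q (ly g) • nf π (i, j, k, w, wtr q (ly g)) := by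
  rw [yl_ly, nf_mul_Y]


theorem cw_wl_mul_yl (g g' : Lt) (r : R π) :
    cw π (wl g') (r * yl π g) = if g = g' then cw π .one r else 0 := by
  have : (cw π (wl g')) ∘ₗ (LinearMap.mulRight K (yl π g)) = if g = g' then cw π .one else 0 := by
    apply ext_nf
    intro i j k w q
    rw [LinearMap.comp_apply, LinearMap.mulRight_apply, nf_mul_yl, map_smul, cw_nf]
    by_cases hq : q = .one
    · subst hq
      by_cases h : g = g'
      · subst h
        rw [if_pos rfl, cw_nf, if_pos rfl, if_pos (by cases g <;> rfl)]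
        have : wkr π .one (ly g) = 1 := by cases g <;> rfl
        rw [this, one_smul]
      · rw [if_neg h, if_neg, smul_zero, LinearMap.zero_apply]
        revert h
        cases g <;> cases g' <;> simp [wtr, ly, wl]
    · rw [if_neg (by cases q <;> cases g <;> cases g' <;> simp_all [wtr, wl]), smul_zero]
      split_ifs
      · rw [cw_nf, if_neg hq]
      · rw [LinearMap.zero_apply]
  have h := LinearMap.congr_fun this r
  rw [LinearMap.comp_apply, LinearMap.mulRight_apply] at h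
  rw [h]
  split_ifs <;> rfl

theorem cw_pi_mul_yl (g : Lt) (r : R π) :
    cw π .pi (r * yl π g) = (if g = .x' then cw π (wl .x) r else 0) +
      (if g = .x then π.p • cw π (wl .x') r else 0) := by
  have : (cw π .pi) ∘ₗ (LinearMap.mulRight K (yl π g)) = (if g = .x' then cw π (wl .x) else 0) +
      (if g = .x then π.p • cw π (wl .x') else 0) := by
    apply ext_nf
    intro i j k w q
    rw [LinearMap.comp_apply, LinearMap.mulRight_apply, nf_mul_yl, map_smul, cw_nf,
      LinearMap.add_apply]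
    rcases q with _ | s | s | _
    · cases g <;> simp [wtr, ly, wl, cw_nf]
    · fin_cases s <;> cases g <;> simp [wtr, ly, wl, cw_nf, wkr]
    · cases g <;> simp [wtr, wl, cw_nf, wkr]
    · cases g <;> simp [wtr, wl, cw_nf, wkr]
  have h := LinearMap.congr_fun this r
  rw [LinearMap.comp_apply, LinearMap.mulRight_apply, LinearMap.add_apply] at h
  rw [h]
  split_ifs <;> rfl

/-! ### gradings -/

theorem pcZ_eq_pz (P A C : ℤ) : pcZ π P A C = pz π P A C := by
  by_cases hA : 0 ≤ A
  · by_cases hC : 0 ≤ C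
    · obtain ⟨a, rfl⟩ := Int.eq_ofNat_of_zero_le hA
      obtain ⟨c, rfl⟩ := Int.eq_ofNat_of_zero_le hC
      rw [pcZ_nat, VQ735.pz_eq_pc]
    · rw [VQ735.pz_neg π (by omega), pcZ_neg π (by omega)]
  · rw [VQ735.pz_negA π (by omega), pcZ_neg π (by omega)]

theorem cw_pz (q : Wb) {P A C : ℤ} {r : R π} (hr : r ∈ pz π P A C) :
    cw π q r ∈ pz π P A (C - wC q.word) := by
  rw [← pcZ_eq_pz] at hr ⊢
  refine map_pcZ π (φ := (Psi π) ∘ₗ (cwN q)) ?_ hr
  intro i j k w q' h1 h2 h3
  rw [LinearMap.comp_apply, cwN_bv]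
  split_ifs with h
  · subst h
    rw [Psi_bv]
    refine nf_mem_pcZ π _ h1 h2 ?_
    rw [← h3]
    simp [dCx, Wb.word, wC]
  · rw [map_zero]; exact Submodule.zero_mem _

theorem wC_wl (g : Lt) : (wC (wl g).word : ℤ) = qd g - 1 := by cases g <;> rfl

/-- homogeneous maps `Q → R''` -/
def Hg (P A C : ℤ) : Submodule K (Q π →ₗ[K] R π) where
  carrier := {x | ∀ w : List Lt, x (wp (lp π) w) ∈ pz π P A (C - qs w)}
  add_mem' ha hb w := Submodule.add_mem _ (ha w) (hb w)
  zero_mem' _ := Submodule.zero_mem _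
  smul_mem' c _ ha w := Submodule.smul_mem _ c (ha w)

theorem Hg_Qd {P A C k : ℤ} {x : Q π →ₗ[K] R π} (hx : x ∈ Hg π P A C) {u : Q π}
    (hu : u ∈ Qd (lp π) k) : x u ∈ pz π P A (C - k) := by
  have : Qd (lp π) k ≤ (pz π P A (C - k)).comap x := by
    refine Qd_le (lp π) ?_
    intro w hw
    rw [← hw]
    exact hx w
  exact this hu

theorem Hg_cast {P A C P' A' C' : ℤ} {x : Q π →ₗ[K] R π} (hx : x ∈ Hg π P A C) (h1 : P = P')
    (h2 : A = A') (h3 : C = C') : x ∈ Hg π P' A' C' := by subst h1 h2 h3; exact hx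


/-! ### the Koszul differential -/

/-- `θ` -/
def tx (x : Q π →ₗ[K] R π) : Q π →ₗ[K] R π :=
  ∑ g, (LinearMap.mulRight K (yl π g)) ∘ₗ x ∘ₗ (MQ π g)

theorem tx_apply (x : Q π →ₗ[K] R π) (v : Q π) : tx π x v = ∑ g, x (MQ π g v) * yl π g := by
  simp only [tx, LinearMap.sum_apply, LinearMap.comp_apply, LinearMap.mulRight_apply]

theorem y0_mul_yl (g : Lt) : X π (.y 0) * yl π g = if g = .x' then wq π .pi else 0 := by
  cases g
  · exact PBW128.ryy π 0
  · exact PBW128.ryyb π 0 0
  · rw [if_pos rfl, wq_pi]; rfl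
  · exact PBW128.ryyb π 0 1


/-- **exactness of the Koszul differential** -/
theorem kos {P A C : ℤ} {x : Q π →ₗ[K] R π} (hx : x ∈ Hg π P A C) (h : tx π x = 0)
    (h1 : kill π (x 1) = 0) : ∃ y ∈ Hg π P A (C + 1), kill π (y 1) = 0 ∧ tx π y = x := by
  have hv : ∀ v, ∑ g, x (MQ π g v) * yl π g = 0 := fun v => by
    rw [← tx_apply, h]; rfl
  -- the coefficient at `1`
  have z1 : (cw π .one) ∘ₗ x = 0 := by
    apply ext_MQ π
    · rw [LinearMap.comp_apply, ← kill_eq, h1]
    · intro g v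
      have e := congrArg (cw π (wl g)) (hv v)
      rw [map_sum, map_zero] at e
      simp only [cw_wl_mul_yl] at e
      rw [Finset.sum_ite_eq' Finset.univ g, if_pos (Finset.mem_univ _)] at e
      exact e
  -- the relation
  have z2 : ∀ v, cw π (wl .x) (x (MQ π .x' v)) + π.p • cw π (wl .x') (x (MQ π .x v)) = 0 := by
    intro v
    have e := congrArg (cw π .pi) (hv v)
    rw [map_sum, map_zero] at e
    simp only [cw_pi_mul_yl] at e
    rw [sumL] at e
    rw [add_comm]
    simpa using e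
  obtain ⟨y1, hy1, hy10⟩ := exists_of_comp π (fun g => (cw π (wl g)) ∘ₗ x) z2
  let y1' : Q π →ₗ[K] R π := (cw π .one) ∘ₗ y1
  have hy1' : ∀ g v, y1' (MQ π g v) = cw π (wl g) (x v) := fun g v => by
    show cw π .one (y1 (MQ π g v)) = _
    rw [hy1, LinearMap.comp_apply, cw_cw]
  let y2 : Q π →ₗ[K] R π := (cw π .pi) ∘ₗ x ∘ₗ (LM π)
  have hy2 : ∀ v, y2 (MQ π .x' v) = cw π .pi (x v) := fun v => by
    show cw π .pi (x (LM π (MQ π .x' v))) = _
    rw [LM_MQ]
  refine ⟨y1' + (LinearMap.mulRight K (X π (.y 0))) ∘ₗ y2, ?_, ?_, ?_⟩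
  · refine Submodule.add_mem _ ?_ ?_
    · intro w
      cases w with
      | nil =>
        rw [wp_nil]
        show cw π .one (y1 1) ∈ _
        rw [hy10, map_zero]
        exact Submodule.zero_mem _
      | cons g w =>
        obtain ⟨c, -, e⟩ := wp_MQ π g w
        rw [e, map_smul, hy1']
        refine Submodule.smul_mem _ _ ?_
        refine VQ735.pz_cast π (cw_pz π _ (hx w)) rfl rfl ?_
        rw [wC_wl, qs_cons]; push_cast; ring
    · intro w
      show cw π .pi (x (LM π (wp (lp π) w))) * X π (.y 0) ∈ _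
      have e1 := Hg_Qd π hx (LM_Qd π (wp_Qd (lp π) w))
      have e2 := VQ735.pz_mul π (cw_pz π .pi e1) (VQ735.X_pz π (.y 0))
      refine VQ735.pz_cast π e2 ?_ ?_ ?_
      · simp [Gen.dP]
      · simp [Gen.dA]
      · simp [Gen.dC, Wb.word, wC]; ring
  · rw [LinearMap.add_apply, map_add]
    show kill π (cw π .one (y1 1)) + kill π (y2 1 * X π (.y 0)) = 0
    rw [map_mul, hy10, map_zero, map_zero, zero_add, C2b44.kill_y, mul_zero]
  · apply LinearMap.ext
    intro v
    rw [tx_apply]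
    have e : ∀ g, (y1' + (LinearMap.mulRight K (X π (.y 0))) ∘ₗ y2) (MQ π g v) * yl π g =
        cw π (wl g) (x v) * wq π (wl g) + (if g = .x' then cw π .pi (x v) * wq π .pi else 0) := by
      intro g
      rw [LinearMap.add_apply, add_mul, hy1', wq_wl, LinearMap.comp_apply,
        LinearMap.mulRight_apply, mul_assoc, y0_mul_yl]
      by_cases hg : g = .x'
      · subst hg
        rw [if_pos rfl, if_pos rfl, hy2]
      · rw [if_neg hg, if_neg hg, mul_zero]
    rw [Finset.sum_congr rfl (fun g _ => e g), Finset.sum_add_distrib,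
      Finset.sum_ite_eq' Finset.univ Lt.x', if_pos (Finset.mem_univ _)]
    conv_rhs => rw [cw_sum π (x v)]
    have e0 : cw π .one (x v) = 0 := LinearMap.congr_fun z1 v
    rw [sumW, e0, zero_mul, zero_add, sumL]
    simp only [wl]
    abel

end Crest.Agent.R186.C2a667
end
private theorem rz_ec2cafb2a1 : type_of% @_root_.Crest.Agent.R186.C2a667.ly.eq_1 := @_root_.Crest.Agent.R186.C2a667.ly.eq_1 -- L106
private theorem rz_694c766f44 : type_of% @_root_.Crest.Agent.R186.C2a667.wl.eq_1 := @_root_.Crest.Agent.R186.C2a667.wl.eq_1 -- L109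
end

-- ▼ part R186/C2t_667
section

/-!
# Row 186, half (A), leaf C2a (helper667), part 3: the total complex `(Hom (Q, R''), D + θ)`

`tot` : the kernel of the augmentation `x ↦ x 1 mod (W-letters)` is acyclic.
-/

set_option autoImplicit false

noncomputable section

namespace Crest.Agent.R186.C2a667

open Crest.Agent.R186.DefsQ830
open Crest.Agent.R186.Win810 Crest.Agent.R186.C2q667
open Crest.Agent.R186.C2b44 (kill kill_D_zero)
open Crest.Agent.R186.VQ735 (lp Q MQ yl sumL MQ_MQ pz)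
open Crest.Agent.R186.Loc261 (Lt li wp wp_nil ext_wp)

variable {K : Type} [Field K] (π : Par K)

/-- `D` on values -/
def DX (x : Q π →ₗ[K] R π) : Q π →ₗ[K] R π := (Der580.D π) ∘ₗ x

theorem DX_apply (x : Q π →ₗ[K] R π) (v : Q π) : DX π x v = Der580.D π (x v) := rfl

theorem DX_mem {P A C : ℤ} {x : Q π →ₗ[K] R π} (hx : x ∈ Hg π P A C) : DX π x ∈ Hg π P A (C - 1) := by
  intro w
  refine VQ735.pz_cast π (VQ735.D_pz π (hx w)) rfl rfl (by ring)

theorem tx_mem {P A C : ℤ} {x : Q π →ₗ[K] R π} (hx : x ∈ Hg π P A C) : tx π x ∈ Hg π P A (C - 1) := by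
  intro w
  rw [tx_apply]
  refine Submodule.sum_mem _ fun g _ => ?_
  have e1 := Hg_Qd π hx (MQ_Qd π g (wp_Qd (lp π) w))
  have e2 := VQ735.pz_mul π e1 (VQ735.yl_pz π g)
  refine VQ735.pz_cast π e2 (by ring) (by ring) ?_
  have : (VQ735.dg g : ℤ) = qd g := by cases g <;> rfl
  rw [this]; ring

theorem DX_add (x y : Q π →ₗ[K] R π) : DX π (x + y) = DX π x + DX π y := LinearMap.comp_add _ _ _
theorem tx_add (x y : Q π →ₗ[K] R π) : tx π (x + y) = tx π x + tx π y := by
  apply LinearMap.ext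
  intro v
  simp only [tx_apply, LinearMap.add_apply, add_mul, Finset.sum_add_distrib]
theorem xx (x : Q π →ₗ[K] R π) : x + x = 0 := by
  apply LinearMap.ext
  intro v
  exact Der580.add_self π _

theorem DX_DX (x : Q π →ₗ[K] R π) : DX π (DX π x) = 0 := by
  apply LinearMap.ext
  intro v
  rw [DX_apply, DX_apply, Der580.D_D]; rfl

theorem DX_tx (x : Q π →ₗ[K] R π) : DX π (tx π x) = tx π (DX π x) := by
  apply LinearMap.ext
  intro v
  rw [DX_apply, tx_apply, tx_apply, map_sum]
  refine Finset.sum_congr rfl fun g _ => ?_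
  rw [Der580.D_mul, VQ735.D_yl, mul_zero, add_zero, DX_apply]

theorem tx_tx (x : Q π →ₗ[K] R π) : tx π (tx π x) = 0 := by
  apply LinearMap.ext
  intro v
  have hz : ∀ g g', ¬ (g = .x ∧ g' = .x') → ¬ (g = .x' ∧ g' = .x) →
      ∀ r : R π, r * yl π g * yl π g' = 0 := fun g g' h h' r => by
    rw [mul_assoc, VQ735.yl_yl π g g' h h', mul_zero]
  rw [tx_apply]
  simp only [tx_apply, Finset.sum_mul]
  simp only [sumL]
  rw [hz .x .x (by simp) (by simp), hz .x .a (by simp) (by simp), hz .x .b (by simp) (by simp),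
    hz .a .x (by simp) (by simp), hz .a .a (by simp) (by simp), hz .a .x' (by simp) (by simp),
    hz .a .b (by simp) (by simp), hz .x' .a (by simp) (by simp), hz .x' .x' (by simp) (by simp),
    hz .x' .b (by simp) (by simp), hz .b .x (by simp) (by simp), hz .b .a (by simp) (by simp),
    hz .b .x' (by simp) (by simp), hz .b .b (by simp) (by simp)]
  simp only [zero_add, add_zero]
  have h5 : MQ π .x (MQ π .x' v) = π.p • MQ π .x' (MQ π .x v) := LinearMap.congr_fun (MQ_MQ π) v
  rw [h5, map_smul, mul_assoc, mul_assoc, VQ735.y10_yl, mul_smul_comm, smul_mul_assoc]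
  exact Der580.add_self π _

/-- the total differential squares to zero -/
theorem tot_tot (x : Q π →ₗ[K] R π) :
    DX π (DX π x + tx π x) + tx π (DX π x + tx π x) = 0 := by
  rw [DX_add, tx_add, DX_DX, tx_tx, DX_tx, add_zero, zero_add]
  apply LinearMap.ext
  intro v
  exact Der580.add_self π _

/-! ### restriction to words of a given length -/

/-- `x` on words of length `n` -/
def rs (n : ℕ) (x : Q π →ₗ[K] R π) : Q π →ₗ[K] R π := x ∘ₗ lenP (lp π) n

theorem rs_wp (n : ℕ) (x : Q π →ₗ[K] R π) (w : List Lt) :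
    rs π n x (wp (lp π) w) = if w.length = n then x (wp (lp π) w) else 0 := by
  show x (lenP (lp π) n (wp (lp π) w)) = _
  rw [lenP_wp]
  split_ifs
  · rfl
  · exact map_zero _

theorem rs_mem {P A C : ℤ} (n : ℕ) {x : Q π →ₗ[K] R π} (hx : x ∈ Hg π P A C) :
    rs π n x ∈ Hg π P A C := by
  intro w
  rw [rs_wp]
  split_ifs
  · exact hx w
  · exact Submodule.zero_mem _

theorem MQ_wp (g : Lt) (w : List Lt) : ∃ c : K, MQ π g (wp (lp π) w) = c • wp (lp π) (g :: w) := by
  obtain ⟨c, hc, e⟩ := wp_MQ π g w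
  exact ⟨c⁻¹, by rw [e, smul_smul, inv_mul_cancel₀ hc, one_smul]⟩

theorem tx_rs_succ (n : ℕ) (x : Q π →ₗ[K] R π) : tx π (rs π (n + 1) x) = rs π n (tx π x) := by
  apply ext_wp
  intro w
  rw [tx_apply, rs_wp, tx_apply]
  by_cases h : w.length = n
  · rw [if_pos h]
    refine Finset.sum_congr rfl fun g _ => ?_
    obtain ⟨c, e⟩ := MQ_wp π g w
    rw [e, map_smul, map_smul, rs_wp, if_pos (by simp [h])]
  · rw [if_neg h]
    refine Finset.sum_eq_zero fun g _ => ?_
    obtain ⟨c, e⟩ := MQ_wp π g w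
    rw [e, map_smul, rs_wp, if_neg (by simpa using h), smul_zero, zero_mul]

theorem tx_rs_zero (x : Q π →ₗ[K] R π) : tx π (rs π 0 x) = 0 := by
  apply ext_wp
  intro w
  rw [tx_apply]
  refine Finset.sum_eq_zero fun g _ => ?_
  obtain ⟨c, e⟩ := MQ_wp π g w
  rw [e, map_smul, rs_wp, if_neg (by simp), smul_zero, zero_mul]

theorem rs_one_pos (n : ℕ) (x : Q π →ₗ[K] R π) : rs π (n + 1) x 1 = 0 := by
  have := rs_wp π (n + 1) x []
  rw [wp_nil] at this
  rw [this, if_neg (by simp)]

theorem rs_one_zero (x : Q π →ₗ[K] R π) : rs π 0 x 1 = x 1 := by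
  have := rs_wp π 0 x []
  rw [wp_nil] at this
  rw [this, if_pos (by simp)]

theorem tot_aux {P A C : ℤ} (d : ℕ) : ∀ (n : ℕ) (x : Q π →ₗ[K] R π), C + 1 ≤ (n + d : ℕ) →
    x ∈ Hg π P A C → DX π x + tx π x = 0 → kill π (x 1) = 0 →
    (∀ w : List Lt, w.length < n → x (wp (lp π) w) = 0) →
    ∃ y ∈ Hg π P A (C + 1), kill π (y 1) = 0 ∧ x = DX π y + tx π y := by
  induction d with
  | zero =>
    intro n x hn hx _ _ hF
    have h0 : x = 0 := by
      apply ext_wp
      intro w
      by_cases hw : w.length < n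
      · exact hF w hw
      · have h1 := hx w
        have h2 := len_le w
        rw [VQ735.pz_neg π (by push_cast at hn; omega)] at h1
        exact h1
    refine ⟨0, Submodule.zero_mem _, by simp, ?_⟩
    rw [h0]
    apply LinearMap.ext
    intro v
    simp [DX_apply, tx_apply]
  | succ d ih =>
    intro n x hn hx hc h1 hF
    have ht : tx π (rs π n x) = 0 := by
      cases n with
      | zero => exact tx_rs_zero π x
      | succ m =>
        rw [tx_rs_succ]
        apply ext_wp
        intro w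
        rw [rs_wp]
        split_ifs with hw
        · have e := LinearMap.congr_fun hc (wp (lp π) w)
          rw [LinearMap.add_apply, DX_apply, hF w (by omega), map_zero, zero_add] at e
          exact e
        · rfl
    have hk : kill π (rs π n x 1) = 0 := by
      cases n with
      | zero => rw [rs_one_zero]; exact h1
      | succ m => rw [rs_one_pos, map_zero]
    obtain ⟨y0, hy0, -, hty⟩ := kos π (rs_mem π n hx) ht hk
    have hy1 : rs π (n + 1) y0 ∈ Hg π P A (C + 1) := rs_mem π _ hy0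
    have ht1 : tx π (rs π (n + 1) y0) = rs π n x := by
      rw [tx_rs_succ, hty]
      apply ext_wp
      intro w
      rw [rs_wp, rs_wp]
      split_ifs <;> rfl
    set y1 := rs π (n + 1) y0 with hy1d
    have hm : x + (DX π y1 + tx π y1) ∈ Hg π P A C := by
      refine Submodule.add_mem _ hx (Submodule.add_mem _ ?_ ?_)
      · exact Hg_cast π (DX_mem π hy1) rfl rfl (by ring)
      · exact Hg_cast π (tx_mem π hy1) rfl rfl (by ring)
    have hcl : DX π (x + (DX π y1 + tx π y1)) + tx π (x + (DX π y1 + tx π y1)) = 0 := by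
      rw [DX_add π x, tx_add π x, add_add_add_comm, hc, tot_tot, add_zero]
    have hk1 : kill π ((x + (DX π y1 + tx π y1)) 1) = 0 := by
      rw [ht1, LinearMap.add_apply, LinearMap.add_apply, DX_apply, hy1d, rs_one_pos, map_zero,
        zero_add, map_add, h1, hk, add_zero]
    have hF1 : ∀ w : List Lt, w.length < n + 1 → (x + (DX π y1 + tx π y1)) (wp (lp π) w) = 0 := by
      intro w hw
      rw [ht1, LinearMap.add_apply, LinearMap.add_apply, DX_apply, hy1d, rs_wp,
        if_neg (by omega), map_zero, zero_add, rs_wp]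
      split_ifs with h
      · exact Der580.add_self π _
      · rw [hF w (by omega), add_zero]
    obtain ⟨y', hy', hky', e'⟩ := ih (n + 1) _ (by push_cast at hn ⊢; omega) hm hcl hk1 hF1
    refine ⟨y1 + y', Submodule.add_mem _ hy1 hy', ?_, ?_⟩
    · rw [LinearMap.add_apply, map_add, hky', add_zero, hy1d, rs_one_pos, map_zero]
    · rw [DX_add, tx_add, add_add_add_comm, ← e', add_comm (DX π y1 + tx π y1), add_assoc, xx,
        add_zero]

/-- **C2a**: the kernel of the augmentation of the total Koszul complex is acyclic -/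
theorem tot {P A C : ℤ} {x : Q π →ₗ[K] R π} (hx : x ∈ Hg π P A C) (hc : DX π x + tx π x = 0)
    (h1 : kill π (x 1) = 0) :
    ∃ y ∈ Hg π P A (C + 1), kill π (y 1) = 0 ∧ x = DX π y + tx π y :=
  tot_aux π (C + 1).toNat 0 x (by push_cast; omega) hx hc h1 (fun w hw => by omega)

end Crest.Agent.R186.C2a667
end
end

-- ▼ part R186/C2h_667
section

/-!
# Row 186, half (A), leaf C2a (helper667), part 4: C2a in the basis `bq π` of `Q` (735's letters)

`HA` : the statement consumed by 354's `XC.HA` with `th b b' = cA π b b' (th π)`.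
-/

set_option autoImplicit false

noncomputable section

namespace Crest.Agent.R186.C2a667

open Crest.Agent.R186.DefsQ830
open Crest.Agent.R186.Win810 Crest.Agent.R186.C2q667
open Crest.Agent.R186.C2b44 (kill)
open Crest.Agent.R186.VQ735 (lp Q MQ yl sumL pz Bt bq bq_mem repr_ne coef coef_apply cA th md)
open Crest.Agent.R186.Loc261 (Lt li wp wp_nil ext_wp Qc)

variable {K : Type} [Field K] (π : Par K)

/-- the linear map with given values on the basis -/
def lin (k : Bt π → R π) : Q π →ₗ[K] R π := (bq π).constr K k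

theorem lin_bq (k : Bt π → R π) (b : Bt π) : lin π k (bq π b) = k b :=
  (bq π).constr_basis K k b

theorem lin_apply (k : Bt π → R π) (B : Finset (Bt π)) (hB : ∀ b, b ∉ B → k b = 0) (u : Q π) :
    lin π k u = ∑ b ∈ B, (bq π).repr u b • k b := by
  rw [lin, Module.Basis.constr_apply, Finsupp.sum]
  have e1 : ∑ b ∈ ((bq π).repr u).support, (bq π).repr u b • k b =
      ∑ b ∈ B ∪ ((bq π).repr u).support, (bq π).repr u b • k b := by
    refine Finset.sum_subset Finset.subset_union_right ?_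
    intro b _ hb
    rw [Finsupp.notMem_support_iff.1 hb, zero_smul]
  have e2 : ∑ b ∈ B, (bq π).repr u b • k b =
      ∑ b ∈ B ∪ ((bq π).repr u).support, (bq π).repr u b • k b := by
    refine Finset.sum_subset Finset.subset_union_left ?_
    intro b _ hb
    rw [hB b hb, smul_zero]
  rw [e1, e2]

theorem md_coe (w : List Lt) : md (w : Multiset Lt) = qs w := by
  induction w with
  | nil => rfl
  | cons g w ih =>
    rw [← Multiset.cons_coe, VQ735.md_cons, ih, qs_cons]
    cases g <;> rfl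

theorem Qc_Qd (m : Multiset Lt) : Qc (lp π) m ≤ Qd (lp π) (md m : ℤ) := by
  apply Loc261.Qc_le
  intro w hw
  have := wp_Qd (lp π) w
  rw [← md_coe, hw] at this
  exact this

theorem lin_mem {P A C : ℤ} (k : Bt π → R π) (hk : ∀ b, k b ∈ pz π P A (C - VQ735.qd b)) :
    lin π k ∈ Hg π P A C := by
  intro w
  rw [lin, Module.Basis.constr_apply, Finsupp.sum]
  refine Submodule.sum_mem _ fun b _ => ?_
  by_cases hb : b.1 = (w : Multiset Lt)
  · refine Submodule.smul_mem _ _ ?_
    have h := hk b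
    have e : VQ735.qd b = qs w := by
      unfold VQ735.qd; rw [hb, md_coe]
    rw [e] at h
    exact h
  · rw [repr_ne π (Loc261.wp_mem (lp π) w) hb, zero_smul]
    exact Submodule.zero_mem _

theorem tx_lin (k : Bt π → R π) (B : Finset (Bt π)) (hB : ∀ b, b ∉ B → k b = 0) (b' : Bt π) :
    tx π (lin π k) (bq π b') = ∑ b ∈ B, k b * cA π b b' (th π) := by
  rw [tx_apply]
  simp only [lin_apply π k B hB, Finset.sum_mul]
  rw [Finset.sum_comm]
  refine Finset.sum_congr rfl fun b _ => ?_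
  rw [VQ735.cA_th, Finset.mul_sum]
  refine Finset.sum_congr rfl fun g _ => ?_
  rw [coef_apply, smul_mul_assoc, mul_smul_comm]

theorem bq_zero {b : Bt π} (h : b.1 = 0) : ∃ c : K, bq π b = c • 1 := by
  have h1 := bq_mem π b
  rw [h] at h1
  have h2 : Qc (lp π) 0 ≤ Submodule.span K {(1 : Q π)} := by
    apply Loc261.Qc_le
    intro w hw
    have : w = [] := by simpa using hw
    subst this
    rw [wp_nil]
    exact Submodule.mem_span_singleton_self _
  obtain ⟨c, hc⟩ := Submodule.mem_span_singleton.1 (h2 h1)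
  exact ⟨c, hc.symm⟩

/-- **C2a in basis form** (354's `HA`) -/
theorem HA {P A C : ℤ} (B : Finset (Bt π)) (hB : ∀ b : Bt π, (VQ735.qd b : ℤ) ≤ C + 1 → b ∈ B)
    (k : Bt π → R π) (hk : ∀ b, k b ∈ pz π P A (C - VQ735.qd b))
    (hc : ∀ b', Der580.D π (k b') + ∑ b ∈ B, k b * cA π b b' (th π) = 0)
    (he : ∀ b : Bt π, b.1 = 0 → kill π (k b) = 0) :
    ∃ y : Bt π → R π, (∀ b, y b ∈ pz π P A (C + 1 - VQ735.qd b)) ∧
      (∀ b : Bt π, b.1 = 0 → kill π (y b) = 0) ∧
      ∀ b', k b' = Der580.D π (y b') + ∑ b ∈ B, y b * cA π b b' (th π) := by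
  have hkB : ∀ b, b ∉ B → k b = 0 := by
    intro b hb
    have h := hk b
    have h1 : ¬ ((VQ735.qd b : ℤ) ≤ C + 1) := fun h2 => hb (hB b h2)
    rw [VQ735.pz_neg π (by omega)] at h
    exact h
  have hcl : DX π (lin π k) + tx π (lin π k) = 0 := by
    refine (bq π).ext fun b' => ?_
    rw [LinearMap.add_apply, DX_apply, lin_bq, tx_lin π k B hkB, hc b']
    rfl
  have h1 : kill π (lin π k 1) = 0 := by
    rw [lin, Module.Basis.constr_apply, Finsupp.sum, map_sum]
    refine Finset.sum_eq_zero fun b _ => ?_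
    rw [map_smul]
    by_cases hb : b.1 = 0
    · rw [he b hb, smul_zero]
    · have h2 : (1 : Q π) ∈ Qc (lp π) 0 := Loc261.wp_mem (lp π) []
      rw [repr_ne π h2 hb, zero_smul]
  obtain ⟨y', hy', hy1, e⟩ := tot π (lin_mem π k hk) hcl h1
  have hm : ∀ b, y' (bq π b) ∈ pz π P A (C + 1 - VQ735.qd b) := fun b =>
    Hg_Qd π hy' (Qc_Qd π b.1 (bq_mem π b))
  have hyB : ∀ b, b ∉ B → y' (bq π b) = 0 := by
    intro b hb
    have h := hm b
    have h1 : ¬ ((VQ735.qd b : ℤ) ≤ C + 1) := fun h2 => hb (hB b h2)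
    rw [VQ735.pz_neg π (by omega)] at h
    exact h
  have hly : lin π (fun b => y' (bq π b)) = y' := by
    refine (bq π).ext fun b => ?_
    rw [lin_bq]
  refine ⟨fun b => y' (bq π b), hm, ?_, ?_⟩
  · intro b hb
    obtain ⟨c, hc⟩ := bq_zero π hb
    show kill π (y' (bq π b)) = 0
    rw [hc, map_smul, map_smul, hy1, smul_zero]
  · intro b'
    have e1 := LinearMap.congr_fun e (bq π b')
    rw [LinearMap.add_apply, lin_bq, DX_apply] at e1
    rw [e1]
    congr 1
    rw [← tx_lin π (fun b => y' (bq π b)) B hyB, hly]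

end Crest.Agent.R186.C2a667
end
end

-- ▼ part R186/C2f_354
section

/-!
# Row 186, half (A), leaf C2 final (helper354): `X''` resolves `V_{-1}` over `L''`, no hypotheses
-/

set_option autoImplicit false

noncomputable section

namespace Crest.Agent.R186.C2f354

open Crest.Agent.R186.DefsQ830 Crest.Agent.R186.Win810 Crest.Agent.R186.C2x354
open Crest.Agent.R186.VQ735 (Bt)

variable {K : Type} [Field K] (π : Par K)

/-- **C2a for the window of `R''`** -/
theorem hA : (XR π).HA := by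
  intro i j C B hB k hk hc he
  change Bt π → R π at k
  have hk' : ∀ b, k b ∈ VQ735.pz π (((i.1.val : ℕ) : ℤ) - ((j.1.val : ℕ) : ℤ))
      (((i.2.val : ℕ) : ℤ) - ((j.2.val : ℕ) : ℤ)) (C - VQ735.qd b) := fun b => by
    rw [pz_pcZ]
    exact hk b
  obtain ⟨y, h1, h2, h3⟩ := C2a667.HA π B hB k hk' hc (fun b hb => by
    have e := content_eq π hb
    rw [e]
    exact he)
  refine ⟨y, fun b => ?_, h2 _ rfl, h3⟩
  have h := h1 b
  rw [pz_pcZ] at h
  exact h

/-- `X''` over `L''`, graded form -/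
def gpre : C2p354.GPre (WR π) (VR π (-1)) := C2p354.gpreX π (hA π)

/-- **`X''` as a `Pre` over `L''`** -/
def pre : SemiFree515.Pre (WR π).dga (VR π (-1)).VM := C2p354.preX π (hA π)

end Crest.Agent.R186.C2f354
end
end

-- ▼ part R186/FDual_162
section

/-!
Row 186 (A) (helper162): duality of graded complexes over a field, elementary form.
A complex is a `K`-module `N` with pieces `gr : ℤ → Submodule K N`, projections `pr` and
`d : gr m → gr (m-1)`.
-/

set_option autoImplicit false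
set_option linter.style.haveILetI false

open MulOpposite

namespace Crest.Agent.R186.FDual162

universe u v

variable {K : Type u} [Field K] {N : Type v} [AddCommGroup N] [Module K N]

/-- functionals of degree `k`: they kill all pieces of degree `≠ -k` -/
def dgr (gr : ℤ → Submodule K N) (k : ℤ) : Submodule K (Module.Dual K N) where
  carrier := {f | ∀ j, j ≠ -k → ∀ x ∈ gr j, f x = 0}
  add_mem' := by
    intro f g hf hg j hj x hx
    rw [LinearMap.add_apply, hf j hj x hx, hg j hj x hx, add_zero]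
  zero_mem' := fun _ _ _ _ => rfl
  smul_mem' := by
    intro r f hf j hj x hx
    rw [LinearMap.smul_apply, hf j hj x hx, smul_zero]


/-- a family of projections onto the pieces -/
structure PrG (gr : ℤ → Submodule K N) where
  pr : ℤ → N →ₗ[K] N
  same : ∀ {k x}, x ∈ gr k → pr k x = x
  diff : ∀ {k l x}, x ∈ gr k → l ≠ k → pr l x = 0



variable {gr : ℤ → Submodule K N} {d : N →ₗ[K] N}

theorem dgr_comp (hd : ∀ k, ∀ x ∈ gr k, d x ∈ gr (k - 1)) {k : ℤ} {f : Module.Dual K N}
    (hf : f ∈ dgr gr k) : f ∘ₗ d ∈ dgr gr (k - 1) := by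
  intro j hj x hx
  exact hf (j - 1) (by omega) _ (hd j x hx)




/-! ### complexes -/

section gc

open Frame515

variable {K : Type} [Field K]

/-- the dual complex -/
def dual (X : GC K) : GC K where
  X := Module.Dual K X.X
  gr := dgr X.gr
  d := X.d.dualMap
  d_mem := fun hf => dgr_comp (fun _ _ hx => X.d_mem hx) hf
  d_d f := by
    refine LinearMap.ext fun x => ?_
    change f (X.d (X.d x)) = 0
    rw [X.d_d, map_zero]








/-! ### cones -/

/-- the cone -/
def cone {X Y : GC K} (φ : GCHom X Y) : GC K where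
  X := X.X × Y.X
  gr k := (X.gr (k - 1)).prod (Y.gr k)
  d := LinearMap.prod (-(X.d ∘ₗ LinearMap.fst K _ _))
    (φ.f ∘ₗ LinearMap.fst K _ _ + Y.d ∘ₗ LinearMap.snd K _ _)
  d_mem := by
    rintro k ⟨x, y⟩ ⟨hx, hy⟩
    exact ⟨Submodule.neg_mem _ (X.d_mem hx), Submodule.add_mem _ (φ.f_mem hx) (Y.d_mem hy)⟩
  d_d := by
    rintro ⟨x, y⟩
    refine Prod.ext ?_ ?_
    · change -(X.d (-(X.d x))) = 0
      rw [map_neg, X.d_d, neg_zero, neg_zero]
    · change φ.f (-(X.d x)) + Y.d (φ.f x + Y.d y) = 0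
      rw [map_neg, map_add, Y.d_d, φ.f_d, add_zero, neg_add_cancel]








/-- `(g, f) ↦ f - g` -/
def tw {X Y : GC K} (g : Module.Dual K Y.X) (f : Module.Dual K X.X) :
    Module.Dual K (X.X × Y.X) := f ∘ₗ LinearMap.fst K _ _ - g ∘ₗ LinearMap.snd K _ _







/-! ### dual modules -/

open Hat827 Hat827.DGA

variable {A : DGA K}

theorem LM.dbl (N : LM A) (x : N.X) : x + x = 0 := by
  have : x = (1 : A.C) • x := by rw [one_smul]
  rw [this, ← add_smul, A.two, zero_smul]

theorem RM.dbl (N : RM A) (x : N.X) : x + x = 0 := by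
  have : x = op (1 : A.C) • x := by rw [op_one, one_smul]
  rw [this, ← add_smul, ← op_add, A.two, op_zero, zero_smul]

/-- the `K`-dual of a left module -/
def dRM (N : LM A) : RM A where
  toGC := dual N.toGC
  act :=
    { smul := fun b f => (show Module.Dual K N.X from f) ∘ₗ lmul N b.unop
      one_smul := fun f => LinearMap.ext fun x => by
        change (show Module.Dual K N.X from f) ((1 : A.C) • x) = _
        rw [one_smul]
      mul_smul := fun b c f => LinearMap.ext fun x => by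
        change (show Module.Dual K N.X from f) ((c.unop * b.unop) • x) =
          (show Module.Dual K N.X from f) (c.unop • (b.unop • x))
        rw [mul_smul]
      smul_zero := fun b => LinearMap.ext fun x => rfl
      smul_add := fun b f g => LinearMap.ext fun x => rfl
      add_smul := fun b c f => LinearMap.ext fun x => by
        change (show Module.Dual K N.X from f) ((b.unop + c.unop) • x) =
          (show Module.Dual K N.X from f) (b.unop • x) + (show Module.Dual K N.X from f) (c.unop • x)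
        rw [add_smul, map_add]
      zero_smul := fun f => LinearMap.ext fun x => by
        change (show Module.Dual K N.X from f) ((0 : A.C) • x) = 0
        rw [zero_smul, map_zero] }
  tower := by
    letI : SMul A.Cᵐᵒᵖ (dual N.toGC).X :=
      ⟨fun b f => (show Module.Dual K N.X from f) ∘ₗ lmul N b.unop⟩
    refine ⟨fun r b f => LinearMap.ext fun x => ?_⟩
    change (show Module.Dual K N.X from f) ((r • b.unop) • x) =
      r • (show Module.Dual K N.X from f) (b.unop • x)
    rw [smul_assoc, map_smul]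
  smul_mem := by
    intro k l a f ha hf j hj x hx
    exact hf (k + j) (by omega) _ (N.smul_mem ha hx)
  leib a f := LinearMap.ext fun x => by
    change (show Module.Dual K N.X from f) (a • N.d x) =
      (show Module.Dual K N.X from f) (A.D a • x) +
        (show Module.Dual K N.X from f) (N.d (a • x))
    rw [← map_add, N.leib, ← add_assoc, LM.dbl, zero_add]








/-! ### the bidual -/








end gc

end Crest.Agent.R186.FDual162
end

-- ▼ part R186/C3T_667
section

/-!
# Row 186, half (A), leaf C3 at `m = -1` (helper667): the frame form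

`X''` over `L''` = window of `R''`, `DV` = right dual of `V_{-1}`: `DV ⊗ X''` has homology `K` in
degree `0` only.
-/

set_option autoImplicit false
set_option linter.style.haveILetI false

noncomputable section

namespace Crest.Agent.R186.C3T667

/-! ### linear algebra -/

section lin

variable {K ι V : Type} [Field K] [AddCommGroup V] [Module K V]
  {s : ι → ℕ} {F : ℕ → Finset ι} (hF : ∀ m σ, σ ∈ F m ↔ s σ ≤ m)
  {E : ι → V →ₗ[K] V} {C : ι → ι → V →ₗ[K] V}
  (EE : ∀ σ v, E σ (E σ v) = E σ v)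
  (EC : ∀ σ τ v, E σ (C σ τ v) = C σ τ v) (CE : ∀ σ τ v, C σ τ (E τ v) = C σ τ v)
  (C0 : ∀ σ τ, s σ ≠ s τ + 1 → C σ τ = 0)

include hF EE EC CE C0 in
/-- a chain of level `n` which kills all closed cochains is a boundary -/
theorem bdry (n : ℕ) (x : ι →₀ Module.Dual K V) (hx : ∀ σ, s σ ≠ n → x σ = 0)
    (hxE : ∀ σ v, x σ (E σ v) = x σ v)
    (hk : ∀ φ : ι → V, (∀ σ, E σ (φ σ) = φ σ) → (∀ σ, s σ ≠ n → φ σ = 0) →
      (∀ σ, s σ = n + 1 → ∑ τ ∈ F n, C σ τ (φ τ) = 0) → ∑ σ ∈ F n, x σ (φ σ) = 0) :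
    ∃ y : ι →₀ Module.Dual K V, (∀ σ, s σ ≠ n + 1 → y σ = 0) ∧ (∀ σ v, y σ (E σ v) = y σ v) ∧
      ∀ τ v, x τ v = ∑ σ ∈ F (n + 1), y σ (C σ τ v) := by
  classical
  let H : Submodule K (ι → V) :=
    { carrier := {φ | (∀ σ, E σ (φ σ) = φ σ) ∧ ∀ σ, s σ ≠ n → φ σ = 0}
      zero_mem' := ⟨fun σ => map_zero _, fun _ _ => rfl⟩
      add_mem' := fun {a b} ha hb => ⟨fun σ => by
        rw [Pi.add_apply, map_add, ha.1, hb.1], fun σ h => by
        rw [Pi.add_apply, ha.2 σ h, hb.2 σ h, add_zero]⟩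
      smul_mem' := fun r a ha => ⟨fun σ => by
        rw [Pi.smul_apply, map_smul, ha.1], fun σ h => by
        rw [Pi.smul_apply, ha.2 σ h, smul_zero]⟩ }
  let b : (ι → V) →ₗ[K] (ι → V) := LinearMap.pi fun σ =>
    if s σ = n + 1 then ∑ τ ∈ F n, (C σ τ).comp (LinearMap.proj τ) else 0
  have hb : ∀ φ σ, b φ σ = if s σ = n + 1 then ∑ τ ∈ F n, C σ τ (φ τ) else 0 := by
    intro φ σ
    show (if s σ = n + 1 then ∑ τ ∈ F n, (C σ τ).comp (LinearMap.proj τ) else 0 :
      (ι → V) →ₗ[K] V) φ = _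
    split_ifs
    · rw [LinearMap.sum_apply]; rfl
    · rfl
  let X : (ι → V) →ₗ[K] K := ∑ σ ∈ F n, (x σ).comp (LinearMap.proj σ)
  have hX : ∀ φ, X φ = ∑ σ ∈ F n, x σ (φ σ) := fun φ => by
    show (∑ σ ∈ F n, (x σ).comp (LinearMap.proj σ) : (ι → V) →ₗ[K] K) φ = _
    rw [LinearMap.sum_apply]; rfl
  have hker : X.comp H.subtype ∈ (LinearMap.ker (b.comp H.subtype)).dualAnnihilator := by
    rw [Submodule.mem_dualAnnihilator]
    intro φ hφ
    rw [LinearMap.mem_ker] at hφ
    show X φ.1 = 0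
    rw [hX]
    refine hk φ.1 φ.2.1 φ.2.2 fun σ hσ => ?_
    have h := congrFun (show b φ.1 = 0 from hφ) σ
    rw [hb, if_pos hσ] at h
    exact h
  rw [← LinearMap.range_dualMap_eq_dualAnnihilator_ker] at hker
  obtain ⟨Y, hY⟩ := hker
  have hY' : ∀ φ ∈ H, Y (b φ) = X φ := fun φ hφ => LinearMap.congr_fun hY (⟨φ, hφ⟩ : H)
  let y : ι →₀ Module.Dual K V := Finsupp.onFinset (F (n + 1))
    (fun σ => if s σ = n + 1 then (Y.comp (LinearMap.single K (fun _ : ι => V) σ)).comp (E σ) else 0)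
    (fun σ hσ => (hF _ _).2 (by
      by_contra hc
      exact hσ (if_neg (by omega))))
  have hy : ∀ σ v, y σ v = if s σ = n + 1 then Y (Pi.single σ (E σ v)) else 0 := by
    intro σ v
    show (if s σ = n + 1 then (Y.comp (LinearMap.single K (fun _ : ι => V) σ)).comp (E σ) else 0 :
      Module.Dual K V) v = _
    split_ifs <;> rfl
  refine ⟨y, fun σ hσ => ?_, fun σ v => ?_, fun τ v => ?_⟩
  · show (if s σ = n + 1 then _ else 0 : Module.Dual K V) = 0
    rw [if_neg hσ]
  · rw [hy, hy, EE]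
  · by_cases hτ : s τ = n
    · have hφ : (Pi.single τ (E τ v) : ι → V) ∈ H := by
        refine ⟨fun σ => ?_, fun σ hσ => ?_⟩
        · by_cases h : σ = τ
          · subst h; rw [Pi.single_eq_same, EE]
          · rw [Pi.single_eq_of_ne h, map_zero]
        · rw [Pi.single_eq_of_ne]
          rintro rfl
          exact hσ hτ
      have h1 := hY' _ hφ
      have h2 : X (Pi.single τ (E τ v)) = x τ v := by
        rw [hX, Finset.sum_eq_single τ]
        · rw [Pi.single_eq_same, hxE]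
        · intro σ _ hσ
          rw [Pi.single_eq_of_ne hσ, map_zero]
        · intro h
          exact absurd ((hF n τ).2 (by omega)) h
      have h3 : b (Pi.single τ (E τ v)) =
          ∑ σ ∈ F (n + 1), if s σ = n + 1 then Pi.single σ (C σ τ v) else 0 := by
        funext ρ
        rw [hb, Finset.sum_apply]
        by_cases hρ : s ρ = n + 1
        · rw [if_pos hρ, Finset.sum_eq_single τ, Finset.sum_eq_single ρ]
          · rw [if_pos hρ, Pi.single_eq_same, Pi.single_eq_same, CE]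
          · intro σ _ hσ
            split_ifs
            · rw [Pi.single_eq_of_ne (Ne.symm hσ)]
            · rfl
          · intro h
            exact absurd ((hF _ ρ).2 (by omega)) h
          · intro σ _ hσ
            rw [Pi.single_eq_of_ne hσ, map_zero]
          · intro h
            exact absurd ((hF n τ).2 (by omega)) h
        · rw [if_neg hρ]
          symm
          refine Finset.sum_eq_zero fun σ _ => ?_
          split_ifs with h
          · rw [Pi.single_eq_of_ne]
            rintro rfl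
            exact hρ h
          · rfl
      rw [← h2, ← h1, h3, map_sum]
      refine Finset.sum_congr rfl fun σ _ => ?_
      rw [hy]
      split_ifs
      · rw [EC]
      · exact map_zero _
    · rw [hx τ hτ, LinearMap.zero_apply]
      symm
      refine Finset.sum_eq_zero fun σ _ => ?_
      by_cases hσ : s σ = n + 1
      · rw [C0 σ τ (by omega), LinearMap.zero_apply, map_zero]
      · rw [hy, if_neg hσ]

/-- pairing of a closed chain with an exact cochain -/
theorem pair_exact {S T : Finset ι} (x : ι → Module.Dual K V)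
    (hd : ∀ τ v, ∑ σ ∈ S, x σ (C σ τ v) = 0) (ψ φ : ι → V)
    (hφ : ∀ σ ∈ S, x σ (φ σ) = x σ (∑ τ ∈ T, C σ τ (ψ τ))) : ∑ σ ∈ S, x σ (φ σ) = 0 := by
  rw [Finset.sum_congr rfl hφ]
  simp only [map_sum]
  rw [Finset.sum_comm]
  exact Finset.sum_eq_zero fun τ _ => hd τ (ψ τ)

end lin

/-! ### modules in degree zero, left cells -/

section frame

open MulOpposite
open Crest.Agent.R186.Hat827 Crest.Agent.R186.Hat827.DGA Crest.Agent.R186.Frame515
open Crest.Agent.R186.Res255 Crest.Agent.R186.FDual162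

variable {K : Type} [Field K] {A : DGA K} {V : Type} [AddCommGroup V] [Module K V]
  [Module A.C V] [IsScalarTower K A.C V]
  (hpos : ∀ k : ℤ, 0 < k → ∀ a ∈ A.G k, ∀ w : V, a • w = 0)
  (hD : ∀ (a : A.C) (w : V), A.D a • w = 0)

/-- the right dual of a module in degree zero -/
abbrev DV : RM A := dRM (honL A V hpos hD)

/-- an element of the dual as a functional -/
abbrev fn (f : (DV hpos hD).X) : Module.Dual K V := f

theorem dz {V : Type} [AddCommGroup V] [Module K V] (g : Module.Dual K V) : g (0 : V) = 0 :=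
  map_zero g

theorem DV_gr_zero (f : (DV hpos hD).X) : f ∈ (DV hpos hD).gr 0 := by
  intro j hj x hx
  have h : x = (0 : V) := mem_hon hpos hD (by omega) hx
  show fn hpos hD f (x : V) = 0
  rw [show (x : V) = 0 from h]
  exact dz (K := K) (V := V) f

theorem mem_of_zero {f : (DV hpos hD).X} (hf : f = 0) (k : ℤ) : f ∈ (DV hpos hD).gr k := by
  rw [hf]
  exact Submodule.zero_mem _

theorem DV_gr_ne {k : ℤ} (hk : k ≠ 0) {f : (DV hpos hD).X} (hf : f ∈ (DV hpos hD).gr k) : f = 0 := by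
  have key : ∀ v : V, v ∈ (if (0 : ℤ) = 0 then (⊤ : Submodule K V) else ⊥) := fun v => by
    rw [if_pos rfl]
    exact Submodule.mem_top
  exact LinearMap.ext fun v => hf 0 (by omega) v (key v)

variable (X : LCells A)

theorem tG_ne {k : ℤ} {x : X.ι →₀ (DV hpos hD).X} (hx : x ∈ (tG (DV hpos hD) X).gr k) (σ : X.ι)
    (hσ : (X.s σ : ℤ) ≠ k) : x σ = 0 :=
  DV_gr_ne hpos hD (k := k - X.s σ) (by omega) (hx σ).1

theorem tG_e {k : ℤ} {x : X.ι →₀ (DV hpos hD).X} (hx : x ∈ (tG (DV hpos hD) X).gr k) (σ : X.ι)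
    (v : V) : fn hpos hD (x σ) (X.e σ • v) = fn hpos hD (x σ) v :=
  LinearMap.congr_fun (show fn hpos hD (rmul (DV hpos hD) (X.e σ) (x σ)) = fn hpos hD (x σ) from
    (hx σ).2) v

theorem tG_d (x : X.ι →₀ (DV hpos hD).X) (S : Finset X.ι) (hS : x.support ⊆ S) (τ : X.ι) (v : V) :
    fn hpos hD ((show X.ι →₀ (DV hpos hD).X from (tG (DV hpos hD) X).d x) τ) v =
      ∑ σ ∈ S, fn hpos hD (x σ) (X.c σ τ • v) := by
  have h := (twG (DV hpos hD) X).dd_apply' x S hS τ
  have h2 := congrArg (fun f : (DV hpos hD).X => fn hpos hD f v) h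
  refine h2.trans ?_
  show fn hpos hD ((DV hpos hD).d (x τ) + ∑ σ ∈ S, rmul (DV hpos hD) (X.c σ τ) (x σ)) v = _
  have e1 : fn hpos hD ((DV hpos hD).d (x τ) + ∑ σ ∈ S, rmul (DV hpos hD) (X.c σ τ) (x σ)) v =
      fn hpos hD ((DV hpos hD).d (x τ)) v +
        (∑ σ ∈ S, (fn hpos hD (rmul (DV hpos hD) (X.c σ τ) (x σ)) : Module.Dual K V)) v := rfl
  rw [e1, LinearMap.sum_apply]
  have e2 : fn hpos hD ((DV hpos hD).d (x τ)) v = 0 := map_zero (fn hpos hD (x τ))
  rw [e2, zero_add]
  rfl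

theorem supp_F {n : ℕ} {x : X.ι →₀ (DV hpos hD).X} (hx : x ∈ (tG (DV hpos hD) X).gr n) :
    x.support ⊆ X.F n := by
  intro σ hσ
  rw [X.mem_F]
  by_contra hc
  exact Finsupp.mem_support_iff.1 hσ (tG_ne hpos hD X hx σ (by omega))

/-- closed chains -/
theorem closed {n : ℕ} {x : X.ι →₀ (DV hpos hD).X} (hx : x ∈ (tG (DV hpos hD) X).gr n)
    (hd : (tG (DV hpos hD) X).d x = 0) (τ : X.ι) (v : V) :
    ∑ σ ∈ X.F n, fn hpos hD (x σ) (X.c σ τ • v) = 0 := by
  rw [← tG_d hpos hD X x (X.F n) (supp_F hpos hD X hx) τ v, hd]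
  rfl

/-- **a chain of `DV ⊗ X` which kills all closed cochains of `Hom(X, V)` is a boundary** -/
theorem frame_bdry (n : ℕ) {x : X.ι →₀ (DV hpos hD).X} (hx : x ∈ (tG (DV hpos hD) X).gr n)
    (hk : ∀ φ : X.ι → V, (∀ σ, X.e σ • φ σ = φ σ) → (∀ σ, X.s σ ≠ n → φ σ = 0) →
      (∀ σ, X.s σ = n + 1 → ∑ τ ∈ X.F n, X.c σ τ • φ τ = 0) →
      ∑ σ ∈ X.F n, fn hpos hD (x σ) (φ σ) = 0) :
    ∃ y ∈ (tG (DV hpos hD) X).gr (n + 1), (tG (DV hpos hD) X).d y = x := by
  have C0 : ∀ σ τ, X.s σ ≠ X.s τ + 1 → lmul (honL A V hpos hD) (X.c σ τ) = 0 := by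
    intro σ τ h
    refine LinearMap.ext fun v => ?_
    show X.c σ τ • (v : V) = 0
    by_cases h1 : (0 : ℤ) < (X.s σ : ℤ) - X.s τ - 1
    · exact hpos _ h1 _ (X.c_mem σ τ) v
    · rw [neg (X.c_mem σ τ) (by omega), zero_smul]
  have key : ∃ y : X.ι →₀ (DV hpos hD).X, (∀ σ, X.s σ ≠ n + 1 → y σ = 0) ∧
      (∀ σ (v : V), fn hpos hD (y σ) (X.e σ • v) = fn hpos hD (y σ) v) ∧
      ∀ τ (v : V), fn hpos hD (x τ) v = ∑ σ ∈ X.F (n + 1), fn hpos hD (y σ) (X.c σ τ • v) :=
    bdry (K := K) (V := V) (s := X.s) (F := X.F) X.mem_F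
    (E := fun σ => lmul (honL A V hpos hD) (X.e σ))
    (C := fun σ τ => lmul (honL A V hpos hD) (X.c σ τ))
    (fun σ v => by
      show X.e σ • (X.e σ • v) = X.e σ • v
      rw [smul_smul, X.e_idem])
    (fun σ τ v => by
      show X.e σ • (X.c σ τ • v) = X.c σ τ • v
      rw [smul_smul, X.c_left])
    (fun σ τ v => by
      show X.c σ τ • (X.e τ • v) = X.c σ τ • v
      rw [smul_smul, X.c_right]) C0 n x
    (fun σ hσ => tG_ne hpos hD X hx σ (by exact_mod_cast hσ))
    (fun σ v => tG_e hpos hD X hx σ v) hk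
  obtain ⟨y, h1, h2, h3⟩ := key
  refine ⟨y, ?_, ?_⟩
  · intro σ
    refine ⟨?_, ?_⟩
    · by_cases hσ : X.s σ = n + 1
      · have e : ((n : ℤ) + 1) - (X.s σ : ℤ) = 0 := by omega
        show y σ ∈ (DV hpos hD).gr (((n : ℤ) + 1) - (X.s σ : ℤ))
        rw [e]
        exact DV_gr_zero hpos hD _
      · exact mem_of_zero hpos hD (h1 σ hσ) _
    · exact LinearMap.ext fun v => h2 σ v
  · have hs : y.support ⊆ X.F (n + 1) := by
      intro σ hσ
      rw [X.mem_F]
      by_contra hc
      exact Finsupp.mem_support_iff.1 hσ (h1 σ (by omega))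
    refine Finsupp.ext fun τ => LinearMap.ext fun v => ?_
    exact (tG_d hpos hD X y (X.F (n + 1)) hs τ v).trans (h3 τ v).symm

end frame

/-! ### the cells of `X''` over the window of `R''` -/

section conc

open Crest.Agent.R186.Hat827 Crest.Agent.R186.Frame515
open Crest.Agent.R186.Res255 Crest.Agent.R186.FDual162
open Crest.Agent.R186.DefsQ830 Crest.Agent.R186.Win810 Crest.Agent.R186.Win810.WD
open Crest.Agent.R186.C2x354 Crest.Agent.R186.C3m1 Crest.Agent.R186.VQ735
open Crest.Agent.R186.Cells221 Crest.Agent.R186.VOp220 Crest.Agent.R186.Vmod220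
open Crest.Agent.R186.C2p354

variable {K : Type} [Field K]

instance towC {w : WD K} (M : WMod w) : IsScalarTower K w.dga.C M.VM :=
  inferInstanceAs (IsScalarTower K w.Win M.VM)

variable (π : Par K)

theorem hposR (m : ℤ) : ∀ k : ℤ, 0 < k → ∀ a ∈ (WR π).dga.G k, ∀ v : (VR π m).VM, a • v = 0 := by
  intro k hk a ha v
  apply (VR π m).vext
  intro i
  change ∑ j, (VR π m).rho (a.1 i j) (v j).1 = 0
  exact Finset.sum_eq_zero fun j _ => (VR π m).act0 (ha i j) hk (v j).2

theorem hDR (m : ℤ) : ∀ (a : (WR π).dga.C) (v : (VR π m).VM), (WR π).dga.D a • v = 0 := by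
  intro a v
  apply (VR π m).vext
  intro i
  change ∑ j, (VR π m).rho (Der580.D π (a.1 i j)) (v j).1 = 0
  exact Finset.sum_eq_zero fun j _ => rep_D_zero π (a.1 i j) (v j).1

/-- `V_{-1}` as a left dg module over `L''` -/
def NV : LM (WR π).dga := honL (WR π).dga (VR π (-1)).VM (hposR π (-1)) (hDR π (-1))

/-- the right dual of `V_{-1}` -/
abbrev DVR : RM (WR π).dga := DV (hposR π (-1)) (hDR π (-1))

/-- the cells of `X''` -/
def XX : LCells (WR π).dga := lcPre (C2f354.pre π)

/-- **`X''` resolves `V_{-1}`** -/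
def lres : LRes (XX π) (NV π) := lresPre (hposR π (-1)) (hDR π (-1)) (C2f354.pre π)

/-- position of a cell -/
def ob (σ : Io π) : (WR π).Ob := oc σ.1

theorem W_eq (σ : Io π) : (VR π (-1)).W (ob π σ) = hom K (cP σ.1) := by
  show hom K (-1 + (((oc σ.1).1.val : ℕ) : ℤ)) = _
  rw [oc_fst]
  congr 1
  ring

/-- a cochain from graded values -/
def mk (φ : Io π → Pol K) (h : ∀ σ, φ σ ∈ hom K (cP σ.1)) (σ : Io π) : (VR π (-1)).VM :=
  (VR π (-1)).mkV (ob π σ) (φ σ) (by rw [W_eq]; exact h σ)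

theorem mk_apply (φ : Io π → Pol K) (h : ∀ σ, φ σ ∈ hom K (cP σ.1)) (σ : Io π) (i : (WR π).Ob) :
    (mk π φ h σ i).1 = if ob π σ = i then φ σ else 0 := rfl


/-- graded values of a cochain -/
def vl (φ : Io π → (VR π (-1)).VM) (σ : Io π) : Pol K := (φ σ (ob π σ)).1

theorem vl_mem (φ : Io π → (VR π (-1)).VM) (σ : Io π) : vl π φ σ ∈ hom K (cP σ.1) := by
  rw [← W_eq]
  exact (φ σ (ob π σ)).2

theorem mk_vl {φ : (XX π).ι → (VR π (-1)).VM} (he : ∀ σ, (XX π).e σ • φ σ = φ σ) (σ : Io π) :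
    mk π (vl π φ) (vl_mem π φ) σ = φ σ := by
  apply (VR π (-1)).vext
  intro i
  rw [mk_apply]
  split_ifs with h
  · subst h; rfl
  · exact (((VR π (-1)).e_smul_iff (ob π σ) (φ σ)).1 (he σ) i h).symm


theorem c_smul (σ τ : (XX π).ι) (u : (VR π (-1)).VM) (l : (WR π).Ob) :
    (((XX π).c σ τ • u : (VR π (-1)).VM) l).1 =
      if ob π σ = l then rep π (cI π σ τ) (u (ob π τ)).1 else 0 :=
  (C2f354.gpre π).cw_smul σ τ u l

/-- the differential of cochains -/
theorem sum_c (φ : Io π → Pol K) (h : ∀ σ, φ σ ∈ hom K (cP σ.1)) (T : Finset (Io π)) (σ : Io π)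
    (l : (WR π).Ob) :
    ((∑ τ ∈ T, ((XX π).c σ τ • mk π φ h τ : (VR π (-1)).VM) : (VR π (-1)).VM) l).1 =
      if ob π σ = l then ∑ τ ∈ T, rep π (cI π σ τ) (φ τ) else 0 := by
  refine (GPre.vsum_apply (M := VR π (-1)) T _ l).trans ?_
  have h1 : ∀ τ, ((((XX π).c σ τ • mk π φ h τ : (VR π (-1)).VM)) l).1 =
      if ob π σ = l then rep π (cI π σ τ) (φ τ) else 0 := fun τ => by
    refine (c_smul π σ τ (mk π φ h τ) l).trans ?_
    have h2 : (mk π φ h τ (ob π τ)).1 = φ τ := (mk_apply π φ h τ (ob π τ)).trans (if_pos rfl)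
    rw [h2]
  split_ifs with hl
  · exact Finset.sum_congr rfl fun τ _ => (h1 τ).trans (if_pos hl)
  · exact Finset.sum_eq_zero fun τ _ => (h1 τ).trans (if_neg hl)

/-- closed cochains in graded form -/
theorem vl_closed {n : ℕ} {φ : (XX π).ι → (VR π (-1)).VM} (he : ∀ σ, (XX π).e σ • φ σ = φ σ)
    {σ : (XX π).ι} (h : ∑ τ ∈ (XX π).F n, (XX π).c σ τ • φ τ = 0) :
    ∑ τ ∈ FI π n, rep π (cI π σ τ) (vl π φ τ) = 0 := by
  have h1 := sum_c π (vl π φ) (vl_mem π φ) (FI π n) σ (ob π σ)
  rw [if_pos rfl] at h1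
  rw [← h1]
  have h2 : (∑ τ ∈ FI π n, ((XX π).c σ τ • mk π (vl π φ) (vl_mem π φ) τ : (VR π (-1)).VM)) =
      ∑ τ ∈ (XX π).F n, (XX π).c σ τ • φ τ :=
    Finset.sum_congr rfl fun τ _ => by rw [mk_vl π he τ]
  rw [h2, h]
  rfl

/-- multiplication by an attaching element -/
def Cl (σ τ : (XX π).ι) : (VR π (-1)).VM →ₗ[K] (VR π (-1)).VM := lmul (NV π) ((XX π).c σ τ)


/-- **exactness of `DV ⊗ X''` in positive degrees** -/
theorem c3_pos (m : ℕ) {x : (tG (DVR π) (XX π)).X} (hx : x ∈ (tG (DVR π) (XX π)).gr ((m + 1 : ℕ) : ℤ))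
    (hd : (tG (DVR π) (XX π)).d x = 0) :
    ∃ y ∈ (tG (DVR π) (XX π)).gr (((m + 1 : ℕ) : ℤ) + 1), (tG (DVR π) (XX π)).d y = x := by
  refine frame_bdry (hposR π (-1)) (hDR π (-1)) (XX π) (m + 1) hx fun φ he hs hc => ?_
  obtain ⟨ψ, hψ, -, h3⟩ := exV_m1 π m (vl π φ) (vl_mem π φ)
    (fun σ hσ => by
      show (φ σ (ob π σ)).1 = 0
      rw [hs σ hσ]; rfl)
    (fun σ hσ => vl_closed π he (hc σ hσ))
  refine pair_exact (K := K) (V := (VR π (-1)).VM)
    (C := Cl π) (S := (XX π).F (m + 1)) (T := (XX π).F m)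
    (fun σ => fn (hposR π (-1)) (hDR π (-1)) (x σ))
    (fun τ v => closed (hposR π (-1)) (hDR π (-1)) (XX π) hx hd τ v) (mk π ψ hψ) φ ?_
  intro σ hσ
  by_cases hσn : (XX π).s σ = m + 1
  · congr 1
    show φ σ = ∑ τ ∈ (XX π).F m, (XX π).c σ τ • mk π ψ hψ τ
    rw [← mk_vl π he σ]
    apply (VR π (-1)).vext
    intro l
    refine (mk_apply π (vl π φ) (vl_mem π φ) σ l).trans ?_
    refine Eq.trans ?_ (sum_c π ψ hψ (FI π m) σ l).symm
    rw [h3 σ hσn]
  · have h0 : x σ = 0 := tG_ne (hposR π (-1)) (hDR π (-1)) (XX π) hx σ (by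
      intro h; exact hσn (by exact_mod_cast h))
    show fn (hposR π (-1)) (hDR π (-1)) (x σ) _ = fn (hposR π (-1)) (hDR π (-1)) (x σ) _
    rw [h0]
    rfl

theorem gr_neg' {k : ℤ} (hk : k < 0) {x : (tG (DVR π) (XX π)).X}
    (hx : x ∈ (tG (DVR π) (XX π)).gr k) : x = 0 :=
  Finsupp.ext fun σ => tG_ne (hposR π (-1)) (hDR π (-1)) (XX π) hx σ (by omega)









/-- **`DV ⊗ X''` is exact in degrees `≠ 0`** -/
theorem c3_ex (k : ℤ) (hk : k ≠ 0) {x : (tG (DVR π) (XX π)).X} (hx : x ∈ (tG (DVR π) (XX π)).gr k)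
    (hd : (tG (DVR π) (XX π)).d x = 0) :
    ∃ y ∈ (tG (DVR π) (XX π)).gr (k + 1), (tG (DVR π) (XX π)).d y = x := by
  rcases lt_trichotomy k 0 with h | h | h
  · rw [gr_neg' π h hx]
    exact ⟨0, Submodule.zero_mem _, map_zero _⟩
  · exact absurd h hk
  · obtain ⟨m, rfl⟩ : ∃ m : ℕ, k = ((m + 1 : ℕ) : ℤ) := ⟨(k - 1).toNat, by omega⟩
    exact c3_pos π m hx hd

end conc

end Crest.Agent.R186.C3T667
end
end

-- ▼ part R186/Glue2_255
section

/-!
Row 186 (A), helper255: 162's right dual `dRM` and 988's right dual `DR` give the same complexes.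
-/

set_option autoImplicit false
set_option linter.style.haveILetI false
set_option linter.unusedSectionVars false

open MulOpposite

namespace Crest.Agent.R186.Glue255

open Hat827 Hat827.DGA Frame515 Res255 SemiFree515 FinV988

variable {K : Type} [Field K] {A B : DGA K}

theorem dRM_gr (N : LM A) (k : ℤ) (f : N.X →ₗ[K] K) :
    (show (FDual162.dRM N).X from f) ∈ (FDual162.dRM N).gr k ↔
      (show (DR N).X from f) ∈ (DR N).gr k :=
  ⟨fun h l z hz hl => h l hl z hz, fun h l hl z hz => h l z hz hl⟩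

theorem tG_dRM_gr (N : LM A) (X : LCells A) (k : ℤ) (x : X.ι →₀ (N.X →ₗ[K] K)) :
    (show (tG (FDual162.dRM N) X).X from x) ∈ (tG (FDual162.dRM N) X).gr k ↔
      (show (tG (DR N) X).X from x) ∈ (tG (DR N) X).gr k := by
  constructor
  · intro h σ
    exact ⟨(dRM_gr N _ (x σ)).1 (h σ).1, (h σ).2⟩
  · intro h σ
    exact ⟨(dRM_gr N _ (x σ)).2 (h σ).1, (h σ).2⟩


theorem exAt_dRM (N : LM A) (X : LCells A) (k : ℤ) :
    ExAt (tG (FDual162.dRM N) X) k ↔ ExAt (tG (DR N) X) k := by
  constructor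
  · intro h x hx hd
    obtain ⟨y, hy, hyd⟩ := h x ((tG_dRM_gr N X k x).2 hx) hd
    exact ⟨y, (tG_dRM_gr N X (k + 1) y).1 hy, hyd⟩
  · intro h x hx hd
    obtain ⟨y, hy, hyd⟩ := h x ((tG_dRM_gr N X k x).1 hx) hd
    exact ⟨y, (tG_dRM_gr N X (k + 1) y).2 hy, hyd⟩

end Crest.Agent.R186.Glue255
end

-- ▼ part R186/EndP_448
section

/-!
Row 186, half (A), integration (helper448): (V) on the concrete objects from the acyclicity of
`(Y ⊗ M) ⊗ X`.
-/

set_option autoImplicit false
set_option linter.style.haveILetI false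
set_option linter.unusedSectionVars false

noncomputable section

open MulOpposite

namespace Crest.Agent.R186.EndP448

open Hat827 Win810 Frame515 Res255 DefsQ830 SM890 KH186 FinD384 ConeHyp462 Adapt186
open FinV988 SemiFree515 EndA448 EndV448 FinD988 EndB448 TB143

variable {K : Type} [Field K] (π : Par K) (s : ℕ) (hs : 5 ≤ s)

/-- `Γ = L'' ⊕ M` -/
def extG : VJ153.Ext (Gam π s hs) (WR π).dga where
  inl := inlH (bdM π s (KHc302.two_le hs))
  fst := HmP π s (KHc302.two_le hs)
  fst_inl b := fstH_inlH (bdM π s (KHc302.two_le hs)) b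
  M := resBR (HmP π s (KHc302.two_le hs)) (MW π s (KHc302.two_le hs))
  j := inrW (bdM π s (KHc302.two_le hs))
  j_mem h := inrW_mem (bdM π s (KHc302.two_le hs)) h
  j_d m := inrW_d (bdM π s (KHc302.two_le hs)) m
  j_l b m := (inlH_mul_inrW (bdM π s (KHc302.two_le hs)) b m).symm
  j_r a m := (inrW_mul (bdM π s (KHc302.two_le hs)) m a).symm
  j_inj {k m} _ h := inrW_inj (bdM π s (KHc302.two_le hs)) (h.trans (map_zero _).symm)
  j_ex h h' := inrW_ex (bdM π s (KHc302.two_le hs)) h h'
  fst_j _ := rfl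

/-- `X''` resolves `V` -/
def R2 : LRes (C3T667.XX π) (V2 π) := C3T667.lres π

/-- (C3, m = -1) -/
theorem c3 (k : ℤ) (hk : k ≠ 0) : Z (tG (DR (V2 π)) (C3T667.XX π)) k := by
  have h : ExAt (tG (FDual162.dRM (V2 π)) (C3T667.XX π)) k := fun x hx hd => C3T667.c3_ex π k hk hx hd
  exact (Glue255.exAt_dRM (V2 π) (C3T667.XX π) k).1 h

/-- **(V)** from `hM` -/
theorem PV_of {Y : RCells (WR π).dga} (RY : RRes Y (DR (V2 π)))
    (hM : Ac (tG (tQ Y (extG π s hs).M) (XL π s hs))) : PV π s hs := by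
  intro k hk
  have h := VJ153.eqv_main (extG π s hs) RY (X := XL π s hs) (RX π s hs) (R2 π) hM k k (by
    change k = (0 : ℤ) - 0 + k
    ring)
  exact h.1.2 (c3 π k (by omega))

end Crest.Agent.R186.EndP448
end
end

-- ▼ part R186/KVr_186
section

/-!
Row 186 (A), leaf A.KH (helper186): `KHc186.kres` over helper302's `KHc302.CEr π s hs` (the official
concrete closing data over `Γ = (bdM π s _).ext`).
-/

set_option autoImplicit false
set_option linter.style.haveILetI false

noncomputable section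

namespace Crest.Agent.R186.KHc186

open Crest.Agent.R186.DefsQ830 Crest.Agent.R186.PBW128 Crest.Agent.R186.Der580
open Crest.Agent.R186.Win810 Crest.Agent.R186.C2b44 Crest.Agent.R186.Cells221
open Crest.Agent.R186.VOp220 Crest.Agent.R186.Vmod220 Crest.Agent.R186.WL221
open Crest.Agent.R186.SM890 Crest.Agent.R186.KH186

variable {K : Type} [Field K] (π : Par K) (s : ℕ) (hs : 5 ≤ s)


/-- **the sixteen cells resolve `V_{-1}`, over `Γ`**, for `KHc302.CEr` -/
def kresC : KRes (KHc302.CEr π s hs) (VX π s hs (hr π) (-1)) where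
  rB := (hr π).rho.comp (RL π).val
  rB_p := (kres π s hs).rB_p
  rB_pos := (kres π s hs).rB_pos
  rB_D := (kres π s hs).rB_D
  rB_mem := (kres π s hs).rB_mem
  v := (kres π s hs).v
  v_mem := (kres π s hs).v_mem
  v_zero := (kres π s hs).v_zero
  v_aug := (kres π s hs).v_aug
  exR := (kres π s hs).exR
  exR0 := (kres π s hs).exR0
  gen := (kres π s hs).gen

end Crest.Agent.R186.KHc186
end
end

-- ▼ part R186/KXc_186
section

/-!
Row 186 (A), leaf A.KX (helper186): 378's `Aug` for the concrete `E := KHc302.CEr π s hs` and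
`X := pcells N h0 Xp hT`, `N = resL (HmP π s _) (honL (WR π).dga (VR π (-1)).VM hpos hD)`.
-/

set_option autoImplicit false
set_option linter.style.haveILetI false

noncomputable section

namespace Crest.Agent.R186.KHc186

open Crest.Agent.R186.DefsQ830 Crest.Agent.R186.PBW128 Crest.Agent.R186.Der580
open Crest.Agent.R186.Win810 Crest.Agent.R186.C2b44 Crest.Agent.R186.Cells221
open Crest.Agent.R186.VOp220 Crest.Agent.R186.Vmod220 Crest.Agent.R186.WL221
open Crest.Agent.R186.SM890 Crest.Agent.R186.KH186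
open Frame515 Res255 FinV988

variable {K : Type} [Field K] (π : Par K) (s : ℕ) (hs : 5 ≤ s)

/-! ### endomorphisms -/

theorem hW_mem (i : Fin 2) {b b' : Fin 4} (h : b' ≤ b) : VEnd701.hW π i h ∈ (WR π).G 0 := by
  refine WD.ws_mem_G' (w := WR π) ?_ _
  change (X π .h) ^ (b.val - b'.val) ∈ pcZ π ((i.val : ℤ) - (i.val : ℤ))
    ((b.val : ℤ) - (b'.val : ℤ)) 0
  have := VEnd701.h_pow_mem π (b.val - b'.val)
  rw [sub_self]
  rwa [Nat.cast_sub (by exact_mod_cast h)] at this

/-- endomorphisms of `V_{-1}` commuting with degree zero are scalars -/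
theorem end_scalar0 (f : (VR π (-1)).VM →ₗ[K] (VR π (-1)).VM)
    (hf : ∀ a ∈ (WR π).G 0, ∀ v : (VR π (-1)).VM, f (a • v) = a • f v) :
    ∃ r : K, ∀ v, f v = r • v := by
  refine ⟨VEnd701.co 0 (f (VEnd701.u π 0)), fun v => ?_⟩
  have hu : ∀ b : Fin 4, f (VEnd701.u π b) = VEnd701.co 0 (f (VEnd701.u π 0)) • VEnd701.u π b := by
    intro b
    have hb : (0 : Fin 4) ≤ b := Fin.zero_le b
    conv_lhs => rw [← VEnd701.hW_u (π := π) hb, hf _ (hW_mem π 1 hb), VEnd701.hW_smul hb]
  conv_lhs => rw [VEnd701.eq_sum v]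
  conv_rhs => rw [VEnd701.eq_sum v]
  rw [map_sum, Finset.smul_sum]
  refine Finset.sum_congr rfl fun b _ => ?_
  rw [map_smul, hu, smul_comm]

/-! ### `V_{-1}` over `Γ` -/

variable (hpos : ∀ k : ℤ, 0 < k → ∀ a ∈ (WR π).dga.G k, ∀ w : (VR π (-1)).VM,
    (show (WR π).Win from a) • w = 0)
  (hD : ∀ (a : (WR π).dga.C) (w : (VR π (-1)).VM),
    (show (WR π).Win from (WR π).dga.D a) • w = 0)

/-- `V_{-1}` over `L''` -/
abbrev NL : LM (WR π).dga := honL (WR π).dga (VR π (-1)).VM hpos hD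

/-- `V_{-1}` over `Γ` -/
abbrev NG : LM (Gm π s (KHc302.two_le hs)) := resL (HmP π s (KHc302.two_le hs)) (NL π hpos hD)


/-- **378's input** -/
def augX (h0 : Deg0 (NG π s hs hpos hD)) [Module.Finite K (NG π s hs hpos hD).X]
    [Nontrivial (NG π s hs hpos hD).X]
    (Xp : SemiFree515.Pre (Gm π s (KHc302.two_le hs)) (NG π s hs hpos hD).X)
    (hT : ∀ k : ℤ, 1 ≤ k → ExAt (tG (DR (NG π s hs hpos hD)) (lpre Xp)) k) :
    KX378.Aug (KHc302.CEr π s hs).toIn (pcells (NG π s hs hpos hD) h0 Xp hT) where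
  a := (kresC π s hs).aug
  a_L g _ y _ := (kresC π s hs).aug_L g y
  a_ne k hk y hy := (kresC π s hs).aug_deg hk hy
  a_d y _ := (kresC π s hs).aug_d y
  onto w := (kresC π s hs).aug_surj w
  ex n _ y hy hd h := (kresC π s hs).aug_ex hy hd h
  endV f hf := by
    refine end_scalar0 π f fun a ha v => ?_
    have h := hf ((HmI π s (KHc302.two_le hs)).f a) ((HmI π s (KHc302.two_le hs)).mem ha) v
    exact h

end Crest.Agent.R186.KHc186
end
end

-- ▼ part R186/EndF_448

/-!
Row 186, half (A), integration (helper448): the last file.  Three open literals: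
`HM` (for the rigidity), `PH` and `HD`, on the concrete objects, give the null pair.
-/

set_option autoImplicit false
set_option linter.style.haveILetI false
set_option linter.unusedSectionVars false

noncomputable section

open MulOpposite

namespace Crest.Agent.R186.EndF448

open Hat827 Win810 Frame515 Res255 DefsQ830 SM890 KH186 FinD384 ConeHyp462 Adapt186
open FinV988 SemiFree515 EndA448 EndV448 FinD988 EndB448 EndP448 TB143

variable {K : Type} [Field K] (π : Par K) (s : ℕ) (hs : 5 ≤ s)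

/-- right cells of `D V` over `L''` -/
theorem exists_Y : ∃ (Y : RCells (WR π).dga) (R : RRes Y (DR (V2 π))), R.lo = 0 ∧
    ∀ σ, Y.e σ = 1 := by
  have hfin : ∀ k, Module.Finite K ((V2 π).gr k) := fun k => inferInstance
  obtain ⟨Y, R, h1, h2⟩ := Core890.exists_resDR (deg0_V2 π).prl hfin
  exact ⟨Y, R, h1.trans (by change -(0 : ℤ) = 0; ring), h2⟩

/-- the open literal of (V) -/
def HM : Prop := ∀ (Y : RCells (WR π).dga) (R : RRes Y (DR (V2 π))), R.lo = 0 →
  (∀ σ, Y.e σ = 1) → Ac (tG (tQ Y (extG π s hs).M) (XL π s hs))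

variable {π s hs}

theorem PV_of_HM (h : HM π s hs) : PV π s hs := by
  obtain ⟨Y, R, h1, h2⟩ := exists_Y π
  exact PV_of π s hs R (h Y R h1 h2)

/-- 186's augmentation -/
def UG (hV : PV π s hs) : KX378.Aug (IG π s hs) (PG hV) :=
  haveI : Module.Finite K (KHc186.NG π s hs (v_pos π (-1)) (v_D π (-1))).X := finVG π s hs
  haveI : Nontrivial (KHc186.NG π s hs (v_pos π (-1)) (v_D π (-1))).X := ntVG π s hs
  KHc186.augX π s hs (v_pos π (-1)) (v_D π (-1)) (deg0_VG π s hs) (XG π s hs) hV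

/-- the open literal of (D) -/
def HD (hV : PV π s hs) : Prop :=
  ∀ (kt : (PG hV).ι → (IG π s hs).Y) (hk : ∀ σ, kt σ ∈ (IG π s hs).gr.G ((PG hV).s σ))
    (hd : KtD (IG π s hs) (PG hV) kt), (∀ σ, (IG π s hs).L ((PG hV).e σ) (kt σ) = kt σ) →
    (∀ σ, (UG hV).a (kt σ) = (PG hV).v σ) → QI (gD (IG π s hs) (PG hV) kt hk hd)

/-- **the null pair from the three open literals** -/
theorem null_F (hM : HM π s hs) (hH : PH π s hs) (hD : ∀ hV : PV π s hs, HD hV) :
    Nonempty (Spine700.Null.{0, 0} K) :=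
  null_B hH (PV_of_HM hM) (UG (PV_of_HM hM)) (hD (PV_of_HM hM))




end Crest.Agent.R186.EndF448
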