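import Crest.Agent.R186.Frame_515

-- ▼ part R186/TB_143
section

/-!
Row 186 (helper143): quasi-isomorphism calculus for graded complexes (515's `GC`).
-/

set_option autoImplicit false
set_option linter.style.haveILetI false
set_option linter.unusedSectionVars false

namespace Crest.Agent.R186.TB143

open Frame515

variable {K : Type} [Field K]

/-- exactness in degree `k` -/
def Z (X : GC K) (k : ℤ) : Prop := ∀ x ∈ X.gr k, X.d x = 0 → ∃ y ∈ X.gr (k + 1), X.d y = x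

theorem ac_iff {X : GC K} : Ac X ↔ ∀ k, Z X k := Iff.rfl

theorem gr_cast {X : GC K} {k l : ℤ} {x : X.X} (h : x ∈ X.gr k) (e : k = l) : x ∈ X.gr l := e ▸ h

/-- surjectivity on classes in degree `k` -/
def QS {X Y : GC K} (f : GCHom X Y) (k : ℤ) : Prop := ∀ y ∈ Y.gr k, Y.d y = 0 →
    ∃ x ∈ X.gr k, X.d x = 0 ∧ ∃ z ∈ Y.gr (k + 1), y = f.f x + Y.d z

/-- injectivity on classes in degree `k` -/
def QJ {X Y : GC K} (f : GCHom X Y) (k : ℤ) : Prop := ∀ x ∈ X.gr k, X.d x = 0 →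
    (∃ z ∈ Y.gr (k + 1), f.f x = Y.d z) → ∃ w ∈ X.gr (k + 1), x = X.d w


section comp

variable {X Y W : GC K}

/-- the identity -/
def idh (X : GC K) : GCHom X X := ⟨LinearMap.id, fun h => h, fun _ => rfl⟩

/-- composition -/
def comp (g : GCHom Y W) (f : GCHom X Y) : GCHom X W :=
  ⟨g.f ∘ₗ f.f, fun h => g.f_mem (f.f_mem h), fun x => by
    rw [LinearMap.comp_apply, LinearMap.comp_apply, f.f_d, g.f_d]⟩

theorem QI.id : QI (idh X) :=
  ⟨fun _ y hy h => ⟨y, hy, h, 0, Submodule.zero_mem _, by simp [idh]⟩,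
    fun _ _ _ _ ⟨z, hz, e⟩ => ⟨z, hz, e⟩⟩

/-- a bijection on homogeneous elements -/
theorem QI.of_bij {f : GCHom X Y} (h1 : ∀ k, ∀ x ∈ X.gr k, f.f x = 0 → x = 0)
    (h2 : ∀ k, ∀ y ∈ Y.gr k, ∃ x ∈ X.gr k, f.f x = y) : QI f := by
  refine ⟨fun k y hy hd => ?_, fun k x hx hd ⟨z, hz, e⟩ => ?_⟩
  · obtain ⟨x, hx, rfl⟩ := h2 k y hy
    refine ⟨x, hx, ?_, 0, Submodule.zero_mem _, by simp⟩
    refine h1 _ _ (X.d_mem hx) ?_
    rw [f.f_d, hd]
  · obtain ⟨w, hw, rfl⟩ := h2 _ z hz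
    refine ⟨w, hw, ?_⟩
    have h3 : X.d w ∈ X.gr k := gr_cast (X.d_mem hw) (by ring)
    have := h1 k (x - X.d w) (Submodule.sub_mem _ hx h3) (by rw [map_sub, e, f.f_d, sub_self])
    exact sub_eq_zero.1 this

theorem QI.z_right {f : GCHom X Y} {k : ℤ} (h : QS f k) (hX : Z X k) : Z Y k := by
  intro y hy hd
  obtain ⟨x, hx, hdx, z, hz, rfl⟩ := h y hy hd
  obtain ⟨w, hw, rfl⟩ := hX x hx hdx
  exact ⟨f.f w + z, Submodule.add_mem _ (f.f_mem hw) hz, by rw [map_add, f.f_d]⟩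

theorem QI.z_left {f : GCHom X Y} {k : ℤ} (h : QJ f k) (hY : Z Y k) : Z X k := by
  intro x hx hd
  obtain ⟨z, hz, e⟩ := hY (f.f x) (f.f_mem hx) (by rw [← f.f_d, hd, map_zero])
  obtain ⟨w, hw, e'⟩ := h x hx hd ⟨z, hz, e.symm⟩
  exact ⟨w, hw, e'.symm⟩

theorem QI.z_iff {f : GCHom X Y} (h : QI f) (k : ℤ) : Z X k ↔ Z Y k :=
  ⟨QI.z_right (h.surj k), QI.z_left (h.inj k)⟩

theorem QI.ac {f : GCHom X Y} (h : QI f) : Ac X ↔ Ac Y :=
  ⟨fun hX k => (QI.z_iff h k).1 (hX k), fun hY k => (QI.z_iff h k).2 (hY k)⟩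

theorem QI.comp {g : GCHom Y W} {f : GCHom X Y} (hg : QI g) (hf : QI f) :
    QI (TB143.comp g f) := by
  refine ⟨fun k w hw hd => ?_, fun k x hx hd ⟨z, hz, e⟩ => ?_⟩
  · obtain ⟨y, hy, hdy, z, hz, rfl⟩ := hg.surj k w hw hd
    obtain ⟨x, hx, hdx, z', hz', rfl⟩ := hf.surj k y hy hdy
    refine ⟨x, hx, hdx, g.f z' + z, Submodule.add_mem _ (g.f_mem hz') hz, ?_⟩
    rw [map_add, map_add, g.f_d]
    exact add_assoc _ _ _
  · obtain ⟨y, hy, e'⟩ := hg.inj k (f.f x) (f.f_mem hx) (by rw [← f.f_d, hd, map_zero]) ⟨z, hz, e⟩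
    exact hf.inj k x hx hd ⟨y, hy, e'⟩

/-- 2-out-of-3: `g`, `g f` ⇒ `f` -/
theorem QI.of_comp_left {g : GCHom Y W} {f : GCHom X Y} (hg : QI g)
    (h : QI (TB143.comp g f)) : QI f := by
  refine ⟨fun k y hy hd => ?_, fun k x hx hd ⟨z, hz, e⟩ => ?_⟩
  · obtain ⟨x, hx, hdx, z, hz, e⟩ := h.surj k (g.f y) (g.f_mem hy) (by rw [← g.f_d, hd, map_zero])
    have e1 : g.f (y - f.f x) = W.d z := by
      rw [map_sub, e]
      show g.f (f.f x) + W.d z - g.f (f.f x) = _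
      abel
    obtain ⟨w, hw, e'⟩ := hg.inj k (y - f.f x) (Submodule.sub_mem _ hy (f.f_mem hx))
      (by rw [map_sub, hd, ← f.f_d, hdx, map_zero, sub_zero]) ⟨z, hz, e1⟩
    exact ⟨x, hx, hdx, w, hw, by rw [← e']; abel⟩
  · exact h.inj k x hx hd ⟨g.f z, g.f_mem hz, by
      show g.f (f.f x) = _
      rw [e, g.f_d]⟩

/-- 2-out-of-3: `f`, `g f` ⇒ `g` -/
theorem QI.of_comp_right {g : GCHom Y W} {f : GCHom X Y} (hf : QI f)
    (h : QI (TB143.comp g f)) : QI g := by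
  refine ⟨fun k w hw hd => ?_, fun k y hy hd ⟨z, hz, e⟩ => ?_⟩
  · obtain ⟨x, hx, hdx, z, hz, e⟩ := h.surj k w hw hd
    exact ⟨f.f x, f.f_mem hx, by rw [← f.f_d, hdx, map_zero], z, hz, e⟩
  · obtain ⟨x, hx, hdx, z', hz', rfl⟩ := hf.surj k y hy hd
    obtain ⟨w, hw, e'⟩ := h.inj k x hx hdx ⟨z - g.f z',
      Submodule.sub_mem _ hz (g.f_mem hz'), by
        show g.f (f.f x) = _
        rw [map_sub, ← e, map_add, g.f_d]; abel⟩
    exact ⟨f.f w + z', Submodule.add_mem _ (f.f_mem hw) hz', by rw [map_add, ← f.f_d, ← e']⟩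




end comp

/-! ### short exact sequences -/

/-- a short exact sequence on homogeneous elements -/
structure SES (X Y W : GC K) where
  i : GCHom X Y
  p : GCHom Y W
  zero : ∀ {k : ℤ} {x : X.X}, x ∈ X.gr k → p.f (i.f x) = 0
  inj : ∀ {k : ℤ} {x : X.X}, x ∈ X.gr k → i.f x = 0 → x = 0
  ex : ∀ {k : ℤ} {y : Y.X}, y ∈ Y.gr k → p.f y = 0 → ∃ x ∈ X.gr k, i.f x = y
  sur : ∀ {k : ℤ} {z : W.X}, z ∈ W.gr k → ∃ y ∈ Y.gr k, p.f y = z

namespace SES

variable {X Y W : GC K} (S : SES X Y W)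

include S


theorem right {k : ℤ} (hY : Z Y k) (hX : Z X (k - 1)) : Z W k := by
  intro z hz hd
  obtain ⟨y, hy, rfl⟩ := S.sur hz
  obtain ⟨x, hx, ex⟩ := S.ex (Y.d_mem hy) (by rw [S.p.f_d, hd])
  have hdx : X.d x = 0 := S.inj (X.d_mem hx) (by rw [S.i.f_d, ex, Y.d_d])
  obtain ⟨x1, hx1, rfl⟩ := hX x hx hdx
  have hx1' : x1 ∈ X.gr k := gr_cast hx1 (by ring)
  obtain ⟨y1, hy1, e1⟩ := hY (y - S.i.f x1) (Submodule.sub_mem _ hy (S.i.f_mem hx1'))
    (by rw [map_sub, ← S.i.f_d, ex, sub_self])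
  exact ⟨S.p.f y1, S.p.f_mem hy1, by rw [← S.p.f_d, e1, map_sub, S.zero hx1', sub_zero]⟩

theorem left {k : ℤ} (hY : Z Y k) (hW : Z W (k + 1)) : Z X k := by
  intro x hx hd
  obtain ⟨y, hy, e⟩ := hY (S.i.f x) (S.i.f_mem hx) (by rw [← S.i.f_d, hd, map_zero])
  obtain ⟨z, hz, e'⟩ := hW (S.p.f y) (S.p.f_mem hy) (by rw [← S.p.f_d, e, S.zero hx])
  obtain ⟨y2, hy2, rfl⟩ := S.sur hz
  have hd2 : Y.d y2 ∈ Y.gr (k + 1) := gr_cast (Y.d_mem hy2) (by ring)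
  obtain ⟨x1, hx1, ex⟩ := S.ex (Submodule.sub_mem _ hy hd2)
    (by rw [map_sub, S.p.f_d, e', sub_self])
  have hdx1 : X.d x1 ∈ X.gr k := gr_cast (X.d_mem hx1) (by ring)
  refine ⟨x1, hx1, ?_⟩
  have := S.inj (Submodule.sub_mem _ hdx1 hx) (by
    rw [map_sub, S.i.f_d, ex, map_sub, Y.d_d, sub_zero, e, sub_self])
  exact sub_eq_zero.1 this




/-- `p` is a quasi-isomorphism iff the kernel is acyclic -/
theorem qi_p : QI S.p ↔ Ac X := by
  constructor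
  · intro h k x hx hd
    -- `i x` is a boundary, corrected by a cycle
    obtain ⟨w, hw, e⟩ := h.inj k (S.i.f x) (S.i.f_mem hx) (by rw [← S.i.f_d, hd, map_zero])
      ⟨0, Submodule.zero_mem _, by rw [S.zero hx, map_zero]⟩
    obtain ⟨y, hy, hdy, z, hz, e'⟩ := h.surj (k + 1) (S.p.f w) (S.p.f_mem hw)
      (by rw [← S.p.f_d, ← e, S.zero hx])
    obtain ⟨u, hu, rfl⟩ := S.sur hz
    have hdu : Y.d u ∈ Y.gr (k + 1) := gr_cast (Y.d_mem hu) (by ring)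
    obtain ⟨x1, hx1, ex⟩ := S.ex (Submodule.sub_mem _ (Submodule.sub_mem _ hw hy) hdu)
      (by rw [map_sub, map_sub, e', S.p.f_d]; abel)
    have hdx1 : X.d x1 ∈ X.gr k := gr_cast (X.d_mem hx1) (by ring)
    refine ⟨x1, hx1, ?_⟩
    have := S.inj (Submodule.sub_mem _ hdx1 hx) (by
      rw [map_sub, S.i.f_d, ex, map_sub, map_sub, Y.d_d, hdy, sub_zero, sub_zero, ← e, sub_self])
    exact sub_eq_zero.1 this
  · intro h
    refine ⟨fun k z hz hd => ?_, fun k y hy hd ⟨z, hz, e⟩ => ?_⟩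
    · obtain ⟨y, hy, rfl⟩ := S.sur hz
      obtain ⟨x, hx, ex⟩ := S.ex (Y.d_mem hy) (by rw [S.p.f_d, hd])
      have hdx : X.d x = 0 := S.inj (X.d_mem hx) (by rw [S.i.f_d, ex, Y.d_d])
      obtain ⟨x1, hx1, rfl⟩ := h _ x hx hdx
      have hx1' : x1 ∈ X.gr k := gr_cast hx1 (by ring)
      refine ⟨y - S.i.f x1, Submodule.sub_mem _ hy (S.i.f_mem hx1'), ?_, 0,
        Submodule.zero_mem _, ?_⟩
      · rw [map_sub, ← S.i.f_d, ex, sub_self]
      · rw [map_sub, S.zero hx1', map_zero, sub_zero, add_zero]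
    · obtain ⟨u, hu, rfl⟩ := S.sur hz
      have hdu : Y.d u ∈ Y.gr k := gr_cast (Y.d_mem hu) (by ring)
      obtain ⟨x, hx, ex⟩ := S.ex (Submodule.sub_mem _ hy hdu) (by rw [map_sub, e, S.p.f_d, sub_self])
      have hdx : X.d x = 0 := S.inj (X.d_mem hx) (by
        rw [S.i.f_d, ex, map_sub, hd, Y.d_d, sub_zero])
      obtain ⟨x1, hx1, rfl⟩ := h k x hx hdx
      refine ⟨S.i.f x1 + u, Submodule.add_mem _ (S.i.f_mem hx1) hu, ?_⟩
      rw [map_add, ← S.i.f_d, ex]; abel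


end SES

/-! ### the cone -/

/-- the mapping cone -/
@[reducible] def cone {X Y : GC K} (f : GCHom X Y) : GC K where
  X := X.X × Y.X
  gr k := (X.gr (k - 1)).prod (Y.gr k)
  d := ((-X.d) ∘ₗ LinearMap.fst K X.X Y.X).prod
    (f.f ∘ₗ LinearMap.fst K X.X Y.X + Y.d ∘ₗ LinearMap.snd K X.X Y.X)
  d_mem := by
    rintro k ⟨x, y⟩ ⟨hx, hy⟩
    exact ⟨Submodule.neg_mem _ (X.d_mem hx), Submodule.add_mem _ (f.f_mem hx) (Y.d_mem hy)⟩
  d_d := by
    rintro ⟨x, y⟩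
    refine Prod.ext ?_ ?_
    · show -X.d (-X.d x) = 0
      rw [map_neg, X.d_d, neg_zero, neg_zero]
    · show f.f (-X.d x) + Y.d (f.f x + Y.d y) = 0
      rw [map_neg, map_add, Y.d_d, f.f_d]; abel

theorem cone_d {X Y : GC K} (f : GCHom X Y) (x : X.X) (y : Y.X) :
    (cone f).d ((x, y) : X.X × Y.X) = ((-X.d x, f.f x + Y.d y) : X.X × Y.X) := rfl


/-- the sequence `Y → cone f → X[1]` -/
theorem ac_cone {X Y : GC K} {f : GCHom X Y} : Ac (cone f) ↔ QI f := by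
  constructor
  · intro h
    refine ⟨fun k y hy hd => ?_, fun k x hx hd ⟨z, hz, e⟩ => ?_⟩
    · obtain ⟨⟨x, z⟩, ⟨hx, hz⟩, e⟩ := h k (0, y) ⟨Submodule.zero_mem _, hy⟩ (by
        rw [cone_d, hd, map_zero, map_zero, neg_zero, add_zero]; rfl)
      rw [cone_d] at e
      have e1 : -X.d x = 0 := congrArg Prod.fst e
      have e2 : f.f x + Y.d z = y := congrArg Prod.snd e
      exact ⟨x, gr_cast hx (by ring), neg_eq_zero.1 e1, z, hz, e2.symm⟩
    · obtain ⟨⟨w, u⟩, ⟨hw, hu⟩, e'⟩ := h (k + 1) (x, -z)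
        ⟨gr_cast hx (by ring), Submodule.neg_mem _ hz⟩ (by
          rw [cone_d, hd, e, map_neg, add_neg_cancel, neg_zero]; rfl)
      rw [cone_d] at e'
      have e1 : -X.d w = x := congrArg Prod.fst e'
      exact ⟨-w, Submodule.neg_mem _ (gr_cast hw (by ring)), by rw [map_neg, e1]⟩
  · rintro h k ⟨x, y⟩ ⟨hx, hy⟩ hd
    rw [cone_d] at hd
    have e1 : X.d x = 0 := neg_eq_zero.1 (congrArg Prod.fst hd)
    have e2 : f.f x + Y.d y = 0 := congrArg Prod.snd hd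
    obtain ⟨w, hw, e⟩ := h.inj (k - 1) x hx e1 ⟨-y, Submodule.neg_mem _ (gr_cast hy (by ring)),
      by rw [map_neg]; exact eq_neg_of_add_eq_zero_left e2⟩
    have hw' : w ∈ X.gr k := gr_cast hw (by ring)
    obtain ⟨x', hx', hdx', z, hz, e'⟩ := h.surj k (y + f.f w)
      (Submodule.add_mem _ hy (f.f_mem hw')) (by rw [map_add, ← f.f_d, ← e, add_comm, e2])
    refine ⟨((x' - w, z) : X.X × Y.X), ⟨gr_cast (Submodule.sub_mem _ hx' hw') (by ring), hz⟩, ?_⟩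
    rw [cone_d]
    refine Prod.ext ?_ ?_
    · show -X.d (x' - w) = x
      rw [map_sub, hdx', e]; abel
    · show f.f (x' - w) + Y.d z = y
      rw [map_sub, sub_add_eq_add_sub, ← e']; abel

end Crest.Agent.R186.TB143
end

-- ▼ part R186/TB2_143

/-!
Row 186 (helper143): maps of twisted complexes, quasi-isomorphisms and short exact sequences
after tensoring with cells.
-/

set_option autoImplicit false
set_option linter.style.haveILetI false
set_option linter.unusedSectionVars false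

open MulOpposite

namespace Crest.Agent.R186.TB143

open Frame515 Hat827

variable {K : Type} [Field K]

theorem exists_fs {ι X Y : Type} [Zero X] [Zero Y] (y : ι →₀ Y) (R : ι → X → Y → Prop)
    (h0 : ∀ σ, R σ 0 0) (h : ∀ σ, ∃ x, R σ x (y σ)) : ∃ x : ι →₀ X, ∀ σ, R σ (x σ) (y σ) := by
  classical
  choose g hg using h
  refine ⟨Finsupp.onFinset y.support (fun σ => if y σ = 0 then 0 else g σ) ?_, fun σ => ?_⟩
  · intro σ hσ
    rw [Finsupp.mem_support_iff]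
    intro hy
    exact hσ (by rw [if_pos hy])
  · rw [Finsupp.onFinset_apply]
    split_ifs with hy
    · rw [hy]; exact h0 σ
    · exact hg σ

/-- a map of twisting data over a morphism of complexes -/
structure TwHom {B B' : GC K} (T : Tw B) (T' : Tw B') where
  φ : GCHom B B'
  j : T.ι ≃ T'.ι
  hs : ∀ σ, T'.s (j σ) = T.s σ
  hp : ∀ σ x, φ.f (T.p σ x) = T'.p (j σ) (φ.f x)
  hm : ∀ σ τ x, φ.f (T.m σ τ x) = T'.m (j σ) (j τ) (φ.f x)

namespace TwHom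

variable {B B' : GC K} {T : Tw B} {T' : Tw B'} (h : TwHom T T')

/-- the linear map -/
noncomputable def lin : (T.ι →₀ B.X) →ₗ[K] (T'.ι →₀ B'.X) :=
  (Finsupp.domLCongr h.j).toLinearMap ∘ₗ Finsupp.mapRange.linearMap h.φ.f

theorem lin_single (σ : T.ι) (x : B.X) :
    h.lin (Finsupp.single σ x) = Finsupp.single (h.j σ) (h.φ.f x) := by
  simp [lin]

theorem lin_apply (x : T.ι →₀ B.X) (τ : T'.ι) : h.lin x τ = h.φ.f (x (h.j.symm τ)) := by
  simp [lin]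

theorem lin_apply' (x : T.ι →₀ B.X) (σ : T.ι) : h.lin x (h.j σ) = h.φ.f (x σ) := by
  rw [lin_apply, Equiv.symm_apply_apply]

theorem sum_F {M : Type} [AddCommMonoid M] (σ : T.ι) (g : T'.ι → M) :
    ∑ τ ∈ T'.F (T'.s (h.j σ)), g τ = ∑ τ ∈ T.F (T.s σ), g (h.j τ) := by
  symm
  refine Finset.sum_equiv h.j (fun τ => ?_) fun _ _ => rfl
  rw [T.mem_F, T'.mem_F, h.hs, h.hs]

theorem lin_mem {k : ℤ} {x : T.ι →₀ B.X} (hx : x ∈ T.gr k) : h.lin x ∈ T'.gr k := by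
  intro τ
  have h1 := (hx (h.j.symm τ)).1
  have h2 := (hx (h.j.symm τ)).2
  have h3 : T'.s τ = T.s (h.j.symm τ) := by rw [← h.hs, Equiv.apply_symm_apply]
  rw [h.lin_apply]
  refine ⟨by rw [h3]; exact h.φ.f_mem h1, ?_⟩
  have := h.hp (h.j.symm τ) (x (h.j.symm τ))
  rw [Equiv.apply_symm_apply, h2] at this
  exact this.symm

theorem lin_dd (x : T.ι →₀ B.X) : h.lin (T.dd x) = T'.dd (h.lin x) := by
  suffices e : h.lin ∘ₗ T.dd = T'.dd ∘ₗ h.lin from LinearMap.congr_fun e x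
  refine Finsupp.lhom_ext fun σ x => ?_
  rw [LinearMap.comp_apply, LinearMap.comp_apply, h.lin_single, T.dd_single, T'.dd_single,
    map_add, map_sum, h.lin_single, h.φ.f_d, h.sum_F]
  congr 1
  refine Finset.sum_congr rfl fun τ _ => ?_
  rw [h.lin_single, h.hm]

/-- the map of twisted complexes -/
noncomputable def map : GCHom T.cx T'.cx where
  f := h.lin
  f_mem := h.lin_mem
  f_d := h.lin_dd

/-! ### the cone of a map of twisted complexes -/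

/-- twisting data over the cone -/
@[reducible] noncomputable def cn (two : ∀ x : B.X, x + x = 0) : Tw (cone h.φ) where
  ι := T.ι
  s := T.s
  F := T.F
  mem_F := T.mem_F
  p σ := (T.p σ).prodMap (T'.p (h.j σ))
  m σ τ := (T.m σ τ).prodMap (T'.m (h.j σ) (h.j τ))
  p_mem := by
    rintro σ k ⟨x, y⟩ ⟨hx, hy⟩
    exact ⟨T.p_mem σ hx, T'.p_mem _ hy⟩
  p_p := by
    rintro σ ⟨x, y⟩
    exact Prod.ext (T.p_p σ x) (T'.p_p _ y)
  p_d := by
    rintro σ ⟨x, y⟩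
    refine Prod.ext ?_ ?_
    · show T.p σ (-B.d x) = -B.d (T.p σ x)
      rw [map_neg, T.p_d]
    · show T'.p (h.j σ) (h.φ.f x + B'.d y) = h.φ.f (T.p σ x) + B'.d (T'.p (h.j σ) y)
      rw [map_add, T'.p_d, h.hp]
  m_zero := by
    intro σ τ hst
    refine LinearMap.ext ?_
    rintro ⟨x, y⟩
    refine Prod.ext ?_ ?_
    · show T.m σ τ x = 0
      rw [T.m_zero σ τ hst]; rfl
    · show T'.m (h.j σ) (h.j τ) y = 0
      rw [T'.m_zero _ _ (by rw [h.hs, h.hs]; exact hst)]; rfl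
  m_mem := by
    rintro σ τ k ⟨x, y⟩ ⟨hx, hy⟩
    refine ⟨gr_cast (T.m_mem σ τ hx) (by ring), ?_⟩
    have := T'.m_mem (h.j σ) (h.j τ) hy
    rw [h.hs, h.hs] at this
    exact this
  p_m := by
    rintro σ τ ⟨x, y⟩
    exact Prod.ext (T.p_m σ τ x) (T'.p_m _ _ y)
  mc := by
    rintro σ τ ⟨x, y⟩
    have e1 := T.mc σ τ x
    have e2 := T'.mc (h.j σ) (h.j τ) y
    rw [h.sum_F] at e2
    have tw : ∀ z : B.X, -z = z := fun z => (eq_neg_of_add_eq_zero_left (two z)).symm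
    have hfst : (∑ ρ ∈ T.F (T.s σ), ((T.m ρ τ).prodMap (T'.m (h.j ρ) (h.j τ)))
        (((T.m σ ρ).prodMap (T'.m (h.j σ) (h.j ρ))) ((x, y) : B.X × B'.X))) =
        ((∑ ρ ∈ T.F (T.s σ), T.m ρ τ (T.m σ ρ x),
          ∑ ρ ∈ T.F (T.s σ), T'.m (h.j ρ) (h.j τ) (T'.m (h.j σ) (h.j ρ) y)) : B.X × B'.X) := by
      refine Prod.ext ?_ ?_
      · rw [Prod.fst_sum]; rfl
      · rw [Prod.snd_sum]; rfl
    refine Prod.ext ?_ ?_
    · have : (-B.d (T.m σ τ x) + T.m σ τ (-B.d x) + ∑ ρ ∈ T.F (T.s σ), T.m ρ τ (T.m σ ρ x)) = 0 := by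
        rw [map_neg, tw, tw]; exact e1
      refine Eq.trans ?_ this
      show _ + (_ : B.X × B'.X).1 = _
      erw [hfst]
      rfl
    · have : (h.φ.f (T.m σ τ x) + B'.d (T'.m (h.j σ) (h.j τ) y)) +
          T'.m (h.j σ) (h.j τ) (h.φ.f x + B'.d y) +
          ∑ ρ ∈ T.F (T.s σ), T'.m (h.j ρ) (h.j τ) (T'.m (h.j σ) (h.j ρ) y) = 0 := by
        rw [map_add, h.hm]
        have e3 : T'.m (h.j σ) (h.j τ) (h.φ.f x) + T'.m (h.j σ) (h.j τ) (h.φ.f x) = 0 := by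
          rw [← map_add, ← map_add, two, map_zero, map_zero]
        calc _ = (T'.m (h.j σ) (h.j τ) (h.φ.f x) + T'.m (h.j σ) (h.j τ) (h.φ.f x)) +
            (B'.d (T'.m (h.j σ) (h.j τ) y) + T'.m (h.j σ) (h.j τ) (B'.d y) +
            ∑ ρ ∈ T.F (T.s σ), T'.m (h.j ρ) (h.j τ) (T'.m (h.j σ) (h.j ρ) y)) := by abel
          _ = 0 := by rw [e3, e2, add_zero]
      refine Eq.trans ?_ this
      show _ + (_ : B.X × B'.X).2 = _
      erw [hfst]
      rfl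

/-- the comparison of the two cones -/
noncomputable def glin : ((T.ι →₀ B.X) × (T'.ι →₀ B'.X)) →ₗ[K] (T.ι →₀ (B.X × B'.X)) :=
  (Finsupp.mapRange.linearMap (LinearMap.inl K B.X B'.X)) ∘ₗ
      LinearMap.fst K (T.ι →₀ B.X) (T'.ι →₀ B'.X) +
    (Finsupp.mapRange.linearMap (LinearMap.inr K B.X B'.X)) ∘ₗ
      (Finsupp.domLCongr h.j.symm).toLinearMap ∘ₗ
        LinearMap.snd K (T.ι →₀ B.X) (T'.ι →₀ B'.X)

theorem glin_apply (x : T.ι →₀ B.X) (y : T'.ι →₀ B'.X) (σ : T.ι) :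
    h.glin (x, y) σ = (x σ, y (h.j σ)) := by
  simp [glin]

theorem glin_mem (two : ∀ x : B.X, x + x = 0) {k : ℤ} {x : T.ι →₀ B.X} {y : T'.ι →₀ B'.X}
    (hx : x ∈ T.gr (k - 1)) (hy : y ∈ T'.gr k) : h.glin (x, y) ∈ (h.cn two).gr k := by
  intro σ
  rw [h.glin_apply]
  refine ⟨⟨gr_cast (hx σ).1 ?_, ?_⟩, Prod.ext (hx σ).2 (hy (h.j σ)).2⟩
  · show k - 1 - (T.s σ : ℤ) = k - (T.s σ : ℤ) - 1
    ring
  · have := (hy (h.j σ)).1
    rw [h.hs] at this
    exact this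

theorem glin_dd (two : ∀ x : B.X, x + x = 0) (x : T.ι →₀ B.X) (y : T'.ι →₀ B'.X) :
    h.glin (-T.dd x, h.lin x + T'.dd y) = (h.cn two).dd (h.glin (x, y)) := by
  classical
  refine Finsupp.ext fun τ => ?_
  have tw : ∀ z : B.X, -z = z := fun z => (eq_neg_of_add_eq_zero_left (two z)).symm
  let S : Finset T.ι := x.support ∪ (y.support.map h.j.symm.toEmbedding)
  have hSx : x.support ⊆ S := Finset.subset_union_left
  have hSy : y.support ⊆ S.map h.j.toEmbedding := by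
    intro σ hσ
    refine Finset.mem_map.2 ⟨h.j.symm σ, Finset.mem_union_right _ ?_, ?_⟩
    · exact Finset.mem_map.2 ⟨σ, hσ, rfl⟩
    · exact h.j.apply_symm_apply σ
  have hSg : (h.glin (x, y)).support ⊆ S := by
    intro σ hσ
    rw [Finsupp.mem_support_iff, h.glin_apply] at hσ
    by_cases h1 : x σ = 0
    · by_cases h2 : y (h.j σ) = 0
      · exact absurd (by rw [h1, h2]; rfl) hσ
      · refine Finset.mem_union_right _ (Finset.mem_map.2 ⟨h.j σ, Finsupp.mem_support_iff.2 h2, ?_⟩)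
        exact h.j.symm_apply_apply σ
    · exact hSx (Finsupp.mem_support_iff.2 h1)
  rw [h.glin_apply, (h.cn two).dd_apply' (h.glin (x, y)) S hSg τ]
  have e1 : (-T.dd x) τ = -(B.d (x τ) + ∑ σ ∈ S, T.m σ τ (x σ)) := by
    rw [Finsupp.neg_apply, T.dd_apply' x S hSx]
  have e2 : (h.lin x + T'.dd y) (h.j τ) =
      h.φ.f (x τ) + (B'.d (y (h.j τ)) + ∑ σ ∈ S, T'.m (h.j σ) (h.j τ) (y (h.j σ))) := by
    rw [Finsupp.add_apply, h.lin_apply', T'.dd_apply' y _ hSy, Finset.sum_map]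
    rfl
  rw [e1, e2]
  have hsum : ∑ σ ∈ S, (h.cn two).m σ τ (h.glin (x, y) σ) =
      ((∑ σ ∈ S, T.m σ τ (x σ), ∑ σ ∈ S, T'.m (h.j σ) (h.j τ) (y (h.j σ))) : B.X × B'.X) := by
    refine Prod.ext ?_ ?_
    · refine (Prod.fst_sum (s := S) (f := fun σ => ((h.cn two).m σ τ (h.glin (x, y) σ) :
        B.X × B'.X))).trans ?_
      refine Finset.sum_congr rfl fun σ _ => ?_
      rw [h.glin_apply]; rfl
    · refine (Prod.snd_sum (s := S) (f := fun σ => ((h.cn two).m σ τ (h.glin (x, y) σ) :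
        B.X × B'.X))).trans ?_
      refine Finset.sum_congr rfl fun σ _ => ?_
      rw [h.glin_apply]; rfl
  rw [hsum, h.glin_apply]
  refine Prod.ext ?_ ?_
  · show -(B.d (x τ) + ∑ σ ∈ S, T.m σ τ (x σ)) = -B.d (x τ) + ∑ σ ∈ S, T.m σ τ (x σ)
    rw [neg_add, tw (∑ σ ∈ S, T.m σ τ (x σ))]
  · show h.φ.f (x τ) + (B'.d (y (h.j τ)) + ∑ σ ∈ S, T'.m (h.j σ) (h.j τ) (y (h.j σ))) =
      (h.φ.f (x τ) + B'.d (y (h.j τ))) + ∑ σ ∈ S, T'.m (h.j σ) (h.j τ) (y (h.j σ))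
    rw [add_assoc]

/-- the comparison map -/
noncomputable def g (two : ∀ x : B.X, x + x = 0) : GCHom (cone h.map) (h.cn two).cx where
  f := h.glin
  f_mem := by
    rintro k ⟨x, y⟩ ⟨hx, hy⟩
    exact h.glin_mem two hx hy
  f_d := by
    rintro ⟨x, y⟩
    exact h.glin_dd two x y

theorem g_qi (two : ∀ x : B.X, x + x = 0) : QI (h.g two) := by
  classical
  refine QI.of_bij ?_ ?_
  · rintro k ⟨x, y⟩ - e
    change T.ι →₀ B.X at x
    change T'.ι →₀ B'.X at y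
    have h1 : ∀ σ, (x σ, y (h.j σ)) = (0 : B.X × B'.X) := fun σ => by
      rw [← h.glin_apply]
      exact DFunLike.congr_fun (show h.glin (x, y) = 0 from e) σ
    refine Prod.ext (Finsupp.ext fun σ => congrArg Prod.fst (h1 σ)) (Finsupp.ext fun σ => ?_)
    have := congrArg Prod.snd (h1 (h.j.symm σ))
    rw [Equiv.apply_symm_apply] at this
    exact this
  · intro k z hz
    let z' : T.ι →₀ (B.X × B'.X) := z
    have hz' : z' ∈ (h.cn two).gr k := hz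
    let x : T.ι →₀ B.X := Finsupp.mapRange.linearMap (LinearMap.fst K B.X B'.X) z'
    let y : T'.ι →₀ B'.X := Finsupp.equivMapDomain h.j
      (Finsupp.mapRange.linearMap (LinearMap.snd K B.X B'.X) z')
    have hx : ∀ σ, x σ = (z' σ).1 := fun σ => rfl
    have hy : ∀ σ, y (h.j σ) = (z' σ).2 := fun σ => by simp [y]
    refine ⟨(x, y), ⟨fun σ => ?_, fun σ' => ?_⟩, ?_⟩
    · have h1 := (hz' σ).1.1
      have h2 := congrArg Prod.fst (hz' σ).2
      show x σ ∈ B.gr (k - 1 - (T.s σ : ℤ)) ∧ T.p σ (x σ) = x σ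
      rw [hx]
      refine ⟨gr_cast h1 ?_, h2⟩
      show k - (T.s σ : ℤ) - 1 = k - 1 - (T.s σ : ℤ)
      ring
    · obtain ⟨σ, rfl⟩ := h.j.surjective σ'
      have h1 := (hz' σ).1.2
      have h2 := congrArg Prod.snd (hz' σ).2
      show y (h.j σ) ∈ B'.gr (k - (T'.s (h.j σ) : ℤ)) ∧ T'.p (h.j σ) (y (h.j σ)) = y (h.j σ)
      rw [hy, h.hs]
      exact ⟨h1, h2⟩
    · show h.glin (x, y) = z'
      refine Finsupp.ext fun σ => ?_
      rw [h.glin_apply, hx, hy]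

/-- **a quasi-isomorphism stays a quasi-isomorphism after twisting with cells** -/
theorem qi (two : ∀ x : B.X, x + x = 0) (hf : QI h.φ) : QI h.map :=
  ac_cone.1 ((QI.ac (h.g_qi two)).2 ((h.cn two).cx_ac (ac_cone.2 hf)))

end TwHom

/-- **a short exact sequence stays exact after twisting with cells** -/
noncomputable def twSES {B B' B'' : GC K} {T : Tw B} {T' : Tw B'} {T'' : Tw B''} (S : SES B B' B'')
    (h1 : TwHom T T') (h2 : TwHom T' T'') (e1 : h1.φ = S.i) (e2 : h2.φ = S.p) :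
    SES T.cx T'.cx T''.cx where
  i := h1.map
  p := h2.map
  zero := by
    intro k x hx
    show h2.lin (h1.lin x) = 0
    refine Finsupp.ext fun τ => ?_
    rw [h2.lin_apply, h1.lin_apply, e1, e2]
    exact S.zero (hx _).1
  inj := by
    intro k x hx e
    refine Finsupp.ext fun σ => ?_
    have := DFunLike.congr_fun (show h1.lin x = 0 from e) (h1.j σ)
    rw [h1.lin_apply', e1] at this
    exact S.inj (hx σ).1 this
  ex := by
    intro k y hy e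
    let y' : T'.ι →₀ B'.X := y
    have hy' : y' ∈ T'.gr k := hy
    have h3 : ∀ σ, ∃ x : B.X, S.i.f x = (Finsupp.equivMapDomain h1.j.symm y' : T.ι →₀ B'.X) σ ∧
        x ∈ B.gr (k - T.s σ) ∧ T.p σ x = x := by
      intro σ
      have e' := DFunLike.congr_fun (show h2.lin y' = 0 from e) (h2.j (h1.j σ))
      rw [h2.lin_apply', e2] at e'
      obtain ⟨x, hx, ex⟩ := S.ex (hy' (h1.j σ)).1 e'
      rw [h1.hs] at hx
      refine ⟨T.p σ x, ?_, T.p_mem σ hx, T.p_p σ x⟩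
      have h4 := h1.hp σ x
      rw [e1, ex, (hy' (h1.j σ)).2] at h4
      rw [h4]; simp
    obtain ⟨x, hx⟩ := exists_fs (Finsupp.equivMapDomain h1.j.symm y' : T.ι →₀ B'.X)
      (fun σ (x : B.X) (y : B'.X) => S.i.f x = y ∧ x ∈ B.gr (k - T.s σ) ∧ T.p σ x = x)
      (fun σ => ⟨map_zero _, Submodule.zero_mem _, map_zero _⟩) h3
    refine ⟨x, fun σ => (hx σ).2, ?_⟩
    show h1.lin x = y'
    refine Finsupp.ext fun τ => ?_
    rw [h1.lin_apply, e1, (hx _).1]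
    simp
  sur := by
    intro k z hz
    let z' : T''.ι →₀ B''.X := z
    have hz' : z' ∈ T''.gr k := hz
    have h3 : ∀ σ, ∃ y : B'.X, S.p.f y = (Finsupp.equivMapDomain h2.j.symm z' :
        T'.ι →₀ B''.X) σ ∧ y ∈ B'.gr (k - T'.s σ) ∧ T'.p σ y = y := by
      intro σ
      obtain ⟨y, hy, ey⟩ := S.sur (hz' (h2.j σ)).1
      rw [h2.hs] at hy
      refine ⟨T'.p σ y, ?_, T'.p_mem σ hy, T'.p_p σ y⟩
      have h4 := h2.hp σ y
      rw [e2, ey, (hz' (h2.j σ)).2] at h4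
      rw [h4]; simp
    obtain ⟨y, hy⟩ := exists_fs (Finsupp.equivMapDomain h2.j.symm z' : T'.ι →₀ B''.X)
      (fun σ (y : B'.X) (z : B''.X) => S.p.f y = z ∧ y ∈ B'.gr (k - T'.s σ) ∧ T'.p σ y = y)
      (fun σ => ⟨map_zero _, Submodule.zero_mem _, map_zero _⟩) h3
    refine ⟨y, fun σ => (hy σ).2, ?_⟩
    show h2.lin y = z'
    refine Finsupp.ext fun τ => ?_
    rw [h2.lin_apply, e2, (hy _).1]
    simp

end Crest.Agent.R186.TB143
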