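import Crest.Agent.R186.FinD_384
import Crest.Agent.R186.TB2_143
import Crest.Agent.R186.Res_255
import Crest.Agent.R186.Frame2_515
import Crest.Agent.R186.Dual_560
import Crest.Agent.R186.VJ_153
import Crest.Agent.R186.MW_890
import Crest.Agent.R186.KHc_302
import Crest.Agent.R186.EndF_448
import Crest.Agent.R186.FinD_988
import Crest.Agent.R186.C1Q_611

-- ▼ part R186/DSq_384
section

/-!
Row 186 (A), leaf A.FIN (helper384): from the quasi-isomorphism
`D(A) ⊗_A X → D(H)`, `φ ⊗ σ ↦ (h ↦ φ (ev (kt σ) h))` to the fields `D1`, `D2` of `HIn`.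
-/

set_option autoImplicit false
set_option linter.style.haveILetI false
set_option linter.unusedSectionVars false

open MulOpposite

namespace Crest.Agent.R186.DSq384

open Hat827 Hat827.DGA Frame515 TB143 Res255 Adapt186 ConeHyp462

variable {K : Type} [Field K]

/-- the dual complex, shifted by `n` -/
abbrev DG (R : GC K) (n : ℤ) : GC K where
  X := R.X →ₗ[K] K
  gr k := {
    carrier := {φ | ∀ l z, z ∈ R.gr l → l ≠ -(k + n) → φ z = 0}
    zero_mem' := fun _ _ _ _ => rfl
    add_mem' := fun {φ ψ} h1 h2 l z hz hl => by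
      rw [LinearMap.add_apply, h1 l z hz hl, h2 l z hz hl, add_zero]
    smul_mem' := fun r φ h l z hz hl => by
      rw [LinearMap.smul_apply, h l z hz hl, smul_zero] }
  d := {
    toFun := fun φ => φ ∘ₗ R.d
    map_add' := fun φ ψ => by ext x; rfl
    map_smul' := fun r φ => by ext x; rfl }
  d_mem := fun {k φ} h l z hz hl => h (l - 1) (R.d z) (R.d_mem hz) (by omega)
  d_d φ := by
    refine LinearMap.ext fun x => ?_
    change φ (R.d (R.d x)) = 0
    rw [R.d_d, map_zero]

/-! ### duals of left dg modules -/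

section dual

variable {A : DGA K} (N : LM A)


/-- the right action on functionals -/
noncomputable instance actD : Module A.Cᵐᵒᵖ (N.X →ₗ[K] K) where
  smul a φ := φ ∘ₗ lmul N a.unop
  one_smul φ := by
    ext x
    change φ ((1 : A.C) • x) = φ x
    rw [one_smul]
  mul_smul a b φ := by
    ext x
    change φ ((b.unop * a.unop) • x) = φ (b.unop • a.unop • x)
    rw [mul_smul]
  smul_zero a := by
    ext x
    rfl
  smul_add a φ ψ := by
    ext x
    rfl
  add_smul a b φ := by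
    ext x
    change φ ((a.unop + b.unop) • x) = φ (a.unop • x) + φ (b.unop • x)
    rw [add_smul, map_add]
  zero_smul φ := by
    ext x
    change φ ((0 : A.C) • x) = 0
    rw [zero_smul, map_zero]


theorem smulK (r : K) (a : A.C) (x : N.X) : (r • a) • x = r • a • x := smul_assoc r a x

/-- the dual right dg module (shifted by `n`) -/
noncomputable abbrev DL (n : ℤ) : RM A where
  toGC := DG N.toGC n
  act := actD N
  tower := ⟨fun r a φ => by
    refine LinearMap.ext fun x => ?_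
    change φ ((r • a.unop) • x) = r • φ (a.unop • x)
    rw [smulK, map_smul]⟩
  smul_mem := fun {k l a φ} ha hφ m z hz hm => hφ (k + m) (a • z) (N.smul_mem ha hz) (by omega)
  leib a φ := by
    refine LinearMap.ext fun x => ?_
    change φ (a • N.d x) = φ (A.D a • x) + φ (N.d (a • x))
    have h2 : φ (A.D a • x) + φ (A.D a • x) = 0 := by
      rw [← map_add, ← add_smul, A.two, zero_smul, map_zero]
    rw [N.leib, map_add, ← add_assoc, h2, zero_add]



end dual

/-- the cells of `X` -/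
def lc {A : DGA K} (X : PCells A) : LCells A where
  ι := X.ι
  s := X.s
  F := X.F
  mem_F := X.mem_F
  e := X.e
  e_mem := X.e_mem
  e_idem := X.e_idem
  c := X.c
  c_mem := X.c_mem
  c_left := X.c_left
  c_right := X.c_right
  mc := X.mc

/-- the algebra as a left module -/
abbrev sL (A : DGA K) : LM A where
  X := A.C
  gr := A.G
  d := A.D
  d_mem := A.D_mem
  d_d := A.D_D
  smul_mem ha hx := A.mul_mem ha hx
  leib a x := A.D_mul a x

variable {A : DGA K} (I : In A)

/-- the complex `H` -/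
abbrev HH : GC K where
  X := I.Z
  gr := I.gs.G
  d := I.dZ
  d_mem := I.dZ_deg
  d_d := I.dZZ

/-- the dual complex of `H` -/
noncomputable abbrev DH (n : ℤ) : GC K := DG (HH I) n

/-- the left action on `Y` -/
noncomputable abbrev modY : Module A.C I.Y where
  smul := fun a y => I.L a y
  one_smul := I.L_one
  mul_smul := I.L_mul
  smul_zero := fun a => map_zero _
  smul_add := fun a => map_add _
  add_smul := fun a b y => by
    change I.L (a + b) y = I.L a y + I.L b y
    rw [map_add, LinearMap.add_apply]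
  zero_smul := fun y => by
    change I.L 0 y = 0
    rw [map_zero, LinearMap.zero_apply]

/-- the module `K` -/
noncomputable abbrev KKl : LM A :=
  letI := modY I
  { X := I.Y
    gr := I.gr.G
    d := I.dY
    d_mem := I.dY_deg
    d_d := I.dYY
    act := modY I
    tower := ⟨fun r a y => by
      change I.L (r • a) y = r • I.L a y
      rw [map_smul, LinearMap.smul_apply]⟩
    smul_mem := fun {k l a x} ha hx => by
      have := I.L_deg ha hx
      rwa [add_comm] at this
    leib := fun a y => by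
      change I.dY (I.L a y) = I.L (A.D a) y + I.L a (I.dY y)
      have h := congrArg (fun b => I.L b (I.dY y)) (A.two a)
      simp only [map_add, LinearMap.add_apply, map_zero, LinearMap.zero_apply] at h
      rw [I.L_D, add_assoc, h, add_zero] }

/-- a lift of the augmentation -/
structure Kt (X : LCells A) where
  kt : X.ι → I.Y
  deg : ∀ σ, kt σ ∈ I.gr.G (X.s σ)
  e : ∀ σ, I.L (X.e σ) (kt σ) = kt σ
  d : ∀ σ, I.dY (kt σ) + ∑ τ ∈ X.F (X.s σ), I.L (X.c σ τ) (kt τ) = 0

variable {I} {X : LCells A} (k : Kt I X)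


/-- one component of `T` -/
noncomputable def T1 (σ : X.ι) : (A.C →ₗ[K] K) →ₗ[K] (I.Z →ₗ[K] K) where
  toFun φ := φ ∘ₗ I.ev (k.kt σ)
  map_add' φ ψ := by ext x; rfl
  map_smul' r φ := by ext x; rfl

theorem T1_apply (σ : X.ι) (φ : A.C →ₗ[K] K) (z : I.Z) : T1 k σ φ z = φ (I.ev (k.kt σ) z) := rfl

/-- `T : D(A) ⊗_A X → D(H)` -/
noncomputable def T (n : ℤ) : GCHom (tG (DL (sL A) n) X) (DH I n) where
  f := Finsupp.lsum K fun σ => T1 k σ
  f_mem := by
    intro m x hx
    rw [Finsupp.lsum_apply]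
    refine Submodule.sum_mem _ fun σ _ => ?_
    intro l z hz hl
    have h1 := I.ev_deg (k.deg σ) hz
    refine (hx σ).1 _ _ h1 ?_
    change (X.s σ : ℤ) + l ≠ -(m - X.s σ + n)
    omega
  f_d := by
    intro x
    induction x using Finsupp.induction_linear with
    | zero => simp
    | add f g hf hg => rw [map_add, map_add, map_add, hf, hg, map_add]
    | single σ φ =>
      rw [show (tG (DL (sL A) n) X).d (Finsupp.single σ φ) = _ from
        (twG (DL (sL A) n) X).dd_single σ φ, map_add, map_sum]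
      simp only [Finsupp.lsum_single]
      refine LinearMap.ext fun z => ?_
      rw [LinearMap.add_apply, LinearMap.sum_apply]
      change φ (A.D (I.ev (k.kt σ) z)) +
        ∑ τ ∈ X.F (X.s σ), φ (X.c σ τ * I.ev (k.kt τ) z) = φ (I.ev (k.kt σ) (I.dZ z))
      have h1 : ∀ τ, X.c σ τ * I.ev (k.kt τ) z = I.ev (I.L (X.c σ τ) (k.kt τ)) z :=
        fun τ => (I.ev_l _ _ _).symm
      simp only [h1]
      rw [I.ev_D, map_add, ← map_sum, add_right_comm, ← map_add]
      have h2 : I.ev (I.dY (k.kt σ)) z + ∑ τ ∈ X.F (X.s σ), I.ev (I.L (X.c σ τ) (k.kt τ)) z =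
          I.ev (I.dY (k.kt σ) + ∑ τ ∈ X.F (X.s σ), I.L (X.c σ τ) (k.kt τ)) z := by
        rw [map_add, map_sum, LinearMap.add_apply, LinearMap.sum_apply]
      rw [h2, k.d, map_zero, LinearMap.zero_apply, map_zero, zero_add]

/-! ### block diagonal maps -/

/-- direct sum decomposition of a graded complex -/
structure Dec (W W0 W1 : GC K) where
  e0 : GCHom W0 W
  e1 : GCHom W1 W
  r0 : GCHom W W0
  r1 : GCHom W W1
  r0e0 : ∀ x, r0.f (e0.f x) = x
  r1e1 : ∀ x, r1.f (e1.f x) = x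
  r0e1 : ∀ x, r0.f (e1.f x) = 0
  r1e0 : ∀ x, r1.f (e0.f x) = 0
  tot : ∀ x, e0.f (r0.f x) + e1.f (r1.f x) = x

theorem QI.sum {W W0 W1 V V0 V1 : GC K} (D : Dec W W0 W1) (E : Dec V V0 V1) (f : GCHom W V)
    (g0 : GCHom W0 V0) (g1 : GCHom W1 V1) (h0 : ∀ x, f.f (D.e0.f x) = E.e0.f (g0.f x))
    (h1 : ∀ x, f.f (D.e1.f x) = E.e1.f (g1.f x)) (q0 : QI g0) (q1 : QI g1) : QI f := by
  have hf0 : ∀ x, E.r0.f (f.f x) = g0.f (D.r0.f x) := by
    intro x
    conv_lhs => rw [← D.tot x]
    rw [map_add, map_add, h0, h1, E.r0e0, E.r0e1, add_zero]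
  have hf1 : ∀ x, E.r1.f (f.f x) = g1.f (D.r1.f x) := by
    intro x
    conv_lhs => rw [← D.tot x]
    rw [map_add, map_add, h0, h1, E.r1e0, E.r1e1, zero_add]
  refine ⟨fun k y hy hd => ?_, fun k x hx hd ⟨z, hz, e⟩ => ?_⟩
  · obtain ⟨x0, hx0, hd0, z0, hz0, e0⟩ := q0.surj k (E.r0.f y) (E.r0.f_mem hy)
      (by rw [← E.r0.f_d, hd, map_zero])
    obtain ⟨x1, hx1, hd1, z1, hz1, e1⟩ := q1.surj k (E.r1.f y) (E.r1.f_mem hy)
      (by rw [← E.r1.f_d, hd, map_zero])
    refine ⟨D.e0.f x0 + D.e1.f x1, Submodule.add_mem _ (D.e0.f_mem hx0) (D.e1.f_mem hx1), ?_,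
      E.e0.f z0 + E.e1.f z1, Submodule.add_mem _ (E.e0.f_mem hz0) (E.e1.f_mem hz1), ?_⟩
    · rw [map_add, ← D.e0.f_d, ← D.e1.f_d, hd0, hd1, map_zero, map_zero, add_zero]
    · rw [← E.tot y, e0, e1, map_add, map_add, map_add, map_add, h0, h1, ← E.e0.f_d, ← E.e1.f_d]
      abel
  · obtain ⟨w0, hw0, e0⟩ := q0.inj k (D.r0.f x) (D.r0.f_mem hx)
      (by rw [← D.r0.f_d, hd, map_zero]) ⟨E.r0.f z, E.r0.f_mem hz, by
        rw [← hf0, e, E.r0.f_d]⟩
    obtain ⟨w1, hw1, e1⟩ := q1.inj k (D.r1.f x) (D.r1.f_mem hx)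
      (by rw [← D.r1.f_d, hd, map_zero]) ⟨E.r1.f z, E.r1.f_mem hz, by
        rw [← hf1, e, E.r1.f_d]⟩
    refine ⟨D.e0.f w0 + D.e1.f w1, Submodule.add_mem _ (D.e0.f_mem hw0) (D.e1.f_mem hw1), ?_⟩
    rw [map_add, ← D.e0.f_d, ← D.e1.f_d, ← e0, ← e1, D.tot]

/-! ### the square-zero extension -/

/-- `A = A0 ⊕ M` -/
structure Sq (A0 A : DGA K) where
  i : Hm A0 A
  π : Hm A A0
  πi : ∀ a, π.f (i.f a) = a
  M : BM A0 A0
  j : M.X →ₗ[K] A.C
  ω : A.C →ₗ[K] M.X
  j_mem : ∀ {k : ℤ} {m : M.X}, m ∈ M.gr k → j m ∈ A.G k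
  ω_mem : ∀ {k : ℤ} {a : A.C}, a ∈ A.G k → ω a ∈ M.gr k
  ωj : ∀ m, ω (j m) = m
  dec : ∀ z, i.f (π.f z) + j (ω z) = z
  j_l : ∀ (a : A0.C) (m : M.X), j (a • m) = i.f a * j m
  j_r : ∀ (a : A0.C) (m : M.X), j (op a • m) = j m * i.f a
  jj : ∀ m m', j m * j m' = 0
  j_d : ∀ m, j (M.d m) = A.D (j m)

namespace Sq

variable {A0 : DGA K} (S : Sq A0 A)



theorem πj (m : S.M.X) : S.π.f (S.j m) = 0 := by
  have h := S.dec (S.j m)
  rw [S.ωj, add_eq_right] at h
  rw [← S.πi (S.π.f (S.j m)), h, map_zero]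

theorem ωi (a : A0.C) : S.ω (S.i.f a) = 0 := by
  have h := S.dec (S.i.f a)
  rw [S.πi, add_eq_left] at h
  rw [← S.ωj (S.ω (S.i.f a)), h, map_zero]

theorem ω_mul (x z : A.C) : S.ω (x * z) = S.π.f x • S.ω z + op (S.π.f z) • S.ω x := by
  have h : x * z = S.i.f (S.π.f x * S.π.f z) + S.j (S.π.f x • S.ω z + op (S.π.f z) • S.ω x) := by
    conv_lhs => rw [← S.dec x, ← S.dec z]
    rw [map_mul, map_add, S.j_l, S.j_r, mul_add, add_mul, add_mul, S.jj, add_zero]
    abel
  rw [h, map_add, S.ωi, zero_add, S.ωj]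

theorem ω_D (z : A.C) : S.ω (A.D z) = S.M.d (S.ω z) := by
  have h : A.D z = S.i.f (A0.D (S.π.f z)) + S.j (S.M.d (S.ω z)) := by
    rw [S.j_d, S.i.D, ← map_add, S.dec]
  rw [h, map_add, S.ωi, zero_add, S.ωj]

/-- the left action of `A0` on `A` -/
abbrev modL : Module A0.C A.C := Module.compHom A.C S.i.f.toRingHom

/-- `A` as a left `A0`-, right `A`-bimodule -/
noncomputable abbrev P : BM A0 A :=
  letI i1 := S.modL
  { X := A.C
    gr := A.G
    d := A.D
    d_mem := A.D_mem
    d_d := A.D_D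
    actL := S.modL
    towerL := ⟨fun r a x => by
      change S.i.f (r • a) * x = r • (S.i.f a * x)
      rw [map_smul, smul_mul_assoc]⟩
    comm := ⟨fun a b x => by
      change S.i.f a * (x * b.unop) = (S.i.f a * x) * b.unop
      rw [mul_assoc]⟩
    smul_mem := fun ha hx => A.mul_mem (S.i.mem ha) hx
    leib := fun a x => by
      change A.D (S.i.f a * x) = S.i.f (A0.D a) * x + S.i.f a * A.D x
      rw [A.D_mul, S.i.D]
    smul_memR := fun {k l b x} hb hx => by
      change x * b ∈ _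
      rw [add_comm]
      exact A.mul_mem hx hb
    leibR := fun b x => by
      change A.D (x * b) = x * A.D b + A.D x * b
      rw [A.D_mul, add_comm] }

end Sq

/-! ### maps out of `Y ⊗ N` -/

section lin

variable {B : DGA K}

/-- maps of left dg modules -/
structure LH (N N' : LM B) extends GCHom N.toGC N'.toGC where
  lin : ∀ (a : B.C) (x : N.X), f (a • x) = a • f x

/-- `Y ⊗ f` as twisting data -/
noncomputable abbrev LH.tw {N N' : LM B} (g : LH N N') (Y : RCells B) :
    TwHom (twY Y N) (twY Y N') where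
  φ := g.toGCHom
  j := Equiv.refl _
  hs _ := rfl
  hp _ x := g.lin _ x
  hm _ _ x := g.lin _ x

/-- `Y ⊗ f` -/
noncomputable abbrev LH.m {N N' : LM B} (g : LH N N') (Y : RCells B) :
    GCHom (tY Y N) (tY Y N') := (g.tw Y).map

theorem LH.m_apply {N N' : LM B} (g : LH N N') (Y : RCells B) (x : Y.ι →₀ N.X) (κ : Y.ι) :
    ((g.m Y).f x : Y.ι →₀ N'.X) κ = g.f (x κ) := (g.tw Y).lin_apply' x κ

theorem LH.m_single {N N' : LM B} (g : LH N N') (Y : RCells B) (x : N.X) (κ : Y.ι) :
    (g.m Y).f (Finsupp.single κ x) = Finsupp.single κ (g.f x) := (g.tw Y).lin_single κ x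

theorem LM.two (N : LM B) (x : N.X) : x + x = 0 := by
  have : x = (1 : B.C) • x := by rw [one_smul]
  rw [this, ← add_smul, B.two, zero_smul]

theorem LH.m_qi {N N' : LM B} (g : LH N N') (Y : RCells B) (h : QI g.toGCHom) : QI (g.m Y) :=
  (g.tw Y).qi (LM.two N) h

/-- maps of right dg modules -/
structure RH (N N' : RM B) extends GCHom N.toGC N'.toGC where
  lin : ∀ (a : B.C) (x : N.X), f (op a • x) = op a • f x

/-- `g ⊗ X` as twisting data -/
noncomputable abbrev RH.tw {N N' : RM B} (g : RH N N') (X : LCells B) :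
    TwHom (twG N X) (twG N' X) where
  φ := g.toGCHom
  j := Equiv.refl _
  hs _ := rfl
  hp _ x := g.lin _ x
  hm _ _ x := g.lin _ x

/-- `g ⊗ X` -/
noncomputable abbrev RH.m {N N' : RM B} (g : RH N N') (X : LCells B) :
    GCHom (tG N X) (tG N' X) := (g.tw X).map

theorem RH.m_single {N N' : RM B} (g : RH N N') (X : LCells B) (x : N.X) (κ : X.ι) :
    (g.m X).f (Finsupp.single κ x) = Finsupp.single κ (g.f x) := (g.tw X).lin_single κ x

theorem RM.two (N : RM B) (x : N.X) : x + x = 0 := by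
  have : x = op (1 : B.C) • x := by rw [op_one, one_smul]
  rw [this, ← add_smul, ← op_add, B.two, op_zero, zero_smul]

theorem RH.m_qi {N N' : RM B} (g : RH N N') (X : LCells B) (h : QI g.toGCHom) : QI (g.m X) :=
  (g.tw X).qi (RM.two N) h

/-- functionals on `M` attached to right cells: `Y → D(M)` (shifted by `n`) -/
structure VF (Y : RCells B) (M : LM B) (n : ℤ) where
  v : Y.ι → (M.X →ₗ[K] K)
  v_mem : ∀ κ l m, m ∈ M.gr l → l ≠ -((Y.s κ : ℤ) + n) → v κ m = 0
  v_d : ∀ κ m, v κ (M.d m) = ∑ τ ∈ Y.F (Y.s κ), v τ (Y.c τ κ • m)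

/-- pairings `N ⊗ R → M` -/
structure Pair (N M : LM B) (R : GC K) where
  b : N.X →ₗ[K] R.X →ₗ[K] M.X
  b_l : ∀ (a : B.C) (x : N.X) (r : R.X), b (a • x) r = a • b x r
  b_mem : ∀ {k l : ℤ} {x : N.X} {r : R.X}, x ∈ N.gr k → r ∈ R.gr l → b x r ∈ M.gr (k + l)
  b_d : ∀ (x : N.X) (r : R.X), b (N.d x) r + b x (R.d r) = M.d (b x r)

variable {Y : RCells B} {M : LM B} {n : ℤ} (V : VF Y M n) {N : LM B} {R : GC K}

/-- one component -/
noncomputable def VF.pm1 (b : Pair N M R) (κ : Y.ι) : N.X →ₗ[K] (R.X →ₗ[K] K) where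
  toFun x := V.v κ ∘ₗ b.b x
  map_add' x y := by
    refine LinearMap.ext fun r => ?_
    simp
  map_smul' c x := by
    refine LinearMap.ext fun r => ?_
    simp

theorem VF.pm1_apply (b : Pair N M R) (κ : Y.ι) (x : N.X) (r : R.X) :
    V.pm1 b κ x r = V.v κ (b.b x r) := rfl

/-- `Y ⊗ N → D(R)`, `κ ⊗ x ↦ (r ↦ v κ (b x r))` -/
noncomputable def VF.pm (b : Pair N M R) : GCHom (tY Y N) (DG R n) where
  f := Finsupp.lsum K fun κ => V.pm1 b κ
  f_mem := by
    intro m x hx
    rw [Finsupp.lsum_apply]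
    refine Submodule.sum_mem _ fun κ _ => ?_
    intro l z hz hl
    refine V.v_mem κ _ _ (b.b_mem (hx κ).1 hz) ?_
    change m - (Y.s κ : ℤ) + l ≠ -((Y.s κ : ℤ) + n)
    omega
  f_d := by
    intro x
    induction x using Finsupp.induction_linear with
    | zero => simp
    | add f g hf hg => rw [map_add, map_add, map_add, hf, hg, map_add]
    | single κ x =>
      rw [show (tY Y N).d (Finsupp.single κ x) = _ from
        (twY Y N).dd_single κ x, map_add, map_sum]
      simp only [Finsupp.lsum_single]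
      refine LinearMap.ext fun r => ?_
      rw [LinearMap.add_apply, LinearMap.sum_apply]
      change V.v κ (b.b (N.d x) r) + ∑ τ ∈ Y.F (Y.s κ), V.v τ (b.b (Y.c τ κ • x) r) =
        V.v κ (b.b x (R.d r))
      simp only [b.b_l]
      rw [← V.v_d, ← map_add, ← b.b_d, ← add_assoc, LM.two, zero_add]

theorem VF.pm_single (b : Pair N M R) (κ : Y.ι) (x : N.X) (r : R.X) :
    ((V.pm b).f (Finsupp.single κ x) : R.X →ₗ[K] K) r = V.v κ (b.b x r) := by
  change (Finsupp.lsum K (fun κ => V.pm1 b κ) (Finsupp.single κ x)) r = _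
  rw [Finsupp.lsum_single, V.pm1_apply]

end lin

namespace Sq

variable {A0 : DGA K} (S : Sq A0 A)

/-- `A0 → A`, left linear -/
noncomputable def li : LH (sL A0) S.P.toLM where
  f := S.i.f.toLinearMap
  f_mem h := S.i.mem h
  f_d x := S.i.D x
  lin a x := by
    change S.i.f (a * x) = S.i.f a * S.i.f x
    rw [map_mul]

/-- `A → A0`, left linear -/
noncomputable def lπ : LH S.P.toLM (sL A0) where
  f := S.π.f.toLinearMap
  f_mem h := S.π.mem h
  f_d x := S.π.D x
  lin a x := by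
    change S.π.f (S.i.f a * x) = a * S.π.f x
    rw [map_mul, S.πi]

/-- `M → A`, left linear -/
noncomputable def lj : LH S.M.toLM S.P.toLM where
  f := S.j
  f_mem h := S.j_mem h
  f_d x := S.j_d x
  lin a x := S.j_l a x

/-- `A → M`, left linear -/
noncomputable def lω : LH S.P.toLM S.M.toLM where
  f := S.ω
  f_mem h := S.ω_mem h
  f_d x := S.ω_D x
  lin a x := by
    change S.ω (S.i.f a * x) = a • S.ω x
    rw [S.ω_mul, S.πi, S.ωi, smul_zero, add_zero]


variable (Y : RCells A0)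

/-- the decomposition of `Y ⊗ A` -/
noncomputable def decY : Dec (tY Y S.P.toLM) (tY Y (sL A0)) (tY Y S.M.toLM) where
  e0 := S.li.m Y
  e1 := S.lj.m Y
  r0 := S.lπ.m Y
  r1 := S.lω.m Y
  r0e0 x := by
    refine Finsupp.ext fun κ => ?_
    exact (LH.m_apply _ Y _ κ).trans ((congrArg _ (LH.m_apply S.li Y x κ)).trans (S.πi _))
  r1e1 x := by
    refine Finsupp.ext fun κ => ?_
    exact (LH.m_apply _ Y _ κ).trans ((congrArg _ (LH.m_apply S.lj Y x κ)).trans (S.ωj _))
  r0e1 x := by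
    refine Finsupp.ext fun κ => ?_
    exact (LH.m_apply _ Y _ κ).trans ((congrArg _ (LH.m_apply S.lj Y x κ)).trans (S.πj _))
  r1e0 x := by
    refine Finsupp.ext fun κ => ?_
    exact (LH.m_apply _ Y _ κ).trans ((congrArg _ (LH.m_apply S.li Y x κ)).trans (S.ωi _))
  tot x := by
    refine Finsupp.ext fun κ => ?_
    have h0 := (LH.m_apply S.li Y ((S.lπ.m Y).f x) κ).trans
      (congrArg _ (LH.m_apply S.lπ Y x κ))
    have h1 := (LH.m_apply S.lj Y ((S.lω.m Y).f x) κ).trans
      (congrArg _ (LH.m_apply S.lω Y x κ))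
    exact (congrArg₂ (· + ·) h0 h1).trans (S.dec _)

/-- dual of a map -/
def dg {R R' : GC K} (g : GCHom R R') (n : ℤ) : GCHom (DG R' n) (DG R n) where
  f := {
    toFun := fun φ => φ ∘ₗ g.f
    map_add' := fun φ ψ => by refine LinearMap.ext fun x => ?_; rfl
    map_smul' := fun r φ => by refine LinearMap.ext fun x => ?_; rfl }
  f_mem := fun {k φ} h l z hz hl => h l (g.f z) (g.f_mem hz) hl
  f_d φ := by
    refine LinearMap.ext fun x => ?_
    change φ (R'.d (g.f x)) = φ (g.f (R.d x))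
    rw [g.f_d]

/-- the decomposition of `D(A)` -/
noncomputable def decD (n : ℤ) : Dec (DG (sL A).toGC n) (DG S.M.toGC n) (DG (sL A0).toGC n) where
  e0 := dg S.lω.toGCHom n
  e1 := dg S.lπ.toGCHom n
  r0 := dg S.lj.toGCHom n
  r1 := dg S.li.toGCHom n
  r0e0 φ := by
    refine LinearMap.ext fun x => ?_
    change φ (S.ω (S.j x)) = φ x
    rw [S.ωj]
  r1e1 φ := by
    refine LinearMap.ext fun x => ?_
    change φ (S.π.f (S.i.f x)) = φ x
    rw [S.πi]
  r0e1 φ := by
    refine LinearMap.ext fun x => ?_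
    change φ (S.π.f (S.j x)) = 0
    rw [S.πj, map_zero]
  r1e0 φ := by
    refine LinearMap.ext fun x => ?_
    change φ (S.ω (S.i.f x)) = 0
    rw [S.ωi, map_zero]
  tot φ := by
    refine LinearMap.ext fun x => ?_
    change φ (S.j (S.ω x)) + φ (S.i.f (S.π.f x)) = φ x
    rw [← map_add, add_comm, S.dec]

/-- the pairing `A ⊗ A → M` -/
noncomputable def bA : Pair S.P.toLM S.M.toLM (sL A).toGC where
  b := (LinearMap.mul K A.C).compr₂ S.ω
  b_l a x z := by
    change S.ω (S.i.f a * x * z) = a • S.ω (x * z)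
    rw [mul_assoc, S.ω_mul (S.i.f a), S.πi, S.ωi, smul_zero, add_zero]
  b_mem hx hz := S.ω_mem (A.mul_mem hx hz)
  b_d x z := by
    change S.ω (A.D x * z) + S.ω (x * A.D z) = S.M.d (S.ω (x * z))
    rw [← map_add, ← A.D_mul, S.ω_D]

/-- the pairing `A0 ⊗ M → M` -/
noncomputable def b0 : Pair (sL A0) S.M.toLM S.M.toGC where
  b := {
    toFun := fun a => lmul S.M.toLM a
    map_add' := fun a b => by refine LinearMap.ext fun x => ?_; exact add_smul a b x
    map_smul' := fun r a => by refine LinearMap.ext fun x => ?_; exact smul_assoc r a x }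
  b_l a x m := mul_smul a x m
  b_mem hx hm := S.M.smul_mem hx hm
  b_d x m := by
    change A0.D x • m + x • S.M.d m = S.M.d (x • m)
    rw [S.M.leib]

/-- the pairing `M ⊗ A0 → M` -/
noncomputable def b1 : Pair S.M.toLM S.M.toLM (sL A0).toGC where
  b := {
    toFun := fun m => {
      toFun := fun a => op a • m
      map_add' := fun a b => by rw [op_add, add_smul]
      map_smul' := fun r a => by rw [op_smul, smul_assoc]; rfl }
    map_add' := fun m m' => by
      refine LinearMap.ext fun a => ?_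
      exact smul_add (op a) m m'
    map_smul' := fun r m => by
      refine LinearMap.ext fun a => ?_
      exact (rmul S.M.toRM a).map_smul r m }
  b_l a m z := (smul_comm a (op z) m).symm
  b_mem {k l m a} hm ha := by
    have := S.M.smul_memR ha hm
    rwa [add_comm] at this
  b_d m a := by
    change op a • S.M.d m + op (A0.D a) • m = S.M.d (op a • m)
    rw [S.M.leibR, add_comm]

variable {S Y} {n : ℤ} (V : VF Y S.M.toLM n)

theorem f1_lin (a : A.C) (x : Y.ι →₀ S.P.X) :
    ((V.pm S.bA).f (show Y.ι →₀ S.P.X from op a • x) : A.C →ₗ[K] K) =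
      ((V.pm S.bA).f x : A.C →ₗ[K] K) ∘ₗ lmul (sL A) a := by
  have h : ((V.pm S.bA).f ∘ₗ Finsupp.mapRange.linearMap (rmul S.P.toRM a) :
      (Y.ι →₀ S.P.X) →ₗ[K] (A.C →ₗ[K] K)) =
      (LinearMap.lcomp K K (lmul (sL A) a)) ∘ₗ (V.pm S.bA).f := by
    refine Finsupp.lhom_ext fun κ x => LinearMap.ext fun z => ?_
    rw [LinearMap.comp_apply, LinearMap.comp_apply, Finsupp.mapRange.linearMap_apply,
      Finsupp.mapRange_single]
    refine (VF.pm_single V S.bA κ _ z).trans (Eq.trans ?_ (VF.pm_single V S.bA κ x (a * z)).symm)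
    change V.v κ (S.ω (x * a * z)) = V.v κ (S.ω (x * (a * z)))
    rw [mul_assoc]
  have h2 := LinearMap.congr_fun h x
  refine Eq.trans ?_ h2
  refine congrArg (V.pm S.bA).f ?_
  refine Finsupp.ext fun κ => ?_
  rfl

/-- `Y ⊗ A → D(A)` -/
noncomputable def f1 : RH (tQ Y S.P) (DL (sL A) n) where
  toGCHom := V.pm S.bA
  lin a x := f1_lin V a x

theorem f1_qi (h0 : QI (V.pm S.b0)) (h1 : QI (V.pm S.b1)) : QI (f1 V).toGCHom := by
  refine QI.sum (S.decY Y) (S.decD n) (V.pm S.bA) (V.pm S.b0) (V.pm S.b1) ?_ ?_ h0 h1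
  · intro x
    induction x using Finsupp.induction_linear with
    | zero => simp
    | add f g hf hg => rw [map_add, map_add, map_add, hf, hg, map_add]
    | single κ x =>
      change (V.pm S.bA).f ((S.li.m Y).f (Finsupp.single κ x)) = _
      rw [LH.m_single]
      refine LinearMap.ext fun z => ?_
      rw [VF.pm_single]
      change V.v κ (S.ω (S.i.f x * z)) =
        ((V.pm S.b0).f (Finsupp.single κ x) : S.M.X →ₗ[K] K) (S.ω z)
      rw [VF.pm_single, S.ω_mul, S.πi, S.ωi, smul_zero, add_zero]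
      rfl
  · intro x
    induction x using Finsupp.induction_linear with
    | zero => simp
    | add f g hf hg => rw [map_add, map_add, map_add, hf, hg, map_add]
    | single κ x =>
      change (V.pm S.bA).f ((S.lj.m Y).f (Finsupp.single κ x)) = _
      rw [LH.m_single]
      refine LinearMap.ext fun z => ?_
      rw [VF.pm_single]
      change V.v κ (S.ω (S.j x * z)) =
        ((V.pm S.b1).f (Finsupp.single κ x) : A0.C →ₗ[K] K) (S.π.f z)
      rw [VF.pm_single, S.ω_mul, S.πj, S.ωj, zero_smul, zero_add]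
      rfl

end Sq

end Crest.Agent.R186.DSq384
end

-- ▼ part R186/Dual2_560
section

/-!
Row 186 (A), leaf DUAL, part 2 (helper560): the regular module, and `exC`, `exV` of
`Hat827.Cells` from acyclicity of `D Z ⊗ X`.
-/

set_option autoImplicit false
set_option linter.style.haveILetI false
set_option linter.unusedSectionVars false

open MulOpposite

namespace Crest.Agent.R186.Dual560

open Hat827 Frame515

variable {K : Type} [Field K]

/-- the regular left module -/
def reg (A : DGA K) : LM A where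
  X := A.C
  gr := A.G
  d := A.D
  d_mem := A.D_mem
  d_d := A.D_D
  smul_mem := A.mul_mem
  leib := A.D_mul






/-- a module in degree `0` -/
structure Deg0 {A : DGA K} (V : LM A) : Prop where
  top : V.gr 0 = ⊤
  bot : ∀ k : ℤ, k ≠ 0 → V.gr k = ⊥
  d : ∀ v, V.d v = 0



end Crest.Agent.R186.Dual560
end

-- ▼ part R186/DSq2_384
section

/-!
Row 186 (A), leaf A.FIN (helper384), part 2: the square
`D(A) ⊗ X → D(H)` is a quasi-isomorphism, and `D1`, `D2` of `HIn`.
-/

set_option autoImplicit false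
set_option linter.style.haveILetI false
set_option linter.unusedSectionVars false

open MulOpposite

namespace Crest.Agent.R186.DSq384

open Hat827 Hat827.DGA Frame515 TB143 Res255 Adapt186 ConeHyp462

variable {K : Type} [Field K]

theorem hext {R R' : GC K} {f g : GCHom R R'} (h : f.f = g.f) : f = g := by
  cases f
  cases g
  cases h
  rfl

/-- associativity as a morphism -/
noncomputable def ascH {A B : DGA K} (Y : RCells A) (P : BM A B) (X : LCells B) :
    GCHom (tG (tQ Y P) X) (tY Y (tP P X)) where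
  f := (asc Y P X).toLinearMap
  f_mem h := (asc_gr Y P X _ _).1 h
  f_d x := asc_d Y P X x

theorem ascH_qi {A B : DGA K} (Y : RCells A) (P : BM A B) (X : LCells B) :
    QI (ascH Y P X) := by
  refine QI.of_bij (fun k x _ h => ?_) fun k y hy => ?_
  · exact (asc Y P X).injective (h.trans (map_zero (asc Y P X)).symm)
  · obtain ⟨x, rfl⟩ := (asc Y P X).surjective y
    exact ⟨x, (asc_gr Y P X _ _).2 hy, rfl⟩

section kk

variable {A : DGA K} {I : In A} {X : LCells A} (k : Kt I X)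

/-- `A ⊗ X → Y`, `a σ ↦ a kt σ` -/
noncomputable def gK : (X.ι →₀ A.C) →ₗ[K] I.Y := Finsupp.lsum K fun σ => I.L.flip (k.kt σ)

theorem gK_single (σ : X.ι) (a : A.C) : gK k (Finsupp.single σ a) = I.L a (k.kt σ) := by
  rw [gK, Finsupp.lsum_single]
  rfl

theorem gK_key (σ : X.ι) (a : A.C) : I.L (A.D a) (k.kt σ) +
    ∑ τ ∈ X.F (X.s σ), I.L (a * X.c σ τ) (k.kt τ) = I.dY (I.L a (k.kt σ)) := by
  simp only [I.L_mul]
  rw [← map_sum, I.L_D, add_assoc, ← map_add, k.d, map_zero, add_zero]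

theorem gK_dd (σ : X.ι) (a : A.C) : gK k (Finsupp.single σ (A.D a) +
    ∑ τ ∈ X.F (X.s σ), Finsupp.single τ (a * X.c σ τ)) = I.dY (gK k (Finsupp.single σ a)) := by
  rw [map_add, map_sum, gK_single, gK_single, ← gK_key]
  congr 1
  exact Finset.sum_congr rfl fun τ _ => gK_single k τ _

theorem gK_d (x : X.ι →₀ A.C) :
    gK k ((tG (selfR A) X).d x) = I.dY (gK k x) := by
  have h : (gK k ∘ₗ (twG (selfR A) X).dd : (X.ι →₀ (selfR A).X) →ₗ[K] I.Y) = I.dY ∘ₗ gK k := by
    refine Finsupp.lhom_ext fun σ a => ?_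
    exact (congrArg (gK k) ((twG (selfR A) X).dd_single σ a)).trans (gK_dd k σ a)
  exact LinearMap.congr_fun h x

theorem gK_mem {m : ℤ} {x : X.ι →₀ A.C} (hx : ∀ σ, x σ ∈ A.G (m - X.s σ)) :
    gK k x ∈ I.gr.G m := by
  rw [gK, Finsupp.lsum_apply]
  refine Submodule.sum_mem _ fun σ _ => ?_
  have := I.L_deg (hx σ) (k.deg σ)
  rwa [show (X.s σ : ℤ) + (m - X.s σ) = m by ring] at this

theorem gK_smul (a : A.C) (x : X.ι →₀ A.C) : gK k (a • x) = I.L a (gK k x) := by
  have h : (gK k ∘ₗ Finsupp.mapRange.linearMap (LinearMap.mulLeft K a) :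
      (X.ι →₀ A.C) →ₗ[K] I.Y) = I.L a ∘ₗ gK k := by
    refine Finsupp.lhom_ext fun σ b => ?_
    rw [LinearMap.comp_apply, LinearMap.comp_apply, Finsupp.mapRange.linearMap_apply,
      Finsupp.mapRange_single, gK_single, gK_single, ← I.L_mul]
    rfl
  refine Eq.trans ?_ (LinearMap.congr_fun h x)
  refine congrArg (gK k) ?_
  refine Finsupp.ext fun σ => ?_
  rfl

end kk

namespace Sq

variable {A0 A : DGA K} (S : Sq A0 A) (I : In A)

/-- `Y` as a left `A0`-module -/
noncomputable abbrev KK0 : LM A0 := resL S.i (KKl I)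

theorem ωev_l (a : A0.C) (x : I.Y) (r : I.Z) :
    S.ω (I.ev (I.L (S.i.f a) x) r) = a • S.ω (I.ev x r) := by
  rw [I.ev_l, S.ω_mul, S.πi, S.ωi, smul_zero, add_zero]

theorem ωev_d (x : I.Y) (r : I.Z) :
    S.ω (I.ev (I.dY x) r) + S.ω (I.ev x (I.dZ r)) = S.M.d (S.ω (I.ev x r)) := by
  rw [← map_add, ← I.ev_D, S.ω_D]

/-- the pairing `Y ⊗ H → M` -/
noncomputable def bβ : Pair (S.KK0 I) S.M.toLM (HH I) where
  b := I.ev.compr₂ S.ω
  b_l a x r := S.ωev_l I a x r
  b_mem hx hr := S.ω_mem (I.ev_deg hx hr)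
  b_d x r := S.ωev_d I x r

variable {I} {X : LCells A} (k : Kt I X)

/-- `A ⊗ X → Y` over `A0` -/
noncomputable def f2 : LH (tP S.P X) (S.KK0 I) where
  f := gK k
  f_mem hx := gK_mem k fun σ => (hx σ).1
  f_d x := gK_d k x
  lin a x := gK_smul k (S.i.f a) x

variable {Y : RCells A0} {n : ℤ} (V : VF Y S.M.toLM n)

theorem sq_f : (TB143.comp (T k n) ((f1 V).m X)).f =
    (TB143.comp (V.pm (S.bβ I)) (TB143.comp ((S.f2 k).m Y) (ascH Y S.P X))).f := by
  refine Finsupp.lhom_ext fun σ y => ?_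
  suffices h : ∀ y : Y.ι →₀ A.C,
      (T k n).f (((f1 V).m X).f (Finsupp.single σ (show (tQ Y S.P).X from y))) =
      (V.pm (S.bβ I)).f (((S.f2 k).m Y).f ((ascH Y S.P X).f
        (Finsupp.single σ (show (tQ Y S.P).X from y)))) from h y
  intro y
  induction y using Finsupp.induction_linear with
  | zero =>
    rw [show (Finsupp.single σ (show (tQ Y S.P).X from (0 : Y.ι →₀ A.C)) :
      X.ι →₀ (tQ Y S.P).X) = 0 from Finsupp.single_zero σ]
    rw [show ((f1 V).m X).f 0 = 0 from map_zero _, map_zero,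
      show (ascH Y S.P X).f 0 = 0 from map_zero _]
    rw [show ((S.f2 k).m Y).f 0 = 0 from map_zero _, map_zero]
  | add f g hf hg =>
    rw [show (Finsupp.single σ (show (tQ Y S.P).X from (f + g : Y.ι →₀ A.C)) :
      X.ι →₀ (tQ Y S.P).X) = Finsupp.single σ (show (tQ Y S.P).X from f) +
        Finsupp.single σ (show (tQ Y S.P).X from g) from Finsupp.single_add σ _ _]
    rw [show ((f1 V).m X).f (Finsupp.single σ (show (tQ Y S.P).X from f) +
        Finsupp.single σ (show (tQ Y S.P).X from g)) = _ from map_add _ _ _, map_add,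
      show (ascH Y S.P X).f (Finsupp.single σ (show (tQ Y S.P).X from f) +
        Finsupp.single σ (show (tQ Y S.P).X from g)) = _ from map_add _ _ _,
      show ((S.f2 k).m Y).f ((ascH Y S.P X).f (Finsupp.single σ (show (tQ Y S.P).X from f)) +
        (ascH Y S.P X).f (Finsupp.single σ (show (tQ Y S.P).X from g))) = _ from map_add _ _ _,
      map_add, hf, hg]
  | single κ γ =>
    have e1 : ((f1 V).m X).f (Finsupp.single σ (show (tQ Y S.P).X from Finsupp.single κ γ)) =
        Finsupp.single σ ((V.pm S.bA).f (Finsupp.single κ γ)) := RH.m_single (f1 V) X _ σ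
    have e2 : (ascH Y S.P X).f (Finsupp.single σ (show (tQ Y S.P).X from Finsupp.single κ γ)) =
        Finsupp.single κ (show (tP S.P X).X from Finsupp.single σ γ) := swp_single σ κ γ
    have e3 : ((S.f2 k).m Y).f (Finsupp.single κ (show (tP S.P X).X from Finsupp.single σ γ)) =
        Finsupp.single κ (I.L γ (k.kt σ)) :=
      (LH.m_single (S.f2 k) Y _ κ).trans (congrArg _ (gK_single k σ γ))
    rw [e1, e2, e3]
    refine LinearMap.ext fun z => ?_
    refine Eq.trans ?_ (VF.pm_single V (S.bβ I) κ (I.L γ (k.kt σ)) z).symm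
    change (Finsupp.lsum K (fun σ => T1 k σ) (Finsupp.single σ ((V.pm S.bA).f
      (Finsupp.single κ γ))) : I.Z →ₗ[K] K) z = V.v κ (S.ω (I.ev (I.L γ (k.kt σ)) z))
    rw [Finsupp.lsum_single, T1_apply, I.ev_l]
    exact VF.pm_single V S.bA κ γ _

/-- **the square: `D(A) ⊗ X → D(H)` is a quasi-isomorphism** -/
theorem T_qi (h1 : QI (f1 V).toGCHom) (h2 : QI (S.f2 k).toGCHom) (h3 : QI (V.pm (S.bβ I))) :
    QI (T k n) := by
  refine QI.of_comp_right ((f1 V).m_qi X h1) ?_
  rw [hext (S.sq_f k V)]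
  exact QI.comp h3 (QI.comp ((S.f2 k).m_qi Y h2) (ascH_qi Y S.P X))

end Sq

end Crest.Agent.R186.DSq384
end

-- ▼ part R186/DSq3_384
section

/-!
Row 186 (A), leaf A.FIN (helper384), part 3: `D1`, `D2` of `HIn` from the quasi-isomorphism
`D(A) ⊗ X → D(H)`.
-/

set_option autoImplicit false
set_option linter.style.haveILetI false
set_option linter.unusedSectionVars false

open MulOpposite

namespace Crest.Agent.R186.DSq384

open Hat827 Hat827.DGA Frame515 TB143 Res255 Adapt186 ConeHyp462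
open Dual560 (LMd GCd HomC Pr DP reg dpG dpH HomC_d)

variable {K : Type} [Field K] {A : DGA K}

section dual

variable {I : In A} {X : LCells A} (k : Kt I X)




theorem gr_iff (n m : ℤ) (x : X.ι →₀ (A.C →ₗ[K] K)) :
    x ∈ (tG (DL (sL A) n) X).gr (m - n) ↔ x ∈ (tG (LMd (reg A)) X).gr m := by
  constructor
  · intro h σ
    refine ⟨fun l hl z hz => (h σ).1 l z hz ?_, (h σ).2⟩
    have hl' : l ≠ -(m - (X.s σ : ℤ)) := hl
    change l ≠ -(m - n - (X.s σ : ℤ) + n)
    omega
  · intro h σ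
    refine ⟨fun l z hz hl => (h σ).1 l ?_ z hz, (h σ).2⟩
    have hl' : l ≠ -(m - n - (X.s σ : ℤ) + n) := hl
    change l ≠ -(m - (X.s σ : ℤ))
    omega

theorem grD_iff (I : In A) (n m : ℤ) (φ : I.Z →ₗ[K] K) :
    φ ∈ (DH I n).gr (m - n) ↔ φ ∈ (GCd (HH I)).gr m := by
  constructor
  · intro h l hl z hz
    exact h l z hz (by omega)
  · intro h l z hz hl
    exact h l (by omega) z hz

/-- `T` between 560's complexes -/
noncomputable def TT : GCHom (tG (LMd (reg A)) X) (GCd (HH I)) where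
  f := (T k 0).f
  f_mem := fun {m x} hx => by
    have h := (T k 0).f_mem ((gr_iff 0 m x).2 hx)
    exact (grD_iff I 0 m _).1 h
  f_d x := (T k 0).f_d x




end dual


end Crest.Agent.R186.DSq384
end

-- ▼ part R186/DSq4_384
section

/-!
Row 186 (A), leaf A.FIN (helper384), part 4: the inputs of the square from 255's resolutions and
from the augmentation of `Y`.
-/

set_option autoImplicit false
set_option linter.style.haveILetI false
set_option linter.unusedSectionVars false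

open MulOpposite

namespace Crest.Agent.R186.DSq384

open Hat827 Hat827.DGA Frame515 TB143 Res255 Adapt186 ConeHyp462
open Dual560 (LMd GCd HomC Pr DP reg dpG dpH HomC_d)

variable {K : Type} [Field K]

/-! ### functionals from a resolution of `D(M)` -/

section res

variable {A0 : DGA K} {Y : RCells A0} {M : LM A0}



variable {A : DGA K} (S : Sq A0 A)



end res

/-! ### `A ⊗ X → Y` is a quasi-isomorphism -/

section kk

variable {A : DGA K} {I : In A} {X : LCells A} (k : Kt I X)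

/-- `A ⊗ X → Y` -/
noncomputable def gKH : GCHom (tG (selfR A) X) (KKl I).toGC where
  f := gK k
  f_mem hx := gK_mem k fun σ => (hx σ).1
  f_d x := gK_d k x

theorem gKH_qi {N : LM A} (R : LRes X N) (h0 : R.lo = 0) (a : GCHom (KKl I).toGC N.toGC)
    (ha : QI a) (hL : ∀ (g : A.C) (y : I.Y), a.f (I.L g y) = g • a.f y)
    (hv : ∀ σ, a.f (k.kt σ) = R.v σ) : QI (gKH k) := by
  refine QI.of_comp_left ha ?_
  have h : ∀ x : X.ι →₀ A.C, a.f (gK k x) = augL X N R.v x := by
    intro x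
    have h : (a.f ∘ₗ gK k : (X.ι →₀ A.C) →ₗ[K] N.X) = augL X N R.v := by
      refine Finsupp.lhom_ext fun σ g => ?_
      refine (congrArg a.f (gK_single k σ g)).trans ?_
      rw [augL_single, ← hv]
      exact hL g (k.kt σ)
    exact LinearMap.congr_fun h x
  have e0 : ∀ j : ℤ, R.lo + j = j := fun j => by rw [h0, zero_add]
  refine ⟨fun j y hy hd => ?_, fun j x hx hd ⟨z, hz, e⟩ => ?_⟩
  · obtain ⟨x, hx, hdx, z, hz, e⟩ := VJ153.aL_surj R j y (gr_cast (X := N.toGC) hy (e0 j).symm) hd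
    refine ⟨x, hx, hdx, z, gr_cast (X := N.toGC) hz (e0 _), ?_⟩
    exact e.trans (congrArg₂ (· + ·) (h x).symm rfl)
  · exact VJ153.aL_inj R j x hx hd ⟨z, gr_cast (X := N.toGC) hz (e0 _).symm, (h x).symm.trans e⟩

theorem f2_qi {A0 : DGA K} (S : Sq A0 A) (h : QI (gKH k)) : QI (S.f2 k).toGCHom :=
  ⟨h.surj, h.inj⟩

/-- the augmentation in degree zero is a quasi-isomorphism -/
theorem aug_qi (N : LM A) (hN : ∀ j : ℤ, j ≠ 0 → ∀ v ∈ N.gr j, v = 0) (hd : ∀ v, N.d v = 0)
    (a : GCHom (KKl I).toGC N.toGC) (onto : ∀ w, ∃ y ∈ I.gr.G 0, a.f y = w)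
    (ex : ∀ n : ℤ, 0 ≤ n → ∀ y ∈ I.gr.G n, I.dY y = 0 → (n = 0 → a.f y = 0) →
      ∃ y' ∈ I.gr.G (n + 1), y = I.dY y') (neg : ∀ j : ℤ, j < 0 → ∀ y ∈ I.gr.G j, y = 0) :
    QI a := by
  refine ⟨fun j y hy _ => ?_, fun j x hx hdx ⟨z, _, e⟩ => ?_⟩
  · by_cases hj : j = 0
    · obtain ⟨x, hx, e⟩ := onto y
      subst hj
      refine ⟨x, hx, ?_, 0, Submodule.zero_mem _, by rw [e, map_zero, add_zero]⟩
      exact neg (0 - 1) (by omega) _ (I.dY_deg hx)
    · refine ⟨0, Submodule.zero_mem _, map_zero _, 0, Submodule.zero_mem _, ?_⟩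
      rw [hN j hj y hy, map_zero, map_zero, add_zero]
  · by_cases hj : j < 0
    · exact ⟨0, Submodule.zero_mem _, by rw [neg j hj x hx, map_zero]⟩
    · exact ex j (by omega) x hx hdx fun _ => by rw [e, hd]

end kk

end Crest.Agent.R186.DSq384
end

-- ▼ part R186/SqI_186
section

/-!
Row 186 (A), leaf hD (helper186): helper384's `Sq (WR π).dga (Gm π s _)` and the projections of `Γ`.
-/

set_option autoImplicit false
set_option linter.style.haveILetI false

noncomputable section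

open MulOpposite

namespace Crest.Agent.R186.SqI186

open Hat827 Win810 Frame515 Res255 SM890 DefsQ830 DSq384

variable {K : Type} [Field K]


variable (π : Par K) (s : ℕ) (hs : 5 ≤ s)

/-- **(a)** -/
def SG : Sq (WR π).dga (Gm π s (KHc302.two_le hs)) where
  i := HmI π s (KHc302.two_le hs)
  π := HmP π s (KHc302.two_le hs)
  πi := HmP_HmI π s (KHc302.two_le hs)
  M := MW π s (KHc302.two_le hs)
  j := inrW (bdM π s (KHc302.two_le hs))
  ω := sndW (bdM π s (KHc302.two_le hs))
  j_mem := inrW_mem (bdM π s (KHc302.two_le hs))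
  ω_mem := sndW_mem (bdM π s (KHc302.two_le hs))
  ωj := sndW_inrW (bdM π s (KHc302.two_le hs))
  dec z := (eq_inlH_inrW (bdM π s (KHc302.two_le hs)) z).symm
  j_l a m := (inlH_mul_inrW (bdM π s (KHc302.two_le hs)) a m).symm
  j_r a m := (inrW_mul_inlH (bdM π s (KHc302.two_le hs)) m a).symm
  jj := inrW_mul_inrW (bdM π s (KHc302.two_le hs))
  j_d := inrW_d (bdM π s (KHc302.two_le hs))


end Crest.Agent.R186.SqI186
end
end

-- ▼ part R186/HD_186
section

/-!
Row 186 (A), leaf hD (helper186): `HD` of helper448's `EndF_448` from the two quasi-isomorphisms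
`Y ⊗ Γ → D(Γ)` (`f1`) and `Y ⊗ KK → D(H)` (`bβ`).
-/

set_option autoImplicit false
set_option linter.style.haveILetI false
set_option linter.unusedSectionVars false

noncomputable section

open MulOpposite

namespace Crest.Agent.R186.HD186

open Hat827 Hat827.DGA Frame515 TB143 Res255 Adapt186 ConeHyp462 FinV988 FinD988 DSq384

variable {K : Type} [Field K]

/-! ### from `T` to `gD` -/

section gen

variable {A : DGA K} {I : In A} {X : PCells A}

/-- helper384's lift -/
def ktOf (kt : X.ι → I.Y) (hk : ∀ σ, kt σ ∈ I.gr.G (X.s σ))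
    (he : ∀ σ, I.L (X.e σ) (kt σ) = kt σ) (hd : KtD I X kt) : Kt I (lc X) where
  kt := kt
  deg := hk
  e := he
  d := hd

theorem gx_iff (n m : ℤ) (x : X.ι →₀ (A.C →ₗ[K] K)) :
    x ∈ (tG (DL (sL A) n) (lc X)).gr (m - n) ↔ x ∈ (tG (DR (selfL A)) (lpc X)).gr m := by
  constructor
  · intro h σ
    refine ⟨fun l z hz hl => (h σ).1 l z hz ?_, (h σ).2⟩
    have hl' : l ≠ -(m - (X.s σ : ℤ)) := hl
    change l ≠ -(m - n - (X.s σ : ℤ) + n)
    omega
  · intro h σ
    refine ⟨fun l z hz hl => (h σ).1 l z hz ?_, (h σ).2⟩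
    have hl' : l ≠ -(m - n - (X.s σ : ℤ) + n) := hl
    change l ≠ -(m - (X.s σ : ℤ))
    omega

theorem gz_iff (n m : ℤ) (φ : I.Z →ₗ[K] K) :
    φ ∈ (DH I n).gr (m - n) ↔ φ ∈ (DZc I).gr m := by
  constructor
  · intro h l z hz hl
    exact h l z hz (by omega)
  · intro h l z hz hl
    exact h l z hz (by omega)

/-- `T` is `gD` -/
theorem gD_qi (kt : X.ι → I.Y) (hk : ∀ σ, kt σ ∈ I.gr.G (X.s σ))
    (he : ∀ σ, I.L (X.e σ) (kt σ) = kt σ) (hd : KtD I X kt) {n : ℤ}
    (h : QI (T (ktOf kt hk he hd) n)) : QI (gD I X kt hk hd) := by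
  refine ⟨fun m y hy hdy => ?_, fun m x hx hdx ⟨z, hz, e⟩ => ?_⟩
  · obtain ⟨x, hx, hdx, z, hz, e⟩ := h.surj (m - n) y ((gz_iff n m y).2 hy) hdy
    refine ⟨x, (gx_iff n m x).1 hx, hdx, z, (gz_iff n (m + 1) z).1 ?_, e⟩
    exact gr_cast hz (by ring)
  · obtain ⟨w, hw, e'⟩ := h.inj (m - n) x ((gx_iff n m x).2 hx) hdx
      ⟨z, gr_cast ((gz_iff n (m + 1) z).2 hz) (by ring), e⟩
    refine ⟨w, (gx_iff n (m + 1) w).1 ?_, e'⟩
    exact gr_cast hw (by ring)

end gen

/-! ### on the concrete objects -/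

open Win810 DefsQ830 SM890 KH186 SemiFree515 EndA448 EndV448 EndB448 EndF448 KHc186 SqI186

variable {π : Par K} {s : ℕ} {hs : 5 ≤ s}

/-- the augmentation of the sixteen cells, onto `VG` -/
def aL (π : Par K) (s : ℕ) (hs : 5 ≤ s) : (KKl (IG π s hs)).X →ₗ[K] (VG π s hs).X :=
  (kresC π s hs).aug

theorem aL_ne {k : ℤ} {x : (KKl (IG π s hs)).X} (hx : x ∈ (KKl (IG π s hs)).gr k) (hk : k ≠ 0) :
    aL π s hs x = 0 := (kresC π s hs).aug_deg hk hx

theorem aL_d (x : (KKl (IG π s hs)).X) : aL π s hs ((KKl (IG π s hs)).d x) = 0 :=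
  (kresC π s hs).aug_d x

theorem aL_L (g : (Gam π s hs).C) (x : (IG π s hs).Y) :
    aL π s hs ((IG π s hs).L g x) = g • aL π s hs x := (kresC π s hs).aug_L g x

theorem aL_onto (v : (VG π s hs).X) : ∃ y ∈ (IG π s hs).gr.G 0, aL π s hs y = v :=
  (kresC π s hs).aug_surj v

theorem aL_ex (n : ℤ) (y : (IG π s hs).Y) (hy : y ∈ (IG π s hs).gr.G n)
    (hd : (IG π s hs).dY y = 0) (h : n = 0 → aL π s hs y = 0) :
    ∃ y' ∈ (IG π s hs).gr.G (n + 1), y = (IG π s hs).dY y' := (kresC π s hs).aug_ex hy hd h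

/-- the augmentation as a morphism -/
def aG (π : Par K) (s : ℕ) (hs : 5 ≤ s) : GCHom (KKl (IG π s hs)).toGC (VG π s hs).toGC where
  f := aL π s hs
  f_mem {k x} hx := by
    by_cases hk : k = 0
    · subst hk
      exact (deg0_VG π s hs).top _
    · rw [aL_ne hx hk]
      exact Submodule.zero_mem _
  f_d x := (aL_d x).trans ((deg0_VG π s hs).d _).symm

theorem aG_qi (π : Par K) (s : ℕ) (hs : 5 ≤ s) : QI (aG π s hs) :=
  aug_qi (VG π s hs) (fun _ hj _ hv => (deg0_VG π s hs).bot hv hj) (deg0_VG π s hs).d (aG π s hs)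
    aL_onto (fun n _ y hy hd h => aL_ex n y hy hd h) fun _ hj _ hy => KX378.G_neg hj hy

/-- **`HD` from the two quasi-isomorphisms** -/
theorem HD_of (hV : PV π s hs) {Y : RCells (WR π).dga} {n : ℤ} (V : VF Y (SG π s hs).M.toLM n)
    (h1 : QI (Sq.f1 V).toGCHom) (h3 : QI (V.pm ((SG π s hs).bβ (IG π s hs)))) : HD hV := by
  intro kt hk hd he hv
  have e : QI (gKH (ktOf kt hk he hd)) :=
    gKH_qi _ (RX π s hs) rfl (aG π s hs) (aG_qi π s hs) aL_L hv
  exact gD_qi kt hk he hd (n := n) (Sq.T_qi (S := SG π s hs) _ V h1 (f2_qi _ (SG π s hs) e) h3)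

/-- **`HD` from the leaves** (c), (d), (f) -/
theorem HD_of3 (hV : PV π s hs) {Y : RCells (WR π).dga} {n : ℤ} (V : VF Y (SG π s hs).M.toLM n)
    (h0 : QI (V.pm (SG π s hs).b0)) (h1 : QI (V.pm (SG π s hs).b1))
    (h3 : QI (V.pm ((SG π s hs).bβ (IG π s hs)))) : HD hV :=
  HD_of hV V (Sq.f1_qi V h0 h1) h3


end Crest.Agent.R186.HD186
end
end

-- ▼ part R186/DSq5_384

/-!
Row 186 (A), leaf A.FIN (helper384), part 5: the inputs of the square from exact cones
(`AcIff492.CE`), for the dual `FinV988.DR`.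
-/

set_option autoImplicit false
set_option linter.style.haveILetI false
set_option linter.unusedSectionVars false

open MulOpposite

namespace Crest.Agent.R186.DSq384

open Hat827 Hat827.DGA Frame515 TB143 Res255 Adapt186 ConeHyp462
open FinV988 (DR dev dev_d)
open FinD988 (DZc zev)
open AcIff492 (CE)

variable {K : Type} [Field K]

section res

variable {A0 : DGA K} {Y : RCells A0} {M : LM A0}

/-- the functionals of an augmented system of cells -/
noncomputable def VF.ofDR (R : RAug Y (DR M)) : VF Y M R.lo where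
  v κ := R.v κ
  v_mem κ l m hm hl := R.v_mem κ l m hm (by omega)
  v_d κ m := by
    have h := congrArg (dev M m) (R.v_d κ)
    rw [dev_d, map_sum] at h
    exact h

/-- `V.pm b` from an exact cone -/
theorem pm_qi_of_ce {n : ℤ} (V : VF Y M n) {N : LM A0} {R : GC K} (b : Pair N M R) (W : GC K)
    (e : (R.X →ₗ[K] K) ≃ₗ[K] W.X) (he : ∀ k φ, φ ∈ (DG R n).gr k ↔ e φ ∈ W.gr (n + k))
    (hd : ∀ φ, e ((DG R n).d φ) = W.d (e φ)) (F : (Y.ι →₀ N.X) →ₗ[K] W.X)
    (hF : ∀ κ x, F (Finsupp.single κ x) = e (V.pm1 b κ x))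
    (h : ∀ k, CE (tY Y N) W n k F) : QI (V.pm b) := by
  have hf : ∀ x : Y.ι →₀ N.X, e ((V.pm b).f x) = F x := by
    intro x
    have h1 : (e.toLinearMap ∘ₗ (Finsupp.lsum K fun κ => V.pm1 b κ) :
        (Y.ι →₀ N.X) →ₗ[K] W.X) = F := by
      refine Finsupp.lhom_ext fun κ x => ?_
      rw [LinearMap.comp_apply, Finsupp.lsum_single, hF]
      rfl
    exact LinearMap.congr_fun h1 x
  have htwo : ∀ x : Y.ι →₀ N.X, x + x = 0 := fun x => Finsupp.ext fun κ => by
    rw [Finsupp.add_apply, LM.two]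
    rfl
  refine ⟨fun k y hy hdy => ?_, fun k x hx hdx ⟨z, hz, e1⟩ => ?_⟩
  · obtain ⟨w, hw, n', hn', e2, e3⟩ := h k 0 (e y) (Submodule.zero_mem _) (map_zero _)
      ((he k y).1 hy) (by rw [map_zero, zero_add, ← hd, hdy, map_zero])
    refine ⟨w, hw, e2, e.symm n', (he (k + 1) _).2 ?_, ?_⟩
    · rw [LinearEquiv.apply_symm_apply]
      exact gr_cast (X := W) hn' (by ring)
    · apply e.injective
      rw [e3, ← hf]
      refine Eq.trans ?_ (map_add e _ _).symm
      rw [hd, LinearEquiv.apply_symm_apply]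
  · obtain ⟨w, hw, -, -, e2, -⟩ := h (k + 1) x (e z) (gr_cast (X := tY Y N) hx (by ring)) hdx
      ((he (k + 1) z).1 hz) (by
        rw [← hd]
        have e4 : e ((DG R n).d z) = F x := by rw [← hf]; exact (congrArg e e1).symm
        rw [e4, ← map_add, htwo, map_zero])
    exact ⟨w, hw, e2.symm⟩

variable {A : DGA K} (S : Sq A0 A)

/-- **(c)** for `DR` -/
theorem b0R_qi {Y : RCells A0} (R : RRes Y (DR S.M.toLM)) :
    QI ((VF.ofDR R.toRAug).pm S.b0) := by
  refine pm_qi_of_ce (VF.ofDR R.toRAug) S.b0 (DR S.M.toLM).toGC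
    (LinearEquiv.refl K (S.M.X →ₗ[K] K)) ?_ (fun φ => rfl) (augR Y (DR S.M.toLM) R.v) ?_ ?_
  · intro k φ
    constructor
    · intro h l z hz hl
      exact h l z hz (by omega)
    · intro h l z hz hl
      exact h l z hz (by omega)
  · intro κ a
    exact augR_single Y (DR S.M.toLM) R.v κ a
  · intro k x n h1 h2 h3 h4
    exact R.ex k x n h1 h2 h3 h4

/-- **(d)**: from 611's form of (c1) -/
theorem b1_qi_of {Y : RCells A0} (R : RAug Y (DR S.M.toLM))
    (h : ∀ k, CE (tY Y S.M.toLM) (DR (selfL A0)).toGC R.lo k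
      (C1P611.evD (Z := selfL A0) (C1Q611.paOf S.M R))) :
    QI ((VF.ofDR R).pm S.b1) := by
  refine pm_qi_of_ce (VF.ofDR R) S.b1 (DR (selfL A0)).toGC
    (LinearEquiv.refl K (A0.C →ₗ[K] K)) ?_ (fun φ => rfl)
    (C1P611.evD (Z := selfL A0) (C1Q611.paOf S.M R)) ?_ h
  · intro k φ
    constructor
    · intro h l z hz hl
      exact h l z hz (by omega)
    · intro h l z hz hl
      exact h l z hz (by omega)
  · intro κ m
    refine LinearMap.ext fun a => ?_
    exact C1Q611.evD_single S.M R κ m a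

variable {I : In A}


/-- **(f)**: from a cone over `GCd` of `H` -/
theorem bβ_qi_of' {Y : RCells A0} (R : RAug Y (DR S.M.toLM))
    (F : (Y.ι →₀ (S.KK0 I).X) →ₗ[K] (Dual560.GCd (HH I)).X)
    (hF : ∀ κ (y : I.Y) (z : I.Z), Dual560.ev (F (Finsupp.single κ (show (S.KK0 I).X from y))) z =
      dev S.M.toLM (S.ω (I.ev y z)) (R.v κ))
    (h : ∀ k, CE (tY Y (S.KK0 I)) (Dual560.GCd (HH I)) R.lo k F) :
    QI ((VF.ofDR R).pm (S.bβ I)) := by
  refine pm_qi_of_ce (VF.ofDR R) (S.bβ I) (Dual560.GCd (HH I))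
    (LinearEquiv.refl K (I.Z →ₗ[K] K)) ?_ (fun φ => rfl) F ?_ h
  · intro k φ
    constructor
    · intro h l hl z hz
      exact h l z hz (by omega)
    · intro h l z hz hl
      exact h l (by omega) z hz
  · intro κ m
    refine LinearMap.ext fun a => ?_
    exact hF κ m a

end res

end Crest.Agent.R186.DSq384
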