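import Mathlib

/-!
Row 186, S0281, THE CONCRETE BASE (helper128): 376's `T`, 448's independent relations
`x_i d_i = 1 + g d_i x_i`, 881's lattices, 275's parameter `s`, 870's Laurent operators.

* `Lau K` = Laurent polynomials `K[x₀^±¹, x₁^±¹]` (basis `ℤ × ℤ`), `Op K` its operators;
* `X i`, `D g i`, `cq g m = (g^(-m) - 1)/(g - 1)` (so `c 0 = 0`, `c (m-1) = 1 + g c m`);
* `Fil g k P` = operators of order `≤ k` and `P`-degree `P` (span of `x^α d^β`);
* vertices `Fin 5`: `0 = O(0)`, `1 = O(-1)`, `2 = O(-2)`, `3 = K₁(-s)`, `4 = K₂`;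
  row positions `Fin 7`: `0,1,2` for the line bundles, `3,4` for `K₁(-s)`, `5,6` for `K₂`;
* `Lat g s k P` = the rows (all vertices at once); `Pres g s P M` = the matrix `M` preserves
  the lattices with `P`-shift `P`;
* `A g s` = pairs `(M, N)`, `Pres 0 M`, `Pres 1 N`, as a subalgebra of the dual numbers;
* `V g s n` = columns in `K[x]_n`, `E g s n = V n × V (n+1)`.
-/

set_option autoImplicit false

open Matrix

namespace Crest.Agent.R186.B281

variable (K : Type) [Field K]

/-- Laurent polynomials in two variables -/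
abbrev Lau : Type := (ℤ × ℤ) →₀ K

/-- operators -/
abbrev Op : Type := Module.End K (Lau K)

variable {K}

/-- the unit vectors -/
def ev (i : Fin 2) : ℤ × ℤ := if i = 0 then (1, 0) else (0, 1)

/-- the coordinates -/
def co (i : Fin 2) (m : ℤ × ℤ) : ℤ := if i = 0 then m.1 else m.2

/-- the `q`-numbers: `c 0 = 0`, `c (m - 1) = 1 + g c m` -/
noncomputable def cq (g : K) (m : ℤ) : K := (g ^ (-m) - 1) / (g - 1)

/-- the parameter is not a root of unity -/
def Gen (g : K) : Prop := g ≠ 0 ∧ ∀ n : ℕ, 0 < n → g ^ n ≠ 1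

theorem Gen.ne {g : K} (h : Gen g) : g ≠ 0 := h.1

theorem Gen.sub {g : K} (h : Gen g) : g - 1 ≠ 0 := by
  have := h.2 1 one_pos
  rw [pow_one] at this
  exact sub_ne_zero.2 this

theorem Gen.inv {g : K} (h : Gen g) : Gen g⁻¹ :=
  ⟨inv_ne_zero h.1, fun n hn h1 => h.2 n hn (by rw [inv_pow, inv_eq_one] at h1; exact h1)⟩

theorem Gen.zpow {g : K} (h : Gen g) {m : ℤ} (hm : m ≠ 0) : g ^ m ≠ 1 := by
  intro h1
  rcases lt_or_gt_of_ne hm with h2 | h2
  · obtain ⟨n, rfl⟩ := Int.exists_eq_neg_ofNat h2.le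
    rw [_root_.zpow_neg, inv_eq_one, zpow_natCast] at h1
    exact h.2 n (by omega) h1
  · obtain ⟨n, rfl⟩ := Int.eq_ofNat_of_zero_le h2.le
    rw [zpow_natCast] at h1
    exact h.2 n (by omega) h1

theorem cq_zero (g : K) : cq g 0 = 0 := by simp [cq]

theorem cq_ne {g : K} (h : Gen g) {m : ℤ} (hm : m ≠ 0) : cq g m ≠ 0 := by
  unfold cq
  exact div_ne_zero (sub_ne_zero.2 (h.zpow (neg_ne_zero.2 hm))) h.sub

theorem cq_pred {g : K} (h : Gen g) (m : ℤ) : cq g (m - 1) = 1 + g * cq g m := by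
  unfold cq
  have h1 : g ^ (-(m - 1)) = g * g ^ (-m) := by
    rw [show -(m - 1) = 1 + -m by ring, zpow_add₀ h.1, zpow_one]
  rw [h1]
  field_simp [h.sub]
  ring

/-- multiplication by `x_i` -/
noncomputable def X (i : Fin 2) : Op K := Finsupp.lmapDomain K K (fun m => m + ev i)

/-- the operator `d_i` -/
noncomputable def D (g : K) (i : Fin 2) : Op K :=
  Finsupp.lsum K (fun m => cq g (co i m) • Finsupp.lsingle (m - ev i))

theorem X_single (i : Fin 2) (m : ℤ × ℤ) (a : K) :
    X i (Finsupp.single m a) = Finsupp.single (m + ev i) a := by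
  simp [X]

theorem D_single (g : K) (i : Fin 2) (m : ℤ × ℤ) (a : K) :
    D g i (Finsupp.single m a) = Finsupp.single (m - ev i) (cq g (co i m) * a) := by
  simp [D, Finsupp.smul_single]

theorem op_ext {S T : Op K} (h : ∀ m, S (Finsupp.single m 1) = T (Finsupp.single m 1)) : S = T := by
  refine Finsupp.lhom_ext' fun m => LinearMap.ext_ring ?_
  exact h m

theorem X_comm (i j : Fin 2) : (X i : Op K) * X j = X j * X i := by
  apply op_ext
  intro m
  simp only [Module.End.mul_apply, X_single]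
  congr 1
  ring_nf

theorem D_comm (g : K) (i j : Fin 2) : D g i * D g j = D g j * D g i := by
  apply op_ext
  intro m
  simp only [Module.End.mul_apply, D_single]
  fin_cases i <;> fin_cases j <;>
    simp [ev, co, sub_sub, add_comm, mul_comm]

theorem X_D (g : K) {i j : Fin 2} (h : i ≠ j) : (X i : Op K) * D g j = D g j * X i := by
  apply op_ext
  intro m
  simp only [Module.End.mul_apply, X_single, D_single]
  fin_cases i <;> fin_cases j <;> simp_all [ev, co] <;> rw [sub_add_eq_add_sub]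

/-- the relation `x_i d_i = 1 + g d_i x_i` -/
theorem X_D_self {g : K} (hg : Gen g) (i : Fin 2) :
    (X i : Op K) * D g i = 1 + g • (D g i * X i) := by
  apply op_ext
  intro m
  simp only [Module.End.mul_apply, X_single, D_single, LinearMap.add_apply, LinearMap.smul_apply,
    Module.End.one_apply, Finsupp.smul_single, sub_add_cancel, add_sub_cancel_right]
  rw [← Finsupp.single_add]
  congr 1
  have h1 : co i (m + ev i) = co i m + 1 := by fin_cases i <;> simp [co, ev]
  rw [h1]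
  have := cq_pred hg (co i m + 1)
  rw [add_sub_cancel_right] at this
  rw [this, smul_eq_mul, mul_one, mul_one]

/-! ### the pieces -/

/-- the monomial operator `x^a d^b` -/
noncomputable def mon (g : K) (a b : ℕ × ℕ) : Op K :=
  X 0 ^ a.1 * X 1 ^ a.2 * D g 0 ^ b.1 * D g 1 ^ b.2

/-- operators of order `≤ k` and `P`-degree `P` -/
noncomputable def Fil (g : K) (k P : ℤ) : Submodule K (Op K) :=
  Submodule.span K {T | ∃ a b : ℕ × ℕ, (b.1 : ℤ) + b.2 ≤ k ∧
    (a.1 : ℤ) + a.2 - (b.1 + b.2) = P ∧ T = mon g a b}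

/-- the rows: all five vertices at once; positions `0,1,2 | 3,4 | 5,6` for
`O(0), O(-1), O(-2) | K₁(-s) | K₂` -/
noncomputable def Lat (g : K) (s k P : ℤ) : Submodule K (Fin 7 → Op K) where
  carrier := {v | v 0 ∈ Fil g k P ∧ v 1 ∈ Fil g (k - 1) P ∧ v 2 ∈ Fil g (k - 2) P ∧
    (v 3 ∈ Fil g (k - s) P ∧ v 4 ∈ Fil g (k - s) P ∧
      v 3 * X 0 + v 4 * X 1 ∈ Fil g (k - s - 1) (P + 1)) ∧
    (v 5 ∈ Fil g k P ∧ v 6 ∈ Fil g k P ∧ v 5 * X 0 + v 6 * X 1 ∈ Fil g (k - 2) (P + 1))}
  zero_mem' := by simp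
  add_mem' := by
    rintro v w ⟨v0, v1, v2, ⟨v3, v4, v5⟩, v6, v7, v8⟩ ⟨w0, w1, w2, ⟨w3, w4, w5⟩, w6, w7, w8⟩
    refine ⟨add_mem v0 w0, add_mem v1 w1, add_mem v2 w2, ⟨add_mem v3 w3, add_mem v4 w4, ?_⟩,
      add_mem v6 w6, add_mem v7 w7, ?_⟩
    · have := add_mem v5 w5
      rwa [show v 3 * X 0 + v 4 * X 1 + (w 3 * X 0 + w 4 * X 1) =
        (v + w) 3 * X 0 + (v + w) 4 * X 1 by
          simp only [Pi.add_apply, add_mul]; abel] at this
    · have := add_mem v8 w8
      rwa [show v 5 * X 0 + v 6 * X 1 + (w 5 * X 0 + w 6 * X 1) =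
        (v + w) 5 * X 0 + (v + w) 6 * X 1 by
          simp only [Pi.add_apply, add_mul]; abel] at this
  smul_mem' := by
    rintro c v ⟨v0, v1, v2, ⟨v3, v4, v5⟩, v6, v7, v8⟩
    refine ⟨Submodule.smul_mem _ c v0, Submodule.smul_mem _ c v1, Submodule.smul_mem _ c v2,
      ⟨Submodule.smul_mem _ c v3, Submodule.smul_mem _ c v4, ?_⟩,
      Submodule.smul_mem _ c v6, Submodule.smul_mem _ c v7, ?_⟩
    · have := Submodule.smul_mem _ c v5
      rwa [show c • (v 3 * X 0 + v 4 * X 1) = (c • v) 3 * X 0 + (c • v) 4 * X 1 by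
        simp only [Pi.smul_apply, smul_add, smul_mul_assoc]] at this
    · have := Submodule.smul_mem _ c v8
      rwa [show c • (v 5 * X 0 + v 6 * X 1) = (c • v) 5 * X 0 + (c • v) 6 * X 1 by
        simp only [Pi.smul_apply, smul_add, smul_mul_assoc]] at this

/-- matrices of operators -/
abbrev Mat (K : Type) [Field K] : Type := Matrix (Fin 7) (Fin 7) (Op K)

/-- the matrix `M` maps the lattices into the lattices, with `P`-degree `e` (acting on rows
from the right) -/
def Pres (g : K) (s e : ℤ) (M : Mat K) : Prop :=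
  ∀ k P : ℤ, ∀ v ∈ Lat g s k P, v ᵥ* M ∈ Lat g s k (P + e)

theorem Pres.add {g : K} {s e : ℤ} {M N : Mat K} (hM : Pres g s e M) (hN : Pres g s e N) :
    Pres g s e (M + N) := fun k P v hv => by
  rw [Matrix.vecMul_add]
  exact add_mem (hM k P v hv) (hN k P v hv)

theorem Pres.mul {g : K} {s e e' : ℤ} {M N : Mat K} (hM : Pres g s e M) (hN : Pres g s e' N) :
    Pres g s (e + e') (M * N) := fun k P v hv => by
  rw [← Matrix.vecMul_vecMul, ← add_assoc]
  exact hN k _ _ (hM k P v hv)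

theorem Pres.zero (g : K) (s e : ℤ) : Pres g s e 0 := fun k P v _ => by
  rw [Matrix.vecMul_zero]
  exact zero_mem _

theorem Pres.one (g : K) (s : ℤ) : Pres g s 0 1 := fun k P v hv => by
  rw [Matrix.vecMul_one, add_zero]
  exact hv

theorem vecMul_smul' (c : K) (v : Fin 7 → Op K) (M : Mat K) :
    v ᵥ* (c • M) = c • (v ᵥ* M) := by
  funext j
  simp only [Matrix.vecMul, dotProduct, Matrix.smul_apply, Pi.smul_apply, mul_smul_comm,
    Finset.smul_sum]

theorem Pres.smul {g : K} {s e : ℤ} {M : Mat K} (c : K) (hM : Pres g s e M) :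
    Pres g s e (c • M) := fun k P v hv => by
  rw [vecMul_smul']
  exact Submodule.smul_mem _ _ (hM k P v hv)

/-- the algebra `A = B ⋉ F'`, dimension 259 for `s = 0, 1` -/
noncomputable def A (g : K) (s : ℤ) : Subalgebra K (DualNumber (Mat K)) where
  carrier := {x | Pres g s 0 x.fst ∧ Pres g s 1 x.snd}
  zero_mem' := ⟨Pres.zero g s 0, Pres.zero g s 1⟩
  one_mem' := ⟨Pres.one g s, Pres.zero g s 1⟩
  add_mem' := fun hx hy => ⟨hx.1.add hy.1, hx.2.add hy.2⟩
  mul_mem' := by
    intro x y hx hy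
    refine ⟨by simpa using hx.1.mul hy.1, ?_⟩
    rw [TrivSqZeroExt.snd_mul]
    refine Pres.add ?_ ?_
    · simpa using hx.1.mul hy.2
    · simpa using hx.2.mul hy.1
  algebraMap_mem' := by
    intro c
    rw [Algebra.algebraMap_eq_smul_one]
    refine ⟨?_, ?_⟩
    · rw [TrivSqZeroExt.fst_smul, TrivSqZeroExt.fst_one]
      exact (Pres.one g s).smul c
    · rw [TrivSqZeroExt.snd_smul, TrivSqZeroExt.snd_one, smul_zero]
      exact Pres.zero g s 1

/-! ### the modules -/

/-- the tautological action of matrices of operators on columns -/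
noncomputable def act (M : Mat K) (v : Fin 7 → Lau K) : Fin 7 → Lau K := fun i => ∑ j, M i j (v j)

theorem act_add (M : Mat K) (v w : Fin 7 → Lau K) : act M (v + w) = act M v + act M w := by
  funext i
  simp only [act, Pi.add_apply, map_add, Finset.sum_add_distrib]

theorem add_act (M N : Mat K) (v : Fin 7 → Lau K) : act (M + N) v = act M v + act N v := by
  funext i
  simp only [act, Pi.add_apply, Matrix.add_apply, LinearMap.add_apply, Finset.sum_add_distrib]

theorem mul_act (M N : Mat K) (v : Fin 7 → Lau K) : act (M * N) v = act M (act N v) := by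
  funext i
  simp only [act, Matrix.mul_apply, LinearMap.sum_apply, Module.End.mul_apply, map_sum]
  rw [Finset.sum_comm]

theorem one_act (v : Fin 7 → Lau K) : act (1 : Mat K) v = v := by
  funext i
  simp only [act, Matrix.one_apply]
  rw [Finset.sum_eq_single i]
  · simp
  · intro j _ hj
    rw [if_neg (Ne.symm hj)]
    rfl
  · intro h
    exact absurd (Finset.mem_univ i) h

theorem zero_act (v : Fin 7 → Lau K) : act (0 : Mat K) v = 0 := by
  funext i
  simp [act]

theorem act_zero (M : Mat K) : act M (0 : Fin 7 → Lau K) = 0 := by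
  funext i
  simp [act]

theorem smul_act (c : K) (M : Mat K) (v : Fin 7 → Lau K) : act (c • M) v = c • act M v := by
  funext i
  simp only [act, Pi.smul_apply, Matrix.smul_apply, LinearMap.smul_apply, Finset.smul_sum]


variable (K) in
/-- pairs of columns; `(M + N ε) • (v, w) = (M v, M w + N v)` -/
def Big : Type := (Fin 7 → Lau K) × (Fin 7 → Lau K)

noncomputable instance : AddCommGroup (Big K) :=
  inferInstanceAs (AddCommGroup ((Fin 7 → Lau K) × (Fin 7 → Lau K)))

noncomputable instance : Module K (Big K) :=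
  inferInstanceAs (Module K ((Fin 7 → Lau K) × (Fin 7 → Lau K)))

noncomputable instance : Module (DualNumber (Mat K)) (Big K) where
  smul x p := (act x.fst p.1, act x.fst p.2 + act x.snd p.1)
  one_smul p := by
    show (act (TrivSqZeroExt.fst 1) p.1, act (TrivSqZeroExt.fst 1) p.2 +
      act (TrivSqZeroExt.snd 1) p.1) = p
    rw [TrivSqZeroExt.fst_one, TrivSqZeroExt.snd_one, one_act, one_act, zero_act, add_zero]
    rfl
  mul_smul x y p := by
    show (act (TrivSqZeroExt.fst (x * y)) p.1, act (TrivSqZeroExt.fst (x * y)) p.2 +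
      act (TrivSqZeroExt.snd (x * y)) p.1) = (act x.fst (act y.fst p.1),
        act x.fst (act y.fst p.2 + act y.snd p.1) + act x.snd (act y.fst p.1))
    rw [TrivSqZeroExt.fst_mul, TrivSqZeroExt.snd_mul, mul_act, mul_act, add_act, act_add,
      smul_eq_mul, MulOpposite.smul_eq_mul_unop, MulOpposite.unop_op, mul_act, mul_act]
    congr 1
    abel
  smul_zero x := by
    show (act x.fst 0, act x.fst 0 + act x.snd 0) = ((0, 0) : (Fin 7 → Lau K) × (Fin 7 → Lau K))
    rw [act_zero, act_zero, add_zero]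
  smul_add x p q := by
    show (act x.fst (p.1 + q.1), act x.fst (p.2 + q.2) + act x.snd (p.1 + q.1)) =
      (act x.fst p.1 + act x.fst q.1,
        (act x.fst p.2 + act x.snd p.1) + (act x.fst q.2 + act x.snd q.1))
    rw [act_add, act_add, act_add]
    congr 1
    abel
  add_smul x y p := by
    show (act (x + y).fst p.1, act (x + y).fst p.2 + act (x + y).snd p.1) =
      (act x.fst p.1 + act y.fst p.1,
        (act x.fst p.2 + act x.snd p.1) + (act y.fst p.2 + act y.snd p.1))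
    rw [TrivSqZeroExt.fst_add, TrivSqZeroExt.snd_add, add_act, add_act, add_act]
    congr 1
    abel
  zero_smul p := by
    show (act (TrivSqZeroExt.fst 0) p.1, act (TrivSqZeroExt.fst 0) p.2 +
      act (TrivSqZeroExt.snd 0) p.1) = ((0, 0) : (Fin 7 → Lau K) × (Fin 7 → Lau K))
    rw [TrivSqZeroExt.fst_zero, TrivSqZeroExt.snd_zero, zero_act, zero_act, add_zero]




instance : IsScalarTower K (DualNumber (Mat K)) (Big K) where
  smul_assoc c x p := by
    show (act (c • x).fst p.1, act (c • x).fst p.2 + act (c • x).snd p.1) =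
      (c • act x.fst p.1, c • (act x.fst p.2 + act x.snd p.1))
    rw [TrivSqZeroExt.fst_smul, TrivSqZeroExt.snd_smul, smul_act, smul_act, smul_act, smul_add]

variable (K) in
/-- `K[x₀,x₁]_n` -/
noncomputable def Pol (n : ℤ) : Submodule K (Lau K) :=
  Finsupp.supported K K {m | 0 ≤ m.1 ∧ 0 ≤ m.2 ∧ m.1 + m.2 = n}

theorem X_Pol (i : Fin 2) {n : ℤ} {f : Lau K} (hf : f ∈ Pol K n) : X i f ∈ Pol K (n + 1) := by
  rw [Pol, Finsupp.supported_eq_span_single] at hf
  induction hf using Submodule.span_induction with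
  | mem x hx =>
    obtain ⟨m, ⟨h1, h2, h3⟩, rfl⟩ := hx
    rw [X_single]
    refine Finsupp.single_mem_supported K _ ?_
    fin_cases i <;> simp [ev] <;> omega
  | zero => rw [map_zero]; exact zero_mem _
  | add x y _ _ hx hy => rw [map_add]; exact add_mem hx hy
  | smul a x _ hx => rw [map_smul]; exact Submodule.smul_mem _ _ hx

theorem D_Pol (g : K) (i : Fin 2) {n : ℤ} {f : Lau K} (hf : f ∈ Pol K n) :
    D g i f ∈ Pol K (n - 1) := by
  rw [Pol, Finsupp.supported_eq_span_single] at hf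
  induction hf using Submodule.span_induction with
  | mem x hx =>
    obtain ⟨m, ⟨h1, h2, h3⟩, rfl⟩ := hx
    rw [D_single]
    by_cases h0 : co i m = 0
    · rw [h0, cq_zero, zero_mul, Finsupp.single_zero]
      exact zero_mem _
    · refine Finsupp.single_mem_supported K _ ?_
      fin_cases i <;> simp [ev, co] at h0 ⊢ <;> omega
  | zero => rw [map_zero]; exact zero_mem _
  | add x y _ _ hx hy => rw [map_add]; exact add_mem hx hy
  | smul a x _ hx => rw [map_smul]; exact Submodule.smul_mem _ _ hx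

theorem mon_Pol (g : K) (a b : ℕ × ℕ) {n : ℤ} {f : Lau K} (hf : f ∈ Pol K n) :
    mon g a b f ∈ Pol K (n + (a.1 + a.2) - (b.1 + b.2)) := by
  have hX : ∀ (i : Fin 2) (r : ℕ) (n : ℤ) (f : Lau K), f ∈ Pol K n →
      ((X i : Op K) ^ r) f ∈ Pol K (n + r) := by
    intro i r
    induction r with
    | zero => intro n f hf; simpa using hf
    | succ r ih =>
      intro n f hf
      rw [pow_succ, Module.End.mul_apply]
      have := ih _ _ (X_Pol i hf)
      rwa [show n + 1 + (r : ℤ) = n + ((r + 1 : ℕ) : ℤ) by push_cast; ring] at this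
  have hD : ∀ (i : Fin 2) (r : ℕ) (n : ℤ) (f : Lau K), f ∈ Pol K n →
      ((D g i : Op K) ^ r) f ∈ Pol K (n - r) := by
    intro i r
    induction r with
    | zero => intro n f hf; simpa using hf
    | succ r ih =>
      intro n f hf
      rw [pow_succ, Module.End.mul_apply]
      have := ih _ _ (D_Pol g i hf)
      rwa [show n - 1 - (r : ℤ) = n - ((r + 1 : ℕ) : ℤ) by push_cast; ring] at this
  unfold mon
  simp only [Module.End.mul_apply]
  have := hX 0 a.1 _ _ (hX 1 a.2 _ _ (hD 0 b.1 _ _ (hD 1 b.2 _ _ hf)))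
  rwa [show n - (b.2 : ℤ) - b.1 + a.2 + a.1 = n + (a.1 + a.2) - (b.1 + b.2) by ring] at this

/-- operators of degree `P` map `K[x]_n` to `K[x]_(n+P)` -/
theorem Fil_Pol {g : K} {k P n : ℤ} {T : Op K} (hT : T ∈ Fil g k P) {f : Lau K}
    (hf : f ∈ Pol K n) : T f ∈ Pol K (n + P) := by
  induction hT using Submodule.span_induction with
  | mem x hx =>
    obtain ⟨a, b, _, h2, rfl⟩ := hx
    have := mon_Pol g a b hf
    rwa [show n + ((a.1 : ℤ) + a.2) - (b.1 + b.2) = n + P by rw [← h2]; ring] at this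
  | zero => exact zero_mem _
  | add x y _ _ hx hy => exact add_mem hx hy
  | smul a x _ hx => exact Submodule.smul_mem _ a hx

theorem mon_mem (g : K) (a b : ℕ × ℕ) {k P : ℤ} (h1 : (b.1 : ℤ) + b.2 ≤ k)
    (h2 : (a.1 : ℤ) + a.2 - (b.1 + b.2) = P) : mon g a b ∈ Fil g k P :=
  Submodule.subset_span ⟨a, b, h1, h2, rfl⟩

theorem one_mem_Fil (g : K) {k : ℤ} (hk : 0 ≤ k) : (1 : Op K) ∈ Fil g k 0 := by
  have := mon_mem g (0, 0) (0, 0) (k := k) (P := 0) (by simpa using hk) (by simp)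
  simpa [mon] using this

theorem X_mem_Fil (g : K) (i : Fin 2) {k : ℤ} (hk : 0 ≤ k) : (X i : Op K) ∈ Fil g k 1 := by
  fin_cases i
  · have := mon_mem g (1, 0) (0, 0) (k := k) (P := 1) (by simpa using hk) (by simp)
    simpa [mon] using this
  · have := mon_mem g (0, 1) (0, 0) (k := k) (P := 1) (by simpa using hk) (by simp)
    simpa [mon] using this

theorem Fil_mono (g : K) {k l P : ℤ} (h : k ≤ l) : Fil g k P ≤ Fil g l P :=
  Submodule.span_mono fun _ ⟨a, b, h1, h2, h3⟩ => ⟨a, b, h1.trans h, h2, h3⟩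

/-- the standard rows -/
theorem std_mem (g : K) (s : ℤ) (i : Fin 7) :
    ∃ k : ℤ, (Pi.single i 1 : Fin 7 → Op K) ∈ Lat g s k 0 := by
  refine ⟨s ⊔ 0 + 2, ?_⟩
  have h1 : ∀ k : ℤ, 0 ≤ k → (1 : Op K) ∈ Fil g k 0 := fun k hk => one_mem_Fil g hk
  have h2 : ∀ (i : Fin 2) (k : ℤ), 0 ≤ k → (X i : Op K) ∈ Fil g k (0 + 1) :=
    fun i k hk => X_mem_Fil g i hk
  have h3 : (0 : ℤ) ≤ s ⊔ 0 := le_max_right _ _
  have h4 : s ≤ s ⊔ 0 := le_max_left _ _
  have hv : ∀ j : Fin 7, (Pi.single i 1 : Fin 7 → Op K) j = if j = i then 1 else 0 := fun j => by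
    rw [Pi.single_apply]
  have e1 : ∀ (j : Fin 7) (k : ℤ), 0 ≤ k → (Pi.single i 1 : Fin 7 → Op K) j ∈ Fil g k 0 := by
    intro j k hk
    rw [hv]
    split_ifs
    · exact h1 k hk
    · exact zero_mem _
  have e2 : ∀ (j : Fin 7) (l : Fin 2) (k : ℤ), 0 ≤ k →
      (Pi.single i 1 : Fin 7 → Op K) j * X l ∈ Fil g k (0 + 1) := by
    intro j l k hk
    rw [hv]
    split_ifs
    · rw [one_mul]; exact h2 l k hk
    · rw [zero_mul]; exact zero_mem _
  exact ⟨e1 _ _ (by omega), e1 _ _ (by omega), e1 _ _ (by omega),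
    ⟨e1 _ _ (by omega), e1 _ _ (by omega), add_mem (e2 _ _ _ (by omega)) (e2 _ _ _ (by omega))⟩,
    e1 _ _ (by omega), e1 _ _ (by omega), add_mem (e2 _ _ _ (by omega)) (e2 _ _ _ (by omega))⟩

theorem Pres.entry {g : K} {s e : ℤ} {M : Mat K} (hM : Pres g s e M) (i j : Fin 7) :
    ∃ k : ℤ, M i j ∈ Fil g k e := by
  obtain ⟨k, hk⟩ := std_mem g s i
  have h := hM k 0 _ hk
  rw [Matrix.single_one_vecMul, zero_add] at h
  obtain ⟨v0, v1, v2, ⟨v3, v4, v5⟩, v6, v7, v8⟩ := h
  fin_cases j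
  exacts [⟨_, v0⟩, ⟨_, v1⟩, ⟨_, v2⟩, ⟨_, v3⟩, ⟨_, v4⟩, ⟨_, v6⟩, ⟨_, v7⟩]

theorem act_Pol {g : K} {s e : ℤ} {M : Mat K} (hM : Pres g s e M) {n : ℤ} {v : Fin 7 → Lau K}
    (hv : ∀ i, v i ∈ Pol K n) (i : Fin 7) : act M v i ∈ Pol K (n + e) := by
  refine Submodule.sum_mem _ fun j _ => ?_
  obtain ⟨k, hk⟩ := hM.entry i j
  exact Fil_Pol hk (hv j)

/-- the chain modules `V n` (only `n ≥ 0` is nonzero) -/
noncomputable def V (g : K) (s : ℤ) (n : ℤ) : Submodule (A g s) (Big K) where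
  carrier := {p | p.1 = 0 ∧ ∀ i, p.2 i ∈ Pol K n}
  zero_mem' := ⟨rfl, fun _ => zero_mem _⟩
  add_mem' := by
    rintro p q ⟨p1, p2⟩ ⟨q1, q2⟩
    refine ⟨?_, fun i => add_mem (p2 i) (q2 i)⟩
    show p.1 + q.1 = 0
    rw [p1, q1, add_zero]
  smul_mem' := by
    rintro ⟨x, hx⟩ p ⟨p1, p2⟩
    refine ⟨?_, ?_⟩
    · show act x.fst p.1 = 0
      rw [p1, act_zero]
    · intro i
      show (act x.fst p.2 + act x.snd p.1) i ∈ _
      rw [p1, act_zero, add_zero]
      have := act_Pol hx.1 p2 i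
      rwa [add_zero] at this

/-- the induced modules `E n = A ⊗_B V n` -/
noncomputable def E (g : K) (s : ℤ) (n : ℤ) : Submodule (A g s) (Big K) where
  carrier := {p | (∀ i, p.1 i ∈ Pol K n) ∧ ∀ i, p.2 i ∈ Pol K (n + 1)}
  zero_mem' := ⟨fun _ => zero_mem _, fun _ => zero_mem _⟩
  add_mem' := by
    rintro p q ⟨p1, p2⟩ ⟨q1, q2⟩
    exact ⟨fun i => add_mem (p1 i) (q1 i), fun i => add_mem (p2 i) (q2 i)⟩
  smul_mem' := by
    rintro ⟨x, hx⟩ p ⟨p1, p2⟩
    refine ⟨?_, ?_⟩
    · intro i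
      show act x.fst p.1 i ∈ _
      have := act_Pol hx.1 p1 i
      rwa [add_zero] at this
    · intro i
      show (act x.fst p.2 + act x.snd p.1) i ∈ _
      have h1 := act_Pol hx.1 p2 i
      rw [add_zero] at h1
      exact add_mem h1 (act_Pol hx.2 p1 i)

/-- `V (n+1) → E n` -/
noncomputable def iota (g : K) (s : ℤ) (n : ℤ) : V g s (n + 1) →ₗ[A g s] E g s n :=
  Submodule.inclusion (fun p hp => ⟨fun i => by rw [hp.1]; exact zero_mem _, hp.2⟩)

/-- `E n → V n` -/
noncomputable def proj (g : K) (s : ℤ) (n : ℤ) : E g s n →ₗ[A g s] V g s n where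
  toFun p := ⟨((0 : Fin 7 → Lau K), p.1.1), rfl, p.2.1⟩
  map_add' p q := by
    apply Subtype.ext
    show (((0 : Fin 7 → Lau K), p.1.1 + q.1.1) : Big K) = (0 + 0, p.1.1 + q.1.1)
    rw [add_zero]
  map_smul' x p := by
    apply Subtype.ext
    show (((0 : Fin 7 → Lau K), act x.1.fst p.1.1) : Big K) =
      (act x.1.fst 0, act x.1.fst p.1.1 + act x.1.snd 0)
    rw [act_zero, act_zero, add_zero]

theorem iota_inj (g : K) (s n : ℤ) : Function.Injective (iota g s n) :=
  Submodule.inclusion_injective _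

theorem proj_surj (g : K) (s n : ℤ) : Function.Surjective (proj g s n) := by
  rintro ⟨p, hp1, hp2⟩
  refine ⟨⟨((p.2 : Fin 7 → Lau K), (0 : Fin 7 → Lau K)), hp2, fun _ => zero_mem _⟩, ?_⟩
  apply Subtype.ext
  show (((0 : Fin 7 → Lau K), p.2) : Big K) = p
  rw [← hp1]
  rfl

theorem iota_proj (g : K) (s n : ℤ) : Function.Exact (iota g s n) (proj g s n) := by
  rintro ⟨p, hp1, hp2⟩
  constructor
  · intro h
    have h1 : p.1 = 0 := congrArg (fun q : V g s n => q.1.2) h
    exact ⟨⟨p, h1, hp2⟩, rfl⟩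
  · rintro ⟨q, hq⟩
    have h1 : p.1 = 0 := by
      rw [← congrArg (fun q : E g s n => q.1.1) hq]
      exact q.2.1
    apply Subtype.ext
    show (((0 : Fin 7 → Lau K), p.1) : Big K) = 0
    rw [h1]
    rfl

end Crest.Agent.R186.B281
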