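import Mathlib
import Crest.Agent.R186.DefsQ_830

/-!
Row 186, leaf R2 (helper580): the differential `D π` of the strict dg algebra `R π` of `DefsQ_830`:
a `K`-linear derivation (characteristic two, no signs) with the prescribed values on the letters,
`D ∘ D = 0`, homogeneous of tri-degree `(0, 0, -1)` in `(P, A, C)` (`C` = minus cohomological degree).
Also: all rewriting rules of `R π` in normalised form (`r_*`, and `t_*` with a tail).
-/

set_option autoImplicit false

namespace Crest.Agent.R186.Der580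

open DefsQ830 DefsQ830.Gen

variable {K : Type} [Field K] (π : Par K)

/-! ### rewriting rules in `R π` -/

theorem r_h_x (i : Fin 2) : X π (x i) * X π h = X π h * X π (x i) := by
  simpa only [map_mul, map_add, map_smul, map_zero, mk_L] using (mk_rel π (Rel.hc (x i))).symm

theorem t_h_x (i : Fin 2) (w : R π) : X π (x i) * (X π h * w) = (X π h * X π (x i)) * w := by
  rw [← mul_assoc, r_h_x]

theorem r_h_d (j : Fin 2) : X π (d j) * X π h = X π h * X π (d j) := by
  simpa only [map_mul, map_add, map_smul, map_zero, mk_L] using (mk_rel π (Rel.hc (d j))).symm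

theorem t_h_d (j : Fin 2) (w : R π) : X π (d j) * (X π h * w) = (X π h * X π (d j)) * w := by
  rw [← mul_assoc, r_h_d]

theorem r_h_f  : X π f * X π h = X π h * X π f := by
  simpa only [map_mul, map_add, map_smul, map_zero, mk_L] using (mk_rel π (Rel.hc (f))).symm

theorem t_h_f  (w : R π) : X π f * (X π h * w) = (X π h * X π f) * w := by
  rw [← mul_assoc, r_h_f]

theorem r_h_z (j : Fin 2) : X π (z j) * X π h = X π h * X π (z j) := by
  simpa only [map_mul, map_add, map_smul, map_zero, mk_L] using (mk_rel π (Rel.hc (z j))).symm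

theorem t_h_z (j : Fin 2) (w : R π) : X π (z j) * (X π h * w) = (X π h * X π (z j)) * w := by
  rw [← mul_assoc, r_h_z]

theorem r_h_zc  : X π zc * X π h = X π h * X π zc := by
  simpa only [map_mul, map_add, map_smul, map_zero, mk_L] using (mk_rel π (Rel.hc (zc))).symm

theorem t_h_zc  (w : R π) : X π zc * (X π h * w) = (X π h * X π zc) * w := by
  rw [← mul_assoc, r_h_zc]

theorem r_h_u (s : Fin 2) : X π (u s) * X π h = X π h * X π (u s) := by
  simpa only [map_mul, map_add, map_smul, map_zero, mk_L] using (mk_rel π (Rel.hc (u s))).symm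

theorem t_h_u (s : Fin 2) (w : R π) : X π (u s) * (X π h * w) = (X π h * X π (u s)) * w := by
  rw [← mul_assoc, r_h_u]

theorem r_h_e (j : Fin 2) : X π (e j) * X π h = X π h * X π (e j) := by
  simpa only [map_mul, map_add, map_smul, map_zero, mk_L] using (mk_rel π (Rel.hc (e j))).symm

theorem t_h_e (j : Fin 2) (w : R π) : X π (e j) * (X π h * w) = (X π h * X π (e j)) * w := by
  rw [← mul_assoc, r_h_e]

theorem r_h_gj (j : Fin 2) : X π (gj j) * X π h = X π h * X π (gj j) := by
  simpa only [map_mul, map_add, map_smul, map_zero, mk_L] using (mk_rel π (Rel.hc (gj j))).symm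

theorem t_h_gj (j : Fin 2) (w : R π) : X π (gj j) * (X π h * w) = (X π h * X π (gj j)) * w := by
  rw [← mul_assoc, r_h_gj]

theorem r_h_gc  : X π gc * X π h = X π h * X π gc := by
  simpa only [map_mul, map_add, map_smul, map_zero, mk_L] using (mk_rel π (Rel.hc (gc))).symm

theorem t_h_gc  (w : R π) : X π gc * (X π h * w) = (X π h * X π gc) * w := by
  rw [← mul_assoc, r_h_gc]

theorem r_h_v (s : Fin 2) : X π (v s) * X π h = X π h * X π (v s) := by
  simpa only [map_mul, map_add, map_smul, map_zero, mk_L] using (mk_rel π (Rel.hc (v s))).symm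

theorem t_h_v (s : Fin 2) (w : R π) : X π (v s) * (X π h * w) = (X π h * X π (v s)) * w := by
  rw [← mul_assoc, r_h_v]

theorem r_h_y (s : Fin 2) : X π (y s) * X π h = X π h * X π (y s) := by
  simpa only [map_mul, map_add, map_smul, map_zero, mk_L] using (mk_rel π (Rel.hc (y s))).symm

theorem t_h_y (s : Fin 2) (w : R π) : X π (y s) * (X π h * w) = (X π h * X π (y s)) * w := by
  rw [← mul_assoc, r_h_y]

theorem r_h_yb (s : Fin 2) : X π (yb s) * X π h = X π h * X π (yb s) := by
  simpa only [map_mul, map_add, map_smul, map_zero, mk_L] using (mk_rel π (Rel.hc (yb s))).symm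

theorem t_h_yb (s : Fin 2) (w : R π) : X π (yb s) * (X π h * w) = (X π h * X π (yb s)) * w := by
  rw [← mul_assoc, r_h_yb]

theorem r_xx  : X π (x 1) * X π (x 0) = X π (x 0) * X π (x 1) := by
  simpa only [map_mul, map_add, map_smul, map_zero, mk_L] using (mk_rel π Rel.xx).symm

theorem t_xx  (w : R π) : X π (x 1) * (X π (x 0) * w) = (X π (x 0) * X π (x 1)) * w := by
  rw [← mul_assoc, r_xx]

theorem r_x0d0  : X π (x 0) * X π (d 0) = X π h + π.g • (X π (d 0) * X π (x 0)) := by
  simpa only [map_mul, map_add, map_smul, map_zero, mk_L] using mk_rel π Rel.x0d0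

theorem t_x0d0  (w : R π) : X π (x 0) * (X π (d 0) * w) = (X π h + π.g • (X π (d 0) * X π (x 0))) * w := by
  rw [← mul_assoc, r_x0d0]

theorem r_x0d1  : X π (x 0) * X π (d 1) = π.g • (X π (d 1) * X π (x 0)) := by
  simpa only [map_mul, map_add, map_smul, map_zero, mk_L] using mk_rel π Rel.x0d1

theorem t_x0d1  (w : R π) : X π (x 0) * (X π (d 1) * w) = (π.g • (X π (d 1) * X π (x 0))) * w := by
  rw [← mul_assoc, r_x0d1]

theorem r_x1d0  : X π (x 1) * X π (d 0) = X π (d 0) * X π (x 1) := by
  simpa only [map_mul, map_add, map_smul, map_zero, mk_L] using mk_rel π Rel.x1d0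

theorem t_x1d0  (w : R π) : X π (x 1) * (X π (d 0) * w) = (X π (d 0) * X π (x 1)) * w := by
  rw [← mul_assoc, r_x1d0]

theorem r_x1d1  : X π (x 1) * X π (d 1) = X π h + π.g • (X π (d 1) * X π (x 1)) + (π.g - 1) • (X π (d 0) * X π (x 0)) := by
  simpa only [map_mul, map_add, map_smul, map_zero, mk_L] using mk_rel π Rel.x1d1

theorem t_x1d1  (w : R π) : X π (x 1) * (X π (d 1) * w) = (X π h + π.g • (X π (d 1) * X π (x 1)) + (π.g - 1) • (X π (d 0) * X π (x 0))) * w := by
  rw [← mul_assoc, r_x1d1]

theorem r_xf (i : Fin 2) : X π (x i) * X π f = (π.c i) • (X π f * X π (x i)) := by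
  simpa only [map_mul, map_add, map_smul, map_zero, mk_L] using mk_rel π (Rel.xf i)

theorem t_xf (i : Fin 2) (w : R π) : X π (x i) * (X π f * w) = ((π.c i) • (X π f * X π (x i))) * w := by
  rw [← mul_assoc, r_xf]

theorem r_xz (i j : Fin 2) : X π (x i) * X π (z j) = (π.c i) • (X π (z j) * X π (x i)) := by
  simpa only [map_mul, map_add, map_smul, map_zero, mk_L] using mk_rel π (Rel.xz i j)

theorem t_xz (i j : Fin 2) (w : R π) : X π (x i) * (X π (z j) * w) = ((π.c i) • (X π (z j) * X π (x i))) * w := by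
  rw [← mul_assoc, r_xz]

theorem r_xzc (i : Fin 2) : X π (x i) * X π zc = (π.c i) • (X π zc * X π (x i)) := by
  simpa only [map_mul, map_add, map_smul, map_zero, mk_L] using mk_rel π (Rel.xzc i)

theorem t_xzc (i : Fin 2) (w : R π) : X π (x i) * (X π zc * w) = ((π.c i) • (X π zc * X π (x i))) * w := by
  rw [← mul_assoc, r_xzc]

theorem r_xu (i s : Fin 2) : X π (x i) * X π (u s) = (π.c i) • (X π (u s) * X π (x i)) := by
  simpa only [map_mul, map_add, map_smul, map_zero, mk_L] using mk_rel π (Rel.xu i s)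

theorem t_xu (i s : Fin 2) (w : R π) : X π (x i) * (X π (u s) * w) = ((π.c i) • (X π (u s) * X π (x i))) * w := by
  rw [← mul_assoc, r_xu]

theorem r_x0e (j : Fin 2) : X π (x 0) * X π (e j) = (π.g ^ 3) • (X π (e j) * X π (x 0)) := by
  simpa only [map_mul, map_add, map_smul, map_zero, mk_L] using mk_rel π (Rel.x0e j)

theorem t_x0e (j : Fin 2) (w : R π) : X π (x 0) * (X π (e j) * w) = ((π.g ^ 3) • (X π (e j) * X π (x 0))) * w := by
  rw [← mul_assoc, r_x0e]

theorem r_x1e0  : X π (x 1) * X π (e 0) = π.g • (X π (e 0) * X π (x 1)) := by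
  simpa only [map_mul, map_add, map_smul, map_zero, mk_L] using mk_rel π Rel.x1e0

theorem t_x1e0  (w : R π) : X π (x 1) * (X π (e 0) * w) = (π.g • (X π (e 0) * X π (x 1))) * w := by
  rw [← mul_assoc, r_x1e0]

theorem r_x1e1  : X π (x 1) * X π (e 1) = π.g ^ 2 • (X π (e 1) * X π (x 1)) + (π.g * (π.g - 1)) • (X π (e 0) * X π (x 0)) := by
  simpa only [map_mul, map_add, map_smul, map_zero, mk_L] using mk_rel π Rel.x1e1

theorem t_x1e1  (w : R π) : X π (x 1) * (X π (e 1) * w) = (π.g ^ 2 • (X π (e 1) * X π (x 1)) + (π.g * (π.g - 1)) • (X π (e 0) * X π (x 0))) * w := by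
  rw [← mul_assoc, r_x1e1]

theorem r_xgj (i j : Fin 2) : X π (x i) * X π (gj j) = (π.c i ^ 2) • (X π (gj j) * X π (x i)) := by
  simpa only [map_mul, map_add, map_smul, map_zero, mk_L] using mk_rel π (Rel.xgj i j)

theorem t_xgj (i j : Fin 2) (w : R π) : X π (x i) * (X π (gj j) * w) = ((π.c i ^ 2) • (X π (gj j) * X π (x i))) * w := by
  rw [← mul_assoc, r_xgj]

theorem r_xgc (i : Fin 2) : X π (x i) * X π gc = (π.c i ^ 2) • (X π gc * X π (x i)) := by
  simpa only [map_mul, map_add, map_smul, map_zero, mk_L] using mk_rel π (Rel.xgc i)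

theorem t_xgc (i : Fin 2) (w : R π) : X π (x i) * (X π gc * w) = ((π.c i ^ 2) • (X π gc * X π (x i))) * w := by
  rw [← mul_assoc, r_xgc]

theorem r_xv (i s : Fin 2) : X π (x i) * X π (v s) = (π.g * π.c i) • (X π (v s) * X π (x i)) := by
  simpa only [map_mul, map_add, map_smul, map_zero, mk_L] using mk_rel π (Rel.xv i s)

theorem t_xv (i s : Fin 2) (w : R π) : X π (x i) * (X π (v s) * w) = ((π.g * π.c i) • (X π (v s) * X π (x i))) * w := by
  rw [← mul_assoc, r_xv]

theorem r_xy (i s : Fin 2) : X π (x i) * X π (y s) = (π.c i) • (X π (y s) * X π (x i)) := by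
  simpa only [map_mul, map_add, map_smul, map_zero, mk_L] using mk_rel π (Rel.xy i s)

theorem t_xy (i s : Fin 2) (w : R π) : X π (x i) * (X π (y s) * w) = ((π.c i) • (X π (y s) * X π (x i))) * w := by
  rw [← mul_assoc, r_xy]

theorem r_xyb (i s : Fin 2) : X π (x i) * X π (yb s) = (π.c i) • (X π (yb s) * X π (x i)) := by
  simpa only [map_mul, map_add, map_smul, map_zero, mk_L] using mk_rel π (Rel.xyb i s)

theorem t_xyb (i s : Fin 2) (w : R π) : X π (x i) * (X π (yb s) * w) = ((π.c i) • (X π (yb s) * X π (x i))) * w := by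
  rw [← mul_assoc, r_xyb]

theorem r_yd (j s : Fin 2) : X π (y s) * X π (d j) = π.c j • (X π (d j) * X π (y s)) := by
  simpa only [map_mul, map_add, map_smul, map_zero, mk_L] using mk_rel π (Rel.yd j s)

theorem t_yd (j s : Fin 2) (w : R π) : X π (y s) * (X π (d j) * w) = (π.c j • (X π (d j) * X π (y s))) * w := by
  rw [← mul_assoc, r_yd]

theorem r_ye (j s : Fin 2) : X π (y s) * X π (e j) = π.c j • (X π (e j) * X π (y s)) := by
  simpa only [map_mul, map_add, map_smul, map_zero, mk_L] using mk_rel π (Rel.ye j s)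

theorem t_ye (j s : Fin 2) (w : R π) : X π (y s) * (X π (e j) * w) = (π.c j • (X π (e j) * X π (y s))) * w := by
  rw [← mul_assoc, r_ye]

theorem r_yz (j s : Fin 2) : X π (y s) * X π (z j) = π.cz j • (X π (z j) * X π (y s)) := by
  simpa only [map_mul, map_add, map_smul, map_zero, mk_L] using mk_rel π (Rel.yz j s)

theorem t_yz (j s : Fin 2) (w : R π) : X π (y s) * (X π (z j) * w) = (π.cz j • (X π (z j) * X π (y s))) * w := by
  rw [← mul_assoc, r_yz]

theorem r_ygj (j s : Fin 2) : X π (y s) * X π (gj j) = π.cz j • (X π (gj j) * X π (y s)) := by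
  simpa only [map_mul, map_add, map_smul, map_zero, mk_L] using mk_rel π (Rel.ygj j s)

theorem t_ygj (j s : Fin 2) (w : R π) : X π (y s) * (X π (gj j) * w) = (π.cz j • (X π (gj j) * X π (y s))) * w := by
  rw [← mul_assoc, r_ygj]

theorem r_yf (s : Fin 2) : X π (y s) * X π f = X π f * X π (y s) := by
  simpa only [map_mul, map_add, map_smul, map_zero, mk_L] using mk_rel π (Rel.yf s)

theorem t_yf (s : Fin 2) (w : R π) : X π (y s) * (X π f * w) = (X π f * X π (y s)) * w := by
  rw [← mul_assoc, r_yf]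

theorem r_yzc (s : Fin 2) : X π (y s) * X π zc = X π zc * X π (y s) := by
  simpa only [map_mul, map_add, map_smul, map_zero, mk_L] using mk_rel π (Rel.yzc s)

theorem t_yzc (s : Fin 2) (w : R π) : X π (y s) * (X π zc * w) = (X π zc * X π (y s)) * w := by
  rw [← mul_assoc, r_yzc]

theorem r_ygc (s : Fin 2) : X π (y s) * X π gc = X π gc * X π (y s) := by
  simpa only [map_mul, map_add, map_smul, map_zero, mk_L] using mk_rel π (Rel.ygc s)

theorem t_ygc (s : Fin 2) (w : R π) : X π (y s) * (X π gc * w) = (X π gc * X π (y s)) * w := by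
  rw [← mul_assoc, r_ygc]

theorem r_yu (s t : Fin 2) : X π (y s) * X π (u t) = sg (π.chiy s) t • (X π (u t) * X π (y s)) := by
  simpa only [map_mul, map_add, map_smul, map_zero, mk_L] using mk_rel π (Rel.yu s t)

theorem t_yu (s t : Fin 2) (w : R π) : X π (y s) * (X π (u t) * w) = (sg (π.chiy s) t • (X π (u t) * X π (y s))) * w := by
  rw [← mul_assoc, r_yu]

theorem r_yv (s t : Fin 2) : X π (y s) * X π (v t) = sg (π.chiy s) t • (X π (v t) * X π (y s)) := by
  simpa only [map_mul, map_add, map_smul, map_zero, mk_L] using mk_rel π (Rel.yv s t)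

theorem t_yv (s t : Fin 2) (w : R π) : X π (y s) * (X π (v t) * w) = (sg (π.chiy s) t • (X π (v t) * X π (y s))) * w := by
  rw [← mul_assoc, r_yv]

theorem r_ybd (j s : Fin 2) : X π (yb s) * X π (d j) = π.c j • (X π (d j) * X π (yb s)) := by
  simpa only [map_mul, map_add, map_smul, map_zero, mk_L] using mk_rel π (Rel.ybd j s)

theorem t_ybd (j s : Fin 2) (w : R π) : X π (yb s) * (X π (d j) * w) = (π.c j • (X π (d j) * X π (yb s))) * w := by
  rw [← mul_assoc, r_ybd]

theorem r_ybe (j s : Fin 2) : X π (yb s) * X π (e j) = π.c j • (X π (e j) * X π (yb s)) := by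
  simpa only [map_mul, map_add, map_smul, map_zero, mk_L] using mk_rel π (Rel.ybe j s)

theorem t_ybe (j s : Fin 2) (w : R π) : X π (yb s) * (X π (e j) * w) = (π.c j • (X π (e j) * X π (yb s))) * w := by
  rw [← mul_assoc, r_ybe]

theorem r_ybz (j s : Fin 2) : X π (yb s) * X π (z j) = π.cz j • (X π (z j) * X π (yb s)) := by
  simpa only [map_mul, map_add, map_smul, map_zero, mk_L] using mk_rel π (Rel.ybz j s)

theorem t_ybz (j s : Fin 2) (w : R π) : X π (yb s) * (X π (z j) * w) = (π.cz j • (X π (z j) * X π (yb s))) * w := by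
  rw [← mul_assoc, r_ybz]

theorem r_ybgj (j s : Fin 2) : X π (yb s) * X π (gj j) = π.cz j • (X π (gj j) * X π (yb s)) := by
  simpa only [map_mul, map_add, map_smul, map_zero, mk_L] using mk_rel π (Rel.ybgj j s)

theorem t_ybgj (j s : Fin 2) (w : R π) : X π (yb s) * (X π (gj j) * w) = (π.cz j • (X π (gj j) * X π (yb s))) * w := by
  rw [← mul_assoc, r_ybgj]

theorem r_ybf (s : Fin 2) : X π (yb s) * X π f = X π f * X π (yb s) := by
  simpa only [map_mul, map_add, map_smul, map_zero, mk_L] using mk_rel π (Rel.ybf s)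

theorem t_ybf (s : Fin 2) (w : R π) : X π (yb s) * (X π f * w) = (X π f * X π (yb s)) * w := by
  rw [← mul_assoc, r_ybf]

theorem r_ybzc (s : Fin 2) : X π (yb s) * X π zc = X π zc * X π (yb s) := by
  simpa only [map_mul, map_add, map_smul, map_zero, mk_L] using mk_rel π (Rel.ybzc s)

theorem t_ybzc (s : Fin 2) (w : R π) : X π (yb s) * (X π zc * w) = (X π zc * X π (yb s)) * w := by
  rw [← mul_assoc, r_ybzc]

theorem r_ybgc (s : Fin 2) : X π (yb s) * X π gc = X π gc * X π (yb s) := by
  simpa only [map_mul, map_add, map_smul, map_zero, mk_L] using mk_rel π (Rel.ybgc s)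

theorem t_ybgc (s : Fin 2) (w : R π) : X π (yb s) * (X π gc * w) = (X π gc * X π (yb s)) * w := by
  rw [← mul_assoc, r_ybgc]

theorem r_ybu (s t : Fin 2) : X π (yb s) * X π (u t) = sg (π.chiyb s) t • (X π (u t) * X π (yb s)) := by
  simpa only [map_mul, map_add, map_smul, map_zero, mk_L] using mk_rel π (Rel.ybu s t)

theorem t_ybu (s t : Fin 2) (w : R π) : X π (yb s) * (X π (u t) * w) = (sg (π.chiyb s) t • (X π (u t) * X π (yb s))) * w := by
  rw [← mul_assoc, r_ybu]

theorem r_ybv (s t : Fin 2) : X π (yb s) * X π (v t) = sg (π.chiyb s) t • (X π (v t) * X π (yb s)) := by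
  simpa only [map_mul, map_add, map_smul, map_zero, mk_L] using mk_rel π (Rel.ybv s t)

theorem t_ybv (s t : Fin 2) (w : R π) : X π (yb s) * (X π (v t) * w) = (sg (π.chiyb s) t • (X π (v t) * X π (yb s))) * w := by
  rw [← mul_assoc, r_ybv]

theorem r_yy (s : Fin 2) : X π (y s) * X π (y s) = 0 := by
  simpa only [map_mul, map_add, map_smul, map_zero, mk_L] using mk_rel π (Rel.yy s)

theorem t_yy (s : Fin 2) (w : R π) : X π (y s) * (X π (y s) * w) = (0) * w := by
  rw [← mul_assoc, r_yy]

theorem r_y10  : X π (y 1) * X π (y 0) = π.p • (X π (y 0) * X π (y 1)) := by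
  simpa only [map_mul, map_add, map_smul, map_zero, mk_L] using mk_rel π Rel.y10

theorem t_y10  (w : R π) : X π (y 1) * (X π (y 0) * w) = (π.p • (X π (y 0) * X π (y 1))) * w := by
  rw [← mul_assoc, r_y10]

theorem r_yyb (s t : Fin 2) : X π (y s) * X π (yb t) = 0 := by
  simpa only [map_mul, map_add, map_smul, map_zero, mk_L] using mk_rel π (Rel.yyb s t)

theorem t_yyb (s t : Fin 2) (w : R π) : X π (y s) * (X π (yb t) * w) = (0) * w := by
  rw [← mul_assoc, r_yyb]

theorem r_yby (s t : Fin 2) : X π (yb s) * X π (y t) = 0 := by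
  simpa only [map_mul, map_add, map_smul, map_zero, mk_L] using mk_rel π (Rel.yby s t)

theorem t_yby (s t : Fin 2) (w : R π) : X π (yb s) * (X π (y t) * w) = (0) * w := by
  rw [← mul_assoc, r_yby]

theorem r_ybyb (s t : Fin 2) : X π (yb s) * X π (yb t) = 0 := by
  simpa only [map_mul, map_add, map_smul, map_zero, mk_L] using mk_rel π (Rel.ybyb s t)

theorem t_ybyb (s t : Fin 2) (w : R π) : X π (yb s) * (X π (yb t) * w) = (0) * w := by
  rw [← mul_assoc, r_ybyb]

/-! ### scalars -/

theorem c_zero : π.c 0 = π.g ^ 2 := by simp [Par.c]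
theorem c_one : π.c 1 = π.g := by simp [Par.c]
theorem cz_zero : π.cz 0 = π.g := by simp [Par.cz]
theorem cz_one : π.cz 1 = π.g ^ 2 := by simp [Par.cz]
theorem sg_zero (a : K) : sg a 0 = a := by simp [sg]
theorem sg_one (a : K) : sg a 1 = a⁻¹ := by simp [sg]
theorem chiy_def (s : Fin 2) : π.chiy s = π.p := rfl
theorem chiyb_zero : π.chiyb 0 = π.q1 := by simp [Par.chiyb]
theorem chiyb_one : π.chiyb 1 = π.q2 := by simp [Par.chiyb]
theorem hs_zero : (hs 0 : F K) = L K h := by simp [hs]
theorem hs_one : (hs 1 : F K) = L K h * L K h := by simp [hs]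



/-- induction in `R π` -/
theorem R_ind {P : R π → Prop} (hc : ∀ c : K, P (algebraMap K (R π) c)) (hX : ∀ a, P (X π a))
    (hm : ∀ a b, P a → P b → P (a * b)) (ha : ∀ a b, P a → P b → P (a + b)) (r : R π) : P r := by
  obtain ⟨w, rfl⟩ := RingQuot.mkAlgHom_surjective K (Rel π) r
  induction w using FreeAlgebra.induction with
  | grade0 c => rw [AlgHom.commutes]; exact hc c
  | grade1 a => exact hX a
  | mul a b h1 h2 => rw [map_mul]; exact hm _ _ h1 h2
  | add a b h1 h2 => rw [map_add]; exact ha _ _ h1 h2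

/-- `h` is central -/
theorem h_comm (r : R π) : X π h * r = r * X π h := by
  refine R_ind π (P := fun r => X π h * r = r * X π h)
    (fun c => (Algebra.commutes c (X π h)).symm) (fun a => ?_) (fun a b h1 h2 => ?_)
    (fun a b h1 h2 => ?_) r
  · simpa only [map_mul, mk_L] using mk_rel π (Rel.hc a)
  · show X π h * (a * b) = a * b * X π h
    rw [← mul_assoc, h1, mul_assoc, h2, mul_assoc]
  · show X π h * (a + b) = (a + b) * X π h
    rw [mul_add, add_mul, h1, h2]

/-! ### the lift to dual numbers -/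

/-- letters `a ↦ a + ε d a` -/
def φ : F K →ₐ[K] TrivSqZeroExt (R π) (R π) :=
  FreeAlgebra.lift K fun a => TrivSqZeroExt.inl (X π a) + TrivSqZeroExt.inr (mk π (dGen π a))

theorem φ_fst (a : F K) : (φ π a).fst = mk π a := by
  have h1 : (TrivSqZeroExt.fstHom K (R π) (R π)).comp (φ π) = mk π := by
    apply FreeAlgebra.hom_ext
    funext a
    simp [φ, X, L]
  exact DFunLike.congr_fun h1 a

/-- the derivation on the free algebra with values in `R π` -/
def δ : F K →ₗ[K] R π where
  toFun a := (φ π a).snd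
  map_add' a b := by rw [map_add, TrivSqZeroExt.snd_add]
  map_smul' c a := by rw [map_smul, TrivSqZeroExt.snd_smul, RingHom.id_apply]

theorem δ_mul (a b : F K) : δ π (a * b) = δ π a * mk π b + mk π a * δ π b := by
  show (φ π (a * b)).snd = (φ π a).snd * mk π b + mk π a * (φ π b).snd
  rw [map_mul, TrivSqZeroExt.snd_mul, φ_fst, φ_fst, smul_eq_mul, MulOpposite.smul_eq_mul_unop,
    MulOpposite.unop_op, add_comm]

theorem δ_L (a : Gen) : δ π (L K a) = mk π (dGen π a) := by
  show (φ π (FreeAlgebra.ι K a)).snd = _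
  rw [φ, FreeAlgebra.lift_ι_apply]
  simp



/-- normal form in `R π`: `h` to the left, `x` to the right, `W`-letters before `x` -/
macro "nfR" : tactic => `(tactic| simp only [
    r_h_x, t_h_x, r_h_d, t_h_d, r_h_f, t_h_f, r_h_z, t_h_z, r_h_zc, t_h_zc, r_h_u, t_h_u, r_h_e,
    t_h_e, r_h_gj, t_h_gj, r_h_gc, t_h_gc, r_h_v, t_h_v, r_h_y, t_h_y, r_h_yb, t_h_yb, r_xx,
    t_xx, r_x0d0, t_x0d0, r_x0d1, t_x0d1, r_x1d0, t_x1d0, r_x1d1, t_x1d1, r_xf, t_xf, r_xz, t_xz,
    r_xzc, t_xzc, r_xu, t_xu, r_x0e, t_x0e, r_x1e0, t_x1e0, r_x1e1, t_x1e1, r_xgj, t_xgj, r_xgc,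
    t_xgc, r_xv, t_xv, r_xy, t_xy, r_xyb, t_xyb, r_yd, t_yd, r_ye, t_ye, r_yz, t_yz, r_ygj,
    t_ygj, r_yf, t_yf, r_yzc, t_yzc, r_ygc, t_ygc, r_yu, t_yu, r_yv, t_yv, r_ybd, t_ybd, r_ybe,
    t_ybe, r_ybz, t_ybz, r_ybgj, t_ybgj, r_ybf, t_ybf, r_ybzc, t_ybzc, r_ybgc, t_ybgc, r_ybu,
    t_ybu, r_ybv, t_ybv, r_yy, t_yy, r_y10, t_y10, r_yyb, t_yyb, r_yby, t_yby, r_ybyb, t_ybyb,
    mul_assoc, mul_add, add_mul, smul_add, smul_mul_assoc, mul_smul_comm, smul_smul, mul_zero,
    zero_mul, smul_zero, add_zero, zero_add, c_zero, c_one, cz_zero, cz_one, sg_zero, sg_one,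
    chiy_def, chiyb_zero, chiyb_one, hs_zero, hs_one])

/-- unfold `dGen` -/
macro "unD" : tactic => `(tactic| simp only [δ_mul, δ_L, map_add, map_smul, dGen, tF, rF, rhoF,
    map_mul, map_zero, mk_L, hs_zero, hs_one])

/-- polynomial identities modulo two -/
macro "c2" : tactic => `(tactic| first
  | ring1
  | (rw [← sub_eq_zero]; ring_nf; reduce_mod_char!; done)
  | (field_simp; first | done | ring1 | (rw [← sub_eq_zero]; ring_nf; reduce_mod_char!; done)))

/-- identities in `R π` -/
macro "idR" : tactic => `(tactic| (nfR <;> (try match_scalars) <;> c2))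

/-- all values of the indices -/
macro "fin2" : tactic => `(tactic| (simp only [Fin.forall_fin_two]; repeat' apply And.intro))


set_option maxHeartbeats 4000000 in
theorem δ_rel {a b : F K} (hab : Rel π a b) : δ π a = δ π b := by
  have : CharP K 2 := CharTwo.of_one_ne_zero_of_two_eq_zero one_ne_zero π.two
  have g0 := π.g0
  have p0 := π.p0
  have q10 := π.q10
  have q20 := π.q20
  cases hab with
  | xx => unD; nfR
  | hc a =>
    rw [δ_mul, δ_mul, δ_L π h]
    simp only [dGen, map_zero, zero_mul, zero_add, mul_zero, add_zero]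
    exact h_comm π _
  | x0d0 => unD; all_goals (try idR)
  | x0d1 => unD; all_goals (try idR)
  | x1d0 => unD; all_goals (try idR)
  | x1d1 => unD; all_goals (try idR)
  | xf i =>
    revert i
    fin2 <;> (unD; all_goals (try idR))
  | xz i j =>
    revert i j
    fin2 <;> (unD; all_goals (try idR))
  | xzc i =>
    revert i
    fin2 <;> (unD; all_goals (try idR))
  | xu i s =>
    revert i s
    fin2 <;> (unD; all_goals (try idR))
  | x0e j =>
    revert j
    fin2 <;> (unD; all_goals (try idR))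
  | x1e0 => unD; all_goals (try idR)
  | x1e1 => unD; all_goals (try idR)
  | xgj i j =>
    revert i j
    fin2 <;> (unD; all_goals (try idR))
  | xgc i =>
    revert i
    fin2 <;> (unD; all_goals (try idR))
  | xv i s =>
    revert i s
    fin2 <;> (unD; all_goals (try idR))
  | xy i s =>
    revert i s
    fin2 <;> (unD; all_goals (try idR))
  | xyb i s =>
    revert i s
    fin2 <;> (unD; all_goals (try idR))
  | yd j s =>
    revert j s
    fin2 <;> (unD; all_goals (try idR))
  | ybd j s =>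
    revert j s
    fin2 <;> (unD; all_goals (try idR))
  | ye j s =>
    revert j s
    fin2 <;> (unD; all_goals (try idR))
  | ybe j s =>
    revert j s
    fin2 <;> (unD; all_goals (try idR))
  | yz j s =>
    revert j s
    fin2 <;> (unD; all_goals (try idR))
  | ybz j s =>
    revert j s
    fin2 <;> (unD; all_goals (try idR))
  | ygj j s =>
    revert j s
    fin2 <;> (unD; all_goals (try idR))
  | ybgj j s =>
    revert j s
    fin2 <;> (unD; all_goals (try idR))
  | yf s =>
    revert s
    fin2 <;> (unD; all_goals (try idR))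
  | ybf s =>
    revert s
    fin2 <;> (unD; all_goals (try idR))
  | yzc s =>
    revert s
    fin2 <;> (unD; all_goals (try idR))
  | ybzc s =>
    revert s
    fin2 <;> (unD; all_goals (try idR))
  | ygc s =>
    revert s
    fin2 <;> (unD; all_goals (try idR))
  | ybgc s =>
    revert s
    fin2 <;> (unD; all_goals (try idR))
  | yu s t =>
    revert s t
    fin2 <;> (unD; all_goals (try idR))
  | ybu s t =>
    revert s t
    fin2 <;> (unD; all_goals (try idR))
  | yv s t =>
    revert s t
    fin2 <;> (unD; all_goals (try idR))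
  | ybv s t =>
    revert s t
    fin2 <;> (unD; all_goals (try idR))
  | yy s =>
    revert s
    fin2 <;> (unD; all_goals (try idR))
  | y10 => unD; all_goals (try idR)
  | yyb s t =>
    revert s t
    fin2 <;> (unD; all_goals (try idR))
  | yby s t =>
    revert s t
    fin2 <;> (unD; all_goals (try idR))
  | ybyb s t =>
    revert s t
    fin2 <;> (unD; all_goals (try idR))

/-! ### the differential -/

/-- the lift of `φ` to `R π` -/
def Φ : R π →ₐ[K] TrivSqZeroExt (R π) (R π) :=
  RingQuot.liftAlgHom K ⟨φ π, fun a b hab => by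
    apply TrivSqZeroExt.ext
    · rw [φ_fst, φ_fst, mk_rel π hab]
    · exact δ_rel π hab⟩

/-- the differential of `R π` -/
def D : R π →ₗ[K] R π where
  toFun a := (Φ π a).snd
  map_add' a b := by rw [map_add, TrivSqZeroExt.snd_add]
  map_smul' c a := by rw [map_smul, TrivSqZeroExt.snd_smul, RingHom.id_apply]

theorem mk_surj : Function.Surjective (mk π) := RingQuot.mkAlgHom_surjective K (Rel π)

theorem D_mk (a : F K) : D π (mk π a) = δ π a := by
  show (Φ π (RingQuot.mkAlgHom K (Rel π) a)).snd = (φ π a).snd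
  rw [Φ, RingQuot.liftAlgHom_mkAlgHom_apply]

theorem D_X (a : Gen) : D π (X π a) = mk π (dGen π a) := by
  rw [← mk_L, D_mk, δ_L]

theorem D_mul (a b : R π) : D π (a * b) = D π a * b + a * D π b := by
  obtain ⟨a, rfl⟩ := mk_surj π a
  obtain ⟨b, rfl⟩ := mk_surj π b
  rw [← map_mul, D_mk, D_mk, D_mk, δ_mul]

theorem isDiff : IsDiff π (D π) := ⟨D_mul π, D_X π⟩

theorem add_self (a : R π) : a + a = 0 := by
  have h1 : a + a = (2 : K) • a := by rw [two_smul]
  rw [h1, π.two, zero_smul]

theorem diff_one {D' : R π →ₗ[K] R π} (h : IsDiff π D') : D' 1 = 0 := by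
  have h1 := h.leib 1 1
  rw [mul_one, mul_one, one_mul, add_self] at h1
  exact h1

theorem D_one : D π 1 = 0 := diff_one π (isDiff π)

theorem D_algebraMap (c : K) : D π (algebraMap K (R π) c) = 0 := by
  rw [Algebra.algebraMap_eq_smul_one, map_smul, D_one, smul_zero]

theorem uniq {D' : R π →ₗ[K] R π} (h : IsDiff π D') : D' = D π := by
  ext r
  refine R_ind π (P := fun r => D' r = D π r) (fun c => ?_) (fun a => ?_) (fun a b h1 h2 => ?_)
    (fun a b h1 h2 => ?_) r
  · show D' (algebraMap K (R π) c) = D π (algebraMap K (R π) c)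
    rw [D_algebraMap, Algebra.algebraMap_eq_smul_one, map_smul, diff_one π h, smul_zero]
  · show D' (X π a) = D π (X π a)
    rw [h.gen, D_X]
  · show D' (a * b) = D π (a * b)
    rw [h.leib, D_mul, h1, h2]
  · show D' (a + b) = D π (a + b)
    rw [map_add, map_add, h1, h2]

set_option maxHeartbeats 4000000 in
theorem δ_dGen (a : Gen) : δ π (dGen π a) = 0 := by
  have : CharP K 2 := CharTwo.of_one_ne_zero_of_two_eq_zero one_ne_zero π.two
  have g0 := π.g0
  have p0 := π.p0
  have q10 := π.q10
  have q20 := π.q20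
  cases a with
  | x i => simp only [dGen, map_zero]
  | h => simp only [dGen, map_zero]
  | d j => simp only [dGen, map_zero]
  | f => simp only [dGen, map_zero]
  | y s => simp only [dGen, map_zero]
  | yb s => simp only [dGen, map_zero]
  | zc => unD; all_goals (try idR)
  | gc => unD; all_goals (try idR)
  | z j =>
    revert j
    fin2 <;> (unD; all_goals (try idR))
  | u j =>
    revert j
    fin2 <;> (unD; all_goals (try idR))
  | e j =>
    revert j
    fin2 <;> (unD; all_goals (try idR))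
  | gj j =>
    revert j
    fin2 <;> (unD; all_goals (try idR))
  | v j =>
    revert j
    fin2 <;> (unD; all_goals (try idR))

theorem D_D (r : R π) : D π (D π r) = 0 := by
  refine R_ind π (P := fun r => D π (D π r) = 0) (fun c => ?_) (fun a => ?_) (fun a b h1 h2 => ?_)
    (fun a b h1 h2 => ?_) r
  · show D π (D π (algebraMap K (R π) c)) = 0
    rw [D_algebraMap, map_zero]
  · show D π (D π (X π a)) = 0
    rw [D_X, D_mk, δ_dGen]
  · show D π (D π (a * b)) = 0
    rw [D_mul, map_add, D_mul, D_mul, h1, h2, zero_mul, zero_add, mul_zero, add_zero, add_self]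
  · show D π (D π (a + b)) = 0
    rw [map_add, map_add, h1, h2, add_zero]

/-! ### degrees -/

theorem wd_nil : wd π [] = 1 := rfl

theorem wd_cons (a : Gen) (w : List Gen) : wd π (a :: w) = X π a * wd π w := by
  simp [wd]

theorem wd_append (w w' : List Gen) : wd π (w ++ w') = wd π w * wd π w' := by
  simp [wd]

theorem mem_pc (w : List Gen) : wd π w ∈ pc π (wP w) (wA w) (wC w) :=
  Submodule.subset_span ⟨w, rfl, rfl, rfl, rfl⟩

theorem mem_pc' {w : List Gen} {P : ℤ} {A C : ℕ} (h1 : wP w = P) (h2 : wA w = A) (h3 : wC w = C) :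
    wd π w ∈ pc π P A C :=
  Submodule.subset_span ⟨w, h1, h2, h3, rfl⟩

theorem one_mem_pc : (1 : R π) ∈ pc π 0 0 0 := mem_pc π []

theorem X_mem_pc (a : Gen) : X π a ∈ pc π (dP a) (dA a) (dC a) := by
  have h := mem_pc π [a]
  simpa [wd_cons, wd_nil, wP, wA, wC] using h

theorem pc_mul {P P' : ℤ} {A A' C C' : ℕ} {a b : R π} (ha : a ∈ pc π P A C)
    (hb : b ∈ pc π P' A' C') : a * b ∈ pc π (P + P') (A + A') (C + C') := by
  induction ha using Submodule.span_induction with
  | mem a h =>
    obtain ⟨w, h1, h2, h3, rfl⟩ := h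
    induction hb using Submodule.span_induction with
    | mem b h =>
      obtain ⟨w', h1', h2', h3', rfl⟩ := h
      rw [← wd_append]
      apply mem_pc'
      · rw [← h1, ← h1']; simp [wP]
      · rw [← h2, ← h2']; simp [wA]
      · rw [← h3, ← h3']; simp [wC]
    | zero => rw [mul_zero]; exact Submodule.zero_mem _
    | add x y _ _ hx hy => rw [mul_add]; exact Submodule.add_mem _ hx hy
    | smul c x _ hx => rw [mul_smul_comm]; exact Submodule.smul_mem _ _ hx
  | zero => rw [zero_mul]; exact Submodule.zero_mem _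
  | add x y _ _ hx hy => rw [add_mul]; exact Submodule.add_mem _ hx hy
  | smul c x _ hx => rw [smul_mul_assoc]; exact Submodule.smul_mem _ _ hx

/-- `pc` with a cast of the degrees -/
theorem pc_cast {P P' : ℤ} {A A' C C' : ℕ} {a : R π} (ha : a ∈ pc π P A C) (h1 : P = P')
    (h2 : A = A') (h3 : C = C') : a ∈ pc π P' A' C' := by
  subst h1 h2 h3
  exact ha

/-- the piece of cohomological degree `-(C-1)`, zero for `C = 0` -/
def pcm (P : ℤ) (A : ℕ) : ℕ → Submodule K (R π)
  | 0 => ⊥
  | C + 1 => pc π P A C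

theorem mul_pcm_right {P P' : ℤ} {A A' C C' : ℕ} {a b : R π} (ha : a ∈ pc π P A C)
    (hb : b ∈ pcm π P' A' C') : a * b ∈ pcm π (P + P') (A + A') (C + C') := by
  cases C' with
  | zero =>
    have h0 : b = 0 := hb
    rw [h0, mul_zero]
    exact Submodule.zero_mem _
  | succ C' => exact pc_mul π ha hb

theorem mul_pcm_left {P P' : ℤ} {A A' C C' : ℕ} {a b : R π} (ha : a ∈ pcm π P A C)
    (hb : b ∈ pc π P' A' C') : a * b ∈ pcm π (P + P') (A + A') (C + C') := by
  cases C with
  | zero =>
    have h0 : a = 0 := ha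
    rw [h0, zero_mul]
    exact Submodule.zero_mem _
  | succ C =>
    have h1 : C + 1 + C' = (C + C') + 1 := by ring
    rw [h1]
    exact pc_mul π ha hb


/-- a product of at most six letters is in the right piece -/
macro "monoR" : tactic => `(tactic| first
      | exact pc_cast π (pc_mul π (X_mem_pc π _) (X_mem_pc π _)) rfl rfl rfl
      | exact pc_cast π (pc_mul π (X_mem_pc π _) (pc_mul π (X_mem_pc π _) (X_mem_pc π _)))
          rfl rfl rfl
      | exact pc_cast π (pc_mul π (X_mem_pc π _) (pc_mul π (X_mem_pc π _) (pc_mul π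
          (X_mem_pc π _) (X_mem_pc π _)))) rfl rfl rfl
      | exact pc_cast π (pc_mul π (X_mem_pc π _) (pc_mul π (X_mem_pc π _) (pc_mul π
          (X_mem_pc π _) (pc_mul π (X_mem_pc π _) (X_mem_pc π _))))) rfl rfl rfl
      | exact pc_cast π (pc_mul π (X_mem_pc π _) (pc_mul π (X_mem_pc π _) (pc_mul π
          (X_mem_pc π _) (pc_mul π (X_mem_pc π _) (pc_mul π (X_mem_pc π _) (X_mem_pc π _))))))
          rfl rfl rfl)

macro "sumR" : tactic => `(tactic| (
  simp only [dGen, tF, rF, rhoF, hs_zero, hs_one, map_mul, map_add, map_smul, mk_L, mul_add,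
    add_mul, smul_add, smul_mul_assoc, mul_smul_comm, smul_smul, mul_assoc]
  repeat' first
    | apply Submodule.add_mem
    | apply Submodule.smul_mem))

theorem D_X_mem (a : Gen) : D π (X π a) ∈ pcm π (dP a) (dA a) (dC a) := by
  rw [D_X]
  cases a with
  | x i => simp only [dGen, map_zero]; exact Submodule.zero_mem _
  | h => simp only [dGen, map_zero]; exact Submodule.zero_mem _
  | d j => simp only [dGen, map_zero]; exact Submodule.zero_mem _
  | f => simp only [dGen, map_zero]; exact Submodule.zero_mem _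
  | y s => simp only [dGen, map_zero]; exact Submodule.zero_mem _
  | yb s => simp only [dGen, map_zero]; exact Submodule.zero_mem _
  | z j =>
    show _ ∈ pc π (-1) 2 0
    revert j
    fin2 <;> (sumR <;> monoR)
  | zc =>
    show _ ∈ pc π 0 2 1
    sumR <;> monoR
  | u s =>
    revert s
    fin2
    · show _ ∈ pc π 0 1 0
      sumR <;> monoR
    · show _ ∈ pc π 0 2 1
      sumR <;> monoR
  | e j =>
    show _ ∈ pc π (-1) 2 1
    revert j
    fin2 <;> (sumR <;> monoR)
  | gj j =>
    show _ ∈ pc π (-1) 3 2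
    revert j
    fin2 <;> (sumR <;> monoR)
  | gc =>
    show _ ∈ pc π 0 3 3
    sumR <;> monoR
  | v s =>
    revert s
    fin2
    · show _ ∈ pc π 0 2 1
      sumR <;> monoR
    · show _ ∈ pc π 0 3 2
      sumR <;> monoR

theorem D_wd_mem (w : List Gen) : D π (wd π w) ∈ pcm π (wP w) (wA w) (wC w) := by
  induction w with
  | nil => rw [wd_nil, D_one]; exact Submodule.zero_mem _
  | cons a w ih =>
    have e1 : wP (a :: w) = dP a + wP w := by simp [wP]
    have e2 : wA (a :: w) = dA a + wA w := by simp [wA]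
    have e3 : wC (a :: w) = dC a + wC w := by simp [wC]
    rw [wd_cons, D_mul, e1, e2, e3]
    exact Submodule.add_mem _ (mul_pcm_left π (D_X_mem π a) (mem_pc π w))
      (mul_pcm_right π (X_mem_pc π a) ih)

theorem D_mem {P : ℤ} {A C : ℕ} {a : R π} (ha : a ∈ pc π P A C) : D π a ∈ pcm π P A C := by
  induction ha using Submodule.span_induction with
  | mem a h =>
    obtain ⟨w, h1, h2, h3, rfl⟩ := h
    have h := D_wd_mem π w
    rw [h1, h2, h3] at h
    exact h
  | zero => rw [map_zero]; exact Submodule.zero_mem _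
  | add x y _ _ hx hy => rw [map_add]; exact Submodule.add_mem _ hx hy
  | smul c x _ hx => rw [map_smul]; exact Submodule.smul_mem _ _ hx

/-- `D` raises the cohomological degree by one and keeps the two other degrees -/
theorem D_pc {P : ℤ} {A C : ℕ} {a : R π} (ha : a ∈ pc π P A (C + 1)) : D π a ∈ pc π P A C :=
  D_mem π ha

/-- `D` vanishes in cohomological degree zero -/
theorem D_pc0 {P : ℤ} {A : ℕ} {a : R π} (ha : a ∈ pc π P A 0) : D π a = 0 := D_mem π ha

theorem pc_le_pcB (P : ℤ) (A C : ℕ) : pc π P A C ≤ pcB π P A := by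
  apply Submodule.span_mono
  rintro a ⟨w, h1, h2, _, h4⟩
  exact ⟨w, h1, h2, h4⟩




end Crest.Agent.R186.Der580
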