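import Crest.Agent.R186.N0A_341
import Crest.Agent.R186.PDef_580

/-!
Row 186 (S0281), helper538, leaf B281.EV, `A`-level: the evaluation maps on
`Hom_A((A e₂)^(n+1), A e_v)` on 580's `Pv g s v`; both `s`.

* `evA w n` : the evaluation into column `w` (`w = 1, 2 : Fin 5` = position `1, 2 : Fin 7`);
* `ρh`, `ρt t` : `Pv g s 2 → Pv g s 1`; `evA_h`, `evA_t` (eh, et); `evA_surj` (s2); `evA_zero`.
-/

set_option autoImplicit false
set_option linter.unusedSectionVars false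

namespace Crest.Agent.R186.EVA538

open B281 Matrix EV538

/-! ### generic part -/

section Gen

variable {K : Type} [Field K] {R : Type} [Ring R] {P P' P2 : Type} [AddCommGroup P2] [Module R P2]
  [AddCommGroup P] [Module R P] [Module K P] [SMulCommClass R K P]
  [AddCommGroup P'] [Module R P'] [Module K P'] [SMulCommClass R K P']

/-- the values at the generators -/
noncomputable def vals (γ : P2) (a b : P →ₗ[K] Op K) (n : ℕ) (f : (Fin (n + 1) → P2) →ₗ[R] P) :
    (ℕ → Op K) × (ℕ → Op K) :=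
  (fun j => if h : j < n + 1 then a (f (Pi.single ⟨j, h⟩ γ)) else 0,
   fun j => if h : j < n + 1 then b (f (Pi.single ⟨j, h⟩ γ)) else 0)



/-- the evaluation -/
noncomputable def evG (γ : P2) (a b : P →ₗ[K] Op K) (n : ℕ) :
    ((Fin (n + 1) → P2) →ₗ[R] P) →ₗ[K] ((Fin (n + 1) → K) × (Fin n → K)) where
  toFun f := evl n (vals γ a b n f)
  map_add' f f' := by
    rw [← map_add]
    refine evl_congr (fun j hj => ?_) (fun j hj => ?_)
    · have hj' : j < n + 1 := by omega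
      simp only [vals, hj', dite_true, Prod.fst_add, Pi.add_apply, LinearMap.add_apply, map_add]
    · have hj' : j < n + 1 := by omega
      simp only [vals, hj', dite_true, Prod.snd_add, Pi.add_apply, LinearMap.add_apply, map_add]
  map_smul' c f := by
    rw [RingHom.id_apply, ← map_smul]
    refine evl_congr (fun j hj => ?_) (fun j hj => ?_)
    · have hj' : j < n + 1 := by omega
      simp only [vals, hj', dite_true, Prod.smul_fst, Pi.smul_apply, LinearMap.smul_apply,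
        map_smul]
    · have hj' : j < n + 1 := by omega
      simp only [vals, hj', dite_true, Prod.smul_snd, Pi.smul_apply, LinearMap.smul_apply,
        map_smul]

theorem evG_apply (γ : P2) (a b : P →ₗ[K] Op K) (n : ℕ) (f : (Fin (n + 1) → P2) →ₗ[R] P) :
    evG γ a b n f = evl n (vals γ a b n f) := rfl

theorem evG_one (γ : P2) (a b : P →ₗ[K] Op K) (a' b' : P' →ₗ[K] Op K) (ρ : P →ₗ[R] P')
    (ha : ∀ x, a' (ρ x) = a x) (hb : ∀ x, b' (ρ x) = b x) (n : ℕ)
    (f : (Fin (n + 1) → P2) →ₗ[R] P) : evG γ a' b' n (ρ ∘ₗ f) = evG γ a b n f := by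
  rw [evG_apply, evG_apply]
  refine evl_congr (fun j hj => ?_) (fun j hj => ?_)
  · have hj' : j < n + 1 := by omega
    simp only [vals, hj', dite_true, LinearMap.comp_apply, ha]
  · have hj' : j < n + 1 := by omega
    simp only [vals, hj', dite_true, LinearMap.comp_apply, hb]

theorem evG_op (g : K) (t : Fin 2 × Fin 2) (γ : P2) (a b : P →ₗ[K] Op K) (a' b' : P' →ₗ[K] Op K)
    (ρ : P →ₗ[R] P') (ha : ∀ x, a' (ρ x) = a x * (X t.1 * D g t.2))
    (hb : ∀ x, b' (ρ x) = b x * (X t.1 * D g t.2)) (n : ℕ) (f : (Fin (n + 1) → P2) →ₗ[R] P) :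
    evG γ a' b' n (ρ ∘ₗ f) = BrickS538.pr (BrickS538.op g (sw t)) n (evG γ a b n f) := by
  rw [evG_apply, evG_apply, ← evl_op]
  refine evl_congr (fun j hj => ?_) (fun j hj => ?_)
  · have hj' : j < n + 1 := by omega
    simp only [vals, hj', dite_true, LinearMap.comp_apply, ha]
  · have hj' : j < n + 1 := by omega
    simp only [vals, hj', dite_true, LinearMap.comp_apply, hb]

end Gen

/-! ### the concrete part -/

variable {K : Type} [Field K] {g : K} {s : ℤ}

noncomputable instance iPv_comm (g : K) (s : ℤ) (v : Fin 5) :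
    SMulCommClass (A g s) K (Pv g s v) :=
  IsScalarTower.to_smulCommClass' (R := K) (A := A g s) (M := Pv g s v)

/-- entry `(i, j)` of the degree `0` part -/
noncomputable def en0 (g : K) (s : ℤ) (v : Fin 5) (i j : Fin 7) : Pv g s v →ₗ[K] Op K where
  toFun x := (x : A g s).1.fst i j
  map_add' _ _ := rfl
  map_smul' _ _ := rfl

/-- entry `(i, j)` of the degree `1` part -/
noncomputable def en1 (g : K) (s : ℤ) (v : Fin 5) (i j : Fin 7) : Pv g s v →ₗ[K] Op K where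
  toFun x := (x : A g s).1.snd i j
  map_add' _ _ := rfl
  map_smul' _ _ := rfl



/-- the evaluation on `Hom_A((A e₂)^(n+1), A e_v)`, entries `(2, j)` -/
noncomputable def evA (g : K) (s : ℤ) (v : Fin 5) (j : Fin 7) (n : ℕ) :
    ((Fin (n + 1) → Pv g s 2) →ₗ[A g s] Pv g s v) →ₗ[K] ((Fin (n + 1) → K) × (Fin n → K)) :=
  evG (Pgen g s 2) (en0 g s v 2 j) (en1 g s v 2 j) n

/-- `ev2 n`, the column `O(-2)` -/
noncomputable abbrev ev2 (g : K) (s : ℤ) (n : ℕ) := evA g s 2 2 n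
/-- `ev1 n`, the column `O(-1)` -/
noncomputable abbrev ev1 (g : K) (s : ℤ) (n : ℕ) := evA g s 1 1 n

theorem XD_mem (hg : Gen g) (t : Fin 2 × Fin 2) : (X t.1 * D g t.2 : Op K) ∈ Fil g 1 0 := by
  have h1 := X_mem_Fil g t.1 (le_refl (0 : ℤ))
  have h2 : (D g t.2 : Op K) ∈ Fil g 1 (-1) := by
    obtain ⟨i, j⟩ := t
    fin_cases j
    · have := mon_mem g (0, 0) (1, 0) (k := 1) (P := -1) (by simp) (by simp)
      simpa [mon] using this
    · have := mon_mem g (0, 0) (0, 1) (k := 1) (P := -1) (by simp) (by simp)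
      simpa [mon] using this
  have := FD757.Fil_mul hg h1 h2
  simpa using this

/-- the element with the entries `T` (degree `0`) and `T'` (degree `1`) at `(i, j)` -/
noncomputable def u01 (hg : Gen g) (s : ℤ) (i j : Fin 7) (hi : (i : ℕ) < 3) (hj : (j : ℕ) < 3)
    (T T' : Op K) (hT : T ∈ Fil g ((i : ℕ) - (j : ℕ)) 0)
    (hT' : T' ∈ Fil g ((i : ℕ) - (j : ℕ)) 1) : A g s :=
  ofM (single i j T) (single i j T') (N341.Pres_single hg s i j hi hj hT)
    (N341.Pres_single hg s i j hi hj hT')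

theorem u01_mem (hg : Gen g) (i j : Fin 7) (hi : (i : ℕ) < 3) (hj : (j : ℕ) < 3)
    (T T' : Op K) (hT : T ∈ Fil g ((i : ℕ) - (j : ℕ)) 0)
    (hT' : T' ∈ Fil g ((i : ℕ) - (j : ℕ)) 1) (v : Fin 5) (hv : blk j = v) :
    u01 hg s i j hi hj T T' hT hT' ∈ Pv g s v := by
  rw [mem_Pv]
  intro a b hb
  have hbj : j ≠ b := by rintro rfl; exact hb hv
  exact ⟨Matrix.single_apply_of_col_ne _ _ hbj _, Matrix.single_apply_of_col_ne _ _ hbj _⟩

/-- `u01` as an element of `Pv` -/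
noncomputable def uP (hg : Gen g) (s : ℤ) (i j : Fin 7) (hi : (i : ℕ) < 3) (hj : (j : ℕ) < 3)
    (T T' : Op K) (hT : T ∈ Fil g ((i : ℕ) - (j : ℕ)) 0)
    (hT' : T' ∈ Fil g ((i : ℕ) - (j : ℕ)) 1) (v : Fin 5) (hv : blk j = v) : Pv g s v :=
  ⟨u01 hg s i j hi hj T T' hT hT', u01_mem hg i j hi hj T T' hT hT' v hv⟩

theorem mul_single_apply (M : Mat K) (i j : Fin 7) (T : Op K) (l : Fin 7) :
    (M * single i j T) l j = M l i * T := by
  rw [Matrix.mul_apply, Finset.sum_eq_single i]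
  · rw [Matrix.single_apply_same]
  · intro b _ hb
    rw [Matrix.single_apply_of_row_ne (Ne.symm hb), mul_zero]
  · intro h
    exact absurd (Finset.mem_univ i) h

theorem fst_mul_u (hg : Gen g) (i j : Fin 7) (hi : (i : ℕ) < 3) (hj : (j : ℕ) < 3)
    (T : Op K) (hT : T ∈ Fil g ((i : ℕ) - (j : ℕ)) 0) (x : A g s) (l : Fin 7) :
    (x * u01 hg s i j hi hj T 0 hT (zero_mem _)).1.fst l j = x.1.fst l i * T := by
  rw [fst_mulA]
  exact mul_single_apply _ _ _ _ _

theorem snd_mul_u (hg : Gen g) (i j : Fin 7) (hi : (i : ℕ) < 3) (hj : (j : ℕ) < 3)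
    (T : Op K) (hT : T ∈ Fil g ((i : ℕ) - (j : ℕ)) 0) (x : A g s) (l : Fin 7) :
    (x * u01 hg s i j hi hj T 0 hT (zero_mem _)).1.snd l j = x.1.snd l i * T := by
  rw [snd_mulA]
  show (x.1.fst * single i j (0 : Op K) + x.1.snd * single i j T) l j = _
  rw [Matrix.single_zero, Matrix.mul_zero, zero_add]
  exact mul_single_apply _ _ _ _ _

theorem one_mem21 : (1 : Op K) ∈ Fil g (((2 : Fin 7) : ℕ) - ((1 : Fin 7) : ℕ)) 0 := by
  have : (1 : Op K) ∈ Fil g 1 0 := one_mem_Fil g (by norm_num)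
  simpa using this

theorem XD_mem21 (hg : Gen g) (t : Fin 2 × Fin 2) :
    (X t.1 * D g t.2 : Op K) ∈ Fil g (((2 : Fin 7) : ℕ) - ((1 : Fin 7) : ℕ)) 0 := by
  simpa using XD_mem hg t

/-- `ρh : A e₂ → A e₁`, right multiplication by `E₂₁` -/
noncomputable def ρh (hg : Gen g) (s : ℤ) : Pv g s 2 →ₗ[A g s] Pv g s 1 :=
  mulR 2 (uP hg s 2 1 (by decide) (by decide) 1 0 one_mem21 (zero_mem _) 1 rfl)

/-- `ρt : A e₂ → A e₁`, right multiplication by `E₂₁ x_i d_j` -/
noncomputable def ρt (hg : Gen g) (s : ℤ) (t : Fin 2 × Fin 2) : Pv g s 2 →ₗ[A g s] Pv g s 1 :=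
  mulR 2 (uP hg s 2 1 (by decide) (by decide) (X t.1 * D g t.2) 0 (XD_mem21 hg t) (zero_mem _) 1
    rfl)

/-- **(eh)** -/
theorem ev1_h (hg : Gen g) (n : ℕ) (f : (Fin (n + 1) → Pv g s 2) →ₗ[A g s] Pv g s 2) :
    ev1 g s n (ρh hg s ∘ₗ f) = ev2 g s n f :=
  evG_one _ _ _ _ _ (ρh hg s)
    (fun x => (fst_mul_u hg 2 1 (by decide) (by decide) 1 one_mem21 _ 2).trans (mul_one _))
    (fun x => (snd_mul_u hg 2 1 (by decide) (by decide) 1 one_mem21 _ 2).trans (mul_one _)) n f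

/-- **(et)** -/
theorem ev1_t (hg : Gen g) (n : ℕ) (t : Fin 2 × Fin 2)
    (f : (Fin (n + 1) → Pv g s 2) →ₗ[A g s] Pv g s 2) :
    ev1 g s n (ρt hg s t ∘ₗ f) = BrickS538.pr (BrickS538.op g (sw t)) n (ev2 g s n f) :=
  evG_op g t _ _ _ _ _ (ρt hg s t)
    (fun x => fst_mul_u hg 2 1 (by decide) (by decide) _ (XD_mem21 hg t) _ 2)
    (fun x => snd_mul_u hg 2 1 (by decide) (by decide) _ (XD_mem21 hg t) _ 2) n f

theorem one_mem22 (c : K) :
    c • (1 : Op K) ∈ Fil g (((2 : Fin 7) : ℕ) - ((2 : Fin 7) : ℕ)) 0 := by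
  have : (1 : Op K) ∈ Fil g 0 0 := one_mem_Fil g le_rfl
  exact Submodule.smul_mem _ _ (by simpa using this)

theorem X_mem22 (c c' : K) : c • (X 0 : Op K) + c' • (X 1 : Op K) ∈
    Fil g (((2 : Fin 7) : ℕ) - ((2 : Fin 7) : ℕ)) 1 := by
  have h0 : (X 0 : Op K) ∈ Fil g 0 1 := X_mem_Fil g 0 le_rfl
  have h1 : (X 1 : Op K) ∈ Fil g 0 1 := X_mem_Fil g 1 le_rfl
  exact add_mem (Submodule.smul_mem _ _ (by simpa using h0))
    (Submodule.smul_mem _ _ (by simpa using h1))

/-- the element `(c • 1, β • X 0 + γ • X 1)` of `e₂ A e₂` -/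
noncomputable def w22 (hg : Gen g) (s : ℤ) (c β γ : K) : Pv g s 2 :=
  uP hg s 2 2 (by decide) (by decide) (c • 1) (β • X 0 + γ • X 1) (one_mem22 c) (X_mem22 β γ) 2 rfl

theorem w22_fst (hg : Gen g) (c β γ : K) : (w22 hg s c β γ : A g s).1.fst 2 2 = c • 1 :=
  Matrix.single_apply_same _ _ _

theorem w22_snd (hg : Gen g) (c β γ : K) :
    (w22 hg s c β γ : A g s).1.snd 2 2 = β • X 0 + γ • X 1 :=
  Matrix.single_apply_same _ _ _

theorem eps_w22 (hg : Gen g) (c β γ : K) : eps g s 2 • w22 hg s c β γ = w22 hg s c β γ := by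
  refine Subtype.ext ?_
  show eps g s 2 * (w22 hg s c β γ : A g s) = _
  refine A_ext (fun i j => ?_) (fun i j => ?_)
  · rw [N341.fst_eps_mul]
    split_ifs with h
    · rfl
    · have hi : (2 : Fin 7) ≠ i := by rintro rfl; exact h rfl
      exact (Matrix.single_apply_of_row_ne hi _ _ _).symm
  · rw [N341.snd_eps_mul]
    split_ifs with h
    · rfl
    · have hi : (2 : Fin 7) ≠ i := by rintro rfl; exact h rfl
      exact (Matrix.single_apply_of_row_ne hi _ _ _).symm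

/-- the map with prescribed values -/
noncomputable def ofW22 (hg : Gen g) (s : ℤ) (n : ℕ) (l μ ν : ℕ → K) :
    (Fin (n + 1) → Pv g s 2) →ₗ[A g s] Pv g s 2 :=
  Dev580.homPi (eps g s 2) (fun j : Fin (n + 1) => w22 hg s (l j) (μ j) (ν j))

theorem ofW22_single (hg : Gen g) (n : ℕ) (l μ ν : ℕ → K) (j : Fin (n + 1)) :
    ofW22 hg s n l μ ν (Pi.single j (Pgen g s 2)) = w22 hg s (l j) (μ j) (ν j) := by
  have := Dev580.homPi_single (eps_idem g s 2)
    (fun j : Fin (n + 1) => w22 hg s (l j) (μ j) (ν j)) j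
  rw [eps_w22] at this
  exact this

theorem vals_ofW22 (hg : Gen g) (n : ℕ) (l μ ν : ℕ → K) : ev2 g s n (ofW22 hg s n l μ ν) =
    evl n (fun j => l j • (1 : Op K), fun j => μ j • (X 0 : Op K) + ν j • (X 1 : Op K)) := by
  refine evl_congr (fun j hj => ?_) (fun j hj => ?_)
  · have hj' : j < n + 1 := by omega
    simp only [vals, hj', dite_true]
    rw [ofW22_single]
    exact w22_fst (s := s) hg (l j) (μ j) (ν j)
  · have hj' : j < n + 1 := by omega
    simp only [vals, hj', dite_true]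
    rw [ofW22_single]
    exact w22_snd (s := s) hg (l j) (μ j) (ν j)

/-- **(s2)** -/
theorem ev2_surj (hg : Gen g) (n : ℕ) : Function.Surjective (ev2 g s n) := by
  intro c
  obtain ⟨l, μ, hl⟩ := evl_col_surj n c
  exact ⟨ofW22 hg s n l μ (fun _ => 0), by rw [vals_ofW22, ← hl]⟩

/-- the shape of a map on the column `O(-2)` -/
theorem exists_vals (n : ℕ) (f : (Fin (n + 1) → Pv g s 2) →ₗ[A g s] Pv g s 2) :
    ∃ l μ ν : ℕ → K,
      (∀ j : Fin (n + 1), (f (Pi.single j (Pgen g s 2)) : A g s).1.fst 2 2 = l j • (1 : Op K)) ∧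
      (∀ j : Fin (n + 1), (f (Pi.single j (Pgen g s 2)) : A g s).1.snd 2 2 =
        μ j • (X 0 : Op K) + ν j • (X 1 : Op K)) ∧
      ev2 g s n f = (fun b : Fin (n + 1) => l b, fun b : Fin n => μ b + ν (b + 1)) := by
  have a : ∀ j : ℕ, ∃ c β γ : K, ∀ h : j < n + 1,
      (f (Pi.single ⟨j, h⟩ (Pgen g s 2)) : A g s).1.fst 2 2 = c • (1 : Op K) ∧
      (f (Pi.single ⟨j, h⟩ (Pgen g s 2)) : A g s).1.snd 2 2 =
        β • (X 0 : Op K) + γ • (X 1 : Op K) := by
    intro j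
    by_cases hj : j < n + 1
    · obtain ⟨α, β, γ, h1, h2⟩ := N341.col2_2 (f (Pi.single ⟨j, hj⟩ (Pgen g s 2))).2
      exact ⟨α, β, γ, fun _ => ⟨h1, h2⟩⟩
    · exact ⟨0, 0, 0, fun h => absurd h hj⟩
  choose l μ ν h using a
  refine ⟨l, μ, ν, fun j => (h j j.2).1, fun j => (h j j.2).2, ?_⟩
  rw [← evl_col]
  refine evl_congr (fun j hj => ?_) (fun j hj => ?_)
  · have hj' : j < n + 1 := by omega
    simp only [vals, hj', dite_true]
    exact (h j hj').1
  · have hj' : j < n + 1 := by omega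
    simp only [vals, hj', dite_true]
    exact (h j hj').2

/-- vanishing of `ev2` -/
theorem ev2_zero {n : ℕ} {f : (Fin (n + 1) → Pv g s 2) →ₗ[A g s] Pv g s 2}
    (h : ev2 g s n f = 0) : ∃ μ ν : ℕ → K,
      (∀ j : Fin (n + 1), (f (Pi.single j (Pgen g s 2)) : A g s).1.fst 2 2 = 0) ∧
      (∀ j : Fin (n + 1), (f (Pi.single j (Pgen g s 2)) : A g s).1.snd 2 2 =
        μ j • (X 0 : Op K) + ν j • (X 1 : Op K)) ∧ ∀ b, b < n → μ b + ν (b + 1) = 0 := by
  obtain ⟨l, μ, ν, h1, h2, h3⟩ := exists_vals n f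
  rw [h3] at h
  refine ⟨μ, ν, fun j => ?_, h2, fun b hb => ?_⟩
  · have e : l (j : ℕ) = 0 := congrFun (congrArg Prod.fst h) j
    rw [h1, e, zero_smul]
  · exact congrFun (congrArg Prod.snd h) ⟨b, hb⟩

/-- `ev1` of a map with given entries -/
theorem ev1_eq {n : ℕ} (f : (Fin (n + 1) → Pv g s 2) →ₗ[A g s] Pv g s 1) (M M' : ℕ → Op K)
    (h : ∀ j : Fin (n + 1), (f (Pi.single j (Pgen g s 2)) : A g s).1.fst 2 1 = M j)
    (h' : ∀ j : Fin (n + 1), (f (Pi.single j (Pgen g s 2)) : A g s).1.snd 2 1 = M' j) :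
    ev1 g s n f = evl n (M, M') := by
  refine evl_congr (fun j hj => ?_) (fun j hj => ?_)
  · have hj' : j < n + 1 := by omega
    simp only [vals, hj', dite_true]
    exact h ⟨j, hj'⟩
  · have hj' : j < n + 1 := by omega
    simp only [vals, hj', dite_true]
    exact h' ⟨j, hj'⟩

/-- `ev1` vanishes if the traces vanish -/
theorem ev1_zero {n : ℕ} (f : (Fin (n + 1) → Pv g s 2) →ₗ[A g s] Pv g s 1) (M M' : ℕ → Op K)
    (h : ∀ j : Fin (n + 1), (f (Pi.single j (Pgen g s 2)) : A g s).1.fst 2 1 = M j)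
    (h' : ∀ j : Fin (n + 1), (f (Pi.single j (Pgen g s 2)) : A g s).1.snd 2 1 = M' j)
    (t : ∀ y ∈ Pol K n, tr n M y = 0) (t' : ∀ y ∈ Pol K ((n : ℤ) - 1), tr n M' y = 0) :
    ev1 g s n f = 0 := by
  rw [ev1_eq f M M' h h']
  refine Prod.ext ?_ ?_
  · funext b
    refine t _ (Finsupp.single_mem_supported K _ ?_)
    have := b.2
    exact ⟨by simp only []; omega, by simp only []; omega, by simp only []; omega⟩
  · funext b
    refine t' _ (Finsupp.single_mem_supported K _ ?_)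
    have := b.2
    exact ⟨by simp only []; omega, by simp only []; omega, by simp only []; omega⟩

end Crest.Agent.R186.EVA538
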