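import Crest.Agent.R186.PBWK_633
import Crest.Agent.R186.Defs281_128

/-!
# Row 186, S0281, base (helper633): the PBW toolbox literally on 128's `Fil`
-/

set_option autoImplicit false

namespace Crest.Agent.R186.FilPBW633

open Crest.Agent.R186.B281 Crest.Agent.R186.PBWD633

variable {K : Type} [Field K] {g : K}

/-- 128's operators form a `QW` -/
noncomputable def W0 (hg : Gen g) : QW g (Op K) where
  x0 := X 0
  x1 := X 1
  d0 := D g 0
  d1 := D g 1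
  hx := X_comm 0 1
  hd := D_comm g 0 1
  h01 := X_D g (by decide)
  h10 := X_D g (by decide)
  h00 := X_D_self hg 0
  h11 := X_D_self hg 1

lemma W0_M (hg : Gen g) (a b : ℕ × ℕ) : (W0 hg).M (a.1, a.2, b.1, b.2) = mon g a b := by
  simp only [QW.M, W0, mon, mul_assoc]

theorem Fil_eq_F (hg : Gen g) (k P : ℤ) : Fil g k P = (W0 hg).F k P := by
  unfold Fil QW.F
  congr 1
  ext T
  constructor
  · rintro ⟨a, b, h1, h2, rfl⟩
    exact ⟨(a.1, a.2, b.1, b.2), ⟨h1, h2⟩, W0_M hg a b⟩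
  · rintro ⟨⟨a0, a1, b0, b1⟩, ⟨h1, h2⟩, rfl⟩
    exact ⟨(a0, a1), (b0, b1), h1, h2, W0_M hg (a0, a1) (b0, b1)⟩

/-- falling product `c m · c (m-1) ⋯ c (m-b+1)` -/
noncomputable def fall (g : K) (m : ℤ) (b : ℕ) : K := ∏ j ∈ Finset.range b, cq g (m - j)


lemma fall_succ (m : ℤ) (b : ℕ) : fall g m (b + 1) = cq g m * fall g (m - 1) b := by
  unfold fall
  rw [Finset.prod_range_succ']
  rw [mul_comm]
  congr 1
  · simp
  · refine Finset.prod_congr rfl fun j _ => ?_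
    congr 1
    push_cast
    ring

lemma fall_lt {n b : ℕ} (h : n < b) : fall g (n : ℤ) b = 0 := by
  unfold fall
  refine Finset.prod_eq_zero (Finset.mem_range.2 h) ?_
  rw [sub_self, cq_zero]

lemma fall_ne (hg : Gen g) (n : ℕ) : fall g (n : ℤ) n ≠ 0 := by
  unfold fall
  refine Finset.prod_ne_zero_iff.2 fun j hj => cq_ne hg ?_
  have := Finset.mem_range.1 hj
  omega

lemma X_pow_single (i : Fin 2) (r : ℕ) (m : ℤ × ℤ) (c : K) :
    ((X i : Op K) ^ r) (Finsupp.single m c) = Finsupp.single (m + r • ev i) c := by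
  induction r generalizing m with
  | zero => simp
  | succ r ih =>
    rw [pow_succ, Module.End.mul_apply, X_single, ih]
    congr 1
    rw [succ_nsmul, add_assoc, add_comm (ev i)]

lemma co_sub_ev (i : Fin 2) (m : ℤ × ℤ) : co i (m - ev i) = co i m - 1 := by
  fin_cases i <;> simp [co, ev]

lemma D_pow_single (i : Fin 2) (r : ℕ) (m : ℤ × ℤ) (c : K) :
    ((D g i : Op K) ^ r) (Finsupp.single m c) =
      Finsupp.single (m - r • ev i) (fall g (co i m) r * c) := by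
  induction r generalizing m c with
  | zero => simp [fall]
  | succ r ih =>
    rw [pow_succ, Module.End.mul_apply, D_single, ih, fall_succ, co_sub_ev]
    congr 1
    · rw [succ_nsmul, sub_sub, add_comm (ev i)]
    · ring

lemma mon_single (a b : ℕ × ℕ) (m : ℤ × ℤ) (c : K) : mon g a b (Finsupp.single m c) =
    Finsupp.single (m.1 + a.1 - b.1, m.2 + a.2 - b.2) (fall g m.1 b.1 * fall g m.2 b.2 * c) := by
  unfold mon
  simp only [Module.End.mul_apply]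
  rw [D_pow_single, D_pow_single, X_pow_single, X_pow_single]
  congr 1
  · ext <;> simp [ev] <;> ring
  · simp [co, ev]; ring

theorem PBW_of {R : Type*} [Ring R] [Algebra K R] (W : QW g R)
    (h : ∀ u : Ix →₀ K, u.sum (fun q c => c • W.M q) = 0 → u = 0) : W.PBW := by
  rw [QW.PBW, linearIndependent_iff]
  intro u hu
  exact h u (by rwa [Finsupp.linearCombination_apply] at hu)

theorem PBW0 (hg : Gen g) : (W0 hg).PBW := by
  classical
  refine PBW_of _ fun u hu => ?_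
  by_contra hne
  obtain ⟨q0, hq0, hmin⟩ := Finset.exists_min_image u.support od
    (Finsupp.support_nonempty_iff.2 hne)
  obtain ⟨a0, a1, b0, b1⟩ := q0
  have h1 := LinearMap.congr_fun hu (Finsupp.single ((b0 : ℤ), (b1 : ℤ)) 1)
  have h2 := DFunLike.congr_fun h1 ((a0 : ℤ), (a1 : ℤ))
  rw [Finsupp.sum, LinearMap.sum_apply, Finsupp.finsetSum_apply, Finset.sum_eq_single (a0, a1, b0, b1)] at h2
  · rw [LinearMap.smul_apply, Finsupp.smul_apply, W0_M hg (a0, a1) (b0, b1), mon_single] at h2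
    simp only [add_sub_cancel_left, Finsupp.single_eq_same, mul_one, smul_eq_mul,
      LinearMap.zero_apply, Finsupp.zero_apply] at h2
    rcases mul_eq_zero.1 h2 with h3 | h3
    · exact (Finsupp.mem_support_iff.1 hq0) h3
    · rcases mul_eq_zero.1 h3 with h4 | h4
      · exact fall_ne hg _ h4
      · exact fall_ne hg _ h4
  · rintro ⟨a0', a1', b0', b1'⟩ hq hne
    have hm := hmin _ hq
    simp only [od] at hm
    rw [LinearMap.smul_apply, Finsupp.smul_apply, W0_M hg (a0', a1') (b0', b1'), mon_single]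
    rcases Nat.lt_or_ge b0 b0' with h3 | h3
    · simp [fall_lt h3]
    rcases Nat.lt_or_ge b1 b1' with h4 | h4
    · simp [fall_lt h4]
    have h5 : b0' = b0 := by omega
    have h6 : b1' = b1 := by omega
    subst h5 h6
    rw [Finsupp.single_eq_of_ne]
    · simp
    · simp only [add_sub_cancel_left, ne_eq, Prod.mk.injEq, not_and]
      intro h7 h8
      apply hne
      simp only [Prod.mk.injEq, and_true]
      omega
  · intro h; exact absurd hq0 h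

/-! ## the literal statements on `Fil` -/










theorem Fil_mul (hg : Gen g) {k l P Q : ℤ} {S T : Op K} (hS : S ∈ Fil g k P)
    (hT : T ∈ Fil g l Q) : S * T ∈ Fil g (k + l) (P + Q) := by
  rw [Fil_eq_F hg] at *
  exact QW.F_mul _ hg.1 hS hT


theorem Fil_neg (hg : Gen g) {k : ℤ} (hk : k < 0) (P : ℤ) : Fil g k P = ⊥ := by
  rw [Fil_eq_F hg]
  exact QW.F_neg _ hk P


lemma X_mem (i : Fin 2) : (X i : Op K) ∈ Fil g 0 1 := X_mem_Fil g i le_rfl

lemma D_mem (hg : Gen g) (i : Fin 2) : (D g i : Op K) ∈ Fil g 1 (-1) := by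
  rw [Fil_eq_F hg]
  fin_cases i
  · exact QW.d0_mem _
  · exact QW.d1_mem _

theorem strict_XR (hg : Gen g) (i : Fin 2) {k P l Q : ℤ} {a : Op K} (ha : a ∈ Fil g k P)
    (h1 : a * X i ∈ Fil g l Q) : a ∈ Fil g l (Q - 1) := by
  rw [Fil_eq_F hg] at *
  fin_cases i
  · exact QW.strict_x0R (PBW0 hg) hg.1 ha h1
  · exact QW.strict_x1R (PBW0 hg) hg.1 ha h1



theorem inj_DR (hg : Gen g) (i : Fin 2) {k P : ℤ} {a : Op K} (ha : a ∈ Fil g k P)
    (h1 : a * D g i = 0) : a = 0 := by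
  rw [Fil_eq_F hg] at *
  fin_cases i
  · exact QW.inj_d0R (PBW0 hg) hg.1 ha h1
  · exact QW.inj_d1R (PBW0 hg) hg.1 ha h1





theorem X1R (hg : Gen g) {k P : ℤ} (hP : 1 ≤ P) {c : Op K} (hc : c ∈ Fil g k P) :
    ∃ a ∈ Fil g k (P - 1), ∃ b ∈ Fil g k (P - 1), c = a * X 0 + b * X 1 := by
  rw [Fil_eq_F hg] at *
  exact QW.X1R hg.1 hP hc

theorem X2R (hg : Gen g) {k P k' P' : ℤ} {a b : Op K} (ha : a ∈ Fil g k P)
    (hb : b ∈ Fil g k' P') (h0 : a * X 0 + b * X 1 = 0) :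
    ∃ e ∈ Fil g k (P - 1), a = e * X 1 ∧ b = -(e * X 0) := by
  rw [Fil_eq_F hg] at *
  exact QW.X2R (PBW0 hg) hg.1 ha hb h0

theorem X3R (hg : Gen g) {k P k' P' l Q : ℤ} {a b : Op K} (ha : a ∈ Fil g k P)
    (hb : b ∈ Fil g k' P') (h0 : a * X 0 + b * X 1 ∈ Fil g l Q) :
    ∃ a' ∈ Fil g l (Q - 1), ∃ b' ∈ Fil g l (Q - 1),
      a * X 0 + b * X 1 = a' * X 0 + b' * X 1 := by
  rw [Fil_eq_F hg] at *
  exact QW.X3R (PBW0 hg) hg.1 ha hb h0

theorem D1R (hg : Gen g) {k P : ℤ} {c : Op K} (hc : c ∈ Fil g k P) :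
    ∃ a ∈ Fil g (k - 1) (P + 1), ∃ b ∈ Fil g (k - 1) (P + 1), ∃ p ∈ Fil g 0 P,
      c = a * D g 0 + b * D g 1 + p := by
  simp only [Fil_eq_F hg] at *
  exact QW.D1R hg.1 hc


theorem D2R (hg : Gen g) {k P k' P' : ℤ} {a b : Op K} (ha : a ∈ Fil g k P)
    (hb : b ∈ Fil g k' P') (h0 : a * D g 0 + b * D g 1 = 0) :
    ∃ e ∈ Fil g (k - 1) (P + 1), a = e * D g 1 ∧ b = -(e * D g 0) := by
  rw [Fil_eq_F hg] at *
  exact QW.D2R (PBW0 hg) hg.1 ha hb h0


theorem X1L (hg : Gen g) {k P : ℤ} (hP : 1 ≤ P) {c : Op K} (hc : c ∈ Fil g k P) :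
    ∃ a ∈ Fil g k (P - 1), ∃ b ∈ Fil g k (P - 1), c = X 0 * a + X 1 * b := by
  rw [Fil_eq_F hg] at *
  exact QW.X1L hg.1 hP hc

theorem X2L (hg : Gen g) {k P k' P' : ℤ} {a b : Op K} (ha : a ∈ Fil g k P)
    (hb : b ∈ Fil g k' P') (h0 : X 0 * a + X 1 * b = 0) :
    ∃ e ∈ Fil g k (P - 1), a = X 1 * e ∧ b = -(X 0 * e) := by
  rw [Fil_eq_F hg] at *
  exact QW.X2L (PBW0 hg) hg.1 ha hb h0

theorem X3L (hg : Gen g) {k P k' P' l Q : ℤ} {a b : Op K} (ha : a ∈ Fil g k P)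
    (hb : b ∈ Fil g k' P') (h0 : X 0 * a + X 1 * b ∈ Fil g l Q) :
    ∃ a' ∈ Fil g l (Q - 1), ∃ b' ∈ Fil g l (Q - 1),
      X 0 * a + X 1 * b = X 0 * a' + X 1 * b' := by
  rw [Fil_eq_F hg] at *
  exact QW.X3L (PBW0 hg) hg.1 ha hb h0

theorem D1L (hg : Gen g) {k P : ℤ} {c : Op K} (hc : c ∈ Fil g k P) :
    ∃ a ∈ Fil g (k - 1) (P + 1), ∃ b ∈ Fil g (k - 1) (P + 1), ∃ p ∈ Fil g 0 P,
      c = D g 0 * a + D g 1 * b + p := by
  simp only [Fil_eq_F hg] at *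
  exact QW.D1L hg.1 hc


theorem D2L (hg : Gen g) {k P k' P' : ℤ} {a b : Op K} (ha : a ∈ Fil g k P)
    (hb : b ∈ Fil g k' P') (h0 : D g 0 * a + D g 1 * b = 0) :
    ∃ e ∈ Fil g (k - 1) (P + 1), a = D g 1 * e ∧ b = -(D g 0 * e) := by
  rw [Fil_eq_F hg] at *
  exact QW.D2L (PBW0 hg) hg.1 ha hb h0

theorem D3L (hg : Gen g) {k P k' P' l Q : ℤ} {a b : Op K} (ha : a ∈ Fil g k P)
    (hb : b ∈ Fil g k' P') (h0 : D g 0 * a + D g 1 * b ∈ Fil g l Q) :
    ∃ a' ∈ Fil g (l - 1) (Q + 1), ∃ b' ∈ Fil g (l - 1) (Q + 1),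
      D g 0 * a + D g 1 * b = D g 0 * a' + D g 1 * b' := by
  rw [Fil_eq_F hg] at *
  exact QW.D3L (PBW0 hg) hg.1 ha hb h0

end Crest.Agent.R186.FilPBW633
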