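import Crest.Agent.R186.Inst_823
import Crest.Agent.R186.B281W_128
import Crest.Agent.R186.FilPBW_633

-- ▼ part R186/FamX_823
section

/-!
Row 186, S0281, leaf B281.F1 (helper823): the terms of the resolutions as families.

* `kgen (hg : Gen g) : KGen g` (from 633's `X3R`, `X2R`);
* `Fam.pi F ι`, `Fam.prod F G`; levelwise exactness of componentwise maps;
* `Fam.Sur` ((S')) for the line bundles, the `K`-lattices, `pi`, `prod`.
-/

set_option autoImplicit false

namespace Crest.Agent.R186.FamX823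

open Crest.Agent.R186.B281

variable {K : Type} [Field K] {g : K}

/-- generation of the lattices of the `K`-vertices -/
theorem kgen (hg : Gen g) : KGen g := by
  intro j k P a b ha hb h
  obtain ⟨a', ha', b', hb', e1⟩ := FilPBW633.X3R hg ha hb h
  rw [add_sub_cancel_right] at ha' hb'
  have m1 : a' ∈ Fil g k P := Fil_mono g (by omega) ha'
  have m2 : b' ∈ Fil g k P := Fil_mono g (by omega) hb'
  have e2 : (a - a') * X 0 + (b - b') * X 1 = 0 := by
    rw [sub_mul, sub_mul, sub_add_sub_comm, e1, sub_self]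
  obtain ⟨e, he, e3, e4⟩ := FilPBW633.X2R hg (sub_mem ha m1) (sub_mem hb m2) e2
  exact ⟨a', ha', b', hb', e, he, by rw [← e3]; abel, by
    rw [sub_eq_add_neg, ← e4]; abel⟩

/-- left generation by `x`: degree `P ≥ 1` -/
theorem Fil_left {k P : ℤ} (hP : 1 ≤ P) {T : Op K} (hT : T ∈ Fil g k P) :
    ∃ T0 ∈ Fil g k (P - 1), ∃ T1 ∈ Fil g k (P - 1), T = X 1 * T0 - X 0 * T1 := by
  induction hT using Submodule.span_induction with
  | mem x hx =>
    obtain ⟨⟨a0, a1⟩, ⟨b0, b1⟩, h1, h2, rfl⟩ := hx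
    simp only at h1 h2
    rcases Nat.eq_zero_or_pos a0 with h | h
    · subst h
      obtain ⟨a, rfl⟩ : ∃ a, a1 = a + 1 := ⟨a1 - 1, by omega⟩
      refine ⟨mon g (0, a) (b0, b1), mon_mem g _ _ h1 (by push_cast at h2 ⊢; omega), 0,
        zero_mem _, ?_⟩
      simp only [mon, pow_zero, one_mul, pow_succ', mul_zero, sub_zero, mul_assoc]
    · obtain ⟨a, rfl⟩ : ∃ a, a0 = a + 1 := ⟨a0 - 1, by omega⟩
      refine ⟨0, zero_mem _, -mon g (a, a1) (b0, b1),
        neg_mem (mon_mem g _ _ h1 (by push_cast at h2 ⊢; omega)), ?_⟩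
      simp only [mon, pow_succ', mul_zero, zero_sub, mul_neg, neg_neg, mul_assoc]
  | zero => exact ⟨0, zero_mem _, 0, zero_mem _, by rw [mul_zero, mul_zero, sub_zero]⟩
  | add x y _ _ hx hy =>
    obtain ⟨a, ha, b, hb, e1⟩ := hx
    obtain ⟨c, hc, d, hd, e2⟩ := hy
    exact ⟨a + c, add_mem ha hc, b + d, add_mem hb hd, by rw [e1, e2, mul_add, mul_add]; abel⟩
  | smul r x _ hx =>
    obtain ⟨a, ha, b, hb, e1⟩ := hx
    exact ⟨r • a, Submodule.smul_mem _ _ ha, r • b, Submodule.smul_mem _ _ hb, by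
      rw [e1, smul_sub, mul_smul_comm, mul_smul_comm]⟩

/-- left generation by `x` and the constants: degree `0` -/
theorem Fil_left0 {k : ℤ} {T : Op K} (hT : T ∈ Fil g k 0) :
    ∃ T0 ∈ Fil g k (-1), ∃ T1 ∈ Fil g k (-1), ∃ c : K, (k < 0 → c = 0) ∧
      T = X 1 * T0 - X 0 * T1 + c • 1 := by
  induction hT using Submodule.span_induction with
  | mem x hx =>
    obtain ⟨⟨a0, a1⟩, ⟨b0, b1⟩, h1, h2, rfl⟩ := hx
    simp only at h1 h2
    rcases Nat.eq_zero_or_pos a0 with h | h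
    · subst h
      rcases Nat.eq_zero_or_pos a1 with h' | h'
      · subst h'
        have e0 : b0 = 0 := by push_cast at h2; omega
        have e1 : b1 = 0 := by push_cast at h2; omega
        subst e0 e1
        refine ⟨0, zero_mem _, 0, zero_mem _, 1, fun hk => absurd h1 (by push_cast; omega), ?_⟩
        simp [mon]
      · obtain ⟨a, rfl⟩ : ∃ a, a1 = a + 1 := ⟨a1 - 1, by omega⟩
        refine ⟨mon g (0, a) (b0, b1), mon_mem g _ _ h1 (by push_cast at h2 ⊢; omega), 0,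
          zero_mem _, 0, fun _ => rfl, ?_⟩
        simp only [mon, pow_zero, one_mul, pow_succ', mul_zero, sub_zero, mul_assoc, zero_smul,
          add_zero]
    · obtain ⟨a, rfl⟩ : ∃ a, a0 = a + 1 := ⟨a0 - 1, by omega⟩
      refine ⟨0, zero_mem _, -mon g (a, a1) (b0, b1),
        neg_mem (mon_mem g _ _ h1 (by push_cast at h2 ⊢; omega)), 0, fun _ => rfl, ?_⟩
      simp only [mon, pow_succ', mul_zero, zero_sub, mul_neg, neg_neg, mul_assoc, zero_smul,
          add_zero]
  | zero => exact ⟨0, zero_mem _, 0, zero_mem _, 0, fun _ => rfl, by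
      rw [mul_zero, mul_zero, sub_zero, zero_smul, add_zero]⟩
  | add x y _ _ hx hy =>
    obtain ⟨a, ha, b, hb, r, hr, e1⟩ := hx
    obtain ⟨c, hc, d, hd, t, ht, e2⟩ := hy
    exact ⟨a + c, add_mem ha hc, b + d, add_mem hb hd, r + t,
      fun hk => by rw [hr hk, ht hk, add_zero], by
      rw [e1, e2, mul_add, mul_add, add_smul]; abel⟩
  | smul r x _ hx =>
    obtain ⟨a, ha, b, hb, t, ht, e1⟩ := hx
    exact ⟨r • a, Submodule.smul_mem _ _ ha, r • b, Submodule.smul_mem _ _ hb, r * t,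
      fun hk => by rw [ht hk, mul_zero], by
      rw [e1, smul_add, smul_sub, mul_smul_comm, mul_smul_comm, smul_smul]⟩

/-- membership in the lattice `TK c d` -/
def InK (g : K) (c d k P : ℤ) (v0 v1 : Op K) : Prop :=
  v0 ∈ Fil g (k - c) P ∧ v1 ∈ Fil g (k - c) P ∧ v0 * X 0 + v1 * X 1 ∈ Fil g (k - d) (P + 1)

theorem mulX (hg : Gen g) {k P : ℤ} {T : Op K} (hT : T ∈ Fil g k P) (i : Fin 2) :
    T * X i ∈ Fil g k (P + 1) := by
  have := FilPBW633.Fil_mul hg hT (X_mem_Fil g i (le_refl 0))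
  rwa [add_zero] at this

theorem InK.add {c d k P : ℤ} {v0 v1 w0 w1 : Op K} (h : InK g c d k P v0 v1)
    (h' : InK g c d k P w0 w1) : InK g c d k P (v0 + w0) (v1 + w1) := by
  refine ⟨add_mem h.1 h'.1, add_mem h.2.1 h'.2.1, ?_⟩
  have := add_mem h.2.2 h'.2.2
  rwa [show v0 * X 0 + v1 * X 1 + (w0 * X 0 + w1 * X 1) =
    (v0 + w0) * X 0 + (v1 + w1) * X 1 by simp only [add_mul]; abel] at this

theorem InK.smul {c d k P : ℤ} {v0 v1 : Op K} (r : K) (h : InK g c d k P v0 v1) :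
    InK g c d k P (r • v0) (r • v1) := by
  refine ⟨Submodule.smul_mem _ _ h.1, Submodule.smul_mem _ _ h.2.1, ?_⟩
  have := Submodule.smul_mem _ r h.2.2
  rwa [smul_add, ← smul_mul_assoc, ← smul_mul_assoc] at this

theorem InK.zero {c d k P : ℤ} : InK g c d k P 0 0 :=
  ⟨zero_mem _, zero_mem _, by rw [zero_mul, zero_mul, add_zero]; exact zero_mem _⟩

/-- rows `e (x₁, -x₀)` -/
theorem InK.kap (hg : Gen g) {c d k P : ℤ} {w : Op K} (h : w ∈ Fil g (k - c) (P - 1)) :
    InK g c d k P (w * X 1) (-(w * X 0)) := by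
  have h1 := mulX hg h 1
  have h0 := mulX hg h 0
  rw [sub_add_cancel] at h1 h0
  refine ⟨h1, neg_mem h0, ?_⟩
  rw [neg_mul, mul_assoc, mul_assoc, X_comm 1 0, add_neg_cancel]
  exact zero_mem _

set_option maxHeartbeats 400000 in
/-- **(S') for the `K`-lattices**, elementwise -/
theorem surK (hg : Gen g) {a b c d e : ℤ} (he : 0 ≤ e) (hcd : c ≤ d)
    (hbc : c ≤ b ∨ d ≤ a) {v0 v1 : Op K} (hv : InK g c d a (e + 1) v0 v1) :
    ∃ p0 p1 q0 q1 r0 r1 : Op K, InK g c d a e p0 p1 ∧ InK g c d a e q0 q1 ∧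
      InK g c d b (e + 1) r0 r1 ∧ v0 = X 1 * p0 - X 0 * q0 + r0 ∧
      v1 = X 1 * p1 - X 0 * q1 + r1 := by
  obtain ⟨j, hj⟩ : ∃ j : ℕ, d = c + j := ⟨(d - c).toNat, by omega⟩
  obtain ⟨p, hp, q, hq, w, hw, e0, e1⟩ := kgen hg j (a - c) (e + 1) v0 v1 hv.1 hv.2.1 (by
    have := hv.2.2
    rwa [hj, ← sub_sub] at this)
  rw [sub_sub, ← hj] at hp hq
  rw [add_sub_cancel_right] at hw
  obtain ⟨p0, hp0, p1, hp1, ep⟩ := Fil_left (by omega) hp
  obtain ⟨q0, hq0, q1, hq1, eq⟩ := Fil_left (by omega) hq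
  rw [add_sub_cancel_right] at hp0 hp1 hq0 hq1
  have hrow : ∀ {s t : Op K}, s ∈ Fil g (a - d) e → t ∈ Fil g (a - d) e → InK g c d a e s t :=
    fun hs ht => ⟨Fil_mono g (by omega) hs, Fil_mono g (by omega) ht,
      add_mem (mulX hg hs 0) (mulX hg ht 1)⟩
  rcases lt_or_eq_of_le he with he | he
  · obtain ⟨w0, hw0, w1, hw1, ew⟩ := Fil_left (by omega) hw
    have hk0 : InK g c d a e (p0 + w0 * X 1) (q0 + -(w0 * X 0)) :=
      InK.add (hrow hp0 hq0) (InK.kap (c := c) (d := d) (k := a) (P := e) hg hw0)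
    have hk1 : InK g c d a e (p1 + w1 * X 1) (q1 + -(w1 * X 0)) :=
      InK.add (hrow hp1 hq1) (InK.kap (c := c) (d := d) (k := a) (P := e) hg hw1)
    refine ⟨p0 + w0 * X 1, q0 + -(w0 * X 0), p1 + w1 * X 1, q1 + -(w1 * X 0), 0, 0,
      hk0, hk1, InK.zero, ?_, ?_⟩
    · rw [e0, ep, ew, sub_mul]
      simp only [mul_add, mul_assoc, add_zero]
      abel
    · rw [e1, eq, ew, sub_mul]
      simp only [mul_add, mul_neg, mul_assoc, add_zero]
      abel
  · subst he
    obtain ⟨w0, hw0, w1, hw1, r, hr, ew⟩ := Fil_left0 hw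
    have hk0 : InK g c d a 0 (p0 + w0 * X 1) (q0 + -(w0 * X 0)) :=
      InK.add (hrow hp0 hq0) (InK.kap (c := c) (d := d) (k := a) (P := 0) hg (by rwa [zero_sub]))
    have hk1 : InK g c d a 0 (p1 + w1 * X 1) (q1 + -(w1 * X 0)) :=
      InK.add (hrow hp1 hq1) (InK.kap (c := c) (d := d) (k := a) (P := 0) hg (by rwa [zero_sub]))
    by_cases hac : a - c < 0
    · refine ⟨p0 + w0 * X 1, q0 + -(w0 * X 0), p1 + w1 * X 1, q1 + -(w1 * X 0), 0, 0,
        hk0, hk1, InK.zero, ?_, ?_⟩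
      · rw [e0, ep, ew, hr hac, zero_smul, add_zero, sub_mul]
        simp only [mul_add, mul_assoc, add_zero]
        abel
      · rw [e1, eq, ew, hr hac, zero_smul, add_zero, sub_mul]
        simp only [mul_add, mul_neg, mul_assoc, add_zero]
        abel
    · rcases hbc with hbc | hbc
      · have h1 : (1 : Op K) ∈ Fil g (b - c) (0 + 1 - 1) := by
          rw [add_sub_cancel_right]; exact one_mem_Fil g (by omega)
        have h2 : InK g c d b (0 + 1) (1 * X 1) (-(1 * X 0)) :=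
          InK.kap (c := c) (d := d) (k := b) (P := 0 + 1) hg h1
        refine ⟨p0 + w0 * X 1, q0 + -(w0 * X 0), p1 + w1 * X 1, q1 + -(w1 * X 0),
          r • (1 * X 1), r • (-(1 * X 0)), hk0, hk1, h2.smul r, ?_, ?_⟩
        · rw [e0, ep, ew, add_mul, sub_mul, smul_mul_assoc]
          simp only [mul_add, mul_assoc]
          abel
        · rw [e1, eq, ew, add_mul, sub_mul, smul_mul_assoc, smul_neg]
          simp only [mul_add, mul_neg, mul_assoc]
          abel
      · have h1 : InK g c d a 0 (r • 1) (r • (0 : Op K)) := InK.smul r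
          ⟨one_mem_Fil g (by omega), zero_mem _, by
            rw [one_mul, zero_mul, add_zero]; exact X_mem_Fil g 0 (by omega)⟩
        have h2 : InK g c d a 0 (r • (0 : Op K)) (r • 1) := InK.smul r
          ⟨zero_mem _, one_mem_Fil g (by omega), by
            rw [one_mul, zero_mul, zero_add (X 1 : Op K)]; exact X_mem_Fil g 1 (by omega)⟩
        refine ⟨p0 + w0 * X 1 + r • 1, q0 + -(w0 * X 0) + r • 0, p1 + w1 * X 1 + r • 0,
          q1 + -(w1 * X 0) + r • 1, 0, 0, hk0.add h1, hk1.add h2, InK.zero, ?_, ?_⟩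
        · rw [e0, ep, ew, add_mul, sub_mul, smul_mul_assoc, one_mul]
          simp only [mul_add, mul_assoc, add_zero, smul_zero, mul_smul_comm, mul_one, mul_zero]
          abel
        · rw [e1, eq, ew, add_mul, sub_mul, smul_mul_assoc, one_mul]
          simp only [mul_add, mul_neg, mul_assoc, add_zero, smul_zero, mul_smul_comm, mul_one,
            mul_zero]
          abel

/-- (S') for the line bundles, elementwise -/
theorem surO {k e : ℤ} (he : 0 ≤ e) {T : Op K} (hT : T ∈ Fil g k (e + 1)) :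
    ∃ T0 ∈ Fil g k e, ∃ T1 ∈ Fil g k e, T = X 1 * T0 - X 0 * T1 := by
  obtain ⟨u0, h0, u1, h1, h⟩ := Fil_left (by omega) hT
  rw [add_sub_cancel_right] at h0 h1
  exact ⟨u0, h0, u1, h1, h⟩

end Crest.Agent.R186.FamX823
end

-- ▼ part R186/FamX2_823

/-!
Row 186, S0281, leaf B281.F1 (helper823): powers and products of families, their `W`,
levelwise exactness, and (S') = `Fam.Sur` for all terms of the resolutions.
-/

set_option autoImplicit false

namespace Crest.Agent.R186.FamX823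

open Crest.Agent.R186.B281

variable {K : Type} [Field K] {g : K}

/-! ### powers -/

/-- functions with values in a family -/
noncomputable def pi (F : Fam g) (ι : Type) : Fam g where
  N := ι → F.N
  L k P := Submodule.pi Set.univ fun _ => F.L k P
  mono h := fun _ hx i hi => F.mono h (hx i hi)
  smul hT hn := fun i hi => F.smul hT (hn i hi)

theorem mem_pi {F : Fam g} {ι : Type} {k P : ℤ} {x : ι → F.N} :
    x ∈ (pi F ι).L k P ↔ ∀ i, x i ∈ F.L k P := by
  show x ∈ Submodule.pi Set.univ _ ↔ _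
  simp [Submodule.mem_pi]

theorem pair_pi {N ι : Type} [AddCommGroup N] [Module (Op K) N]
    (r : Fin 7 → Op K) (m : Fin 7 → ι → N) (i : ι) :
    pair r m i = pair r (fun j => m j i) := by
  simp only [pair, Finset.sum_apply, Pi.smul_apply]

theorem cact_pi {N ι : Type} [AddCommGroup N] [Module (Op K) N]
    (M : Mat K) (m : Fin 7 → ι → N) (j : Fin 7) (i : ι) :
    cact M m j i = cact M (fun j => m j i) j := by
  simp only [cact, Finset.sum_apply, Pi.smul_apply]

/-- `W` of a power -/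
noncomputable def piW (F : Fam g) (ι : Type) (s : ℤ) : (pi F ι).W s ≃ₗ[A g s] (ι → F.W s) where
  toFun p i := ⟨((fun j => p.1.1 j i, fun j => p.1.2 j i) : Col F.N), by
    intro k P r hr
    have h := p.2 k P r hr
    refine ⟨?_, ?_⟩
    · have h1 := mem_pi.1 h.1 i
      exact (pair_pi r p.1.1 i) ▸ h1
    · have h1 := mem_pi.1 h.2 i
      exact (pair_pi r p.1.2 i) ▸ h1⟩
  invFun q := ⟨((fun j i => (q i).1.1 j, fun j i => (q i).1.2 j) : Col (ι → F.N)), by
    intro k P r hr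
    refine ⟨mem_pi.2 fun i => ?_, mem_pi.2 fun i => ?_⟩
    · exact (pair_pi r (fun j i => (q i).1.1 j) i).symm ▸ ((q i).2 k P r hr).1
    · exact (pair_pi r (fun j i => (q i).1.2 j) i).symm ▸ ((q i).2 k P r hr).2⟩
  left_inv p := by
    apply Subtype.ext
    rfl
  right_inv q := by
    funext i
    apply Subtype.ext
    rfl
  map_add' p q := by
    funext i
    apply Subtype.ext
    rfl
  map_smul' x p := by
    funext i
    apply Subtype.ext
    refine Col.ext' (fun j => ?_) (fun j => ?_)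
    · exact cact_pi x.1.fst p.1.1 j i
    · exact congrArg₂ (· + ·) (cact_pi x.1.fst p.1.2 j i) (cact_pi x.1.snd p.1.1 j i)



/-! ### products -/

/-- the product of two families -/
noncomputable def prod (F G : Fam g) : Fam g where
  N := F.N × G.N
  L k P := (F.L k P).prod (G.L k P)
  mono h := fun _ hx => ⟨F.mono h hx.1, G.mono h hx.2⟩
  smul hT hn := ⟨F.smul hT hn.1, G.smul hT hn.2⟩

theorem mem_prod {F G : Fam g} {k P : ℤ} {x : F.N × G.N} :
    x ∈ (prod F G).L k P ↔ x.1 ∈ F.L k P ∧ x.2 ∈ G.L k P := Iff.rfl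

theorem pair_fst {N N' : Type} [AddCommGroup N] [Module (Op K) N] [AddCommGroup N']
    [Module (Op K) N'] (r : Fin 7 → Op K) (m : Fin 7 → N × N') :
    (pair r m).1 = pair r (fun j => (m j).1) := by
  simp only [pair, Prod.fst_sum, Prod.smul_fst]

theorem pair_snd {N N' : Type} [AddCommGroup N] [Module (Op K) N] [AddCommGroup N']
    [Module (Op K) N'] (r : Fin 7 → Op K) (m : Fin 7 → N × N') :
    (pair r m).2 = pair r (fun j => (m j).2) := by
  simp only [pair, Prod.snd_sum, Prod.smul_snd]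

theorem cact_fst {N N' : Type} [AddCommGroup N] [Module (Op K) N] [AddCommGroup N']
    [Module (Op K) N'] (M : Mat K) (m : Fin 7 → N × N') (j : Fin 7) :
    (cact M m j).1 = cact M (fun j => (m j).1) j := by
  simp only [cact, Prod.fst_sum, Prod.smul_fst]

theorem cact_snd {N N' : Type} [AddCommGroup N] [Module (Op K) N] [AddCommGroup N']
    [Module (Op K) N'] (M : Mat K) (m : Fin 7 → N × N') (j : Fin 7) :
    (cact M m j).2 = cact M (fun j => (m j).2) j := by
  simp only [cact, Prod.snd_sum, Prod.smul_snd]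

/-- `W` of a product -/
noncomputable def prodW (F G : Fam g) (s : ℤ) : (prod F G).W s ≃ₗ[A g s] (F.W s × G.W s) where
  toFun p := (⟨((fun j => (p.1.1 j).1, fun j => (p.1.2 j).1) : Col F.N), by
      intro k P r hr
      have h := p.2 k P r hr
      exact ⟨(pair_fst r p.1.1) ▸ h.1.1, (pair_fst r p.1.2) ▸ h.2.1⟩⟩,
    ⟨((fun j => (p.1.1 j).2, fun j => (p.1.2 j).2) : Col G.N), by
      intro k P r hr
      have h := p.2 k P r hr
      exact ⟨(pair_snd r p.1.1) ▸ h.1.2, (pair_snd r p.1.2) ▸ h.2.2⟩⟩)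
  invFun q := ⟨((fun j => (q.1.1.1 j, q.2.1.1 j), fun j => (q.1.1.2 j, q.2.1.2 j)) :
      Col (F.N × G.N)), by
    intro k P r hr
    have h1 := q.1.2 k P r hr
    have h2 := q.2.2 k P r hr
    refine ⟨⟨?_, ?_⟩, ?_, ?_⟩
    · exact (pair_fst r (fun j => (q.1.1.1 j, q.2.1.1 j))).symm ▸ h1.1
    · exact (pair_snd r (fun j => (q.1.1.1 j, q.2.1.1 j))).symm ▸ h2.1
    · exact (pair_fst r (fun j => (q.1.1.2 j, q.2.1.2 j))).symm ▸ h1.2
    · exact (pair_snd r (fun j => (q.1.1.2 j, q.2.1.2 j))).symm ▸ h2.2⟩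
  left_inv p := by
    apply Subtype.ext
    rfl
  right_inv q := by
    refine Prod.ext ?_ ?_ <;> apply Subtype.ext <;> rfl
  map_add' p q := by
    refine Prod.ext ?_ ?_ <;> apply Subtype.ext <;> rfl
  map_smul' x p := by
    refine Prod.ext ?_ ?_ <;> apply Subtype.ext <;> refine Col.ext' (fun j => ?_) (fun j => ?_)
    · exact cact_fst x.1.fst p.1.1 j
    · exact congrArg₂ (· + ·) (cact_fst x.1.fst p.1.2 j) (cact_fst x.1.snd p.1.1 j)
    · exact cact_snd x.1.fst p.1.1 j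
    · exact congrArg₂ (· + ·) (cact_snd x.1.fst p.1.2 j) (cact_snd x.1.snd p.1.1 j)

/-! ### (S') -/

theorem sur_pi {F : Fam g} {j i e : ℤ} (h : F.Sur j i e) (ι : Type) : (pi F ι).Sur j i e := by
  intro n hn
  choose a ha b hb c hc hh using fun t => h (n t) (mem_pi.1 hn t)
  exact ⟨a, mem_pi.2 ha, b, mem_pi.2 hb, c, mem_pi.2 hc, funext hh⟩

theorem sur_prod {F G : Fam g} {j i e : ℤ} (h : F.Sur j i e) (h' : G.Sur j i e) :
    (prod F G).Sur j i e := by
  rintro ⟨u, v⟩ ⟨hu, hv⟩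
  obtain ⟨u0, a0, u1, a1, u', a2, e1⟩ := h u hu
  obtain ⟨v0, b0, v1, b1, v', b2, e2⟩ := h' v hv
  exact ⟨(u0, v0), ⟨a0, b0⟩, (u1, v1), ⟨a1, b1⟩, (u', v'), ⟨a2, b2⟩, Prod.ext e1 e2⟩

/-- (S') for a family given by a line bundle lattice -/
theorem sur_O {F : Fam g} (f : F.N ≃ₗ[Op K] Op K) {c j i e : ℤ} (he : 0 ≤ e)
    (hj : ∀ P n, n ∈ F.L j P ↔ f n ∈ Fil g (j - c) P) : F.Sur j i e := by
  intro n hn
  obtain ⟨a, ha, b, hb, hh⟩ := surO he ((hj _ n).1 hn)
  refine ⟨f.symm a, (hj _ _).2 (by rwa [f.apply_symm_apply]), f.symm b,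
    (hj _ _).2 (by rwa [f.apply_symm_apply]), 0, zero_mem _, ?_⟩
  apply f.injective
  rw [add_zero, map_sub, map_smul, map_smul, f.apply_symm_apply, f.apply_symm_apply, hh,
    smul_eq_mul, smul_eq_mul]

/-- (S') for a family given by a `K`-lattice -/
theorem sur_K {F : Fam g} (hg : Gen g) (f : F.N ≃ₗ[Op K] (Fin 2 → Op K)) {c d j i e : ℤ}
    (he : 0 ≤ e) (hcd : c ≤ d) (hbc : c ≤ i ∨ d ≤ j)
    (hj : ∀ P n, n ∈ F.L j P ↔ InK g c d j P (f n 0) (f n 1))
    (hi : ∀ P n, n ∈ F.L i P ↔ InK g c d i P (f n 0) (f n 1)) : F.Sur j i e := by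
  intro n hn
  obtain ⟨p0, p1, q0, q1, r0, r1, hp, hq, hr, e0, e1⟩ :=
    surK hg he hcd hbc ((hj _ n).1 hn)
  refine ⟨f.symm ![p0, p1], (hj _ _).2 (by rw [f.apply_symm_apply]; exact hp),
    f.symm ![q0, q1], (hj _ _).2 (by rw [f.apply_symm_apply]; exact hq),
    f.symm ![r0, r1], (hi _ _).2 (by rw [f.apply_symm_apply]; exact hr), ?_⟩
  apply f.injective
  rw [map_add, map_sub, map_smul, map_smul, f.apply_symm_apply, f.apply_symm_apply,
    f.apply_symm_apply]
  funext t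
  fin_cases t
  · exact e0
  · exact e1

end Crest.Agent.R186.FamX823
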