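import Crest.Agent.R186.NullChain_538
import Crest.Agent.R186.ExtRes_700

-- ▼ part R186/NullDual_538
section

/-!
Row 186 (S0281), helper538: nullness of the chain without explicit lifts (`null_of_dual`).
-/

set_option autoImplicit false

universe u

open CategoryTheory CategoryTheory.Abelian

namespace Crest.Agent.R186.NullChain538

section Retract

variable {A : Type u} [Ring A]

/-- a finite projective module is a retract of a finite free module -/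
theorem exists_retract (P : Type u) [AddCommGroup P] [Module A P] [Module.Finite A P]
    [Module.Projective A P] :
    ∃ (m : ℕ) (s : P →ₗ[A] (Fin m → A)) (r : (Fin m → A) →ₗ[A] P), r ∘ₗ s = LinearMap.id := by
  obtain ⟨m, r, hr⟩ := Module.Finite.exists_fin' A P
  obtain ⟨s, hs⟩ := Module.projective_lifting_property r LinearMap.id hr
  exact ⟨m, s, r, hs⟩

variable {E : Type u} [AddCommGroup E] [Module A E] {R : MRes A E}





end Retract

section Lifts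

variable {A : Type u} [Ring A]

/-- a map from a projective module into the image of an exact pair lifts -/
theorem lift_exact {P X Y Z : Type u} [AddCommGroup P] [Module A P] [AddCommGroup X] [Module A X]
    [AddCommGroup Y] [Module A Y] [AddCommGroup Z] [Module A Z] [Module.Projective A P]
    (f : X →ₗ[A] Y) (g : Y →ₗ[A] Z) (h : Function.Exact f g) (φ : P →ₗ[A] Y)
    (hφ : g ∘ₗ φ = 0) : ∃ ψ : P →ₗ[A] X, f ∘ₗ ψ = φ := by
  have hr : ∀ x, φ x ∈ LinearMap.range f := fun x => (h (φ x)).1 (congrArg (fun g => g x) hφ)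
  obtain ⟨ψ, hψ⟩ := Module.projective_lifting_property f.rangeRestrict
    (φ.codRestrict (LinearMap.range f) hr) f.surjective_rangeRestrict
  refine ⟨ψ, ?_⟩
  ext x
  exact congrArg Subtype.val (congrArg (fun g => g x) hψ)

/-- lifts of a map between resolved modules -/
theorem exists_lifts {E E' : Type u} [AddCommGroup E] [Module A E] [AddCommGroup E'] [Module A E']
    (R : MRes A E) (R' : MRes A E') (a : E' →ₗ[A] E) :
    ∃ (φ0 : R'.K0 →ₗ[A] R.K0) (φ1 : R'.K1 →ₗ[A] R.K1) (φ2 : R'.K2 →ₗ[A] R.K2)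
      (φ3 : R'.K3 →ₗ[A] R.K3), R.e ∘ₗ φ0 = a ∘ₗ R'.e ∧ R.d1 ∘ₗ φ1 = φ0 ∘ₗ R'.d1 ∧
      R.d2 ∘ₗ φ2 = φ1 ∘ₗ R'.d2 ∧ R.d3 ∘ₗ φ3 = φ2 ∘ₗ R'.d3 := by
  have := R'.p0
  have := R'.p1
  have := R'.p2
  have := R'.p3
  obtain ⟨φ0, h0⟩ := Module.projective_lifting_property R.e (a ∘ₗ R'.e) R.surj
  obtain ⟨φ1, h1⟩ := lift_exact R.d1 R.e R.ex0 (φ0 ∘ₗ R'.d1) (by
    rw [← LinearMap.comp_assoc, h0, LinearMap.comp_assoc, R'.ex0.linearMap_comp_eq_zero,
      LinearMap.comp_zero])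
  obtain ⟨φ2, h2⟩ := lift_exact R.d2 R.d1 R.ex1 (φ1 ∘ₗ R'.d2) (by
    rw [← LinearMap.comp_assoc, h1, LinearMap.comp_assoc, R'.ex1.linearMap_comp_eq_zero,
      LinearMap.comp_zero])
  obtain ⟨φ3, h3⟩ := lift_exact R.d3 R.d2 R.ex2 (φ2 ∘ₗ R'.d3) (by
    rw [← LinearMap.comp_assoc, h2, LinearMap.comp_assoc, R'.ex2.linearMap_comp_eq_zero,
      LinearMap.comp_zero])
  exact ⟨φ0, φ1, φ2, φ3, h0, h1, h2, h3⟩

end Lifts

section Dual

variable {A : Type u} [Ring A]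


variable {V E : ℕ → Type u} [∀ n, AddCommGroup (V n)] [∀ n, Module A (V n)]
  [∀ n, AddCommGroup (E n)] [∀ n, Module A (E n)]


end Dual

end Crest.Agent.R186.NullChain538
namespace Crest.Agent.R186.NullChain538.MRes.H1
end Crest.Agent.R186.NullChain538.MRes.H1
namespace Crest.Agent.R186.NullChain538.MRes.H2
end Crest.Agent.R186.NullChain538.MRes.H2
end

-- ▼ part R186/NullCol_538
section

/-!
Row 186 (S0281), helper538: nullness of the chain against one column, without explicit lifts.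
-/

set_option autoImplicit false

universe w v u

open CategoryTheory CategoryTheory.Abelian

namespace Crest.Agent.R186.NullChain538

section Abs

variable {C : Type u} [Category.{v} C] [Abelian C] [HasExt.{w} C]

/-- `Hom (X, E) → Ext³ (X, K3)`, composition with the class of the resolution, is injective -/
theorem Res3.comp_cls_injective {E X : C} (R : Res3 E) (x0 : Subsingleton (Ext X R.K0 0))
    (x1 : Subsingleton (Ext X R.K1 1)) (x2 : Subsingleton (Ext X R.K2 2)) (a : X ⟶ E)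
    (h : (Ext.mk₀ a).comp R.cls (zero_add 3) = 0) : a = 0 := by
  have h1 : (((Ext.mk₀ a).comp R.s1.extClass (zero_add 1)).comp R.s2.extClass
      (show 1 + 1 = 2 by rfl)).comp R.s3.extClass (show 2 + 1 = 3 by rfl) = 0 := by
    rw [← h, Res3.cls, Ext.comp_assoc (a₂₃ := 2) _ _ _ (by omega) (by omega) (by omega),
      Ext.comp_assoc (a₂₃ := 3) _ _ _ (by omega) (by omega) (by omega)]
  obtain ⟨y2, hy2⟩ := Ext.covariant_sequence_exact₃ X R.s3 _ (show 2 + 1 = 3 by rfl) h1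
  rw [Subsingleton.elim y2 0, Ext.zero_comp] at hy2
  obtain ⟨y1, hy1⟩ := Ext.covariant_sequence_exact₃ X R.s2 _ (show 1 + 1 = 2 by rfl) hy2.symm
  rw [Subsingleton.elim y1 0, Ext.zero_comp] at hy1
  obtain ⟨y0, hy0⟩ := Ext.covariant_sequence_exact₃ X R.s1 _ (show 0 + 1 = 1 by rfl) hy1.symm
  rw [Subsingleton.elim y0 0, Ext.zero_comp] at hy0
  exact (Ext.mk₀_eq_zero_iff a).1 hy0.symm

/-- if the last lift factors through the differential, the map is zero -/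
theorem Res3.eq_zero_of_factor {E E' : C} (R : Res3 E) (R' : Res3 E')
    (x0 : Subsingleton (Ext E' R.K0 0)) (x1 : Subsingleton (Ext E' R.K1 1))
    (x2 : Subsingleton (Ext E' R.K2 2)) (α : E' ⟶ E)
    (φ0 : R'.K0 ⟶ R.K0) (φ1 : R'.K1 ⟶ R.K1) (φ2 : R'.K2 ⟶ R.K2) (φ3 : R'.K3 ⟶ R.K3)
    (c0 : R'.e ≫ α = φ0 ≫ R.e)
    (c1 : R'.q1 ≫ R'.j1 ≫ φ0 = φ1 ≫ R.q1 ≫ R.j1)
    (c2 : R'.q2 ≫ R'.j2 ≫ φ1 = φ2 ≫ R.q2 ≫ R.j2)
    (c3 : R'.d3 ≫ φ2 = φ3 ≫ R.d3) (h : R'.K2 ⟶ R.K3) (hh : R'.d3 ≫ h = φ3) : α = 0 := by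
  refine R.comp_cls_injective x0 x1 x2 α ?_
  rw [Res3.cls_naturality R R' α φ0 φ1 φ2 φ3 c0 c1 c2 c3]
  exact (R'.comp_eq_zero_iff _).2 ⟨h, hh⟩

/-- **the null chain lemma** in terms of resolutions, Ext form -/
theorem null_of_res_x {V E : ℕ → C} (c : Chain V E) (R : ∀ n, Res3 (E n))
    (φ0 : ∀ n, (R (n + 1)).K0 ⟶ (R n).K0) (φ1 : ∀ n, (R (n + 1)).K1 ⟶ (R n).K1)
    (φ2 : ∀ n, (R (n + 1)).K2 ⟶ (R n).K2) (φ3 : ∀ n, (R (n + 1)).K3 ⟶ (R n).K3)
    (c0 : ∀ n, (R (n + 1)).e ≫ c.a n = φ0 n ≫ (R n).e)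
    (c1 : ∀ n, (R (n + 1)).q1 ≫ (R (n + 1)).j1 ≫ φ0 n = φ1 n ≫ (R n).q1 ≫ (R n).j1)
    (c2 : ∀ n, (R (n + 1)).q2 ≫ (R (n + 1)).j2 ≫ φ1 n = φ2 n ≫ (R n).q2 ≫ (R n).j2)
    (c3 : ∀ n, (R (n + 1)).d3 ≫ φ2 n = φ3 n ≫ (R n).d3) (Y : C)
    (hx : ∀ n q, q ≠ 3 → Subsingleton (Ext (E n) Y q))
    (ha : ∀ (f : (R 0).K3 ⟶ Y) (h : (R 1).K2 ⟶ Y), (R 1).d3 ≫ h = φ3 0 ≫ f →
      ∃ h' : (R 0).K2 ⟶ Y, (R 0).d3 ≫ h' = f)
    (hb : ∀ n (f : (R (n + 1)).K3 ⟶ Y) (h : (R (n + 2)).K2 ⟶ Y),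
      (R (n + 2)).d3 ≫ h = φ3 (n + 1) ≫ f →
      ∃ (g : (R n).K3 ⟶ Y) (h' : (R (n + 1)).K2 ⟶ Y), f = φ3 n ≫ g + (R (n + 1)).d3 ≫ h') :
    ∀ q, Subsingleton (Ext (V 0) Y q) := by
  have nat : ∀ n (f : (R n).K3 ⟶ Y), (Ext.mk₀ (c.a n)).comp
      ((R n).cls.comp (Ext.mk₀ f) (add_zero 3)) (zero_add 3) =
      (R (n + 1)).cls.comp (Ext.mk₀ (φ3 n ≫ f)) (add_zero 3) := by
    intro n f
    rw [← Ext.comp_assoc (a₁₂ := 3) _ _ _ (by omega) (by omega) (by omega),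
      Res3.cls_naturality (R n) (R (n + 1)) (c.a n) (φ0 n) (φ1 n) (φ2 n) (φ3 n) (c0 n) (c1 n)
        (c2 n) (c3 n),
      Ext.comp_assoc (a₂₃ := 0) _ _ _ (by omega) (by omega) (by omega), Ext.mk₀_comp_mk₀]
  refine null_of_chain' c Y 3 hx ?_ ?_
  · intro x hx
    obtain ⟨f, rfl⟩ := (R 0).exists_rep x
    rw [nat, Res3.comp_eq_zero_iff] at hx
    obtain ⟨h, hh⟩ := hx
    rw [Res3.comp_eq_zero_iff]
    exact ha f h hh
  · intro n x hx
    obtain ⟨f, rfl⟩ := (R (n + 1)).exists_rep x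
    rw [nat, Res3.comp_eq_zero_iff] at hx
    obtain ⟨h, hh⟩ := hx
    obtain ⟨g, h', e⟩ := hb n f h hh
    refine ⟨(R n).cls.comp (Ext.mk₀ g) (add_zero 3), ?_⟩
    rw [nat, e, Ext.mk₀_add, Ext.comp_add, ((R (n + 1)).comp_eq_zero_iff _).2 ⟨h', rfl⟩, add_zero]

end Abs

section Mod

variable {A : Type u} [Ring A] {V E : ℕ → Type u} [∀ n, AddCommGroup (V n)] [∀ n, Module A (V n)]
  [∀ n, AddCommGroup (E n)] [∀ n, Module A (E n)]

/-- **the null chain lemma** for modules, Ext form -/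
theorem null_of_chain_x (i : ∀ n, V (n + 1) →ₗ[A] E n) (p : ∀ n, E n →ₗ[A] V n)
    (hi : ∀ n, Function.Injective (i n)) (hp : ∀ n, Function.Surjective (p n))
    (hex : ∀ n, Function.Exact (i n) (p n)) (R : ∀ n, MRes A (E n))
    (φ0 : ∀ n, (R (n + 1)).K0 →ₗ[A] (R n).K0) (φ1 : ∀ n, (R (n + 1)).K1 →ₗ[A] (R n).K1)
    (φ2 : ∀ n, (R (n + 1)).K2 →ₗ[A] (R n).K2) (φ3 : ∀ n, (R (n + 1)).K3 →ₗ[A] (R n).K3)
    (c0 : ∀ n x, i n (p (n + 1) ((R (n + 1)).e x)) = (R n).e (φ0 n x))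
    (c1 : ∀ n x, φ0 n ((R (n + 1)).d1 x) = (R n).d1 (φ1 n x))
    (c2 : ∀ n x, φ1 n ((R (n + 1)).d2 x) = (R n).d2 (φ2 n x))
    (c3 : ∀ n x, φ2 n ((R (n + 1)).d3 x) = (R n).d3 (φ3 n x))
    (Y : Type u) [AddCommGroup Y] [Module A Y]
    (hx : ∀ n q, q ≠ 3 → Subsingleton (Ext (ModuleCat.of A (E n)) (ModuleCat.of A Y) q))
    (ha : ∀ (f : (R 0).K3 →ₗ[A] Y) (h : (R 1).K2 →ₗ[A] Y), h ∘ₗ (R 1).d3 = f ∘ₗ φ3 0 →
      ∃ h' : (R 0).K2 →ₗ[A] Y, h' ∘ₗ (R 0).d3 = f)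
    (hb : ∀ n (f : (R (n + 1)).K3 →ₗ[A] Y) (h : (R (n + 2)).K2 →ₗ[A] Y),
      h ∘ₗ (R (n + 2)).d3 = f ∘ₗ φ3 (n + 1) →
      ∃ (g : (R n).K3 →ₗ[A] Y) (h' : (R (n + 1)).K2 →ₗ[A] Y),
        f = g ∘ₗ φ3 n + h' ∘ₗ (R (n + 1)).d3) (q : ℕ) :
    Subsingleton (Ext (ModuleCat.of A (V 0)) (ModuleCat.of A Y) q) := by
  refine null_of_res_x (mchain i p hi hp hex) (fun n => (R n).toRes3)
    (fun n => ModuleCat.ofHom (φ0 n)) (fun n => ModuleCat.ofHom (φ1 n))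
    (fun n => ModuleCat.ofHom (φ2 n)) (fun n => ModuleCat.ofHom (φ3 n))
    ?_ ?_ ?_ ?_ (ModuleCat.of A Y) hx ?_ ?_ q
  · intro n; apply ModuleCat.hom_ext; ext x; exact c0 n x
  · intro n; apply ModuleCat.hom_ext; ext x; exact c1 n x
  · intro n; apply ModuleCat.hom_ext; ext x; exact c2 n x
  · intro n; apply ModuleCat.hom_ext; ext x; exact c3 n x
  · intro f h hh
    obtain ⟨h', e⟩ := ha f.hom h.hom (by
      ext x; exact congrArg (fun g => (ModuleCat.Hom.hom g) x) hh)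
    refine ⟨ModuleCat.ofHom h', ?_⟩
    apply ModuleCat.hom_ext
    ext x
    exact congrArg (fun g => g x) e
  · intro n f h hh
    obtain ⟨g, h', e⟩ := hb n f.hom h.hom (by
      ext x; exact congrArg (fun g => (ModuleCat.Hom.hom g) x) hh)
    refine ⟨ModuleCat.ofHom g, ModuleCat.ofHom h', ?_⟩
    apply ModuleCat.hom_ext
    ext x
    exact congrArg (fun g => g x) e

/-- if the last lift factors through the differential, the map is zero (modules) -/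
theorem MRes.eq_zero_of_factor {E E' : Type u} [AddCommGroup E] [Module A E] [AddCommGroup E']
    [Module A E'] (R : MRes A E) (R' : MRes A E')
    (x0 : Subsingleton (Ext (ModuleCat.of A E') (ModuleCat.of A R.K0) 0))
    (x1 : Subsingleton (Ext (ModuleCat.of A E') (ModuleCat.of A R.K1) 1))
    (x2 : Subsingleton (Ext (ModuleCat.of A E') (ModuleCat.of A R.K2) 2)) (α : E' →ₗ[A] E)
    (φ0 : R'.K0 →ₗ[A] R.K0) (φ1 : R'.K1 →ₗ[A] R.K1) (φ2 : R'.K2 →ₗ[A] R.K2)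
    (φ3 : R'.K3 →ₗ[A] R.K3) (c0 : ∀ x, α (R'.e x) = R.e (φ0 x))
    (c1 : ∀ x, φ0 (R'.d1 x) = R.d1 (φ1 x)) (c2 : ∀ x, φ1 (R'.d2 x) = R.d2 (φ2 x))
    (c3 : ∀ x, φ2 (R'.d3 x) = R.d3 (φ3 x)) (h : R'.K2 →ₗ[A] R.K3) (hh : h ∘ₗ R'.d3 = φ3) :
    α = 0 := by
  have h5 := Res3.eq_zero_of_factor R.toRes3 R'.toRes3 x0 x1 x2
    (ModuleCat.ofHom α) (ModuleCat.ofHom φ0) (ModuleCat.ofHom φ1) (ModuleCat.ofHom φ2)
    (ModuleCat.ofHom φ3)
    (by apply ModuleCat.hom_ext; ext x; exact c0 x)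
    (by apply ModuleCat.hom_ext; ext x; exact c1 x)
    (by apply ModuleCat.hom_ext; ext x; exact c2 x)
    (by apply ModuleCat.hom_ext; ext x; exact c3 x)
    (ModuleCat.ofHom h)
    (by apply ModuleCat.hom_ext; ext x; exact congrArg (fun g => g x) hh)
  ext x
  exact congrArg (fun g => (ModuleCat.Hom.hom g) x) h5

end Mod

section Col

variable {A : Type u} [Ring A] {V E : ℕ → Type u} [∀ n, AddCommGroup (V n)] [∀ n, Module A (V n)]
  [∀ n, AddCommGroup (E n)] [∀ n, Module A (E n)]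
  {k : Type*} [CommRing k] {P1 P2 : Type u} [AddCommGroup P1] [Module A P1] [Module k P1]
  [SMulCommClass A k P1] [AddCommGroup P2] [Module A P2] [Module k P2] [SMulCommClass A k P2]

/-- **nullness against one column `P2`** : no lifts, a second column `P1` and operators `T`. -/
theorem null_of_col (i : ∀ n, V (n + 1) →ₗ[A] E n) (p : ∀ n, E n →ₗ[A] V n)
    (hi : ∀ n, Function.Injective (i n)) (hp : ∀ n, Function.Surjective (p n))
    (hex : ∀ n, Function.Exact (i n) (p n)) (hV : ∀ n, Nontrivial (V (n + 1)))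
    (R : ∀ n, MRes A (E n))
    (x0 : ∀ n, Subsingleton (Ext (ModuleCat.of A (E (n + 1))) (ModuleCat.of A (R n).K0) 0))
    (x1 : ∀ n, Subsingleton (Ext (ModuleCat.of A (E (n + 1))) (ModuleCat.of A (R n).K1) 1))
    (x2 : ∀ n, Subsingleton (Ext (ModuleCat.of A (E (n + 1))) (ModuleCat.of A (R n).K2) 2))
    (hx : ∀ n q, q ≠ 3 → Subsingleton (Ext (ModuleCat.of A (E n)) (ModuleCat.of A P2) q))
    (ret : ∀ n, ∃ (m : ℕ) (s : (R n).K3 →ₗ[A] (Fin m → P2)) (r : (Fin m → P2) →ₗ[A] (R n).K3),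
      r ∘ₗ s = LinearMap.id)
    {ι : Type*} (ρh : P2 →ₗ[A] P1) (ρ : ι → P2 →ₗ[A] P1)
    (C : ℕ → Type*) [∀ n, AddCommGroup (C n)] [∀ n, Module k (C n)]
    (T : ∀ n, ι → C n →ₗ[k] C n)
    (ev2 : ∀ n, ((R n).K3 →ₗ[A] P2) →ₗ[k] C n) (ev1 : ∀ n, ((R n).K3 →ₗ[A] P1) →ₗ[k] C n)
    (s2 : ∀ n, Function.Surjective (ev2 n))
    (k2 : ∀ n f, ev2 n f = 0 ↔ ∃ h : (R n).K2 →ₗ[A] P2, h ∘ₗ (R n).d3 = f)
    (k1 : ∀ n f, ev1 n f = 0 ↔ ∃ h : (R n).K2 →ₗ[A] P1, h ∘ₗ (R n).d3 = f)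
    (eh : ∀ n f, ev1 n (ρh ∘ₗ f) = ev2 n f)
    (et : ∀ n t f, ev1 n (ρ t ∘ₗ f) = T n t (ev2 n f))
    (S : ∀ n, Submodule k (C n)) (S0 : S 0 = ⊥)
    (brick : ∀ n (δ : C n →ₗ[k] C (n + 1)), δ ≠ 0 → (∀ t c, δ (T n t c) = T (n + 1) t (δ c)) →
      LinearMap.ker δ = S n ∧ LinearMap.range δ = S (n + 1)) (q : ℕ) :
    Subsingleton (Ext (ModuleCat.of A (V 0)) (ModuleCat.of A P2) q) := by
  choose φ0 φ1 φ2 φ3 c0 c1 c2 c3 using fun n => exists_lifts (R n) (R (n + 1)) (i n ∘ₗ p (n + 1))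
  -- well-definedness of the induced maps
  have wd2 : ∀ n f, ev2 n f = 0 → ev2 (n + 1) (f ∘ₗ φ3 n) = 0 := by
    intro n f hf
    obtain ⟨h, rfl⟩ := (k2 n f).1 hf
    exact (k2 (n + 1) _).2 ⟨h ∘ₗ φ2 n, by rw [LinearMap.comp_assoc, LinearMap.comp_assoc, c3]⟩
  have wd1 : ∀ n f, ev1 n f = 0 → ev1 (n + 1) (f ∘ₗ φ3 n) = 0 := by
    intro n f hf
    obtain ⟨h, rfl⟩ := (k1 n f).1 hf
    exact (k1 (n + 1) _).2 ⟨h ∘ₗ φ2 n, by rw [LinearMap.comp_assoc, LinearMap.comp_assoc, c3]⟩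
  have ex : ∀ n, ∃ δ : C n →ₗ[k] C (n + 1), ∀ f, δ (ev2 n f) = ev2 (n + 1) (f ∘ₗ φ3 n) := by
    intro n
    choose s hs using s2 n
    have key : ∀ f, ev2 (n + 1) (s (ev2 n f) ∘ₗ φ3 n) = ev2 (n + 1) (f ∘ₗ φ3 n) := by
      intro f
      rw [← sub_eq_zero, ← map_sub, ← LinearMap.sub_comp]
      exact wd2 n _ (by rw [map_sub, hs, sub_self])
    refine ⟨{ toFun := fun c => ev2 (n + 1) (s c ∘ₗ φ3 n), map_add' := ?_, map_smul' := ?_ }, ?_⟩
    · intro c c'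
      have : ev2 n (s c + s c') = c + c' := by rw [map_add, hs, hs]
      rw [← this, key, LinearMap.add_comp, map_add]
    · intro r c
      have : ev2 n (r • s c) = r • c := by rw [map_smul, hs]
      rw [← this, key, RingHom.id_apply, ← map_smul]
      rfl
    · exact key
  choose δ hδ using ex
  -- the induced map on the first column, on the values we need
  have hδ1 : ∀ n (g : (R n).K3 →ₗ[A] P1), δ n (ev1 n g) = ev1 (n + 1) (g ∘ₗ φ3 n) := by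
    intro n g
    obtain ⟨f, hf⟩ := s2 n (ev1 n g)
    rw [← hf, hδ, ← eh, ← sub_eq_zero, ← LinearMap.comp_assoc, ← map_sub, ← LinearMap.sub_comp]
    exact wd1 n _ (by rw [map_sub, eh, hf, sub_self])
  have comm : ∀ n t c, δ n (T n t c) = T (n + 1) t (δ n c) := by
    intro n t c
    obtain ⟨f, rfl⟩ := s2 n c
    rw [← et, hδ1, hδ, ← et, LinearMap.comp_assoc]
  have nz : ∀ n, δ n ≠ 0 := by
    intro n hn
    have hf : ∀ f : (R n).K3 →ₗ[A] P2, ∃ g : (R (n + 1)).K2 →ₗ[A] P2,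
        g ∘ₗ (R (n + 1)).d3 = f ∘ₗ φ3 n := by
      intro f
      rw [← k2, ← hδ, hn, LinearMap.zero_apply]
    obtain ⟨m, s, r, hrs⟩ := ret n
    choose g hg using fun j => hf (LinearMap.proj j ∘ₗ s)
    have h2 : LinearMap.pi g ∘ₗ (R (n + 1)).d3 = s ∘ₗ φ3 n := by
      ext x j
      exact congrArg (fun g => g x) (hg j)
    have h3 : (r ∘ₗ LinearMap.pi g) ∘ₗ (R (n + 1)).d3 = φ3 n := by
      rw [LinearMap.comp_assoc, h2, ← LinearMap.comp_assoc, hrs, LinearMap.id_comp]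
    have hz : i n ∘ₗ p (n + 1) = 0 :=
      (R n).eq_zero_of_factor (R (n + 1)) (x0 n) (x1 n) (x2 n) _ (φ0 n) (φ1 n) (φ2 n) (φ3 n)
        (fun x => (congrArg (fun g => g x) (c0 n)).symm)
        (fun x => (congrArg (fun g => g x) (c1 n)).symm)
        (fun x => (congrArg (fun g => g x) (c2 n)).symm)
        (fun x => (congrArg (fun g => g x) (c3 n)).symm) _ h3
    obtain ⟨v, hv⟩ := exists_ne (0 : V (n + 1))
    obtain ⟨x, rfl⟩ := hp (n + 1) v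
    refine hv (hi n ?_)
    rw [map_zero]
    exact congrArg (fun g => g x) hz
  refine null_of_chain_x i p hi hp hex R φ0 φ1 φ2 φ3
    (fun n x => (congrArg (fun g => g x) (c0 n)).symm)
    (fun n x => (congrArg (fun g => g x) (c1 n)).symm)
    (fun n x => (congrArg (fun g => g x) (c2 n)).symm)
    (fun n x => (congrArg (fun g => g x) (c3 n)).symm) P2 hx ?_ ?_ q
  · intro f h hh
    have e2 : ev2 0 f ∈ LinearMap.ker (δ 0) := by
      rw [LinearMap.mem_ker, hδ]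
      exact (k2 1 _).2 ⟨h, hh⟩
    rw [(brick 0 _ (nz 0) (comm 0)).1, S0, Submodule.mem_bot] at e2
    exact (k2 0 f).1 e2
  · intro n f h hh
    have e2 : ev2 (n + 1) f ∈ LinearMap.ker (δ (n + 1)) := by
      rw [LinearMap.mem_ker, hδ]
      exact (k2 (n + 2) _).2 ⟨h, hh⟩
    rw [(brick (n + 1) _ (nz (n + 1)) (comm (n + 1))).1, ← (brick n _ (nz n) (comm n)).2] at e2
    obtain ⟨c, hc⟩ := e2
    obtain ⟨g, rfl⟩ := s2 n c
    rw [hδ] at hc
    obtain ⟨h', e⟩ := (k2 (n + 1) (f - g ∘ₗ φ3 n)).1 (by rw [map_sub, hc, sub_self])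
    exact ⟨g, h', by rw [e, add_sub_cancel]⟩

end Col

end Crest.Agent.R186.NullChain538
end

-- ▼ part R186/NullAbs_341

/-!
Row 186 (S0281), helper341, leaf B281.N0 (also used for N1), the `Ext` half:

* `E0_iff_of_quot` : `0 → X → Y → Z → 0`, all `Ext(N, Z) = 0` ⇒ `Ext^q(N, X) = 0 ↔ Ext^q(N, Y) = 0`;
* `dev0`, `dev1` : the devissage of the five columns for `s = 0` and `s = 1`;
* `null_of_dev` : chain + resolutions + torsion quotients + column `P2` ⇒ `Ext^q(V 0, A) = 0`.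
-/

set_option autoImplicit false

open CategoryTheory CategoryTheory.Abelian

namespace Crest.Agent.R186.Null341

open NullChain538 ExtRes700

universe u

section Gen

variable {A : Type u} [Ring A]

/-- `0 → X → Y → Z → 0` with all `Ext(N, Z) = 0` -/
theorem E0_iff_of_quot {X Y Z N : Type u} [AddCommGroup X] [Module A X] [AddCommGroup Y]
    [Module A Y] [AddCommGroup Z] [Module A Z] [AddCommGroup N] [Module A N] (f : X →ₗ[A] Y)
    (g : Y →ₗ[A] Z) (hf : Function.Injective f) (hg : Function.Surjective g)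
    (he : Function.Exact f g) (hZ : ∀ q, E0 A N Z q) (q : ℕ) : E0 A N X q ↔ E0 A N Y q := by
  constructor
  · intro h
    exact cmid f g hf hg he q h (hZ q)
  · intro h
    cases q with
    | zero => exact cleft0 f hf h
    | succ q => exact cleft f g hf hg he q (hZ q) h

/-- `Ext^q(N, P)` vanishes for `P` finite projective as soon as `Ext^q(N, A)` does -/
theorem E0_fp {N : Type u} [AddCommGroup N] [Module A N] (P : Type u) [AddCommGroup P] [Module A P]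
    [Module.Finite A P] [Module.Projective A P] {q : ℕ} (h : E0 A N A q) : E0 A N P q := by
  obtain ⟨m, s, r, hrs⟩ := exists_retract (A := A) P
  exact retract_right s r hrs q (pi_right q m h)

variable {P0 P1 P2 PK1 PK2 : Type u} [AddCommGroup P0] [Module A P0] [AddCommGroup P1]
  [Module A P1] [AddCommGroup P2] [Module A P2] [AddCommGroup PK1] [Module A PK1]
  [AddCommGroup PK2] [Module A PK2]
  {Q1 Q2 Q3 Q4 : Type u} [AddCommGroup Q1] [Module A Q1] [AddCommGroup Q2] [Module A Q2]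
  [AddCommGroup Q3] [Module A Q3] [AddCommGroup Q4] [Module A Q4]

/-- devissage for `s = 0` -/
theorem dev0 (f1 : P2 →ₗ[A] P1) (g1 : P1 →ₗ[A] Q1) (i1 : Function.Injective f1)
    (s1 : Function.Surjective g1) (e1 : Function.Exact f1 g1)
    (f2 : P1 →ₗ[A] P0) (g2 : P0 →ₗ[A] Q2) (i2 : Function.Injective f2)
    (s2 : Function.Surjective g2) (e2 : Function.Exact f2 g2)
    (f3 : (Fin 2 → P1) →ₗ[A] PK1) (g3 : PK1 →ₗ[A] Q3) (i3 : Function.Injective f3)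
    (s3 : Function.Surjective g3) (e3 : Function.Exact f3 g3)
    (f4 : PK2 →ₗ[A] PK1) (g4 : PK1 →ₗ[A] Q4) (i4 : Function.Injective f4)
    (s4 : Function.Surjective g4) (e4 : Function.Exact f4 g4)
    (a : A →ₗ[A] (P0 × P1 × P2 × PK1 × PK2)) (b : (P0 × P1 × P2 × PK1 × PK2) →ₗ[A] A)
    (hab : b ∘ₗ a = LinearMap.id)
    (X : Type u) [AddCommGroup X] [Module A X] (q : ℕ) (h1 : ∀ q, E0 A X Q1 q)
    (h2 : ∀ q, E0 A X Q2 q) (h3 : ∀ q, E0 A X Q3 q) (h4 : ∀ q, E0 A X Q4 q)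
    (h : E0 A X P2 q) : E0 A X A q := by
  have k1 : E0 A X P1 q := (E0_iff_of_quot f1 g1 i1 s1 e1 h1 q).1 h
  have k0 : E0 A X P0 q := (E0_iff_of_quot f2 g2 i2 s2 e2 h2 q).1 k1
  have k3 : E0 A X PK1 q := (E0_iff_of_quot f3 g3 i3 s3 e3 h3 q).1 (pi_right q 2 k1)
  have k4 : E0 A X PK2 q := (E0_iff_of_quot f4 g4 i4 s4 e4 h4 q).2 k3
  exact retract_right a b hab q (prod_right q k0 (prod_right q k1 (prod_right q h
    (prod_right q k3 k4))))

/-- devissage for `s = 1` -/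
theorem dev1 (f1 : P2 →ₗ[A] P1) (g1 : P1 →ₗ[A] Q1) (i1 : Function.Injective f1)
    (s1 : Function.Surjective g1) (e1 : Function.Exact f1 g1)
    (f2 : P1 →ₗ[A] P0) (g2 : P0 →ₗ[A] Q2) (i2 : Function.Injective f2)
    (s2 : Function.Surjective g2) (e2 : Function.Exact f2 g2)
    (f3 : PK1 →ₗ[A] (Fin 2 → P1)) (g3 : (Fin 2 → P1) →ₗ[A] Q3) (i3 : Function.Injective f3)
    (s3 : Function.Surjective g3) (e3 : Function.Exact f3 g3)
    (f4 : PK1 →ₗ[A] PK2) (g4 : PK2 →ₗ[A] Q4) (i4 : Function.Injective f4)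
    (s4 : Function.Surjective g4) (e4 : Function.Exact f4 g4)
    (a : A →ₗ[A] (P0 × P1 × P2 × PK1 × PK2)) (b : (P0 × P1 × P2 × PK1 × PK2) →ₗ[A] A)
    (hab : b ∘ₗ a = LinearMap.id)
    (X : Type u) [AddCommGroup X] [Module A X] (q : ℕ) (h1 : ∀ q, E0 A X Q1 q)
    (h2 : ∀ q, E0 A X Q2 q) (h3 : ∀ q, E0 A X Q3 q) (h4 : ∀ q, E0 A X Q4 q)
    (h : E0 A X P2 q) : E0 A X A q := by
  have k1 : E0 A X P1 q := (E0_iff_of_quot f1 g1 i1 s1 e1 h1 q).1 h
  have k0 : E0 A X P0 q := (E0_iff_of_quot f2 g2 i2 s2 e2 h2 q).1 k1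
  have k3 : E0 A X PK1 q := (E0_iff_of_quot f3 g3 i3 s3 e3 h3 q).2 (pi_right q 2 k1)
  have k4 : E0 A X PK2 q := (E0_iff_of_quot f4 g4 i4 s4 e4 h4 q).1 k3
  exact retract_right a b hab q (prod_right q k0 (prod_right q k1 (prod_right q h
    (prod_right q k3 k4))))

/-- the converse of `MRes.ext3` -/
theorem h3_of_ext {E : Type u} [AddCommGroup E] [Module A E] (R : MRes A E) {Y : Type u}
    [AddCommGroup Y] [Module A Y] (h : E0 A E Y 3) : R.H3 Y := by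
  intro f
  have h1 : R.toRes3.cls.comp (Ext.mk₀ (ModuleCat.ofHom f)) (add_zero 3) = 0 := h.elim _ _
  obtain ⟨g, hg⟩ := (R.toRes3.comp_eq_zero_iff (ModuleCat.ofHom f)).1 h1
  refine ⟨g.hom, ?_⟩
  ext x
  exact congrArg (fun g => (ModuleCat.Hom.hom g) x) hg

/-- `Ext^q(E, Y) = 0` for `q ≠ 3` -/
theorem ext_ne3 {E : Type u} [AddCommGroup E] [Module A E] (R : MRes A E) {Y : Type u}
    [AddCommGroup Y] [Module A Y] (h0 : R.H0 Y) (h1 : R.H1 Y) (h2 : R.H2 Y) (q : ℕ)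
    (hq : q ≠ 3) : E0 A E Y q := by
  match q, hq with
  | 0, _ => exact MRes.ext0 h0
  | 1, _ => exact MRes.ext1 h1
  | 2, _ => exact MRes.ext2 h2
  | q + 4, _ => exact MRes.ext_ge4 (R := R) (Y := Y) (q := q + 4) (by omega)

end Gen

section Main

variable {A : Type u} [Ring A] {V E : ℕ → Type u} [∀ n, AddCommGroup (V n)] [∀ n, Module A (V n)]
  [∀ n, AddCommGroup (E n)] [∀ n, Module A (E n)]
  {k : Type*} [CommRing k] {P1 P2 : Type u} [AddCommGroup P1] [Module A P1] [Module k P1]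
  [SMulCommClass A k P1] [AddCommGroup P2] [Module A P2] [Module k P2] [SMulCommClass A k P2]

/-- **nullness of the chain against `A`** from the column `P2`, the torsion quotients and the
evaluation maps (no lifts, no closed formula for the connecting map). -/
theorem null_of_dev (i : ∀ n, V (n + 1) →ₗ[A] E n) (p : ∀ n, E n →ₗ[A] V n)
    (hi : ∀ n, Function.Injective (i n)) (hp : ∀ n, Function.Surjective (p n))
    (hex : ∀ n, Function.Exact (i n) (p n)) (hV : ∀ n, Nontrivial (V (n + 1)))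
    (R : ∀ n, MRes A (E n)) (f0 : ∀ n, Module.Finite A (R n).K0)
    (f1 : ∀ n, Module.Finite A (R n).K1) (f2 : ∀ n, Module.Finite A (R n).K2)
    (ret : ∀ n, ∃ (m : ℕ) (s : (R n).K3 →ₗ[A] (Fin m → P2)) (r : (Fin m → P2) →ₗ[A] (R n).K3),
      r ∘ₗ s = LinearMap.id)
    {κ : Type*} (Q : κ → Type u) [∀ j, AddCommGroup (Q j)] [∀ j, Module A (Q j)]
    (hQ : ∀ j n q, E0 A (E n) (Q j) q)
    (dev : ∀ (X : Type u) [AddCommGroup X] [Module A X] (q : ℕ),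
      (∀ j q', E0 A X (Q j) q') → E0 A X P2 q → E0 A X A q)
    (h0 : ∀ n, (R n).H0 P2) (h1 : ∀ n, (R n).H1 P2) (h2 : ∀ n, (R n).H2 P2)
    (ρh : P2 →ₗ[A] P1) (j1 : κ) (π1 : P1 →ₗ[A] Q j1)
    (ρπ : Function.Exact ρh π1) (π1_surj : Function.Surjective π1)
    {ι : Type*} (ρ : ι → P2 →ₗ[A] P1)
    (C : ℕ → Type*) [∀ n, AddCommGroup (C n)] [∀ n, Module k (C n)]
    (T : ∀ n, ι → C n →ₗ[k] C n)
    (ev2 : ∀ n, ((R n).K3 →ₗ[A] P2) →ₗ[k] C n) (ev1 : ∀ n, ((R n).K3 →ₗ[A] P1) →ₗ[k] C n)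
    (s2 : ∀ n, Function.Surjective (ev2 n))
    (k2 : ∀ n f, ev2 n f = 0 → ∃ h : (R n).K2 →ₗ[A] P2, h ∘ₗ (R n).d3 = f)
    (c1 : ∀ n (h : (R n).K2 →ₗ[A] P1), ev1 n (h ∘ₗ (R n).d3) = 0)
    (eh : ∀ n f, ev1 n (ρh ∘ₗ f) = ev2 n f)
    (et : ∀ n t f, ev1 n (ρ t ∘ₗ f) = T n t (ev2 n f))
    (S : ∀ n, Submodule k (C n)) (S0 : S 0 = ⊥)
    (brick : ∀ n (δ : C n →ₗ[k] C (n + 1)), δ ≠ 0 → (∀ t c, δ (T n t c) = T (n + 1) t (δ c)) →
      LinearMap.ker δ = S n ∧ LinearMap.range δ = S (n + 1)) (q : ℕ) :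
    E0 A (V 0) A q := by
  have hx : ∀ n q, q ≠ 3 → E0 A (E n) P2 q := fun n q hq =>
    ext_ne3 (R n) (h0 n) (h1 n) (h2 n) q hq
  have hA : ∀ n q, q ≠ 3 → E0 A (E n) A q := fun n q hq =>
    dev (E n) q (fun j q' => hQ j n q') (hx n q hq)
  have hK : ∀ n q, q ≠ 3 → ∀ (P : Type u) [AddCommGroup P] [Module A P] [Module.Finite A P]
      [Module.Projective A P], E0 A (E n) P q := fun n q hq P _ _ _ _ => E0_fp P (hA n q hq)
  have c2 : ∀ n (h : (R n).K2 →ₗ[A] P2), ev2 n (h ∘ₗ (R n).d3) = 0 := by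
    intro n h
    rw [← eh, ← LinearMap.comp_assoc]
    exact c1 n _
  refine dev (V 0) q (fun j q' => mext_zero_all i p hi hp hex (Q j) (fun n q => hQ j n q) q' 0) ?_
  refine null_of_col i p hi hp hex hV R ?_ ?_ ?_ hx ret ρh ρ C T ev2 ev1 s2 ?_ ?_ eh et S S0
    brick q
  · intro n
    have := f0 n
    have := (R n).p0
    exact hK (n + 1) 0 (by omega) (R n).K0
  · intro n
    have := f1 n
    have := (R n).p1
    exact hK (n + 1) 1 (by omega) (R n).K1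
  · intro n
    have := f2 n
    have := (R n).p2
    exact hK (n + 1) 2 (by omega) (R n).K2
  · intro n f
    refine ⟨k2 n f, ?_⟩
    rintro ⟨h, rfl⟩
    exact c2 n h
  · intro n f
    refine ⟨fun hf => ?_, ?_⟩
    · have := (R n).p2
      have := (R n).p3
      obtain ⟨g, hg⟩ := h3_of_ext (R n) (hQ j1 n 3) (π1 ∘ₗ f)
      obtain ⟨h, hh⟩ := Module.projective_lifting_property π1 g π1_surj
      obtain ⟨f', hf'⟩ := lift_exact ρh π1 ρπ (f - h ∘ₗ (R n).d3) (by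
        rw [LinearMap.comp_sub, ← hg, ← hh, LinearMap.comp_assoc, sub_self])
      have e1 : ev2 n f' = 0 := by
        rw [← eh, hf', map_sub, hf, c1, sub_self]
      obtain ⟨h', hh'⟩ := k2 n f' e1
      refine ⟨h + ρh ∘ₗ h', ?_⟩
      rw [LinearMap.add_comp, LinearMap.comp_assoc, hh', hf']
      abel
    · rintro ⟨h, rfl⟩
      exact c1 n h

end Main

end Crest.Agent.R186.Null341
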