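import Crest.Agent.R186.KN_355
import Crest.Agent.R186.FDord_757

-- ▼ part R186/KF_355
section

/-!
Row 186, S0281, base (helper355): the row maps of `K(n)` are left `Op`-linear and filtered.
-/

set_option autoImplicit false

namespace Crest.Agent.R186.B281

namespace KN

variable {K : Type} [Field K]

section
variable {M : Type*}

theorem sh_add' [AddZeroClass M] (u v : ℕ → M) (j : ℕ) : sh (u + v) j = sh u j + sh v j := by
  cases j
  · simp
  · rfl

theorem sh_smul' {R : Type*} [Zero M] [SMulZeroClass R M] (r : R) (u : ℕ → M) (j : ℕ) :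
    sh (r • u) j = r • sh u j := by
  cases j
  · simp
  · rfl

end

theorem ite_add' {M : Type*} [AddZeroClass M] (p : Prop) [Decidable p] (a b : M) :
    (if p then a + b else 0) = (if p then a else 0) + (if p then b else 0) := by
  split_ifs <;> simp




theorem syz_0 (c : Op K) : syz c 0 = c * X 1 := rfl

theorem syz_1 (c : Op K) : syz c 1 = -(c * X 0) := rfl

theorem ext2 {v w : Fin 2 → Op K} (h0 : v 0 = w 0) (h1 : v 1 = w 1) : v = w :=
  funext (Fin.forall_fin_two.2 ⟨h0, h1⟩)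

/-- additive and `Op`-homogeneous -/
structure Lin {A B : Type*} [AddCommMonoid A] [Module (Op K) A] [AddCommMonoid B]
    [Module (Op K) B] (f : A → B) : Prop where
  add : ∀ x y, f (x + y) = f x + f y
  smul : ∀ (T : Op K) x, f (T • x) = T • f x

/-- normal form of the entries -/
macro "nf1" "[" ls:Lean.Parser.Tactic.simpLemma,* "]" : tactic =>
  `(tactic| (simp only [$ls,*, Pi.add_apply, Pi.sub_apply, Pi.neg_apply, Pi.smul_apply,
    Pi.zero_apply, ite_apply, Matrix.cons_val_zero, Matrix.cons_val_one, syz_0, syz_1, cc_add,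
    cc_smul, smul_eq_mul, smul_add, smul_sub, smul_neg, smul_zero, mul_add, add_mul, sub_mul,
    mul_sub, mul_neg, neg_mul, mul_assoc, mul_smul_comm, smul_mul_assoc, sh_add', sh_smul', ite_add',
    mul_ite, mul_zero, neg_add, neg_sub, sub_zero, add_zero, zero_add, zero_sub, ite_self]))

section s0
variable (g : K) (n : ℕ) (j : ℕ)

theorem d1f_lin : Lin (K := K) (fun v : Fin 2 → ℕ → Fin 2 → Op K => d1f g n v j) where
  add v w := by nf1 [d1f]; abel
  smul T v := by nf1 [d1f]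

theorem d2w0_lin : Lin (K := K) (fun w : ℕ → Fin 2 → Op K => d2w0 g w j) where
  add v w := by
    refine ext2 ?_ ?_
    · nf1 [d2w0]; abel
    · nf1 [d2w0]; abel
  smul T v := by
    refine ext2 ?_ ?_
    · nf1 [d2w0]
    · nf1 [d2w0]

theorem d2w1_lin : Lin (K := K) (fun w : ℕ → Fin 2 → Op K => d2w1 g n w j) where
  add v w := by
    refine ext2 ?_ ?_
    · nf1 [d2w1]; abel
    · nf1 [d2w1]; abel
  smul T v := by
    refine ext2 ?_ ?_
    · nf1 [d2w1]
    · nf1 [d2w1]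

theorem d2h0_lin : Lin (K := K) (fun h : Fin 2 → ℕ → Op K => d2h0 g n h j) where
  add v w := by
    refine ext2 ?_ ?_
    · nf1 [d2h0]; abel
    · nf1 [d2h0]; abel
  smul T v := by
    refine ext2 ?_ ?_
    · nf1 [d2h0]
    · nf1 [d2h0]

theorem d2h1_lin : Lin (K := K) (fun h : Fin 2 → ℕ → Op K => d2h1 g h j) where
  add v w := by
    refine ext2 ?_ ?_
    · nf1 [d2h1]; try abel
    · nf1 [d2h1]
  smul T v := by
    refine ext2 ?_ ?_
    · nf1 [d2h1]
    · nf1 [d2h1]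

theorem d3w_lin : Lin (K := K) (fun u : ℕ → Op K => d3w g n u j) where
  add v w := by
    refine ext2 ?_ ?_
    · nf1 [d3w]; abel
    · nf1 [d3w]; abel
  smul T v := by
    refine ext2 ?_ ?_
    · nf1 [d3w]
    · nf1 [d3w]

theorem d3h0_lin : Lin (K := K) (fun u : ℕ → Op K => d3h0 g u j) where
  add v w := by nf1 [d3h0]; abel
  smul T v := by nf1 [d3h0]

theorem d3h1_lin : Lin (K := K) (fun u : ℕ → Op K => d3h1 g n u j) where
  add v w := by nf1 [d3h1]; abel
  smul T v := by nf1 [d3h1]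

end s0

section s1
variable (g : K) (n : ℕ) (j : ℕ)

theorem e1w_lin : Lin (K := K) (fun w : ℕ → Fin 2 → Op K => e1w g n w j) where
  add v w := by nf1 [e1w]; abel
  smul T v := by nf1 [e1w]

theorem e1q_lin : Lin (K := K) (fun q : Fin 2 → ℕ → Op K => e1q g n q j) where
  add v w := by nf1 [e1q]; abel
  smul T v := by nf1 [e1q]

theorem e2w_lin : Lin (K := K) (fun v : Fin 2 → ℕ → Fin 2 → Op K => e2w g n v j) where
  add v w := by
    refine ext2 ?_ ?_
    · nf1 [e2w]; abel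
    · nf1 [e2w]; abel
  smul T v := by
    refine ext2 ?_ ?_
    · nf1 [e2w]
    · nf1 [e2w]

theorem e2q0_lin : Lin (K := K) (fun v : Fin 2 → ℕ → Fin 2 → Op K => e2q0 g n v j) where
  add v w := by nf1 [e2q0]; abel
  smul T v := by nf1 [e2q0]

theorem e2q1_lin : Lin (K := K) (fun v : Fin 2 → ℕ → Fin 2 → Op K => e2q1 g n v j) where
  add v w := by nf1 [e2q1]; abel
  smul T v := by nf1 [e2q1]

theorem e3v0_lin : Lin (K := K) (fun u : ℕ → Op K => e3v0 g u j) where
  add v w := by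
    refine ext2 ?_ ?_
    · nf1 [e3v0]; abel
    · nf1 [e3v0]; abel
  smul T v := by
    refine ext2 ?_ ?_
    · nf1 [e3v0]
    · nf1 [e3v0]

theorem e3v1_lin : Lin (K := K) (fun u : ℕ → Op K => e3v1 g n u j) where
  add v w := by
    refine ext2 ?_ ?_
    · nf1 [e3v1]; abel
    · nf1 [e3v1]; abel
  smul T v := by
    refine ext2 ?_ ?_
    · nf1 [e3v1]
    · nf1 [e3v1]

end s1

end KN

end Crest.Agent.R186.B281
end

-- ▼ part R186/KP_355
section

/-!
Row 186, S0281, base (helper355): the row maps of `K(n)` preserve the lattices.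
-/

set_option autoImplicit false

namespace Crest.Agent.R186.B281

namespace KN

variable {K : Type} [Field K]

/-- the row lattice `(a, b) ∈ F (k-c)`, `a x₀ + b x₁ ∈ F (k-d)` -/
def RK (g : K) (c d k P : ℤ) (v : Fin 2 → Op K) : Prop :=
  v 0 ∈ Fil g (k - c) P ∧ v 1 ∈ Fil g (k - c) P ∧ cc v ∈ Fil g (k - d) (P + 1)

variable {g : K}

theorem RK.zero {c d k P : ℤ} : RK g c d k P 0 :=
  ⟨zero_mem _, zero_mem _, by rw [cc_zero]; exact zero_mem _⟩

theorem RK.add {c d k P : ℤ} {v w : Fin 2 → Op K} (hv : RK g c d k P v) (hw : RK g c d k P w) :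
    RK g c d k P (v + w) :=
  ⟨add_mem hv.1 hw.1, add_mem hv.2.1 hw.2.1, by rw [cc_add]; exact add_mem hv.2.2 hw.2.2⟩

theorem cc_neg (v : Fin 2 → Op K) : cc (-v) = -cc v := by
  simp only [cc, Pi.neg_apply, neg_mul]
  abel

theorem cc_csmul (t : K) (v : Fin 2 → Op K) : cc (t • v) = t • cc v := by
  simp only [cc, Pi.smul_apply, smul_mul_assoc, smul_add]

theorem RK.neg {c d k P : ℤ} {v : Fin 2 → Op K} (hv : RK g c d k P v) : RK g c d k P (-v) :=
  ⟨neg_mem hv.1, neg_mem hv.2.1, by rw [cc_neg]; exact neg_mem hv.2.2⟩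

theorem RK.sub {c d k P : ℤ} {v w : Fin 2 → Op K} (hv : RK g c d k P v) (hw : RK g c d k P w) :
    RK g c d k P (v - w) := by
  rw [sub_eq_add_neg]
  exact hv.add hw.neg

theorem RK.csmul {c d k P : ℤ} {v : Fin 2 → Op K} (t : K) (hv : RK g c d k P v) :
    RK g c d k P (t • v) :=
  ⟨Submodule.smul_mem _ _ hv.1, Submodule.smul_mem _ _ hv.2.1, by
    rw [cc_csmul]; exact Submodule.smul_mem _ _ hv.2.2⟩

theorem RK.ite {c d k P : ℤ} {v : Fin 2 → Op K} (p : Prop) [Decidable p]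
    (hv : p → RK g c d k P v) : RK g c d k P (if p then v else 0) := by
  split_ifs with h
  · exact hv h
  · exact RK.zero

theorem ite_mem' {S : Submodule K (Op K)} {a : Op K} (p : Prop) [Decidable p]
    (h : p → a ∈ S) : (if p then a else 0) ∈ S := by
  split_ifs with h'
  · exact h h'
  · exact zero_mem _

/-- a pair of elements of `F (k-c')` is a row as soon as `c, d ≤ c'` -/
theorem RK.pair (hg : Gen g) {c d c' k P : ℤ} (h1 : c ≤ c') (h2 : d ≤ c') {a b : Op K}
    (ha : a ∈ Fil g (k - c') P) (hb : b ∈ Fil g (k - c') P) : RK g c d k P ![a, b] :=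
  ⟨Fil_mono g (by omega) ha, Fil_mono g (by omega) hb,
    add_mem (Fil_mono g (by omega) (FD757.mul_X_mem hg 0 ha))
      (Fil_mono g (by omega) (FD757.mul_X_mem hg 1 hb))⟩

theorem cc_syz (c : Op K) : cc (syz c) = 0 := by
  show c * X 1 * X 0 + -(c * X 0) * X 1 = 0
  rw [neg_mul, mul_assoc, mul_assoc, X_comm 1 0]
  exact add_neg_cancel _

/-- the syzygy of an element of `F (k-c) (P-1)` -/
theorem RK.syz (hg : Gen g) {c d k P : ℤ} {a : Op K} (ha : a ∈ Fil g (k - c) (P - 1)) :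
    RK g c d k P (syz a) := by
  refine ⟨?_, ?_, by rw [cc_syz]; exact zero_mem _⟩
  · have := FD757.mul_X_mem hg 1 ha
    rwa [sub_add_cancel] at this
  · have := neg_mem (FD757.mul_X_mem hg 0 ha)
    rwa [sub_add_cancel] at this

theorem RK.weak {c d c' d' k P : ℤ} {v : Fin 2 → Op K} (h1 : c ≤ c') (h2 : d ≤ d')
    (hv : RK g c' d' k P v) : RK g c d k P v :=
  ⟨Fil_mono g (by omega) hv.1, Fil_mono g (by omega) hv.2.1, Fil_mono g (by omega) hv.2.2⟩

/-- `c d_i`, `c = cc v`, `v` a row with `c ∈ F (k-d)` -/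
theorem RK.ccD {c d k P : ℤ} {v : Fin 2 → Op K} (hv : RK g c d k P v) (i : Fin 2) {l : ℤ}
    (hl : k - d + 1 ≤ l) : cc v * D g i ∈ Fil g l P := by
  have := FD757.mul_D_mem i hv.2.2
  rw [add_sub_cancel_right] at this
  exact Fil_mono g hl this

theorem mulDX (hg : Gen g) {k P l : ℤ} {a : Op K} (ha : a ∈ Fil g k P) (i j : Fin 2)
    (hl : k + 1 ≤ l) : a * D g i * X j ∈ Fil g l P := by
  have := FD757.mul_X_mem hg j (FD757.mul_D_mem i ha)
  rw [sub_add_cancel] at this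
  exact Fil_mono g hl this

theorem sh_mem {S : Submodule K (Op K)} {u : ℕ → Op K} (h : ∀ j, u j ∈ S) (j : ℕ) :
    sh u j ∈ S := by
  cases j
  · exact zero_mem _
  · exact h _

theorem sh_RK {c d k P : ℤ} {u : ℕ → Fin 2 → Op K} (h : ∀ j, RK g c d k P (u j)) (j : ℕ) :
    RK g c d k P (sh u j) := by
  cases j
  · exact RK.zero
  · exact h _

section s0
variable (hg : Gen g) {n : ℕ} {k P : ℤ} (j : ℕ)
include hg

omit hg in
theorem d1f_mem {v : Fin 2 → ℕ → Fin 2 → Op K} (h : ∀ e j, RK g 0 1 k P (v e j)) :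
    d1f g n v j ∈ Fil g k P := by
  have h0 : ∀ e j i, v e j i ∈ Fil g k P := fun e j i => by
    have := h e j
    fin_cases i
    · simpa using this.1
    · simpa using this.2.1
  refine sub_mem (sub_mem (sub_mem (sub_mem (add_mem ?_ ?_) ?_) ?_) ?_) ?_
  · exact (h 0 j).ccD 0 (by omega)
  · exact (h 1 j).ccD 1 (by omega)
  · exact Submodule.smul_mem _ _ (h0 _ _ _)
  · exact Submodule.smul_mem _ _ (h0 _ _ _)
  · refine Submodule.smul_mem _ _ ?_
    have := (sh_RK (h 0) j).2.1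
    simpa using this
  · exact Submodule.smul_mem _ _ (h0 _ _ _)

theorem d2w0_mem {w : ℕ → Fin 2 → Op K} (h : ∀ j, RK g 0 2 k P (w j)) :
    RK g 0 1 k P (d2w0 g w j) := by
  refine RK.sub (RK.sub (RK.csmul _ ((h _).weak le_rfl (by norm_num))) (RK.ite _ fun _ =>
    RK.csmul _ (RK.pair hg (c' := 1) (by norm_num) le_rfl ?_ (zero_mem _))))
    (RK.pair hg (c' := 1) (by norm_num) le_rfl (zero_mem _) ?_)
  · exact (h 0).ccD 1 (by omega)
  · exact (h _).ccD 1 (by omega)

theorem d2w1_mem {w : ℕ → Fin 2 → Op K} (h : ∀ j, RK g 0 2 k P (w j)) :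
    RK g 0 1 k P (d2w1 g n w j) := by
  refine RK.add (RK.add (RK.neg (RK.csmul _ ((h _).weak le_rfl (by norm_num)))) (RK.ite _ fun _ =>
    (RK.pair hg (c' := 1) (by norm_num) le_rfl ?_ (zero_mem _))))
    (RK.csmul _ (RK.pair hg (c' := 1) (by norm_num) le_rfl (zero_mem _) ?_))
  · exact (h 0).ccD 0 (by omega)
  · exact (h _).ccD 0 (by omega)

theorem mulD1 {P : ℤ} {k : ℤ} {a : Op K} (ha : a ∈ Fil g (k - 1) P) (i : Fin 2) :
    a * D g i ∈ Fil g (k - 0) (P - 1) := by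
  have := FD757.mul_D_mem i ha
  exact Fil_mono g (by omega) this

theorem d2h0_mem {u : Fin 2 → ℕ → Op K} (h : ∀ e j, u e j ∈ Fil g (k - 1) P) :
    RK g 0 1 k P (d2h0 g n u j) := by
  refine RK.add (RK.pair hg (c' := 1) (by norm_num) le_rfl ?_ (h _ _))
    (RK.csmul _ (RK.syz hg (add_mem (mulD1 hg (h _ _) _) (mulD1 hg (h _ _) _))))
  exact neg_mem (Submodule.smul_mem _ _ (sh_mem (h 0) j))

theorem d2h1_mem {u : Fin 2 → ℕ → Op K} (h : ∀ e j, u e j ∈ Fil g (k - 1) P) :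
    RK g 0 1 k P (d2h1 g u j) :=
  RK.pair hg (c' := 1) (by norm_num) le_rfl (neg_mem (sh_mem (h 1) j))
    (Submodule.smul_mem _ _ (h _ _))

theorem d3w_mem {u : ℕ → Op K} (h : ∀ j, u j ∈ Fil g (k - 2) P) :
    RK g 0 2 k P (d3w g n u j) := by
  have h' : ∀ (j : ℕ) (i : Fin 2), u j * D g i ∈ Fil g (k - 0) (P - 1) := fun j i =>
    Fil_mono g (by omega) (FD757.mul_D_mem i (h j))
  exact RK.sub (RK.sub (RK.pair hg (c' := 2) (by norm_num) le_rfl (sh_mem h j) (neg_mem (h j)))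
    (RK.csmul _ (RK.syz hg (h' _ _)))) (RK.ite _ fun _ => RK.csmul _ (RK.syz hg (h' _ _)))

theorem d3h0_mem {u : ℕ → Op K} (h : ∀ j, u j ∈ Fil g (k - 2) P) :
    d3h0 g u j ∈ Fil g (k - 1) P :=
  sub_mem (Submodule.smul_mem _ _ (Fil_mono g (by omega) (h _)))
    (Submodule.smul_mem _ _ (mulDX hg (h _) 1 1 (by omega)))

theorem d3h1_mem {u : ℕ → Op K} (h : ∀ j, u j ∈ Fil g (k - 2) P) :
    d3h1 g n u j ∈ Fil g (k - 1) P :=
  sub_mem (mulDX hg (h _) 0 1 (by omega))
    (Submodule.smul_mem _ _ (Fil_mono g (by omega) (h _)))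

end s0

section s1
variable (hg : Gen g) {n : ℕ} {k P : ℤ} (j : ℕ)
include hg

omit hg in
theorem e1w_mem {w : ℕ → Fin 2 → Op K} (h : ∀ j, RK g 0 2 k P (w j)) :
    e1w g n w j ∈ Fil g k P := by
  refine sub_mem (sub_mem (Submodule.smul_mem _ _ ((h j).ccD 0 (by omega))) ?_) ?_
  · have := (h j).1
    simpa using this
  · have := (sh_RK h j).2.1
    simpa using this

theorem e1q_mem {q : Fin 2 → ℕ → Op K} (h : ∀ e j, q e j ∈ Fil g (k - 1) P) :
    e1q g n q j ∈ Fil g k P := by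
  have h' : ∀ e j, q e j ∈ Fil g k P := fun e j => Fil_mono g (by omega) (h e j)
  refine add_mem (add_mem (sub_mem (mulDX hg (h _ _) _ _ (by omega))
    (Submodule.smul_mem _ _ (h' _ _))) (ite_mem' _ fun _ => mulDX hg (h _ _) _ _ (by omega)))
    (add_mem (sub_mem (mulDX hg (h _ _) _ _ (by omega))
    (Submodule.smul_mem _ _ (h' _ _))) (ite_mem' _ fun _ => mulDX hg (h _ _) _ _ (by omega)))

theorem e2w_mem {v : Fin 2 → ℕ → Fin 2 → Op K} (h : ∀ e j, RK g 1 2 k P (v e j)) :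
    RK g 0 2 k P (e2w g n v j) := by
  have h0 : ∀ e j, RK g 0 2 k P (v e j) := fun e j => (h e j).weak (by norm_num) le_rfl
  have h' : ∀ (e : Fin 2) (j : ℕ) (i : Fin 2), v e j 1 * D g i ∈ Fil g (k - 0) (P - 1) :=
    fun e j i => Fil_mono g (by omega) (FD757.mul_D_mem i (h e j).2.1)
  exact RK.add (RK.sub (RK.neg (RK.csmul _ (h0 _ _))) (RK.syz hg (h' _ _ _)))
    (RK.sub (RK.neg (RK.csmul _ (h0 _ _))) (RK.csmul _ (RK.syz hg (h' _ _ _))))

omit hg in
theorem e2q0_mem {v : Fin 2 → ℕ → Fin 2 → Op K} (h : ∀ e j, RK g 1 2 k P (v e j)) :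
    e2q0 g n v j ∈ Fil g (k - 1) P := by
  refine add_mem (sub_mem (add_mem (Submodule.smul_mem _ _ (h 0 j).1)
    (sh_RK (h 0) j).2.1) (ite_mem' _ fun _ => Submodule.smul_mem _ _ ?_))
    (Submodule.smul_mem _ _ ?_)
  · exact (h _ _).ccD 1 (by omega)
  · exact (h _ _).ccD 1 (by omega)

omit hg in
theorem e2q1_mem {v : Fin 2 → ℕ → Fin 2 → Op K} (h : ∀ e j, RK g 1 2 k P (v e j)) :
    e2q1 g n v j ∈ Fil g (k - 1) P := by
  refine add_mem (ite_mem' _ fun _ => Submodule.smul_mem _ _ ?_)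
    (sub_mem (add_mem (h 1 j).1 (Submodule.smul_mem _ _ (sh_RK (h 1) j).2.1))
    (Submodule.smul_mem _ _ ?_))
  · exact (h _ _).ccD 0 (by omega)
  · exact (h _ _).ccD 0 (by omega)

theorem e3v0_mem {u : ℕ → Op K} (h : ∀ j, u j ∈ Fil g (k - 2) P) :
    RK g 1 2 k P (e3v0 g u j) := by
  have hu : ∀ j, u j ∈ Fil g (k - 1) P := fun j => Fil_mono g (by omega) (h j)
  refine ⟨sub_mem (mulDX hg (h _) _ _ (by omega)) (Submodule.smul_mem _ _ (hu _)),
    add_mem (neg_mem (mulDX hg (h _) _ _ (by omega))) (Submodule.smul_mem _ _ (hu _)), ?_⟩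
  have e : cc (e3v0 g u j) =
      -(cq g (j + 1 : ℕ) • (u j * X 0)) + cq g (j + 1 : ℕ) • (u (j + 1) * X 1) := by
    show (u j * D g 1 * X 1 - cq g (j + 1 : ℕ) • u j) * X 0 +
      (-(u j * D g 1 * X 0) + cq g (j + 1 : ℕ) • u (j + 1)) * X 1 = _
    rw [sub_mul, add_mul, neg_mul, mul_assoc _ (X 1) (X 0), mul_assoc _ (X 0) (X 1), X_comm 1 0,
      smul_mul_assoc, smul_mul_assoc]
    abel
  rw [e]
  exact add_mem (neg_mem (Submodule.smul_mem _ _ (FD757.mul_X_mem hg 0 (h j))))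
    (Submodule.smul_mem _ _ (FD757.mul_X_mem hg 1 (h _)))

theorem e3v1_mem {u : ℕ → Op K} (h : ∀ j, u j ∈ Fil g (k - 2) P) :
    RK g 1 2 k P (e3v1 g n u j) := by
  have hu : ∀ j, u j ∈ Fil g (k - 1) P := fun j => Fil_mono g (by omega) (h j)
  refine ⟨add_mem (neg_mem (mulDX hg (h _) _ _ (by omega)))
    (Submodule.smul_mem _ _ (sh_mem hu j)), sub_mem (mulDX hg (h _) _ _ (by omega))
    (Submodule.smul_mem _ _ (hu _)), ?_⟩
  have e : cc (e3v1 g n u j) =
      cq g (n + 1 - j : ℕ) • (sh u j * X 0) - cq g (n + 1 - j : ℕ) • (u j * X 1) := by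
    show (-(u j * D g 0 * X 1) + cq g (n + 1 - j : ℕ) • sh u j) * X 0 +
      (u j * D g 0 * X 0 - cq g (n + 1 - j : ℕ) • u j) * X 1 = _
    rw [sub_mul, add_mul, neg_mul, mul_assoc _ (X 1) (X 0), mul_assoc _ (X 0) (X 1), X_comm 1 0,
      smul_mul_assoc, smul_mul_assoc]
    abel
  rw [e]
  exact sub_mem (Submodule.smul_mem _ _ (FD757.mul_X_mem hg 0 (sh_mem h j)))
    (Submodule.smul_mem _ _ (FD757.mul_X_mem hg 1 (h j)))

end s1

end KN

end Crest.Agent.R186.B281
end

-- ▼ part R186/KL_355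

/-!
Row 186, S0281, base (helper355): the row maps of `K(n)` on tuples (`Fin`-indexed) as left
`Op K`-linear maps: `s = 0`: `EP, D1, D2, D3`; `s = 1`: `EP, E1, E2, E3`.
-/

set_option autoImplicit false

namespace Crest.Agent.R186.B281

namespace KN

variable {K : Type} [Field K]

section
variable {M : Type*} {m : ℕ}

theorem ez_add' [AddZeroClass M] (x y : Fin m → M) : ez (x + y) = ez x + ez y :=
  funext fun j => ez_add x y j

theorem ez_smul' {R : Type*} [Zero M] [SMulZeroClass R M] (r : R) (x : Fin m → M) :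
    ez (r • x) = r • ez x :=
  funext fun j => ez_smul r x j

theorem ez_zero [Zero M] : ez (0 : Fin m → M) = 0 := by
  funext j
  unfold ez
  split_ifs <;> rfl


/-- a sequence with support in `[0, m)` is `ez` of its restriction -/
theorem ez_restrict [Zero M] {u : ℕ → M} (h : ∀ j, m ≤ j → u j = 0) :
    ez (fun j : Fin m => u j) = u := by
  funext j
  unfold ez
  split_ifs with h'
  · rfl
  · exact (h j (not_lt.1 h')).symm

theorem ez_all [Zero M] {p : M → Prop} (h0 : p 0) {x : Fin m → M} (h : ∀ j, p (x j)) (j : ℕ) :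
    p (ez x j) := by
  unfold ez
  split_ifs
  · exact h _
  · exact h0

end

/-- pairs of tuples -/
def ez2 {M : Type*} [Zero M] {m : ℕ} (x : Fin 2 → Fin m → M) : Fin 2 → ℕ → M := fun e => ez (x e)

theorem ez2_add {M : Type*} [AddZeroClass M] {m : ℕ} (x y : Fin 2 → Fin m → M) :
    ez2 (x + y) = ez2 x + ez2 y := funext fun e => ez_add' (x e) (y e)

theorem ez2_smul {R M : Type*} [Zero M] [SMulZeroClass R M] {m : ℕ} (r : R)
    (x : Fin 2 → Fin m → M) : ez2 (r • x) = r • ez2 x := funext fun e => ez_smul' r (x e)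

/-- `f_j = x₀^(n-j) x₁^j` -/
noncomputable def mo (K : Type) [Field K] (n j : ℕ) : Lau K := Finsupp.single ((n : ℤ) - j, (j : ℤ)) 1

/-- the augmentation `u ↦ ∑ u_j f_j` -/
noncomputable def EP (K : Type) [Field K] (n : ℕ) : (Fin (n + 1) → Op K) →ₗ[Op K] Lau K where
  toFun u := ∑ j, u j (mo K n j)
  map_add' u v := by
    simp only [Pi.add_apply, LinearMap.add_apply, Finset.sum_add_distrib]
  map_smul' T u := by
    simp only [Pi.smul_apply, smul_eq_mul, Module.End.mul_apply, RingHom.id_apply]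
    rw [show (T • ∑ j, u j (mo K n j)) = T (∑ j, u j (mo K n j)) from rfl, map_sum]

variable (g : K) (n : ℕ)

/-! ### `s = 0` -/

/-- `K₁ → K₀` -/
noncomputable def D1 : (Fin 2 → Fin (n + 1) → Fin 2 → Op K) →ₗ[Op K] (Fin (n + 1) → Op K) where
  toFun v := fun j => d1f g n (ez2 v) j
  map_add' v w := by
    funext j
    rw [ez2_add]
    exact (d1f_lin g n j).add _ _
  map_smul' T v := by
    funext j
    rw [ez2_smul]
    exact (d1f_lin g n j).smul _ _

/-- `K₂ → K₁` -/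
noncomputable def D2 : ((Fin (n + 2) → Fin 2 → Op K) × (Fin 2 → Fin n → Op K)) →ₗ[Op K]
    (Fin 2 → Fin (n + 1) → Fin 2 → Op K) where
  toFun p := ![fun j => d2w0 g (ez p.1) j + d2h0 g n (ez2 p.2) j,
    fun j => d2w1 g n (ez p.1) j + d2h1 g (ez2 p.2) j]
  map_add' p q := by
    refine funext (Fin.forall_fin_two.2 ⟨?_, ?_⟩)
    · funext j
      show d2w0 g (ez (p.1 + q.1)) j + d2h0 g n (ez2 (p.2 + q.2)) j =
        (d2w0 g (ez p.1) j + d2h0 g n (ez2 p.2) j) + (d2w0 g (ez q.1) j + d2h0 g n (ez2 q.2) j)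
      rw [ez_add', ez2_add, (d2w0_lin g j).add, (d2h0_lin g n j).add]
      abel
    · funext j
      show d2w1 g n (ez (p.1 + q.1)) j + d2h1 g (ez2 (p.2 + q.2)) j =
        (d2w1 g n (ez p.1) j + d2h1 g (ez2 p.2) j) + (d2w1 g n (ez q.1) j + d2h1 g (ez2 q.2) j)
      rw [ez_add', ez2_add, (d2w1_lin g n j).add, (d2h1_lin g j).add]
      abel
  map_smul' T p := by
    refine funext (Fin.forall_fin_two.2 ⟨?_, ?_⟩)
    · funext j
      show d2w0 g (ez (T • p.1)) j + d2h0 g n (ez2 (T • p.2)) j =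
        T • (d2w0 g (ez p.1) j + d2h0 g n (ez2 p.2) j)
      rw [ez_smul', ez2_smul, (d2w0_lin g j).smul, (d2h0_lin g n j).smul, smul_add]
    · funext j
      show d2w1 g n (ez (T • p.1)) j + d2h1 g (ez2 (T • p.2)) j =
        T • (d2w1 g n (ez p.1) j + d2h1 g (ez2 p.2) j)
      rw [ez_smul', ez2_smul, (d2w1_lin g n j).smul, (d2h1_lin g j).smul, smul_add]

/-- `K₃ → K₂` -/
noncomputable def D3 : (Fin (n + 1) → Op K) →ₗ[Op K]
    ((Fin (n + 2) → Fin 2 → Op K) × (Fin 2 → Fin n → Op K)) where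
  toFun u := (fun j => d3w g n (ez u) j, ![fun j => d3h0 g (ez u) j, fun j => d3h1 g n (ez u) j])
  map_add' u v := by
    refine Prod.ext ?_ (funext (Fin.forall_fin_two.2 ⟨?_, ?_⟩))
    · funext j
      show d3w g n (ez (u + v)) j = d3w g n (ez u) j + d3w g n (ez v) j
      rw [ez_add', (d3w_lin g n j).add]
    · funext j
      show d3h0 g (ez (u + v)) j = d3h0 g (ez u) j + d3h0 g (ez v) j
      rw [ez_add', (d3h0_lin g j).add]
    · funext j
      show d3h1 g n (ez (u + v)) j = d3h1 g n (ez u) j + d3h1 g n (ez v) j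
      rw [ez_add', (d3h1_lin g n j).add]
  map_smul' T u := by
    refine Prod.ext ?_ (funext (Fin.forall_fin_two.2 ⟨?_, ?_⟩))
    · funext j
      show d3w g n (ez (T • u)) j = T • d3w g n (ez u) j
      rw [ez_smul', (d3w_lin g n j).smul]
    · funext j
      show d3h0 g (ez (T • u)) j = T • d3h0 g (ez u) j
      rw [ez_smul', (d3h0_lin g j).smul]
    · funext j
      show d3h1 g n (ez (T • u)) j = T • d3h1 g n (ez u) j
      rw [ez_smul', (d3h1_lin g n j).smul]

/-! ### `s = 1` -/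

/-- `K₁ → K₀` -/
noncomputable def E1 : ((Fin n → Fin 2 → Op K) × (Fin 2 → Fin (n + 2) → Op K)) →ₗ[Op K]
    (Fin (n + 1) → Op K) where
  toFun p := fun j => e1w g n (ez p.1) j + e1q g n (ez2 p.2) j
  map_add' p q := by
    funext j
    show e1w g n (ez (p.1 + q.1)) j + e1q g n (ez2 (p.2 + q.2)) j =
      (e1w g n (ez p.1) j + e1q g n (ez2 p.2) j) + (e1w g n (ez q.1) j + e1q g n (ez2 q.2) j)
    rw [ez_add', ez2_add, (e1w_lin g n j).add, (e1q_lin g n j).add]
    abel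
  map_smul' T p := by
    funext j
    show e1w g n (ez (T • p.1)) j + e1q g n (ez2 (T • p.2)) j =
      T • (e1w g n (ez p.1) j + e1q g n (ez2 p.2) j)
    rw [ez_smul', ez2_smul, (e1w_lin g n j).smul, (e1q_lin g n j).smul, smul_add]

/-- `K₂ → K₁` -/
noncomputable def E2 : (Fin 2 → Fin (n + 1) → Fin 2 → Op K) →ₗ[Op K]
    ((Fin n → Fin 2 → Op K) × (Fin 2 → Fin (n + 2) → Op K)) where
  toFun v := (fun j => e2w g n (ez2 v) j, ![fun j => e2q0 g n (ez2 v) j,
    fun j => e2q1 g n (ez2 v) j])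
  map_add' u v := by
    refine Prod.ext ?_ (funext (Fin.forall_fin_two.2 ⟨?_, ?_⟩))
    · funext j
      show e2w g n (ez2 (u + v)) j = e2w g n (ez2 u) j + e2w g n (ez2 v) j
      rw [ez2_add, (e2w_lin g n j).add]
    · funext j
      show e2q0 g n (ez2 (u + v)) j = e2q0 g n (ez2 u) j + e2q0 g n (ez2 v) j
      rw [ez2_add, (e2q0_lin g n j).add]
    · funext j
      show e2q1 g n (ez2 (u + v)) j = e2q1 g n (ez2 u) j + e2q1 g n (ez2 v) j
      rw [ez2_add, (e2q1_lin g n j).add]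
  map_smul' T u := by
    refine Prod.ext ?_ (funext (Fin.forall_fin_two.2 ⟨?_, ?_⟩))
    · funext j
      show e2w g n (ez2 (T • u)) j = T • e2w g n (ez2 u) j
      rw [ez2_smul, (e2w_lin g n j).smul]
    · funext j
      show e2q0 g n (ez2 (T • u)) j = T • e2q0 g n (ez2 u) j
      rw [ez2_smul, (e2q0_lin g n j).smul]
    · funext j
      show e2q1 g n (ez2 (T • u)) j = T • e2q1 g n (ez2 u) j
      rw [ez2_smul, (e2q1_lin g n j).smul]

/-- `K₃ → K₂` -/
noncomputable def E3 : (Fin (n + 1) → Op K) →ₗ[Op K] (Fin 2 → Fin (n + 1) → Fin 2 → Op K) where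
  toFun u := ![fun j => e3v0 g (ez u) j, fun j => e3v1 g n (ez u) j]
  map_add' u v := by
    refine funext (Fin.forall_fin_two.2 ⟨?_, ?_⟩)
    · funext j
      show e3v0 g (ez (u + v)) j = e3v0 g (ez u) j + e3v0 g (ez v) j
      rw [ez_add', (e3v0_lin g j).add]
    · funext j
      show e3v1 g n (ez (u + v)) j = e3v1 g n (ez u) j + e3v1 g n (ez v) j
      rw [ez_add', (e3v1_lin g n j).add]
  map_smul' T u := by
    refine funext (Fin.forall_fin_two.2 ⟨?_, ?_⟩)
    · funext j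
      show e3v0 g (ez (T • u)) j = T • e3v0 g (ez u) j
      rw [ez_smul', (e3v0_lin g j).smul]
    · funext j
      show e3v1 g n (ez (T • u)) j = T • e3v1 g n (ez u) j
      rw [ez_smul', (e3v1_lin g n j).smul]

end KN

end Crest.Agent.R186.B281
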