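import Crest.Agent.R186.KRJ_823

/-!
Row 186, S0281, leaf B281.K0/K1 (helper823): projectivity of the terms `W G_i`, `W H_i` and the
resolutions `MRes (A g s) (E g s n)` with terms `W G_i` (`s = 0`), `W H_i` (`s = 1`).
-/

set_option autoImplicit false

noncomputable section

namespace Crest.Agent.R186.KRT823

open Crest.Agent.R186.B281 Crest.Agent.R186.B281.KN Crest.Agent.R186.B281.KR
  Crest.Agent.R186.FamX823 Crest.Agent.R186.KRS823 Crest.Agent.R186.KRJ823

variable {K : Type} [Field K] {g : K}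

theorem proj_fin {R M ι : Type} [Ring R] [AddCommGroup M] [Module R M] [Fintype ι]
    [Module.Projective R M] : Module.Projective R (ι → M) := by
  classical
  exact Module.Projective.of_equiv (DFinsupp.linearEquivFunOnFintype (R := R) (M := fun _ : ι => M))

theorem proj_pi {F : Fam g} {s : ℤ} (h : Module.Projective (A g s) (F.W s)) (ι : Type)
    [Fintype ι] : Module.Projective (A g s) ((pi F ι).W s) :=
  haveI := h
  haveI : Module.Projective (A g s) (ι → F.W s) := proj_fin
  Module.Projective.of_equiv (piW F ι s).symm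

theorem proj_prod {F G : Fam g} {s : ℤ} (h : Module.Projective (A g s) (F.W s))
    (h' : Module.Projective (A g s) (G.W s)) : Module.Projective (A g s) ((prod F G).W s) :=
  haveI := h
  haveI := h'
  Module.Projective.of_equiv (prodW F G s).symm



section
variable (hg : Gen g) (n : ℕ)

instance pG0 : Module.Projective (A g 0) ((G0 hg n).W 0) := proj_pi (projWT hg 0 0) _
instance pG1 : Module.Projective (A g 0) ((G1 hg n).W 0) :=
  proj_pi (proj_pi (projWT hg 0 3) _) _
instance pG2 : Module.Projective (A g 0) ((G2 hg n).W 0) :=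
  proj_prod (proj_pi (projWT hg 0 4) _) (proj_pi (proj_pi (projWT hg 0 1) _) _)
instance pG3 : Module.Projective (A g 0) ((G3 hg n).W 0) := proj_pi (projWT hg 0 2) _
instance pH0 : Module.Projective (A g 1) ((H0 hg n).W 1) := proj_pi (projWT hg 1 0) _
instance pH1 : Module.Projective (A g 1) ((H1 hg n).W 1) :=
  proj_prod (proj_pi (projWT hg 1 4) _) (proj_pi (proj_pi (projWT hg 1 1) _) _)
instance pH2 : Module.Projective (A g 1) ((H2 hg n).W 1) :=
  proj_pi (proj_pi (projWT hg 1 3) _) _
instance pH3 : Module.Projective (A g 1) ((H3 hg n).W 1) := proj_pi (projWT hg 1 2) _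

/-- the resolution of `E g 0 n` with terms `W G_i` -/
def mresW0 : NullChain538.MRes (A g 0) (E g 0 n) where
  K0 := (G0 hg n).W 0
  K1 := (G1 hg n).W 0
  K2 := (G2 hg n).W 0
  K3 := (G3 hg n).W 0
  e := toE hg le_rfl (ge hg n)
  d1 := (g1 hg n).W 0
  d2 := (g2 hg n).W 0
  d3 := (g3 hg n).W 0
  surj := toE_surj hg le_rfl (ge hg n) ((res0 hg n).surj hg)
  ex0 := toE_exact hg le_rfl (g1 hg n) (ge hg n) ((res0 hg n).ex0 hg)
  ex1 := (res0 hg n).ex1 hg
  ex2 := (res0 hg n).ex2 hg
  inj := (res0 hg n).inj hg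
  p0 := pG0 hg n
  p1 := pG1 hg n
  p2 := pG2 hg n
  p3 := pG3 hg n

/-- the resolution of `E g 1 n` with terms `W H_i` -/
def mresW1 : NullChain538.MRes (A g 1) (E g 1 n) where
  K0 := (H0 hg n).W 1
  K1 := (H1 hg n).W 1
  K2 := (H2 hg n).W 1
  K3 := (H3 hg n).W 1
  e := toE hg zero_le_one (he hg n)
  d1 := (h1 hg n).W 1
  d2 := (h2 hg n).W 1
  d3 := (h3 hg n).W 1
  surj := toE_surj hg zero_le_one (he hg n) ((res1 hg n).surj hg)
  ex0 := toE_exact hg zero_le_one (h1 hg n) (he hg n) ((res1 hg n).ex0 hg)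
  ex1 := (res1 hg n).ex1 hg
  ex2 := (res1 hg n).ex2 hg
  inj := (res1 hg n).inj hg
  p0 := pH0 hg n
  p1 := pH1 hg n
  p2 := pH2 hg n
  p3 := pH3 hg n

end

end Crest.Agent.R186.KRT823
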