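import Crest.Agent.R186.LCA_229
import Crest.Agent.R186.B281P_128
import Crest.Agent.R186.FamX2_823
import Crest.Agent.R186.KL_355
import Crest.Agent.R186.LCF1_371

-- ▼ part R186/LCG_229
section

/-!
Row 186, S0281 base (helper229): the families `TV`, `pi`, `prod` are `Good` (see `LCA_229`).
-/

set_option autoImplicit false
set_option linter.unusedSectionVars false

open Matrix

noncomputable section

namespace Crest.Agent.R186.B281

open FamX823

variable {K : Type} [Field K] {g : K}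

/-- a cell from a block -/
def cellOf {T : Fam g} {s : ℤ} {B : Fin 7 → Bool} (e : Emb T s B)
    (h : ∀ k P r, r ∈ Lat g s k P → e.π r ∈ T.L k P) : Cell s T where
  inc := e.ι
  col := fun i => e.π (Pi.single i 1)
  inc_mem hn := (e.mem _ _ _).1 hn
  pair_mem {k P r} hr := by
    have h1 : pair r (fun i => e.π (Pi.single i 1)) = e.π r := by
      rw [pair_map]
      congr 1
      funext j
      show (∑ i, r i • (Pi.single i (1 : Op K) : Fin 7 → Op K)) j = r j
      rw [Finset.sum_apply, Finset.sum_eq_single j]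
      · rw [Pi.smul_apply, Pi.single_eq_same, smul_eq_mul, mul_one]
      · intro b _ hb
        rw [Pi.smul_apply, Pi.single_eq_of_ne (Ne.symm hb), smul_zero]
      · intro hj
        exact absurd (Finset.mem_univ j) hj
    rw [h1]
    exact h k P r hr
  pair_inc n := by
    have h1 : ∀ r, pair r (fun i => e.π (Pi.single i 1)) = e.π r := by
      intro r
      rw [pair_map]
      congr 1
      funext j
      show (∑ i, r i • (Pi.single i (1 : Op K) : Fin 7 → Op K)) j = r j
      rw [Finset.sum_apply, Finset.sum_eq_single j]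
      · rw [Pi.smul_apply, Pi.single_eq_same, smul_eq_mul, mul_one]
      · intro b _ hb
        rw [Pi.smul_apply, Pi.single_eq_of_ne (Ne.symm hb), smul_zero]
      · intro hj
        exact absurd (Finset.mem_univ j) hj
    rw [h1, e.πι]

/-- the vertex families are good -/
theorem good_TV (hg : Gen g) (s : ℤ) (v : Fin 5) : Good s (TV hg s v) := by
  refine (cellOf (emb hg s v) ?_).good
  intro k P r hr
  obtain ⟨h0, h1, h2, ⟨h3, h4, h34⟩, h5, h6, h56⟩ := hr
  fin_cases v
  · show r 0 ∈ Fil g (k - (0 : ℕ)) P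
    rw [Nat.cast_zero, sub_zero]
    exact h0
  · exact h1
  · exact h2
  · refine ⟨h3, h4, ?_⟩
    rw [show k - (s + 1) = k - s - 1 by omega]
    exact h34
  · refine ⟨?_, ?_, h56⟩
    · rw [sub_zero]; exact h5
    · rw [sub_zero]; exact h6

/-- powers -/
theorem good_pi {s : ℤ} {F : Fam g} (h : Good s F) (ι : Type) [Fintype ι] [DecidableEq ι] :
    Good s (pi F ι) := by
  refine good_of_decomp (fun _ : ι => F)
    (fun i =>
      { f := LinearMap.single (Op K) (fun _ : ι => F.N) i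
        map := fun {k P n} hn => mem_pi.2 fun j => by
          by_cases hj : j = i
          · subst hj
            show (Pi.single j n : ι → F.N) j ∈ _
            rw [Pi.single_eq_same]
            exact hn
          · show (Pi.single i n : ι → F.N) j ∈ _
            rw [Pi.single_eq_of_ne hj]
            exact zero_mem _ })
    (fun i =>
      { f := LinearMap.proj i
        map := fun hn => mem_pi.1 hn i })
    ?_ (fun _ => h)
  intro n
  exact Finset.univ_sum_single n

/-- products -/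
theorem good_prod {s : ℤ} {F G : Fam g} (hF : Good s F) (hG : Good s G) : Good s (prod F G) := by
  refine good_of_decomp (fun i : Bool => if i then F else G)
    (fun i => match i with
      | true =>
        { f := LinearMap.inl (Op K) F.N G.N
          map := fun hn => mem_prod.2 ⟨hn, zero_mem _⟩ }
      | false =>
        { f := LinearMap.inr (Op K) F.N G.N
          map := fun hn => mem_prod.2 ⟨zero_mem _, hn⟩ })
    (fun i => match i with
      | true =>
        { f := LinearMap.fst (Op K) F.N G.N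
          map := fun hn => (mem_prod.1 hn).1 }
      | false =>
        { f := LinearMap.snd (Op K) F.N G.N
          map := fun hn => (mem_prod.1 hn).2 })
    ?_ (fun i => match i with
      | true => hF
      | false => hG)
  intro n
  rw [Fintype.sum_bool]
  exact Prod.ext (add_zero _) (zero_add _)

end Crest.Agent.R186.B281
end
end

-- ▼ part R186/LCE_229

/-!
Row 186, S0281 base (helper229): LCQ1, the element level: `Op`-linear maps out of the terms of
`K'(n)` are tuples, the filtered condition `HF` in terms of tuples.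
-/

set_option autoImplicit false
set_option linter.unusedSectionVars false

noncomputable section

namespace Crest.Agent.R186.B281

open FamX823

variable {K : Type} [Field K] {g : K}

/-- left multiplication by an operator -/
def lop (F : Fam g) (T : Op K) : F.N →ₗ[K] F.N where
  toFun n := T • n
  map_add' := smul_add T
  map_smul' c n := smul_comm T c n

@[simp] theorem lop_apply (F : Fam g) (T : Op K) (n : F.N) : lop F T n = T • n := rfl

/-- the operators `x_i`, `d_i` on a family -/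
def fx (F : Fam g) (i : Fin 2) : F.N →ₗ[K] F.N := lop F (X i)
def fd (F : Fam g) (i : Fin 2) : F.N →ₗ[K] F.N := lop F (D g i)

@[simp] theorem fx_apply (F : Fam g) (i : Fin 2) (n : F.N) : fx F i n = (X i : Op K) • n := rfl
@[simp] theorem fd_apply (F : Fam g) (i : Fin 2) (n : F.N) : fd F i n = (D g i : Op K) • n := rfl

section tuples

variable {N : Type} [AddCommGroup N] [Module (Op K) N]

/-- the map of a tuple, rows of length one -/
def tO (m : ℕ) (φ : ℕ → N) : (Fin m → Op K) →ₗ[Op K] N where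
  toFun u := ∑ j : Fin m, u j • φ j
  map_add' u v := by simp only [Pi.add_apply, add_smul, Finset.sum_add_distrib]
  map_smul' T u := by
    simp only [Pi.smul_apply, smul_eq_mul, mul_smul, Finset.smul_sum, RingHom.id_apply]

/-- the map of a tuple, rows of length two -/
def tK (m : ℕ) (y0 y1 : ℕ → N) : (Fin m → Fin 2 → Op K) →ₗ[Op K] N where
  toFun v := ∑ j : Fin m, (v j 0 • y0 j + v j 1 • y1 j)
  map_add' u v := by
    simp only [Pi.add_apply, add_smul, ← Finset.sum_add_distrib]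
    exact Finset.sum_congr rfl fun j _ => by abel
  map_smul' T u := by
    simp only [Pi.smul_apply, smul_eq_mul, mul_smul, Finset.smul_sum, RingHom.id_apply, smul_add]

theorem tO_apply (m : ℕ) (φ : ℕ → N) (u : Fin m → Op K) : tO m φ u = ∑ j : Fin m, u j • φ j := rfl

theorem tK_apply (m : ℕ) (y0 y1 : ℕ → N) (v : Fin m → Fin 2 → Op K) :
    tK m y0 y1 v = ∑ j : Fin m, (v j 0 • y0 j + v j 1 • y1 j) := rfl

theorem tO_single (m : ℕ) (φ : ℕ → N) (j : Fin m) (T : Op K) :
    tO m φ (Pi.single j T) = T • φ j := by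
  rw [tO_apply, Finset.sum_eq_single j]
  · rw [Pi.single_eq_same]
  · intro b _ hb
    rw [Pi.single_eq_of_ne hb, zero_smul]
  · intro h
    exact absurd (Finset.mem_univ j) h

theorem tK_single (m : ℕ) (y0 y1 : ℕ → N) (j : Fin m) (v : Fin 2 → Op K) :
    tK m y0 y1 (Pi.single j v) = v 0 • y0 j + v 1 • y1 j := by
  rw [tK_apply, Finset.sum_eq_single j]
  · rw [Pi.single_eq_same]
  · intro b _ hb
    rw [Pi.single_eq_of_ne hb]
    show (0 : Op K) • y0 b + (0 : Op K) • y1 b = 0
    rw [zero_smul, zero_smul, add_zero]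
  · intro h
    exact absurd (Finset.mem_univ j) h

/-- every map out of `O^m` is a tuple, `0` from `m` on -/
theorem exists_tO {m : ℕ} (Φ : (Fin m → Op K) →ₗ[Op K] N) :
    ∃ φ : ℕ → N, Φ = tO m φ ∧ ∀ j, m ≤ j → φ j = 0 := by
  classical
  refine ⟨fun j => if h : j < m then Φ (Pi.single ⟨j, h⟩ 1) else 0, ?_, ?_⟩
  · apply LinearMap.ext
    intro u
    conv_lhs => rw [← Finset.univ_sum_single u]
    rw [map_sum, tO_apply]
    refine Finset.sum_congr rfl fun j _ => ?_
    rw [dif_pos j.2, ← map_smul]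
    congr 1
    rw [← Pi.single_smul, smul_eq_mul, mul_one]
  · intro j hj
    exact dif_neg (by omega)

/-- every map out of `K^m` is a tuple, `0` from `m` on -/
theorem exists_tK {m : ℕ} (Φ : (Fin m → Fin 2 → Op K) →ₗ[Op K] N) :
    ∃ y0 y1 : ℕ → N, Φ = tK m y0 y1 ∧ ∀ j, m ≤ j → y0 j = 0 ∧ y1 j = 0 := by
  classical
  refine ⟨fun j => if h : j < m then Φ (Pi.single ⟨j, h⟩ ![1, 0]) else 0,
    fun j => if h : j < m then Φ (Pi.single ⟨j, h⟩ ![0, 1]) else 0, ?_, ?_⟩
  · apply LinearMap.ext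
    intro u
    conv_lhs => rw [← Finset.univ_sum_single u]
    rw [map_sum, tK_apply]
    refine Finset.sum_congr rfl fun j _ => ?_
    rw [dif_pos j.2, dif_pos j.2, ← map_smul, ← map_smul, ← map_add]
    congr 1
    rw [← Pi.single_smul, ← Pi.single_smul, ← Pi.single_add]
    congr 1
    funext i
    fin_cases i <;> simp
  · intro j hj
    exact ⟨dif_neg (by omega), dif_neg (by omega)⟩

/-- maps out of `K₁` of `K'(n)` -/
def tP1 (n : ℕ) (y0 y1 w0 w1 : ℕ → N) :
    ((Fin n → Fin 2 → Op K) × (Fin 2 → Fin (n + 2) → Op K)) →ₗ[Op K] N :=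
  tK n y0 y1 ∘ₗ LinearMap.fst (Op K) _ _ +
    (tO (n + 2) w0 ∘ₗ LinearMap.proj 0 ∘ₗ LinearMap.snd (Op K) _ _ +
      tO (n + 2) w1 ∘ₗ LinearMap.proj 1 ∘ₗ LinearMap.snd (Op K) _ _)

/-- maps out of `K₂` of `K'(n)` -/
def tP2 (n : ℕ) (Y00 Y01 Y10 Y11 : ℕ → N) : (Fin 2 → Fin (n + 1) → Fin 2 → Op K) →ₗ[Op K] N :=
  tK (n + 1) Y00 Y01 ∘ₗ LinearMap.proj 0 + tK (n + 1) Y10 Y11 ∘ₗ LinearMap.proj 1

theorem tP1_apply (n : ℕ) (y0 y1 w0 w1 : ℕ → N)
    (p : (Fin n → Fin 2 → Op K) × (Fin 2 → Fin (n + 2) → Op K)) :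
    tP1 n y0 y1 w0 w1 p = tK n y0 y1 p.1 + (tO (n + 2) w0 (p.2 0) + tO (n + 2) w1 (p.2 1)) := rfl

theorem tP2_apply (n : ℕ) (Y00 Y01 Y10 Y11 : ℕ → N) (v : Fin 2 → Fin (n + 1) → Fin 2 → Op K) :
    tP2 n Y00 Y01 Y10 Y11 v = tK (n + 1) Y00 Y01 (v 0) + tK (n + 1) Y10 Y11 (v 1) := rfl

theorem exists_tP1 {n : ℕ}
    (Φ : ((Fin n → Fin 2 → Op K) × (Fin 2 → Fin (n + 2) → Op K)) →ₗ[Op K] N) :
    ∃ y0 y1 w0 w1 : ℕ → N, Φ = tP1 n y0 y1 w0 w1 ∧ ∀ j, n ≤ j → y0 j = 0 ∧ y1 j = 0 := by
  classical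
  obtain ⟨y0, y1, h1, h2⟩ := exists_tK (Φ ∘ₗ LinearMap.inl (Op K) _ _)
  obtain ⟨w0, h3, -⟩ := exists_tO (Φ ∘ₗ LinearMap.inr (Op K) _ _ ∘ₗ
    LinearMap.single (Op K) (fun _ : Fin 2 => Fin (n + 2) → Op K) 0)
  obtain ⟨w1, h4, -⟩ := exists_tO (Φ ∘ₗ LinearMap.inr (Op K) _ _ ∘ₗ
    LinearMap.single (Op K) (fun _ : Fin 2 => Fin (n + 2) → Op K) 1)
  refine ⟨y0, y1, w0, w1, ?_, h2⟩
  apply LinearMap.ext
  rintro ⟨w, q⟩
  have e1 := LinearMap.congr_fun h1 w
  have e3 := LinearMap.congr_fun h3 (q 0)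
  have e4 := LinearMap.congr_fun h4 (q 1)
  rw [tP1_apply]
  show _ = tK n y0 y1 w + (tO (n + 2) w0 (q 0) + tO (n + 2) w1 (q 1))
  rw [← e1, ← e3, ← e4]
  show Φ (w, q) = Φ (w, 0) + (Φ (0, Pi.single 0 (q 0)) + Φ (0, Pi.single 1 (q 1)))
  rw [← map_add, ← map_add]
  congr 1
  refine Prod.ext ?_ ?_
  · show w = w + (0 + 0)
    rw [add_zero, add_zero]
  · show q = 0 + (Pi.single 0 (q 0) + Pi.single 1 (q 1))
    rw [zero_add]
    have := Finset.univ_sum_single q
    rw [Fin.sum_univ_two] at this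
    exact this.symm

theorem exists_tP2 {n : ℕ} (Φ : (Fin 2 → Fin (n + 1) → Fin 2 → Op K) →ₗ[Op K] N) :
    ∃ Y00 Y01 Y10 Y11 : ℕ → N, Φ = tP2 n Y00 Y01 Y10 Y11 := by
  classical
  obtain ⟨Y00, Y01, h1, -⟩ := exists_tK (Φ ∘ₗ
    LinearMap.single (Op K) (fun _ : Fin 2 => Fin (n + 1) → Fin 2 → Op K) 0)
  obtain ⟨Y10, Y11, h2, -⟩ := exists_tK (Φ ∘ₗ
    LinearMap.single (Op K) (fun _ : Fin 2 => Fin (n + 1) → Fin 2 → Op K) 1)
  refine ⟨Y00, Y01, Y10, Y11, ?_⟩
  apply LinearMap.ext
  intro v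
  have e1 := LinearMap.congr_fun h1 (v 0)
  have e2 := LinearMap.congr_fun h2 (v 1)
  rw [tP2_apply, ← e1, ← e2]
  show Φ v = Φ (Pi.single 0 (v 0)) + Φ (Pi.single 1 (v 1))
  rw [← map_add]
  congr 1
  have := Finset.univ_sum_single v
  rw [Fin.sum_univ_two] at this
  exact this.symm

end tuples

/-! ### the filtered condition -/

section filt

variable {N : Type} [AddCommGroup N] [Module K N] [Module (Op K) N]

/-- stability of a family of submodules under operators -/
def SM (g : K) (L : ℤ → ℤ → Submodule K N) : Prop :=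
  ∀ ⦃j e k P : ℤ⦄ ⦃T : Op K⦄ ⦃n : N⦄, T ∈ Fil g j e → n ∈ L k P → T • n ∈ L (k + j) (P + e)

theorem HF_tO (hg : Gen g) (c e : ℤ) {L : ℤ → ℤ → Submodule K N} (hL : SM g L) (m : ℕ)
    (φ : ℕ → N) :
    HF e (pi (TO hg c) (Fin m)) L (tO m φ) ↔ ∀ j < m, φ j ∈ L c e := by
  classical
  constructor
  · intro h j hj
    have h1 : (Pi.single (⟨j, hj⟩ : Fin m) (1 : Op K) : Fin m → Op K) ∈
        (pi (TO hg c) (Fin m)).L c 0 := by
      refine mem_pi.2 fun i => ?_
      show (Pi.single (⟨j, hj⟩ : Fin m) (1 : Op K) : Fin m → Op K) i ∈ Fil g (c - c) 0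
      by_cases hi : i = ⟨j, hj⟩
      · subst hi
        rw [Pi.single_eq_same, sub_self]
        exact one_mem_Fil g le_rfl
      · rw [Pi.single_eq_of_ne hi]
        exact zero_mem _
    have h2 := h h1
    rw [zero_add] at h2
    have h3 : tO m φ (Pi.single (⟨j, hj⟩ : Fin m) (1 : Op K)) ∈ L c e := h2
    rw [tO_single, one_smul] at h3
    exact h3
  · intro h k P x hx
    change Fin m → Op K at x
    have h1 : ∀ i, x i ∈ Fil g (k - c) P := fun i => mem_pi.1 hx i
    show ∑ j : Fin m, x j • φ j ∈ L k (P + e)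
    refine Submodule.sum_mem _ fun i _ => ?_
    have := hL (h1 i) (h i i.2)
    rwa [show c + (k - c) = k by ring, add_comm e P] at this

theorem HF_tK (hg : Gen g) (c e : ℤ) (i0 : ℕ) {L : ℤ → ℤ → Submodule K N} (hL : SM g L) (m : ℕ)
    (y0 y1 : ℕ → N) :
    HF e (pi (TK hg c (c + i0)) (Fin m)) L (tK m y0 y1) ↔
      ∀ j < m, y0 j ∈ L (c + i0) e ∧ y1 j ∈ L (c + i0) e ∧
        (X 1 : Op K) • y0 j - (X 0 : Op K) • y1 j ∈ L c (e + 1) := by
  classical
  constructor
  · intro h j hj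
    have hs : ∀ (k P : ℤ) (v : Fin 2 → Op K), v 0 ∈ Fil g (k - c) P → v 1 ∈ Fil g (k - c) P →
        v 0 * X 0 + v 1 * X 1 ∈ Fil g (k - (c + i0)) (P + 1) →
        v 0 • y0 j + v 1 • y1 j ∈ L k (P + e) := by
      intro k P v h0 h1 h2
      have h3 : (Pi.single (⟨j, hj⟩ : Fin m) v : Fin m → Fin 2 → Op K) ∈
          (pi (TK hg c (c + i0)) (Fin m)).L k P := by
        refine mem_pi.2 fun i => ?_
        show (Pi.single (⟨j, hj⟩ : Fin m) v : Fin m → Fin 2 → Op K) i ∈ (TK hg c (c + i0)).L k P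
        by_cases hi : i = ⟨j, hj⟩
        · subst hi
          rw [Pi.single_eq_same]
          exact ⟨h0, h1, h2⟩
        · rw [Pi.single_eq_of_ne hi]
          exact zero_mem _
      have h4 : tK m y0 y1 (Pi.single (⟨j, hj⟩ : Fin m) v) ∈ L k (P + e) := h h3
      rw [tK_single] at h4
      exact h4
    have hX0 : (X 0 : Op K) ∈ Fil g 0 1 := X_mem_Fil g 0 le_rfl
    have hX1 : (X 1 : Op K) ∈ Fil g 0 1 := X_mem_Fil g 1 le_rfl
    refine ⟨?_, ?_, ?_⟩
    · have := hs (c + i0) 0 ![1, 0] (one_mem_Fil g (by simp)) (zero_mem _) (by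
        show (1 : Op K) * X 0 + 0 * X 1 ∈ _
        rw [one_mul, zero_mul, add_zero, sub_self, zero_add]
        exact hX0)
      rw [zero_add] at this
      have h5 : (1 : Op K) • y0 j + (0 : Op K) • y1 j ∈ L (c + i0) e := this
      rwa [one_smul, zero_smul, add_zero] at h5
    · have := hs (c + i0) 0 ![0, 1] (zero_mem _) (one_mem_Fil g (by simp)) (by
        show (0 : Op K) * X 0 + 1 * X 1 ∈ _
        rw [one_mul, zero_mul, zero_add, sub_self, zero_add]
        exact hX1)
      rw [zero_add] at this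
      have h5 : (0 : Op K) • y0 j + (1 : Op K) • y1 j ∈ L (c + i0) e := this
      rwa [one_smul, zero_smul, zero_add] at h5
    · have := hs c 1 ![X 1, -X 0] (by rw [sub_self]; exact hX1)
        (by rw [sub_self]; exact neg_mem hX0) (by
        show (X 1 : Op K) * X 0 + -X 0 * X 1 ∈ _
        rw [neg_mul, X_comm 1 0, add_neg_cancel]
        exact zero_mem _)
      rw [add_comm (1 : ℤ) e] at this
      have h5 : (X 1 : Op K) • y0 j + (-X 0 : Op K) • y1 j ∈ L c (e + 1) := this
      rwa [neg_smul, ← sub_eq_add_neg] at h5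
  · intro h k P x hx
    have h1 : ∀ i, x i 0 ∈ Fil g (k - c) P ∧ x i 1 ∈ Fil g (k - c) P ∧
        x i 0 * X 0 + x i 1 * X 1 ∈ Fil g (k - (c + i0)) (P + 1) := fun i => mem_pi.1 hx i
    show ∑ j : Fin m, (x j 0 • y0 j + x j 1 • y1 j) ∈ L k (P + e)
    refine Submodule.sum_mem _ fun i _ => ?_
    obtain ⟨ha, hb, hc⟩ := h1 i
    obtain ⟨u0, u1, u2⟩ := h i i.2
    obtain ⟨a', ha', b', hb', ε, hε, e1, e2⟩ := kgen hg i0 (k - c) P _ _ ha hb (by
      rw [sub_sub]; exact hc)
    rw [sub_sub] at ha' hb'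
    have e3 : x i 0 • y0 i + x i 1 • y1 i = a' • y0 i + b' • y1 i +
        ε • ((X 1 : Op K) • y0 i - (X 0 : Op K) • y1 i) := by
      rw [e1, e2, add_smul, sub_smul, smul_sub, mul_smul, mul_smul]
      abel
    rw [e3]
    refine add_mem (add_mem ?_ ?_) ?_
    · have := hL ha' u0
      rwa [show c + (i0 : ℤ) + (k - (c + i0)) = k by ring, add_comm e P] at this
    · have := hL hb' u1
      rwa [show c + (i0 : ℤ) + (k - (c + i0)) = k by ring, add_comm e P] at this
    · have := hL hε u2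
      rwa [show c + (k - c) = k by ring, show e + 1 + (P - 1) = P + e by ring] at this

end filt

end Crest.Agent.R186.B281
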