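import Crest.Agent.R186.B281W_128
import Crest.Agent.R186.KGen_693

/-!
Row 186, S0281, block F1 (helper671): the V-side. The family `Vf g n` (Laurent polynomials,
`L k P = K[x]_(n+P)` for `0 ≤ k`, zero below) and `W (Vf g n) = E g s n`; the augmentation of a
free family of rank one at a vector.
-/

set_option autoImplicit false
set_option linter.unusedSectionVars false

open Matrix

noncomputable section

namespace Crest.Agent.R186.B281

variable {K : Type} [Field K]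


/-- the family of the module `K[x]` in degree `n` -/
def Vf (g : K) (n : ℤ) : Fam g where
  N := Lau K
  L k P := if 0 ≤ k then Pol K (n + P) else ⊥
  mono := by
    intro k l P h
    by_cases hk : 0 ≤ k
    · rw [if_pos hk, if_pos (hk.trans h)]
    · rw [if_neg hk]
      exact bot_le
  smul := by
    intro j e k P T f hT hf
    by_cases hk : 0 ≤ k
    · rw [if_pos hk] at hf
      by_cases hkj : 0 ≤ k + j
      · rw [if_pos hkj, ← add_assoc]
        exact Fil_Pol hT hf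
      · rw [Fil_neg g (show j < 0 by omega), Submodule.mem_bot] at hT
        rw [hT, zero_smul]
        exact zero_mem _
    · rw [if_neg hk, Submodule.mem_bot] at hf
      rw [hf, smul_zero]
      exact zero_mem _

variable {g : K}

theorem Vf_L (n : ℤ) {k : ℤ} (hk : 0 ≤ k) (P : ℤ) : (Vf g n).L k P = Pol K (n + P) :=
  if_pos hk


theorem mem_Vf_L (n : ℤ) {k : ℤ} (hk : 0 ≤ k) (P : ℤ) (f : Lau K) :
    f ∈ (Vf g n).L k P ↔ f ∈ Pol K (n + P) := by
  rw [Vf_L n hk]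
  exact Iff.rfl


theorem Vf_ent_iff (n : ℤ) {s : ℤ} (hs : 0 ≤ s) (e : ℤ) (m : Fin 7 → (Vf g n).N) :
    (Vf g n).Ent s e m ↔ ∀ i, (m i : Lau K) ∈ Pol K (n + e) := by
  constructor
  · intro h i
    fin_cases i
    · exact (mem_Vf_L (g := g) n le_rfl e _).1 h.e0
    · exact (mem_Vf_L (g := g) n zero_le_one e _).1 h.e1
    · exact (mem_Vf_L (g := g) n zero_le_two e _).1 h.e2
    · exact (mem_Vf_L (g := g) n (by omega) e _).1 h.e3
    · exact (mem_Vf_L (g := g) n (by omega) e _).1 h.e4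
    · exact (mem_Vf_L (g := g) n zero_le_two e _).1 h.e5
    · exact (mem_Vf_L (g := g) n zero_le_two e _).1 h.e6
  · intro h
    have hX : ∀ (i : Fin 2) (f : Lau K), f ∈ Pol K (n + e) →
        (X i : Op K) f ∈ Pol K (n + (e + 1)) := by
      intro i f hf
      rw [← add_assoc]
      exact X_Pol i hf
    refine ⟨?_, ?_, ?_, ?_, ?_, ?_, ?_, ?_, ?_⟩
    · exact (mem_Vf_L (g := g) n le_rfl e _).2 (h 0)
    · exact (mem_Vf_L (g := g) n zero_le_one e _).2 (h 1)
    · exact (mem_Vf_L (g := g) n zero_le_two e _).2 (h 2)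
    · exact (mem_Vf_L (g := g) n (by omega) e _).2 (h 3)
    · exact (mem_Vf_L (g := g) n (by omega) e _).2 (h 4)
    · exact (mem_Vf_L (g := g) n hs (e + 1) _).2 (sub_mem (hX 1 _ (h 3)) (hX 0 _ (h 4)))
    · exact (mem_Vf_L (g := g) n zero_le_two e _).2 (h 5)
    · exact (mem_Vf_L (g := g) n zero_le_two e _).2 (h 6)
    · exact (mem_Vf_L (g := g) n le_rfl (e + 1) _).2 (sub_mem (hX 1 _ (h 5)) (hX 0 _ (h 6)))

/-- **membership in `W (Vf g n)`** -/
theorem mem_W_Vf (hg : Gen g) (n : ℤ) {s : ℤ} (hs : 0 ≤ s) (p : Col (Vf g n).N) :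
    p ∈ (Vf g n).W s ↔ (∀ i, (p.1 i : Lau K) ∈ Pol K n) ∧ ∀ i, (p.2 i : Lau K) ∈ Pol K (n + 1) := by
  rw [Fam.mem_W_iff (kgen hg), Vf_ent_iff n hs, Vf_ent_iff n hs, add_zero]

/-- **`W (Vf g n) = E g s n`** -/
def VfW (hg : Gen g) (n : ℤ) {s : ℤ} (hs : 0 ≤ s) : (Vf g n).W s ≃ₗ[A g s] E g s n where
  toFun p := ⟨((p.1.1, p.1.2) : Big K), (mem_W_Vf hg n hs p.1).1 p.2⟩
  invFun p := ⟨((p.1.1, p.1.2) : Col (Vf g n).N), (mem_W_Vf hg n hs _).2 p.2⟩
  left_inv _ := rfl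
  right_inv _ := rfl
  map_add' _ _ := rfl
  map_smul' _ _ := rfl





/-! ### the map onto `E` and its exactness -/

/-- the map `W F → E g s n` of a morphism `F → Vf g n` -/
def toE (hg : Gen g) {n : ℤ} {s : ℤ} (hs : 0 ≤ s) {F : Fam g} (φ : F.Hom (Vf g n)) :
    F.W s →ₗ[A g s] E g s n := (VfW hg n hs).toLinearMap ∘ₗ φ.W s



theorem toE_surj (hg : Gen g) {n : ℤ} {s : ℤ} (hs : 0 ≤ s) {F : Fam g} (φ : F.Hom (Vf g n))
    (h : Function.Surjective (φ.W s)) : Function.Surjective (toE hg hs φ) :=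
  (VfW hg n hs).surjective.comp h

theorem toE_exact (hg : Gen g) {n : ℤ} {s : ℤ} (hs : 0 ≤ s) {F G : Fam g} (χ : F.Hom G)
    (φ : G.Hom (Vf g n)) (h : Function.Exact (χ.W s) (φ.W s)) :
    Function.Exact (χ.W s) (toE hg hs φ) := by
  intro x
  rw [← h x]
  exact (VfW hg n hs).map_eq_zero_iff


theorem Lev.nonneg {s k P : ℤ} (hs : 0 ≤ s) (h : Lev s k P) :
    0 ≤ k ∧ (P = 0 ∨ P = 1 ∨ P = 2) := by
  unfold Lev at h
  omega

end Crest.Agent.R186.B281
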