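import Mathlib

-- ▼ part R186/LC_369
section

/-!
# Row 186, S0281 base, block LC (helper369): the `h = 0` complexes `Hom(K(n), D)` are exact

Abstract form: seven modules `N00 = N(a,b)`, `N01 = N(a,b+1)`, `N02 = N(a,b+2)`, `N10 = N(a+1,b)`,
`N11 = N(a+1,b+1)`, `N12 = N(a+1,b+2)`, `N22 = N(a+2,b+2)` with maps `x i`, `d i`.
The monomials of `k[x]_m` are indexed by `j` = exponent of `x1` (`j ≤ m`), `lam m = c_m`,
`D_i x_i^m = lam m x_i^(m-1)`.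
-/

set_option autoImplicit false

namespace Crest.Agent.R186.LC369

/-- the bigraded piece of a `q`-commutative bigraded module -/
structure Sq (K : Type*) [Field K] (g : K) (N00 N01 N02 N10 N11 N12 N22 : Type*)
    [AddCommGroup N00] [Module K N00] [AddCommGroup N01] [Module K N01]
    [AddCommGroup N02] [Module K N02] [AddCommGroup N10] [Module K N10]
    [AddCommGroup N11] [Module K N11] [AddCommGroup N12] [Module K N12]
    [AddCommGroup N22] [Module K N22] where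
  xa : Fin 2 → N00 →ₗ[K] N10
  xb : Fin 2 → N01 →ₗ[K] N11
  xc : Fin 2 → N02 →ₗ[K] N12
  xd : Fin 2 → N12 →ₗ[K] N22
  da : Fin 2 → N00 →ₗ[K] N01
  db : Fin 2 → N01 →ₗ[K] N02
  dc : Fin 2 → N10 →ₗ[K] N11
  dd : Fin 2 → N11 →ₗ[K] N12
  /-- `x_i d_i = g d_i x_i`, `x_i d_j = d_j x_i` -/
  ra : ∀ i j u, xb j (da i u) = (if i = j then g else 1) • dc i (xa j u)
  rb : ∀ i j u, xc j (db i u) = (if i = j then g else 1) • dd i (xb j u)
  /-- injectivity of `d_0`, `x_1` -/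
  da_inj : ∀ u, da 0 u = 0 → u = 0
  dc_inj : ∀ u, dc 0 u = 0 → u = 0
  xc_inj : ∀ u, xc 1 u = 0 → u = 0
  /-- Koszul in `d` -/
  dk : ∀ u v, db 0 u = db 1 v → ∃ w, u = da 1 w ∧ v = da 0 w
  dk' : ∀ u v, dd 0 u = dd 1 v → ∃ w, u = dc 1 w ∧ v = dc 0 w
  ds : ∀ w, ∃ u v, w = db 0 u - db 1 v
  ds' : ∀ w, ∃ u v, w = dd 0 u - dd 1 v
  /-- Koszul in `x` -/
  xk : ∀ u v, xd 0 u = xd 1 v → ∃ w, u = xc 1 w ∧ v = xc 0 w
  xs : ∀ w, ∃ u v, w = xd 0 u - xd 1 v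

variable {K : Type*} [Field K] {g : K} {N00 N01 N02 N10 N11 N12 N22 : Type*}
    [AddCommGroup N00] [Module K N00] [AddCommGroup N01] [Module K N01]
    [AddCommGroup N02] [Module K N02] [AddCommGroup N10] [Module K N10]
    [AddCommGroup N11] [Module K N11] [AddCommGroup N12] [Module K N12]
    [AddCommGroup N22] [Module K N22] (S : Sq K g N00 N01 N02 N10 N11 N12 N22) (lam : ℕ → K)

/-! ## the differentials, in coordinates -/

/-- `zeta(g) = Σ d_i phi(g_i)` -/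
def zeta (φ : ℕ → N00) (e : Fin 2) (j : ℕ) : N01 := S.da e (φ j)

/-- `m(g) = x0 phi(x1 G) - x1 phi(x0 G)`, `G = div g` -/
def mm (n : ℕ) (φ : ℕ → N00) (e : Fin 2) (j : ℕ) : N10 :=
  if e = 0 then lam (n - j) • (S.xa 0 (φ (j + 1)) - S.xa 1 (φ j))
  else lam j • (S.xa 0 (φ j) - S.xa 1 (φ (j - 1)))

/-- `M(f) = m(curl f)` -/
def MM (n : ℕ) (m : Fin 2 → ℕ → N10) (j : ℕ) : N10 :=
  lam j • m 0 (j - 1) - lam (n + 1 - j) • m 1 j

/-- `Z`-part -/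
def ZZ (ζ : Fin 2 → ℕ → N01) : ℕ → N12
  | 0 => g⁻¹ • S.xc 0 (S.db 0 (ζ 1 0) - S.db 1 (ζ 0 0))
  | j + 1 => g⁻¹ • S.xc 1 (S.db 0 (ζ 1 j) - S.db 1 (ζ 0 j))

/-- `psi`-part -/
def psi (n : ℕ) (ζ : Fin 2 → ℕ → N01) (m : Fin 2 → ℕ → N10) (e : Fin 2) (j : ℕ) : N11 :=
  if e = 0 then -(g⁻¹ • S.xb 0 (ζ 0 (j + 1))) + S.xb 1 (ζ 0 j) + (lam (n - j))⁻¹ • S.dc 0 (m 0 j)
  else -(S.xb 0 (ζ 1 (j + 1))) + g⁻¹ • S.xb 1 (ζ 1 j) + (lam (n - j))⁻¹ • S.dc 1 (m 0 j)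

/-- `tau` -/
def tau (Z : ℕ → N12) (ψ : Fin 2 → ℕ → N11) : ℕ → N22
  | 0 => S.xd 0 (Z 1) - S.xd 1 (Z 0)
  | j + 1 => S.xd 0 (Z (j + 2)) - S.xd 1 (Z (j + 1)) - S.xd 1 (S.dd 1 (ψ 0 j)) + S.xd 1 (S.dd 0 (ψ 1 j))

/-- `Y_0 = Z_0`, `Y_j = Z_j + d1 psi_0^(j-1) - d0 psi_1^(j-1)`: then `tau_j = x0 Z_(j+1) - x1 Y_j` -/
def YY (Z : ℕ → N12) (ψ : Fin 2 → ℕ → N11) : ℕ → N12
  | 0 => Z 0
  | i + 1 => Z (i + 1) + S.dd 1 (ψ 0 i) - S.dd 0 (ψ 1 i)

section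
variable {lam}

/-- exactness at degree `0` -/
theorem H0 (n : ℕ) (φ : ℕ → N00) (h : ∀ e, ∀ j ≤ n, zeta S φ e j = 0) : ∀ j ≤ n, φ j = 0 :=
  fun j hj => S.da_inj _ (h 0 j hj)

/-- exactness at degree `1` -/
theorem H1 (hg : g ≠ 0) (n : ℕ) (hlam : ∀ m, 0 < m → m ≤ n + 1 → lam m ≠ 0) (h0 : lam 0 = 0)
    (ζ : Fin 2 → ℕ → N01) (m : Fin 2 → ℕ → N10)
    (hZ : ∀ j ≤ n + 1, ZZ S ζ j = 0) (hM : ∀ j ≤ n + 1, MM lam n m j = 0)
    (hψ : ∀ e, ∀ j < n, psi S lam n ζ m e j = 0) :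
    ∃ φ : ℕ → N00, (∀ e, ∀ j ≤ n, ζ e j = zeta S φ e j) ∧ (∀ e, ∀ j ≤ n, m e j = mm S lam n φ e j) := by
  have hginv : g⁻¹ ≠ 0 := inv_ne_zero hg
  have key : ∀ j, ∃ w, j ≤ n → (ζ 1 j = S.da 1 w ∧ ζ 0 j = S.da 0 w) := by
    intro j
    by_cases hj : j ≤ n
    · have h1 := hZ (j + 1) (by omega)
      simp only [ZZ] at h1
      have h2 := S.xc_inj _ ((smul_eq_zero.mp h1).resolve_left hginv)
      obtain ⟨w, hw1, hw2⟩ := S.dk _ _ (sub_eq_zero.mp h2)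
      exact ⟨w, fun _ => ⟨hw1, hw2⟩⟩
    · exact ⟨0, fun h => absurd h hj⟩
  choose φ hφ using key
  have hm0 : ∀ j ≤ n, m 0 j = lam (n - j) • (S.xa 0 (φ (j + 1)) - S.xa 1 (φ j)) := by
    intro j hj
    rcases Nat.lt_or_ge j n with hlt | hge
    · have h1 := hψ 0 j hlt
      simp only [psi, if_true] at h1
      rw [(hφ (j + 1) (by omega)).2, (hφ j hj).2, S.ra 0 0, S.ra 0 1] at h1
      simp only [if_true, zero_ne_one, if_false, one_smul, smul_smul, inv_mul_cancel₀ hg,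
        Fin.isValue] at h1
      have hl : lam (n - j) ≠ 0 := hlam _ (by omega) (by omega)
      have h2 : S.dc 0 ((lam (n - j))⁻¹ • m 0 j - (S.xa 0 (φ (j + 1)) - S.xa 1 (φ j))) = 0 := by
        rw [map_sub, map_sub, map_smul, ← h1]
        abel
      have h3 := sub_eq_zero.mp (S.dc_inj _ h2)
      rw [← h3, smul_smul, mul_inv_cancel₀ hl, one_smul]
    · have hjn : j = n := by omega
      subst hjn
      have h1 := hM (j + 1) le_rfl
      simp only [MM, Nat.add_sub_cancel, Nat.sub_self, h0, zero_smul, sub_zero] at h1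
      rw [(smul_eq_zero.mp h1).resolve_left (hlam _ (by omega) le_rfl), Nat.sub_self, h0, zero_smul]
  have hm1 : ∀ j ≤ n, m 1 j = lam j • (S.xa 0 (φ j) - S.xa 1 (φ (j - 1))) := by
    intro j hj
    have hl : lam (n + 1 - j) ≠ 0 := hlam _ (by omega) (by omega)
    have h1 := hM j (by omega)
    simp only [MM] at h1
    rcases j with _ | j
    · simp only [h0, zero_smul, zero_sub, neg_eq_zero] at h1 ⊢
      exact (smul_eq_zero.mp h1).resolve_left hl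
    · rw [Nat.add_sub_cancel, hm0 j (by omega), show n + 1 - (j + 1) = n - j by omega] at h1
      rw [show n + 1 - (j + 1) = n - j by omega] at hl
      rw [smul_comm, ← smul_sub] at h1
      have h2 := sub_eq_zero.mp ((smul_eq_zero.mp h1).resolve_left hl)
      rw [← h2, Nat.add_sub_cancel]
  refine ⟨φ, ?_, ?_⟩
  · intro e j hj
    fin_cases e
    · exact (hφ j hj).2
    · exact (hφ j hj).1
  · intro e j hj
    fin_cases e
    · simpa [mm] using hm0 j hj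
    · simpa [mm] using hm1 j hj

/-- exactness at degree `2` -/
theorem H2 (hg : g ≠ 0) (n : ℕ) (hlam : ∀ m, 0 < m → m ≤ n + 1 → lam m ≠ 0) (h0 : lam 0 = 0)
    (Z : ℕ → N12) (M : ℕ → N10) (ψ : Fin 2 → ℕ → N11)
    (hτ : ∀ j ≤ n, tau S Z ψ j = 0) :
    ∃ (ζ : Fin 2 → ℕ → N01) (m : Fin 2 → ℕ → N10),
      (∀ j ≤ n + 1, Z j = ZZ S ζ j) ∧ (∀ j ≤ n + 1, M j = MM lam n m j) ∧
      (∀ e, ∀ j < n, ψ e j = psi S lam n ζ m e j) := by
  have hginv : g⁻¹ ≠ 0 := inv_ne_zero hg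
  -- step 1
  have key : ∀ j, ∃ (z1 z0 : N01), j ≤ n →
      (Z (j + 1) = g⁻¹ • S.xc 1 (S.db 0 z1 - S.db 1 z0) ∧
        YY S Z ψ j = g⁻¹ • S.xc 0 (S.db 0 z1 - S.db 1 z0)) := by
    intro j
    by_cases hj : j ≤ n
    · have h1 : S.xd 0 (Z (j + 1)) = S.xd 1 (YY S Z ψ j) := by
        have := hτ j hj
        rcases j with _ | i
        · simp only [tau] at this
          exact sub_eq_zero.mp this
        · simp only [tau] at this
          simp only [YY, map_sub, map_add]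
          rw [← sub_eq_zero, ← this]
          abel
      obtain ⟨w, hw1, hw2⟩ := S.xk _ _ h1
      obtain ⟨z1, z0, hz⟩ := S.ds (g • w)
      refine ⟨z1, z0, fun _ => ⟨?_, ?_⟩⟩
      · rw [hw1, ← hz, map_smul, smul_smul, inv_mul_cancel₀ hg, one_smul]
      · rw [hw2, ← hz, map_smul, smul_smul, inv_mul_cancel₀ hg, one_smul]
    · exact ⟨0, 0, fun h => absurd h hj⟩
  choose z1 z0 hz using key
  -- step 2
  have key2 : ∀ j, ∃ θ : N10, j < n →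
      (ψ 1 j + S.xb 0 (z1 (j + 1)) - g⁻¹ • S.xb 1 (z1 j) = S.dc 1 θ ∧
        ψ 0 j + g⁻¹ • S.xb 0 (z0 (j + 1)) - S.xb 1 (z0 j) = S.dc 0 θ) := by
    intro j
    by_cases hj : j < n
    · have h1 := (hz (j + 1) (by omega)).2
      have h2 := (hz j (by omega)).1
      simp only [YY] at h1
      rw [h2] at h1
      have e1 := S.rb 0 0 (z1 (j + 1))
      have e2 := S.rb 1 0 (z0 (j + 1))
      have e3 := S.rb 0 1 (z1 j)
      have e4 := S.rb 1 1 (z0 j)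
      simp only [if_true, zero_ne_one, one_ne_zero, if_false, one_smul, Fin.isValue] at e1 e2 e3 e4
      simp only [map_sub, smul_sub, e1, e2, e3, e4, smul_smul, inv_mul_cancel₀ hg, one_smul] at h1
      obtain ⟨w, hw1, hw2⟩ := S.dk' (ψ 1 j + S.xb 0 (z1 (j + 1)) - g⁻¹ • S.xb 1 (z1 j))
        (ψ 0 j + g⁻¹ • S.xb 0 (z0 (j + 1)) - S.xb 1 (z0 j)) (by
          simp only [map_sub, map_add, map_smul]
          rw [← sub_eq_zero]
          have h3 := sub_eq_zero.mpr h1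
          rw [← neg_eq_zero, ← h3]
          abel)
      exact ⟨w, fun _ => ⟨hw1, hw2⟩⟩
    · exact ⟨0, fun h => absurd h hj⟩
  choose θ hθ using key2
  -- step 3
  let m0 : ℕ → N10 := fun j => if j < n then lam (n - j) • θ j else (lam (n + 1))⁻¹ • M (n + 1)
  let m1 : ℕ → N10 := fun j => (lam (n + 1 - j))⁻¹ • (lam j • m0 (j - 1) - M j)
  refine ⟨fun e j => if e = 0 then z0 j else z1 j, fun e j => if e = 0 then m0 j else m1 j, ?_, ?_, ?_⟩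
  · intro j hj
    rcases j with _ | j
    · have := (hz 0 (by omega)).2
      simpa [ZZ, YY] using this
    · have := (hz j (by omega)).1
      simpa [ZZ] using this
  · intro j hj
    simp only [MM, if_true, one_ne_zero, if_false, Fin.isValue]
    rcases Nat.lt_or_ge j (n + 1) with hlt | hge
    · have hl : lam (n + 1 - j) ≠ 0 := hlam _ (by omega) (by omega)
      simp only [m1]
      rw [smul_smul, mul_inv_cancel₀ hl, one_smul]
      abel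
    · have hjn : j = n + 1 := by omega
      subst hjn
      have hl : lam (n + 1) ≠ 0 := hlam _ (by omega) le_rfl
      simp only [m0, Nat.add_sub_cancel, lt_irrefl, if_false, Nat.sub_self, h0, zero_smul, sub_zero]
      rw [smul_smul, mul_inv_cancel₀ hl, one_smul]
  · intro e j hj
    have hl : lam (n - j) ≠ 0 := hlam _ (by omega) (by omega)
    obtain ⟨h1, h2⟩ := hθ j hj
    fin_cases e
    · simp only [psi, Fin.zero_eta, if_true, Fin.isValue, m0, if_pos hj, map_smul, smul_smul,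
        inv_mul_cancel₀ hl, one_smul]
      rw [← h2]
      abel
    · simp only [psi, Fin.mk_one, if_true, one_ne_zero, if_false, Fin.isValue, m0, if_pos hj, map_smul,
        smul_smul, inv_mul_cancel₀ hl, one_smul]
      rw [← h1]
      abel

/-- exactness at degree `3` -/
theorem H3 (n : ℕ) (τ : ℕ → N22) :
    ∃ (Z : ℕ → N12) (ψ : Fin 2 → ℕ → N11), ∀ j ≤ n, τ j = tau S Z ψ j := by
  choose A B hAB using fun j => S.xs (τ j)
  choose C D hCD using fun j => S.ds' (A j - B (j + 1))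
  refine ⟨fun j => Nat.rec (B 0) (fun i _ => A i) j, fun e j => if e = 0 then D j else C j, ?_⟩
  intro j _
  rcases j with _ | j
  · simpa [tau] using hAB 0
  · simp only [tau, if_true, one_ne_zero, if_false, Fin.isValue]
    have h1 := hCD j
    have h2 : S.dd 0 (C j) = A j - B (j + 1) + S.dd 1 (D j) := by rw [h1]; abel
    rw [h2, hAB (j + 1)]
    simp only [map_add, map_sub]
    abel

end

end Crest.Agent.R186.LC369
private theorem rz_5a069c383e : type_of% @_root_.Crest.Agent.R186.LC369.YY.eq_1 := @_root_.Crest.Agent.R186.LC369.YY.eq_1 -- L82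
private theorem rz_1e1c08dffa : type_of% @_root_.Crest.Agent.R186.LC369.ZZ.eq_1 := @_root_.Crest.Agent.R186.LC369.ZZ.eq_1 -- L67
private theorem rz_73efe2d735 : type_of% @_root_.Crest.Agent.R186.LC369.tau.eq_1 := @_root_.Crest.Agent.R186.LC369.tau.eq_1 -- L77
end

-- ▼ part R186/LCF_369
section

/-!
# Row 186, S0281 base (helper369): the filtered (`h = 1`) form of the LC theorem, `s = 0`

`U` a left module over the operators (`x i`, `d i`, `x_i d_i = 1 + g d_i x_i`), `L0 = L 0 e`,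
`L1 = L 1 e`, `L2 = L 2 e`, `Lp = L 0 (e+1)` the lattices of the column, `p0, p1, p2, pp` the
symbol maps onto the `h = 0` pieces `N00, N11, N22, N10` of `S : LC369.Sq`.
-/

set_option autoImplicit false

namespace Crest.Agent.R186.LC369

variable {K : Type*} [Field K] {g : K} {N00 N01 N02 N10 N11 N12 N22 : Type*}
    [AddCommGroup N00] [Module K N00] [AddCommGroup N01] [Module K N01]
    [AddCommGroup N02] [Module K N02] [AddCommGroup N10] [Module K N10]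
    [AddCommGroup N11] [Module K N11] [AddCommGroup N12] [Module K N12]
    [AddCommGroup N22] [Module K N22]

/-- the dictionary between lattices and symbols -/
structure Dict (S : Sq K g N00 N01 N02 N10 N11 N12 N22) (U : Type*) [AddCommGroup U] [Module K U] where
  x : Fin 2 → U →ₗ[K] U
  d : Fin 2 → U →ₗ[K] U
  xx : ∀ u, x 0 (x 1 u) = x 1 (x 0 u)
  xd0 : ∀ i u, x i (d i u) = u + g • d i (x i u)
  xd1 : ∀ i j u, i ≠ j → x i (d j u) = d j (x i u)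
  L0 : Submodule K U
  L1 : Submodule K U
  L2 : Submodule K U
  Lp : Submodule K U
  p0 : L0 →ₗ[K] N00
  p1 : L1 →ₗ[K] N11
  p2 : L2 →ₗ[K] N22
  pp : Lp →ₗ[K] N10
  h01 : ∀ u, u ∈ L0 → u ∈ L1
  h12 : ∀ u, u ∈ L1 → u ∈ L2
  k01 : ∀ u (h : u ∈ L0), p1 ⟨u, h01 u h⟩ = 0
  k12 : ∀ u (h : u ∈ L1), p2 ⟨u, h12 u h⟩ = 0
  xm : ∀ i u, u ∈ L0 → x i u ∈ Lp
  px : ∀ i u (h : u ∈ L0), pp ⟨x i u, xm i u h⟩ = S.xa i (p0 ⟨u, h⟩)
  dm : ∀ i u, u ∈ Lp → d i u ∈ L1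
  pd : ∀ i u (h : u ∈ Lp), p1 ⟨d i u, dm i u h⟩ = S.dc i (pp ⟨u, h⟩)
  xdm0 : ∀ j i u, u ∈ L0 → x j (d i u) ∈ L1
  pxd0 : ∀ j i u (h : u ∈ L0), p1 ⟨x j (d i u), xdm0 j i u h⟩ = S.xb j (S.da i (p0 ⟨u, h⟩))
  xdm1 : ∀ j i u, u ∈ L1 → x j (d i u) ∈ L2
  pxd1 : ∀ j i u (h : u ∈ L1), p2 ⟨x j (d i u), xdm1 j i u h⟩ = S.xd j (S.dd i (p1 ⟨u, h⟩))
  /-- `x`-Koszul at the `K`-vertices -/
  k1 : ∀ u v (hu : u ∈ L1) (hv : v ∈ L1), x 1 u - x 0 v ∈ Lp →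
    ∃ z, p1 ⟨u, hu⟩ = S.xb 0 z ∧ p1 ⟨v, hv⟩ = S.xb 1 z
  k2 : ∀ u v (hu : u ∈ L2) (hv : v ∈ L2), x 1 u - x 0 v ∈ Lp →
    ∃ z, p2 ⟨u, hu⟩ = S.xd 0 z ∧ p2 ⟨v, hv⟩ = S.xd 1 z
  xbi : ∀ z : N01, S.xb 1 z = 0 → z = 0
  /-- surjectivity of the dictionary -/
  s0 : Function.Surjective p0
  s1 : Function.Surjective p1
  l1 : ∀ (z : N01) (m : N10), ∃ (u v : U) (hu : u ∈ L1) (hv : v ∈ L1) (hm : x 1 u - x 0 v ∈ Lp),
    p1 ⟨u, hu⟩ = S.xb 0 z ∧ p1 ⟨v, hv⟩ = S.xb 1 z ∧ pp ⟨x 1 u - x 0 v, hm⟩ = m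
  l2 : ∀ (z : N12) (m : N10), ∃ (u v : U) (hu : u ∈ L2) (hv : v ∈ L2) (hm : x 1 u - x 0 v ∈ Lp),
    p2 ⟨u, hu⟩ = S.xd 0 z ∧ p2 ⟨v, hv⟩ = S.xd 1 z ∧ pp ⟨x 1 u - x 0 v, hm⟩ = m

variable {S : Sq K g N00 N01 N02 N10 N11 N12 N22} {U : Type*} [AddCommGroup U] [Module K U]
  (T : Dict S U) (lam : ℕ → K)

namespace Dict

/-- the submodule of `L_i` of elements of symbol `0` -/
def M0 : Submodule K U := (LinearMap.ker T.p0).map T.L0.subtype
def M1 : Submodule K U := (LinearMap.ker T.p1).map T.L1.subtype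
def M2 : Submodule K U := (LinearMap.ker T.p2).map T.L2.subtype
def Mp : Submodule K U := (LinearMap.ker T.pp).map T.Lp.subtype

theorem mem_M0 {u : U} : u ∈ T.M0 ↔ ∃ h : u ∈ T.L0, T.p0 ⟨u, h⟩ = 0 := by
  simp [M0, Submodule.mem_map, LinearMap.mem_ker]

theorem mem_M1 {u : U} : u ∈ T.M1 ↔ ∃ h : u ∈ T.L1, T.p1 ⟨u, h⟩ = 0 := by
  simp [M1, Submodule.mem_map, LinearMap.mem_ker]

theorem mem_M2 {u : U} : u ∈ T.M2 ↔ ∃ h : u ∈ T.L2, T.p2 ⟨u, h⟩ = 0 := by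
  simp [M2, Submodule.mem_map, LinearMap.mem_ker]

theorem mem_Mp {u : U} : u ∈ T.Mp ↔ ∃ h : u ∈ T.Lp, T.pp ⟨u, h⟩ = 0 := by
  simp [Mp, Submodule.mem_map, LinearMap.mem_ker]




end Dict

end Crest.Agent.R186.LC369
end

-- ▼ part R186/LCP_369

/-!
# Row 186, S0281 base (helper369): pairs of families `L' ≤ L` and the dictionary they give

`Pr g U` : `U` a left module with operators `x i`, `d i` (`x_i d_i = 1 + g d_i x_i`), two families
`L k P`, `L' k P` (`k` level, `P` degree).  Instances: `(Fil g k P, Fil g (k-1) P)` on `Op K`,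
`(K₁-rows, (Fil (k-1))²)` on `Fin 2 → Op K`.
-/

set_option autoImplicit false

namespace Crest.Agent.R186.LC369

/-- a pair of families (FIELDS FROZEN 17:40, to be instantiated) -/
structure Pr (K : Type*) [Field K] (g : K) (U : Type*) [AddCommGroup U] [Module K U] where
  x : Fin 2 → U →ₗ[K] U
  d : Fin 2 → U →ₗ[K] U
  xx : ∀ u, x 0 (x 1 u) = x 1 (x 0 u)
  xd0 : ∀ i u, x i (d i u) = u + g • d i (x i u)
  xd1 : ∀ i j u, i ≠ j → x i (d j u) = d j (x i u)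
  L : ℤ → ℤ → Submodule K U
  L' : ℤ → ℤ → Submodule K U
  le : ∀ k P u, u ∈ L' k P → u ∈ L k P
  /-- `h` kills the quotient -/
  h : ∀ k P u, u ∈ L k P → u ∈ L' (k + 1) P
  xL : ∀ i k P u, u ∈ L k P → x i u ∈ L k (P + 1)
  xL' : ∀ i k P u, u ∈ L' k P → x i u ∈ L' k (P + 1)
  dL : ∀ i k P u, u ∈ L k P → d i u ∈ L (k + 1) (P - 1)
  dL' : ∀ i k P u, u ∈ L' k P → d i u ∈ L' (k + 1) (P - 1)
  /-- `x`-Koszul modulo `L'` -/
  XK : ∀ k P u v, u ∈ L k P → v ∈ L k P → x 1 u - x 0 v ∈ L' k (P + 1) →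
    ∃ w ∈ L k (P - 1), u - x 0 w ∈ L' k P ∧ v - x 1 w ∈ L' k P
  XI : ∀ k P u, u ∈ L k P → x 1 u ∈ L' k (P + 1) → u ∈ L' k P
  /-- `d`-Koszul modulo `L'` -/
  DK : ∀ k P u v, u ∈ L k P → v ∈ L k P → d 0 u - d 1 v ∈ L' (k + 1) (P - 1) →
    ∃ w ∈ L (k - 1) (P + 1), u - d 1 w ∈ L' k P ∧ v - d 0 w ∈ L' k P
  DI : ∀ k P u, u ∈ L k P → d 0 u ∈ L' (k + 1) (P - 1) → u ∈ L' k P

namespace Pr

variable {K : Type*} [Field K] {g : K} {U : Type*} [AddCommGroup U] [Module K U] (R : Pr K g U)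

/-- surjectivity of `d` onto level `k` (true for order `≥ 1`) -/
def DS (k : ℤ) : Prop := ∀ P w, w ∈ R.L k P →
  ∃ u ∈ R.L (k - 1) (P + 1), ∃ v ∈ R.L (k - 1) (P + 1), w - (R.d 0 u - R.d 1 v) ∈ R.L' k P

/-- surjectivity of `x` onto `L k P` (true for `k + P ≥ 1` resp. `P ≥ 1` ...) -/
def XS (k P : ℤ) : Prop := ∀ w ∈ R.L k P,
  ∃ u ∈ R.L k (P - 1), ∃ v ∈ R.L k (P - 1), w - (R.x 0 u - R.x 1 v) ∈ R.L' k P

/-- `L b (P+1) ≤ x1 L' k P - x0 L' k P + L' b (P+1)` -/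
def LX (b k P : ℤ) : Prop := ∀ m ∈ R.L b (P + 1),
  ∃ u ∈ R.L' k P, ∃ v ∈ R.L' k P, m - (R.x 1 u - R.x 0 v) ∈ R.L' b (P + 1)

end Pr

end Crest.Agent.R186.LC369
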