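import Crest.Agent.R186.LinkB_328

/-!
Row 186, S0281, block LINK (helper328): two sides of the base, glued along an anti-isomorphism
`τ : A ≃ A'ᵐᵒᵖ`; the modules `I0 .. I3`, `J`, `U1`, `X0` over `A`.
-/

set_option autoImplicit false
set_option linter.unusedSectionVars false
set_option linter.style.haveILetI false

universe u

open CategoryTheory CategoryTheory.Abelian MulOpposite

namespace Crest.Agent.R186.LinkC328

open ExtRes700 LinkA328 LinkB328 Trans328 Dual700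

section du

variable (K : Type u) [Field K] {A A' : Type u} [Ring A] [Algebra K A] [Ring A'] [Algebra K A']

/-- the twisted dual of a left `A'`-module, a left `A`-module -/
def Du (_τ : A ≃ₐ[K] A'ᵐᵒᵖ) (X : Type u) [AddCommGroup X] [Module K X] : Type u := Dl K X

variable {X Y Z : Type u} [AddCommGroup X] [Module K X] [Module A' X] [IsScalarTower K A' X]
  [AddCommGroup Y] [Module K Y] [Module A' Y] [IsScalarTower K A' Y]
  [AddCommGroup Z] [Module K Z] [Module A' Z] [IsScalarTower K A' Z]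

variable (τ : A ≃ₐ[K] A'ᵐᵒᵖ)

instance : AddCommGroup (Du K τ X) := inferInstanceAs (AddCommGroup (Dl K X))

instance : Module K (Du K τ X) := inferInstanceAs (Module K (Dl K X))

instance : Module A (Du K τ X) := Module.compHom (Dl K X) (τ : A →+* A'ᵐᵒᵖ)

/-- evaluation -/
def Du.ev (τ : A ≃ₐ[K] A'ᵐᵒᵖ) (φ : Du K τ X) (x : X) : K := (show Dl K X from φ) x

/-- the functional -/
def Du.fn (τ : A ≃ₐ[K] A'ᵐᵒᵖ) (φ : Du K τ X) : X →ₗ[K] K := φ

/-- from a functional -/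
def Du.mk (τ : A ≃ₐ[K] A'ᵐᵒᵖ) (φ : X →ₗ[K] K) : Du K τ X := φ

variable {K τ}

@[simp] theorem Du.ev_mk (φ : X →ₗ[K] K) (x : X) : Du.ev K τ (Du.mk K τ φ) x = φ x := rfl


theorem Du.ext {φ ψ : Du K τ X} (h : ∀ x, Du.ev K τ φ x = Du.ev K τ ψ x) : φ = ψ :=
  LinearMap.ext h

@[simp] theorem Du.ev_smul (a : A) (φ : Du K τ X) (x : X) :
    Du.ev K τ (a • φ) x = Du.ev K τ φ ((τ a).unop • x) := rfl

@[simp] theorem Du.ev_ksmul (c : K) (φ : Du K τ X) (x : X) :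
    Du.ev K τ (c • φ) x = c * Du.ev K τ φ x := rfl

@[simp] theorem Du.ev_add (φ ψ : Du K τ X) (x : X) :
    Du.ev K τ (φ + ψ) x = Du.ev K τ φ x + Du.ev K τ ψ x := rfl

@[simp] theorem Du.ev_zero (x : X) : Du.ev K τ (0 : Du K τ X) x = 0 := rfl

instance : IsScalarTower K A (Du K τ X) := ⟨fun c a φ => by
  apply Du.ext
  intro x
  rw [Du.ev_smul, Du.ev_ksmul, Du.ev_smul, map_smul, MulOpposite.unop_smul, smul_assoc]
  exact LinearMap.map_smul (Du.fn K τ φ) c _⟩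

instance [FiniteDimensional K X] : FiniteDimensional K (Du K τ X) :=
  inferInstanceAs (FiniteDimensional K (Module.Dual K X))

variable (K τ)

/-- the twisted dual of a map -/
def du (τ : A ≃ₐ[K] A'ᵐᵒᵖ) (f : X →ₗ[A'] Y) : Du K τ Y →ₗ[A] Du K τ X where
  toFun φ := dm K f φ
  map_add' φ ψ := map_add (dm K f) φ ψ
  map_smul' a φ := (dm K f).map_smul (τ a) (show Dl K Y from φ)

variable {K τ}

@[simp] theorem ev_du (f : X →ₗ[A'] Y) (φ : Du K τ Y) (x : X) :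
    Du.ev K τ (du K τ f φ) x = Du.ev K τ φ (f x) := rfl

theorem du_surj {f : X →ₗ[A'] Y} (hf : Function.Injective f) : Function.Surjective (du K τ f) :=
  dm_surj hf

theorem du_inj {f : X →ₗ[A'] Y} (hf : Function.Surjective f) : Function.Injective (du K τ f) :=
  dm_inj hf

theorem du_exact {f : X →ₗ[A'] Y} {g : Y →ₗ[A'] Z} (h : Function.Exact f g) :
    Function.Exact (du K τ g) (du K τ f) :=
  dm_exact h

theorem du_comp (f : X →ₗ[A'] Y) (g : Y →ₗ[A'] Z) :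
    du K τ (g ∘ₗ f) = du K τ f ∘ₗ du K τ g := rfl

theorem du_zero : du K τ (0 : X →ₗ[A'] Y) = 0 := by
  ext φ
  apply Du.ext
  intro x
  exact LinearMap.map_zero (Du.fn K τ φ)

/-- **`Ext_A(Du Y, Du X) = Ext_{A'}(X, Y)`.** -/
theorem e0_du [IsNoetherianRing A'] [Module.Finite A' X] [FiniteDimensional K Y] (i : ℕ) :
    E0 A (Du K τ Y) (Du K τ X) i ↔ E0 A' X Y i :=
  e0_dt K (τ : A ≃+* A'ᵐᵒᵖ) i

/-- every map of twisted duals is a twisted dual -/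
theorem du_full [FiniteDimensional K Y] (F : Du K τ Y →ₗ[A] Du K τ X) :
    ∃ f : X →ₗ[A'] Y, du K τ f = F := by
  obtain ⟨f, hf⟩ := dt_full K (τ : A ≃+* A'ᵐᵒᵖ) (X := X) (Y := Y)
    ({ toFun := fun φ => F φ
       map_add' := fun φ ψ => map_add F φ ψ
       map_smul' := fun a φ => LinearMap.map_smul F a φ } :
      Dt K (τ : A ≃+* A'ᵐᵒᵖ) Y →ₗ[A] Dt K (τ : A ≃+* A'ᵐᵒᵖ) X)
  refine ⟨f, ?_⟩
  ext φ
  exact LinearMap.congr_fun hf φ

end du

/-- the two-sided base -/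
structure Two (K : Type u) [Field K] (A A' : Type u) [Ring A] [Algebra K A] [Ring A']
    [Algebra K A'] where
  S : Side K A
  S' : Side K A'
  τ : A ≃ₐ[K] A'ᵐᵒᵖ
  eV : S.V ≃ₗ[A] Du K τ S'.W
  eW : S.W ≃ₗ[A] Du K τ S'.V

namespace Two

variable {K : Type u} [Field K] {A A' : Type u} [Ring A] [Algebra K A] [Ring A'] [Algebra K A']
  (T : Two K A A')

/-- the injectives -/
abbrev I0 : Type u := Du K T.τ T.S'.P0
abbrev I1 : Type u := Du K T.τ T.S'.P1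
abbrev I2 : Type u := Du K T.τ T.S'.P2
abbrev I3 : Type u := Du K T.τ T.S'.P3

/-- the coresolution of `V` -/
def η : T.S.V →ₗ[A] T.I0 := du K T.τ T.S'.ε ∘ₗ T.eV.toLinearMap
def c0 : T.I0 →ₗ[A] T.I1 := du K T.τ T.S'.d1
def c1 : T.I1 →ₗ[A] T.I2 := du K T.τ T.S'.d2
def c2 : T.I2 →ₗ[A] T.I3 := du K T.τ T.S'.d3

theorem η_inj : Function.Injective T.η :=
  (du_inj T.S'.hε).comp T.eV.injective

theorem x0 : Function.Exact T.η T.c0 := by
  intro x
  have h1 := du_exact (τ := T.τ) (K := K) T.S'.e10 x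
  change du K T.τ T.S'.d1 x = 0 ↔ _
  rw [h1]
  constructor
  · rintro ⟨y, rfl⟩
    exact ⟨T.eV.symm y, by simp [η]⟩
  · rintro ⟨y, rfl⟩
    exact ⟨T.eV y, rfl⟩

theorem x1 : Function.Exact T.c0 T.c1 := du_exact T.S'.e21
theorem x2 : Function.Exact T.c1 T.c2 := du_exact T.S'.e32
theorem x3 : Function.Surjective T.c2 := du_surj T.S'.h3

/-- `J = D(Y')` -/
abbrev J : Type u := Du K T.τ T.S'.Y

/-- `J → I3` -/
def ρ : T.J →ₗ[A] T.I3 := du K T.τ T.S'.lam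

theorem ρ_surj : Function.Surjective T.ρ := du_surj T.S'.lam_inj

/-- `J → I2` -/
def tJ : T.J →ₗ[A] T.I2 := du K T.τ T.S'.tY

theorem c2_tJ : T.c2 ∘ₗ T.tJ = T.ρ := by
  rw [c2, tJ, ρ, ← T.S'.tY_d3]
  rfl


/-- `I0 → I3`, dual of `h` -/
def hI : T.I0 →ₗ[A] T.I3 := du K T.τ T.S'.h




/-- `U₁ = ker (J → I3)` -/
def U : Submodule A T.J := LinearMap.ker T.ρ

/-- `X₀` -/
abbrev X0 : Submodule A (T.I1 × T.J) := XX T.c1 T.tJ

section

variable [IsNoetherianRing A']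

theorem VI (P : Type u) [AddCommGroup P] [Module K P] [Module A' P] [IsScalarTower K A' P]
    [Module.Finite A' P] [Module.Projective A' P] (j : ℕ) (hj : 0 < j) :
    E0 A T.S.V (Du K T.τ P) j :=
  iso_left T.eV.symm j ((e0_du (K := K) (τ := T.τ) (X := P) (Y := T.S'.W) j).2 (T.S'.pW P j hj))

theorem IW (P : Type u) [AddCommGroup P] [Module K P] [Module A' P] [IsScalarTower K A' P]
    [Module.Finite A' P] [Module.Projective A' P] [FiniteDimensional K P]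
    [Module.Finite A' T.S'.V] (j : ℕ) : E0 A (Du K T.τ P) T.S.W j :=
  iso_right T.eW.symm j ((e0_du (K := K) (τ := T.τ) (X := T.S'.V) (Y := P) j).2 (T.S'.VP P j))

theorem VJ [Module.Finite A' T.S'.Y] (j : ℕ) : E0 A T.S.V T.J j :=
  iso_left T.eV.symm j ((e0_du (K := K) (τ := T.τ) (X := T.S'.Y) (Y := T.S'.W) j).2 (T.S'.YW j))

theorem JW [FiniteDimensional K T.S'.Y] [Module.Finite A' T.S'.V] (j : ℕ) :
    E0 A T.J T.S.W j :=
  iso_right T.eW.symm j ((e0_du (K := K) (τ := T.τ) (X := T.S'.V) (Y := T.S'.Y) j).2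
    (T.S'.VY j))

/-- `Hom(V, I1) ≃ Hom(V, I2)` -/
theorem mi' (φ : T.S.V →ₗ[A] T.I1) (h : T.c1 ∘ₗ φ = 0) : φ = 0 := by
  obtain ⟨f, hf⟩ := du_full (K := K) (τ := T.τ) (X := T.S'.P1) (Y := T.S'.W)
    (φ ∘ₗ T.eV.symm.toLinearMap)
  have h1 : du K T.τ (f ∘ₗ T.S'.d2) = 0 := by
    rw [du_comp, hf]
    change T.c1 ∘ₗ (φ ∘ₗ T.eV.symm.toLinearMap) = 0
    rw [← LinearMap.comp_assoc, h, LinearMap.zero_comp]
  have h2 : f ∘ₗ T.S'.d2 = 0 := dm_injective (K := K) (by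
    have h3 : du K T.τ (f ∘ₗ T.S'.d2) = du K T.τ 0 := by rw [h1, du_zero]
    ext ψ
    exact congrArg (fun F : Du K T.τ T.S'.W →ₗ[A] Du K T.τ T.S'.P2 => F ψ) h3)
  have h3 := T.S'.mi f h2
  have h4 : φ ∘ₗ T.eV.symm.toLinearMap = 0 := by rw [← hf, h3, du_zero]
  ext v
  have h5 := LinearMap.congr_fun h4 (T.eV v)
  simpa using h5

theorem ms' (φ : T.S.V →ₗ[A] T.I2) : ∃ ψ : T.S.V →ₗ[A] T.I1, T.c1 ∘ₗ ψ = φ := by
  obtain ⟨f, hf⟩ := du_full (K := K) (τ := T.τ) (X := T.S'.P2) (Y := T.S'.W)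
    (φ ∘ₗ T.eV.symm.toLinearMap)
  obtain ⟨g, hg⟩ := T.S'.ms f
  refine ⟨du K T.τ g ∘ₗ T.eV.toLinearMap, ?_⟩
  have h1 : T.c1 ∘ₗ (du K T.τ g ∘ₗ T.eV.toLinearMap) = du K T.τ (g ∘ₗ T.S'.d2) ∘ₗ
      T.eV.toLinearMap := rfl
  rw [h1, hg, hf]
  ext v
  simp

/-- every map `V → I0` is a multiple of `η` -/
theorem one' (φ : T.S.V →ₗ[A] T.I0) : ∃ c : K, ∀ v, φ v = c • T.η v := by
  obtain ⟨f, hf⟩ := du_full (K := K) (τ := T.τ) (X := T.S'.P0) (Y := T.S'.W)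
    (φ ∘ₗ T.eV.symm.toLinearMap)
  obtain ⟨c, hc⟩ := T.S'.one f
  refine ⟨c, fun v => ?_⟩
  have h1 : φ v = du K T.τ f (T.eV v) := by
    rw [hf]
    simp
  rw [h1]
  apply Du.ext
  intro x
  rw [ev_du, hc, Du.ev_ksmul]
  exact LinearMap.map_smul (Du.fn K T.τ (T.eV v)) c _

/-- **(V1)** -/
theorem VX0 [Module.Finite A' T.S'.Y] (j : ℕ) : E0 A T.S.V T.X0 j :=
  xx_left T.c1 T.c2 T.tJ T.x2 (by rw [T.c2_tJ]; exact T.ρ_surj)
    (T.VI T.S'.P1) (T.VI T.S'.P2) T.VJ T.mi' T.ms' j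

/-- **(V3)** -/
theorem X0W [FiniteDimensional K T.S'.P0] [FiniteDimensional K T.S'.P1]
    [FiniteDimensional K T.S'.P2] [FiniteDimensional K T.S'.Y] [Module.Finite A' T.S'.V]
    (j : ℕ) : E0 A T.X0 T.S.W j :=
  xx_right T.c1 T.c2 T.tJ T.x2 (by rw [T.c2_tJ]; exact T.ρ_surj)
    (T.IW T.S'.P1) (T.IW T.S'.P2) T.JW j

end

end Two

end Crest.Agent.R186.LinkC328
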