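import Mathlib
import Crest.Agent.R186.Defs281_128
import Crest.Agent.R186.W281_870
import Crest.Agent.R186.FilPBW_633
import Crest.Agent.R186.VE_755
import Crest.Agent.R186.LinkC_328
import Crest.Agent.R186.Inst_823
import Crest.Agent.R186.Spine_700

-- ▼ part R186/Adj_870
section

/-!
Row 186 (helper870): the residue pairing on `K[x₀^±1, x₁^±1]` (basis `ℤ × ℤ`) and adjoint
operators.
-/

set_option autoImplicit false

universe u

namespace Crest.Agent.R186.Adj870

variable {K : Type u} [Field K]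

/-- the reflection `m ↦ (-1,-1) - m` -/
def sg : ℤ × ℤ ≃ ℤ × ℤ where
  toFun m := (-1 - m.1, -1 - m.2)
  invFun m := (-1 - m.1, -1 - m.2)
  left_inv m := by
    obtain ⟨a, b⟩ := m
    simp
  right_inv m := by
    obtain ⟨a, b⟩ := m
    simp

theorem sg_sg (m : ℤ × ℤ) : sg (sg m) = m := sg.left_inv m

/-- the residue pairing: `⟨x^m, x^m'⟩ = [m + m' = (-1,-1)]` -/
noncomputable def B (u v : (ℤ × ℤ) →₀ K) : K := u.sum fun m a => a * v (sg m)

theorem B_add_left (u u' v : (ℤ × ℤ) →₀ K) : B (u + u') v = B u v + B u' v := by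
  unfold B
  rw [Finsupp.sum_add_index' (fun _ => zero_mul _) fun _ _ _ => add_mul _ _ _]

theorem B_smul_left (c : K) (u v : (ℤ × ℤ) →₀ K) : B (c • u) v = c * B u v := by
  unfold B
  rw [Finsupp.sum_smul_index' (fun _ => zero_mul _), Finsupp.mul_sum]
  simp only [smul_eq_mul, mul_assoc]

theorem B_add_right (u v v' : (ℤ × ℤ) →₀ K) : B u (v + v') = B u v + B u v' := by
  unfold B
  simp only [Finsupp.add_apply, mul_add, Finsupp.sum_add]

theorem B_smul_right (c : K) (u v : (ℤ × ℤ) →₀ K) : B u (c • v) = c * B u v := by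
  unfold B
  rw [Finsupp.mul_sum]
  simp only [Finsupp.smul_apply, smul_eq_mul, mul_left_comm]

theorem B_single_left (m : ℤ × ℤ) (a : K) (v : (ℤ × ℤ) →₀ K) :
    B (Finsupp.single m a) v = a * v (sg m) := by
  unfold B
  rw [Finsupp.sum_single_index (zero_mul _)]

theorem B_comm (u v : (ℤ × ℤ) →₀ K) : B u v = B v u := by
  induction u using Finsupp.induction_linear with
  | zero => simp [B]
  | add f g hf hg => rw [B_add_left, B_add_right, hf, hg]
  | single m a =>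
    rw [B_single_left]
    induction v using Finsupp.induction_linear with
    | zero => simp [B]
    | add f g hf hg => rw [B_add_left, ← hf, ← hg, Finsupp.add_apply, mul_add]
    | single n b =>
      rw [B_single_left]
      by_cases h : sg m = n
      · subst h
        rw [Finsupp.single_eq_same, sg_sg, Finsupp.single_eq_same, mul_comm]
      · have h' : sg n ≠ m := fun h2 => h (by rw [← h2, sg_sg])
        rw [Finsupp.single_eq_of_ne (fun h2 => h h2), Finsupp.single_eq_of_ne (fun h2 => h' h2)]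
        ring

theorem B_single_right (m : ℤ × ℤ) (a : K) (u : (ℤ × ℤ) →₀ K) :
    B u (Finsupp.single m a) = a * u (sg m) := by
  rw [B_comm, B_single_left]

/-- nondegenerate -/
theorem B_left_ext {v v' : (ℤ × ℤ) →₀ K} (h : ∀ u, B u v = B u v') : v = v' := by
  ext m
  have h1 := h (Finsupp.single (sg m) 1)
  rw [B_single_left, B_single_left, one_mul, one_mul, sg_sg] at h1
  exact h1


/-- `g` is the adjoint of `f` -/
def Adj (f g : Module.End K ((ℤ × ℤ) →₀ K)) : Prop := ∀ u v, B (f u) v = B u (g v)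

variable {f g f' g' : Module.End K ((ℤ × ℤ) →₀ K)}

theorem Adj.symm (h : Adj f g) : Adj g f := fun u v => by
  rw [B_comm, ← h, B_comm]

theorem Adj.mul (h : Adj f g) (h' : Adj f' g') : Adj (f * f') (g' * g) := fun u v => by
  rw [Module.End.mul_apply, Module.End.mul_apply, h, h']

theorem Adj.one : Adj (1 : Module.End K ((ℤ × ℤ) →₀ K)) 1 := fun _ _ => rfl

theorem Adj.zero : Adj (0 : Module.End K ((ℤ × ℤ) →₀ K)) 0 := fun u v => by
  rw [LinearMap.zero_apply, LinearMap.zero_apply]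
  simp [B]

theorem Adj.add (h : Adj f g) (h' : Adj f' g') : Adj (f + f') (g + g') := fun u v => by
  rw [LinearMap.add_apply, LinearMap.add_apply, B_add_left, B_add_right, h, h']

theorem Adj.smul (c : K) (h : Adj f g) : Adj (c • f) (c • g) := fun u v => by
  rw [LinearMap.smul_apply, LinearMap.smul_apply, B_smul_left, B_smul_right, h]

theorem Adj.neg (h : Adj f g) : Adj (-f) (-g) := by
  rw [← neg_one_smul K f, ← neg_one_smul K g]
  exact h.smul (-1)

theorem Adj.sub (h : Adj f g) (h' : Adj f' g') : Adj (f - f') (g - g') := by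
  have h1 : f - f' = f + -f' := sub_eq_add_neg f f'
  have h2 : g - g' = g + -g' := sub_eq_add_neg g g'
  rw [h1, h2]
  exact h.add h'.neg

theorem Adj.pow (h : Adj f g) (n : ℕ) : Adj (f ^ n) (g ^ n) := by
  induction n with
  | zero => exact Adj.one
  | succ n ih =>
    rw [pow_succ, pow_succ']
    exact ih.mul h

theorem Adj.uniq (h : Adj f g) (h' : Adj f g') : g = g' :=
  LinearMap.ext fun v => B_left_ext fun u => by rw [← h, ← h']


/-- it is enough to check on monomials -/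
theorem adj_of (h : ∀ m n : ℤ × ℤ, (f (Finsupp.single m 1)) (sg n) =
    (g (Finsupp.single n 1)) (sg m)) : Adj f g := by
  intro u v
  induction u using Finsupp.induction_linear with
  | zero => simp [B]
  | add a b ha hb => rw [map_add, B_add_left, B_add_left, ha, hb]
  | single m a =>
    induction v using Finsupp.induction_linear with
    | zero => rw [map_zero]; simp [B]
    | add b c hb hc => rw [map_add, B_add_right, B_add_right, hb, hc]
    | single n b =>
      have h1 : (Finsupp.single m a : (ℤ × ℤ) →₀ K) = a • Finsupp.single m 1 := by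
        rw [Finsupp.smul_single, smul_eq_mul, mul_one]
      have h2 : (Finsupp.single n b : (ℤ × ℤ) →₀ K) = b • Finsupp.single n 1 := by
        rw [Finsupp.smul_single, smul_eq_mul, mul_one]
      rw [h1, h2, map_smul, map_smul, B_smul_left, B_smul_left, B_smul_right, B_smul_right,
        B_single_right, B_single_left, h m n]

end Crest.Agent.R186.Adj870
end

-- ▼ part R186/Anti_870
section

/-!
Row 186, S0281 base (helper870): the anti-isomorphism `A g s ≃ (A g⁻¹ (1 - s))ᵐᵒᵖ` by residue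
transposition, part 1: operators.
-/

set_option autoImplicit false

open Matrix

namespace Crest.Agent.R186.B281.Anti870

open Adj870

variable {K : Type} [Field K]

/-! ### normal ordering and products -/

theorem D_mul_X {g : K} (hg : Gen g) (i : Fin 2) :
    (D g i : Op K) * X i = g⁻¹ • (X i * D g i) + (-g⁻¹) • (1 : Op K) := by
  rw [X_D_self hg, smul_add, smul_smul, inv_mul_cancel₀ hg.ne, one_smul, add_comm (g⁻¹ • 1),
    add_assoc, ← add_smul, add_neg_cancel, zero_smul, add_zero]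

theorem D_mul_X_pow {g : K} (hg : Gen g) (i : Fin 2) (n : ℕ) : ∃ α β : K,
    (D g i : Op K) * X i ^ (n + 1) = α • (X i ^ (n + 1) * D g i) + β • X i ^ n := by
  induction n with
  | zero =>
    refine ⟨g⁻¹, -g⁻¹, ?_⟩
    rw [zero_add, pow_one, D_mul_X hg, pow_zero]
  | succ n ih =>
    obtain ⟨α, β, h⟩ := ih
    refine ⟨α * g⁻¹, α * (-g⁻¹) + β, ?_⟩
    rw [pow_succ _ (n + 1), ← mul_assoc, h, add_mul, smul_mul_assoc, smul_mul_assoc, mul_assoc,
      D_mul_X hg, mul_add, mul_smul_comm, mul_smul_comm, mul_one, ← pow_succ, smul_add, smul_smul,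
      smul_smul, add_smul, ← mul_assoc, add_assoc]

theorem X_mul_mon (g : K) (i : Fin 2) (a b : ℕ × ℕ) :
    (X i : Op K) * mon g a b = mon g (if i = 0 then (a.1 + 1, a.2) else (a.1, a.2 + 1)) b := by
  fin_cases i
  · simp only [mon, Fin.zero_eta, if_true, pow_succ']
    simp only [mul_assoc]
  · have h : (X 1 : Op K) * X 0 ^ a.1 = X 0 ^ a.1 * X 1 :=
      (Commute.pow_right (show Commute (X 1 : Op K) (X 0) from X_comm 1 0) a.1).eq
    show (X 1 : Op K) * mon g a b = mon g (a.1, a.2 + 1) b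
    simp only [mon]
    rw [pow_succ' (X 1)]
    simp only [← mul_assoc]
    rw [h]

theorem X_mul_mem {g : K} (i : Fin 2) {k P : ℤ} {T : Op K} (hT : T ∈ Fil g k P) :
    X i * T ∈ Fil g k (P + 1) := by
  induction hT using Submodule.span_induction with
  | mem x hx =>
    obtain ⟨a, b, h1, h2, rfl⟩ := hx
    rw [X_mul_mon]
    refine mon_mem g _ _ h1 ?_
    fin_cases i <;> simp <;> omega
  | zero => rw [mul_zero]; exact zero_mem _
  | add x y _ _ hx hy => rw [mul_add]; exact add_mem hx hy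
  | smul a x _ hx => rw [mul_smul_comm]; exact Submodule.smul_mem _ a hx

theorem D_mul_mon {g : K} (hg : Gen g) (i : Fin 2) (a b : ℕ × ℕ) {k P : ℤ}
    (h1 : (b.1 : ℤ) + b.2 ≤ k) (h2 : (a.1 : ℤ) + a.2 - (b.1 + b.2) = P) :
    D g i * mon g a b ∈ Fil g (k + 1) (P - 1) := by
  fin_cases i
  · show D g 0 * mon g a b ∈ Fil g (k + 1) (P - 1)
    have hc : (D g 0 : Op K) * X 1 ^ a.2 = X 1 ^ a.2 * D g 0 :=
      (Commute.pow_right (show Commute (D g 0 : Op K) (X 1) from
        (X_D g (i := 1) (j := 0) (by decide)).symm) a.2).eq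
    have key : ∀ Q : Op K, X 0 ^ a.1 * X 1 ^ a.2 * D g 0 ^ b.1 * D g 1 ^ b.2 = Q → True :=
      fun _ _ => trivial
    rcases a with ⟨a1, a2⟩
    rcases a1 with _ | a1
    · have : D g 0 * mon g (0, a2) b = mon g (0, a2) (b.1 + 1, b.2) := by
        simp only [mon, pow_zero, one_mul, pow_succ']
        simp only [← mul_assoc]
        rw [hc]
      rw [this]
      exact mon_mem g _ _ (by push_cast; omega) (by push_cast at h2 ⊢; omega)
    · obtain ⟨α, β, h⟩ := D_mul_X_pow hg 0 a1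
      have : D g 0 * mon g (a1 + 1, a2) b =
          α • mon g (a1 + 1, a2) (b.1 + 1, b.2) + β • mon g (a1, a2) b := by
        simp only [mon]
        rw [← mul_assoc, ← mul_assoc, ← mul_assoc, h, add_mul, add_mul, add_mul]
        simp only [smul_mul_assoc]
        congr 2
        rw [pow_succ' (D g 0) b.1]
        simp only [mul_assoc]
        rw [← mul_assoc (D g 0) (X 1 ^ a2), hc]
        simp only [mul_assoc]
      rw [this]
      refine add_mem (Submodule.smul_mem _ _ ?_) (Submodule.smul_mem _ _ ?_)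
      · exact mon_mem g _ _ (by push_cast; omega) (by push_cast at h2 ⊢; omega)
      · exact mon_mem g _ _ (by push_cast; omega) (by push_cast at h2 ⊢; omega)
  · show D g 1 * mon g a b ∈ Fil g (k + 1) (P - 1)
    have hc : (D g 1 : Op K) * X 0 ^ a.1 = X 0 ^ a.1 * D g 1 :=
      (Commute.pow_right (show Commute (D g 1 : Op K) (X 0) from
        (X_D g (i := 0) (j := 1) (by decide)).symm) a.1).eq
    have hd : (D g 1 : Op K) * D g 0 ^ b.1 = D g 0 ^ b.1 * D g 1 :=
      (Commute.pow_right (show Commute (D g 1 : Op K) (D g 0) from D_comm g 1 0) b.1).eq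
    rcases a with ⟨a1, a2⟩
    rcases a2 with _ | a2
    · have : D g 1 * mon g (a1, 0) b = mon g (a1, 0) (b.1, b.2 + 1) := by
        simp only [mon, pow_zero, mul_one, pow_succ']
        rw [← mul_assoc, ← mul_assoc, hc]
        simp only [mul_assoc]
        rw [← mul_assoc (D g 1), hd]
        simp only [mul_assoc]
      rw [this]
      exact mon_mem g _ _ (by push_cast; omega) (by push_cast at h2 ⊢; omega)
    · obtain ⟨α, β, h⟩ := D_mul_X_pow hg 1 a2
      have : D g 1 * mon g (a1, a2 + 1) b =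
          α • mon g (a1, a2 + 1) (b.1, b.2 + 1) + β • mon g (a1, a2) b := by
        simp only [mon]
        rw [← mul_assoc, ← mul_assoc, ← mul_assoc, hc, mul_assoc (X 0 ^ a1), h, mul_add, add_mul,
          add_mul]
        simp only [smul_mul_assoc, mul_smul_comm]
        congr 2
        rw [pow_succ' (D g 1) b.2]
        simp only [mul_assoc]
        rw [← mul_assoc (D g 1) (D g 0 ^ b.1), hd]
        simp only [mul_assoc]
      rw [this]
      refine add_mem (Submodule.smul_mem _ _ ?_) (Submodule.smul_mem _ _ ?_)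
      · exact mon_mem g _ _ (by push_cast; omega) (by push_cast at h2 ⊢; omega)
      · exact mon_mem g _ _ (by push_cast; omega) (by push_cast at h2 ⊢; omega)

theorem D_mul_mem {g : K} (hg : Gen g) (i : Fin 2) {k P : ℤ} {T : Op K} (hT : T ∈ Fil g k P) :
    D g i * T ∈ Fil g (k + 1) (P - 1) := by
  induction hT using Submodule.span_induction with
  | mem x hx =>
    obtain ⟨a, b, h1, h2, rfl⟩ := hx
    exact D_mul_mon hg i a b h1 h2
  | zero => rw [mul_zero]; exact zero_mem _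
  | add x y _ _ hx hy => rw [mul_add]; exact add_mem hx hy
  | smul a x _ hx => rw [mul_smul_comm]; exact Submodule.smul_mem _ a hx

theorem X_pow_mul_mem {g : K} (i : Fin 2) (n : ℕ) {k P : ℤ} {T : Op K} (hT : T ∈ Fil g k P) :
    X i ^ n * T ∈ Fil g k (P + n) := by
  induction n with
  | zero => simpa using hT
  | succ n ih =>
    rw [pow_succ', mul_assoc]
    have := X_mul_mem i ih
    rwa [show P + (n : ℤ) + 1 = P + ((n + 1 : ℕ) : ℤ) by push_cast; ring] at this

theorem D_pow_mul_mem {g : K} (hg : Gen g) (i : Fin 2) (n : ℕ) {k P : ℤ} {T : Op K}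
    (hT : T ∈ Fil g k P) : D g i ^ n * T ∈ Fil g (k + n) (P - n) := by
  induction n with
  | zero => simpa using hT
  | succ n ih =>
    rw [pow_succ', mul_assoc]
    have := D_mul_mem hg i ih
    rwa [show P - (n : ℤ) - 1 = P - ((n + 1 : ℕ) : ℤ) by push_cast; ring,
      show k + (n : ℤ) + 1 = k + ((n + 1 : ℕ) : ℤ) by push_cast; ring] at this

/-- **products** -/
theorem Fil_mul' {g : K} (hg : Gen g) {k l P Q : ℤ} {T S : Op K} (hT : T ∈ Fil g k P)
    (hS : S ∈ Fil g l Q) : T * S ∈ Fil g (k + l) (P + Q) := by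
  induction hT using Submodule.span_induction with
  | mem x hx =>
    obtain ⟨a, b, h1, h2, rfl⟩ := hx
    unfold mon
    simp only [mul_assoc]
    have h3 := X_pow_mul_mem 0 a.1 (X_pow_mul_mem 1 a.2 (D_pow_mul_mem hg 0 b.1
      (D_pow_mul_mem hg 1 b.2 hS)))
    rw [show Q - (b.2 : ℤ) - b.1 + a.2 + a.1 = P + Q by rw [← h2]; ring] at h3
    exact Fil_mono g (by omega) h3
  | zero => rw [zero_mul]; exact zero_mem _
  | add x y _ _ hx hy => rw [add_mul]; exact add_mem hx hy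
  | smul a x _ hx => rw [smul_mul_assoc]; exact Submodule.smul_mem _ a hx

/-! ### adjoints -/

theorem adj_X (i : Fin 2) : Adj (X i : Op K) (X i) := by
  apply adj_of
  intro m n
  rw [X_single, X_single, Finsupp.single_apply, Finsupp.single_apply]
  congr 1
  rw [eq_iff_iff]
  constructor
  · intro h
    rw [Prod.ext_iff] at h ⊢
    fin_cases i <;> simp [ev, sg] at h ⊢ <;> omega
  · intro h
    rw [Prod.ext_iff] at h ⊢
    fin_cases i <;> simp [ev, sg] at h ⊢ <;> omega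

theorem cq_inv {g : K} (hg : Gen g) (m : ℤ) : -g⁻¹ * cq g⁻¹ (-m) = cq g m := by
  unfold cq
  have h1 := hg.sub
  have h2 := hg.inv.sub
  have h3 := hg.ne
  rw [neg_neg, _root_.inv_zpow', ← mul_div_assoc, div_eq_div_iff h2 h1]
  have h4 : g * g⁻¹ = 1 := mul_inv_cancel₀ h3
  linear_combination (-(g ^ (-m) - 1)) * h4

theorem adj_D {g : K} (hg : Gen g) (i : Fin 2) :
    Adj (D g i : Op K) ((-g⁻¹) • D g⁻¹ i) := by
  apply adj_of
  intro m n
  rw [D_single, LinearMap.smul_apply, D_single,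
    Finsupp.smul_apply, Finsupp.single_apply, Finsupp.single_apply]
  have h : m - ev i = sg n ↔ n - ev i = sg m := by
    rw [Prod.ext_iff, Prod.ext_iff]
    fin_cases i <;> simp [ev, sg] <;> omega
  by_cases h1 : m - ev i = sg n
  · rw [if_pos h1, if_pos (h.1 h1)]
    have h2 : co i n = -co i m := by
      rw [Prod.ext_iff] at h1
      fin_cases i <;> simp [ev, sg, co] at h1 ⊢ <;> omega
    rw [h2, mul_one, mul_one, smul_eq_mul, cq_inv hg]
  · rw [if_neg h1, if_neg (fun h2 => h1 (h.2 h2)), smul_zero]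

theorem adj_Fil {g : K} (hg : Gen g) {k P : ℤ} {T : Op K} (hT : T ∈ Fil g k P) :
    ∃ T' ∈ Fil g⁻¹ k P, Adj T T' := by
  induction hT using Submodule.span_induction with
  | mem x hx =>
    obtain ⟨a, b, h1, h2, rfl⟩ := hx
    have e1 : ∀ (n : ℕ) (i : Fin 2) (k P : ℤ) (S : Op K), S ∈ Fil g⁻¹ k P →
        ((-g⁻¹) • D g⁻¹ i) ^ n * S ∈ Fil g⁻¹ (k + n) (P - n) := by
      intro n i k P S hS
      rw [smul_pow, smul_mul_assoc]
      exact Submodule.smul_mem _ _ (D_pow_mul_mem hg.inv i n hS)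
    refine ⟨((-g⁻¹) • D g⁻¹ 1) ^ b.2 * (((-g⁻¹) • D g⁻¹ 0) ^ b.1 * (X 1 ^ a.2 * (X 0 ^ a.1 * 1))),
      ?_, ?_⟩
    · have h3 := e1 b.2 1 _ _ _ (e1 b.1 0 _ _ _ (X_pow_mul_mem 1 a.2 (X_pow_mul_mem 0 a.1
        (one_mem_Fil g⁻¹ le_rfl))))
      rw [show (0 : ℤ) + a.1 + a.2 - b.1 - b.2 = P by rw [← h2]; ring] at h3
      exact Fil_mono _ (by omega) h3
    · unfold mon
      rw [mul_one]
      exact ((((adj_X 0).pow a.1).mul ((adj_X 1).pow a.2)).mul ((adj_D hg 0).pow b.1)).mul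
        ((adj_D hg 1).pow b.2)
  | zero => exact ⟨0, zero_mem _, Adj.zero⟩
  | add x y _ _ hx hy =>
    obtain ⟨x', hx1, hx2⟩ := hx
    obtain ⟨y', hy1, hy2⟩ := hy
    exact ⟨x' + y', add_mem hx1 hy1, hx2.add hy2⟩
  | smul c x _ hx =>
    obtain ⟨x', hx1, hx2⟩ := hx
    exact ⟨c • x', Submodule.smul_mem _ c hx1, hx2.smul c⟩

open Classical in
/-- residue transposition -/
noncomputable def tr (T : Op K) : Op K := if h : ∃ T', Adj T T' then h.choose else 0

theorem tr_eq {T T' : Op K} (h : Adj T T') : tr T = T' := by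
  have h1 : ∃ T', Adj T T' := ⟨T', h⟩
  unfold tr
  rw [dif_pos h1]
  exact h1.choose_spec.uniq h

theorem tr_mem {g : K} (hg : Gen g) {k P : ℤ} {T : Op K} (hT : T ∈ Fil g k P) :
    tr T ∈ Fil g⁻¹ k P := by
  obtain ⟨T', h1, h2⟩ := adj_Fil hg hT
  rw [tr_eq h2]
  exact h1

/-- adjointable -/
def Ad (T : Op K) : Prop := Adj T (tr T)

theorem ad_of {T T' : Op K} (h : Adj T T') : Ad T := by
  unfold Ad
  rw [tr_eq h]
  exact h

theorem ad_Fil {g : K} (hg : Gen g) {k P : ℤ} {T : Op K} (hT : T ∈ Fil g k P) : Ad T := by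
  obtain ⟨T', h1, h2⟩ := adj_Fil hg hT
  exact ad_of h2

theorem Ad.tr {T : Op K} (h : Ad T) : Ad (tr T) := ad_of (Adj.symm h)

theorem tr_tr {T : Op K} (h : Ad T) : tr (tr T) = T := tr_eq (Adj.symm h)

theorem ad_zero : Ad (0 : Op K) := ad_of Adj.zero
theorem ad_X (i : Fin 2) : Ad (X i : Op K) := ad_of (adj_X i)
theorem tr_zero : tr (0 : Op K) = 0 := tr_eq Adj.zero
theorem tr_one : tr (1 : Op K) = 1 := tr_eq Adj.one
theorem tr_X (i : Fin 2) : tr (X i : Op K) = X i := tr_eq (adj_X i)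

theorem Ad.add {T S : Op K} (h : Ad T) (h' : Ad S) : Ad (T + S) := ad_of (Adj.add h h')
theorem Ad.sub {T S : Op K} (h : Ad T) (h' : Ad S) : Ad (T - S) := ad_of (Adj.sub h h')
theorem Ad.mul {T S : Op K} (h : Ad T) (h' : Ad S) : Ad (T * S) := ad_of (Adj.mul h h')
theorem Ad.neg {T : Op K} (h : Ad T) : Ad (-T) := ad_of (Adj.neg h)
theorem Ad.smul {T : Op K} (c : K) (h : Ad T) : Ad (c • T) := ad_of (Adj.smul c h)

theorem Ad.sum {ι : Type} (s : Finset ι) {T : ι → Op K} (h : ∀ i, Ad (T i)) :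
    Ad (∑ i ∈ s, T i) := by
  classical
  induction s using Finset.induction_on with
  | empty => rw [Finset.sum_empty]; exact ad_zero
  | insert a s ha ih => rw [Finset.sum_insert ha]; exact (h a).add ih

theorem tr_add {T S : Op K} (h : Ad T) (h' : Ad S) : Anti870.tr (T + S) = Anti870.tr T + Anti870.tr S :=
  tr_eq (Adj.add h h')
theorem tr_mul {T S : Op K} (h : Ad T) (h' : Ad S) : Anti870.tr (T * S) = Anti870.tr S * Anti870.tr T :=
  tr_eq (Adj.mul h h')
theorem tr_smul {T : Op K} (c : K) (h : Ad T) : Anti870.tr (c • T) = c • Anti870.tr T :=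
  tr_eq (Adj.smul c h)

theorem tr_sum {ι : Type} (s : Finset ι) {T : ι → Op K} (h : ∀ i, Ad (T i)) :
    Anti870.tr (∑ i ∈ s, T i) = ∑ i ∈ s, Anti870.tr (T i) := by
  classical
  induction s using Finset.induction_on with
  | empty => rw [Finset.sum_empty, Finset.sum_empty]; exact tr_zero
  | insert a s ha ih => rw [Finset.sum_insert ha, Finset.sum_insert ha,
      tr_add (h a) (Ad.sum s h), ih]

end Crest.Agent.R186.B281.Anti870
end

-- ▼ part R186/AntiM_870
section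

/-!
Row 186, S0281 base (helper870): the anti-isomorphism `A g s ≃ (A g⁻¹ (1 - s))ᵐᵒᵖ`, part 2:
lattices, matrices, the algebra.
-/

set_option autoImplicit false

open Matrix

namespace Crest.Agent.R186.B281.Anti870

open Adj870

variable {K : Type} [Field K]

/-- generation of the lattices of the `K_j` (all `P`) -/
def KGen (g : K) : Prop := ∀ (j : ℕ) (k P : ℤ) (a b : Op K), a ∈ Fil g k P → b ∈ Fil g k P →
  a * X 0 + b * X 1 ∈ Fil g (k - j) (P + 1) →
  ∃ y ∈ Fil g k (P - 1), ∃ a' ∈ Fil g (k - j) P, ∃ b' ∈ Fil g (k - j) P,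
    a = a' + y * X 1 ∧ b = b' + (-1 : K) • (y * X 0)

theorem kgen {g : K} (hg : Gen g) : KGen g := by
  intro j k P a b ha hb hc
  obtain ⟨a', ha', b', hb', h⟩ := FilPBW633.X3R hg ha hb hc
  rw [add_sub_cancel_right] at ha' hb'
  have n1 : ∀ T : Op K, T + (-1 : K) • T = 0 := fun T => by
    have h1 : (1 : K) • T + (-1 : K) • T = 0 := by
      rw [← add_smul]
      norm_num
    rwa [one_smul] at h1
  have hle : k - (j : ℤ) ≤ k := by omega
  have h0 : (a + (-1 : K) • a') * X 0 + (b + (-1 : K) • b') * X 1 = 0 := by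
    rw [add_mul, add_mul, smul_mul_assoc, smul_mul_assoc, add_add_add_comm, h, ← smul_add]
    exact n1 _
  obtain ⟨e, he, h1, h2⟩ := FilPBW633.X2R hg
    (add_mem ha (Submodule.smul_mem _ (-1 : K) (Fil_mono g hle ha')))
    (add_mem hb (Submodule.smul_mem _ (-1 : K) (Fil_mono g hle hb'))) h0
  refine ⟨e, he, a', ha', b', hb', ?_, ?_⟩
  · rw [← h1, add_comm, add_assoc, add_comm _ a', n1, add_zero]
  · have h3 : -(e * X 0) = (-1 : K) • (e * X 0) := by
      refine LinearMap.ext fun v => ?_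
      rw [LinearMap.neg_apply, LinearMap.smul_apply, neg_smul, one_smul]
    rw [← h3, ← h2, add_comm, add_assoc, add_comm _ b', n1, add_zero]


/-- the permutation of the positions -/
def sp : Fin 7 → Fin 7 := ![2, 1, 0, 4, 3, 6, 5]

/-- the signs -/
def ep (K : Type) [Field K] : Fin 7 → K := ![1, 1, 1, -1, 1, -1, 1]

theorem sp_sp (i : Fin 7) : sp (sp i) = i := by fin_cases i <;> rfl

/-- the permutation as an equivalence -/
def spE : Fin 7 ≃ Fin 7 := ⟨sp, sp, sp_sp, sp_sp⟩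

theorem ep_sq (i : Fin 7) : ep K i * ep K i = 1 := by fin_cases i <;> simp [ep]

/-- the dual lattice (columns) -/
def DLat (g : K) (s k P : ℤ) (u : Fin 7 → Op K) : Prop :=
  ∀ k' P' : ℤ, ∀ r ∈ Lat g s k' P', ∑ i, r i * u i ∈ Fil g (k' + k - 2) (P' + P)

/-- column to row -/
noncomputable def rho (u : Fin 7 → Op K) : Fin 7 → Op K := fun i => ep K i • tr (u (sp i))

/-- the entries of a dual column -/
theorem DLat.entries {g : K} {s k P : ℤ} {u : Fin 7 → Op K} (h : DLat g s k P u) :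
    u 0 ∈ Fil g (k - 2) P ∧ u 1 ∈ Fil g (k - 1) P ∧ u 2 ∈ Fil g k P ∧
    (u 3 ∈ Fil g (k + s - 1) P ∧ u 4 ∈ Fil g (k + s - 1) P ∧
      X 1 * u 3 + (-1 : K) • (X 0 * u 4) ∈ Fil g (k + s - 2) (P + 1)) ∧
    (u 5 ∈ Fil g k P ∧ u 6 ∈ Fil g k P ∧
      X 1 * u 5 + (-1 : K) • (X 0 * u 6) ∈ Fil g (k - 2) (P + 1)) := by
  have o : ∀ k : ℤ, 0 ≤ k → (1 : Op K) ∈ Fil g k 0 := fun k hk => one_mem_Fil g hk
  have x : ∀ (i : Fin 2) (k : ℤ), 0 ≤ k → (X i : Op K) ∈ Fil g k (0 + 1) :=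
    fun i k hk => X_mem_Fil g i hk
  have x1 : ∀ (k : ℤ), 0 ≤ k → (X 1 : Op K) ∈ Fil g k 1 := fun k hk => X_mem_Fil g 1 hk
  have x0 : ∀ (k : ℤ), 0 ≤ k → (-1 : K) • (X 0 : Op K) ∈ Fil g k 1 :=
    fun k hk => Submodule.smul_mem _ _ (X_mem_Fil g 0 hk)
  have z : ∀ k P : ℤ, (0 : Op K) ∈ Fil g k P := fun k P => zero_mem _
  have zz : ∀ k P : ℤ, (0 : Op K) * X 0 + 0 * X 1 ∈ Fil g k P := fun k P => by
    rw [zero_mul, zero_mul, add_zero]
    exact zero_mem _
  have cm : (X 1 : Op K) * X 0 + ((-1 : K) • X 0) * X 1 = 0 := by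
    rw [smul_mul_assoc, X_comm 1 0, ← one_smul K (X 0 * X 1 : Op K), smul_smul, ← add_smul]
    norm_num
  have h0 := h 0 0 ![1, 0, 0, 0, 0, 0, 0] ⟨o _ (by norm_num), z _ _, z _ _,
    ⟨z _ _, z _ _, zz _ _⟩, z _ _, z _ _, zz _ _⟩
  have h1 := h 1 0 ![0, 1, 0, 0, 0, 0, 0] ⟨z _ _, o _ (by norm_num), z _ _,
    ⟨z _ _, z _ _, zz _ _⟩, z _ _, z _ _, zz _ _⟩
  have h2 := h 2 0 ![0, 0, 1, 0, 0, 0, 0] ⟨z _ _, z _ _, o _ (by norm_num),
    ⟨z _ _, z _ _, zz _ _⟩, z _ _, z _ _, zz _ _⟩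
  have h3 := h (s + 1) 0 ![0, 0, 0, 1, 0, 0, 0] ⟨z _ _, z _ _, z _ _,
    ⟨o _ (by omega), z _ _, by
      show (1 : Op K) * X 0 + 0 * X 1 ∈ _
      rw [one_mul, zero_mul, add_zero]
      exact x _ _ (by omega)⟩, z _ _, z _ _, zz _ _⟩
  have h4 := h (s + 1) 0 ![0, 0, 0, 0, 1, 0, 0] ⟨z _ _, z _ _, z _ _,
    ⟨z _ _, o _ (by omega), by
      show (0 : Op K) * X 0 + 1 * X 1 ∈ _
      rw [one_mul, zero_mul, zero_add (X 1 : Op K)]
      exact x _ _ (by omega)⟩, z _ _, z _ _, zz _ _⟩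
  have h34 := h s 1 ![0, 0, 0, X 1, (-1 : K) • X 0, 0, 0] ⟨z _ _, z _ _, z _ _,
    ⟨x1 (s - s) (by omega), x0 (s - s) (by omega), by
      show (X 1 : Op K) * X 0 + ((-1 : K) • X 0) * X 1 ∈ _
      rw [cm]
      exact z _ _⟩, z _ _, z _ _, zz _ _⟩
  have h5 := h 2 0 ![0, 0, 0, 0, 0, 1, 0] ⟨z _ _, z _ _, z _ _, ⟨z _ _, z _ _, zz _ _⟩,
    o _ (by norm_num), z _ _, by
      show (1 : Op K) * X 0 + 0 * X 1 ∈ _
      rw [one_mul, zero_mul, add_zero]
      exact x _ _ (by norm_num)⟩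
  have h6 := h 2 0 ![0, 0, 0, 0, 0, 0, 1] ⟨z _ _, z _ _, z _ _, ⟨z _ _, z _ _, zz _ _⟩,
    z _ _, o _ (by norm_num), by
      show (0 : Op K) * X 0 + 1 * X 1 ∈ _
      rw [one_mul, zero_mul, zero_add (X 1 : Op K)]
      exact x _ _ (by norm_num)⟩
  have h56 := h 0 1 ![0, 0, 0, 0, 0, X 1, (-1 : K) • X 0] ⟨z _ _, z _ _, z _ _,
    ⟨z _ _, z _ _, zz _ _⟩, x1 0 le_rfl, x0 0 le_rfl, by
      show (X 1 : Op K) * X 0 + ((-1 : K) • X 0) * X 1 ∈ _
      rw [cm]
      exact z _ _⟩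
  rw [Fin.sum_univ_seven] at h0 h1 h2 h3 h4 h34 h5 h6 h56
  simp only [Matrix.cons_val, zero_mul, one_mul, add_zero, zero_add, smul_mul_assoc]
    at h0 h1 h2 h3 h4 h34 h5 h6 h56
  refine ⟨h0, ?_, ?_, ⟨?_, ?_, ?_⟩, ?_, ?_, ?_⟩
  · exact Fil_mono g (by omega) h1
  · exact Fil_mono g (by omega) h2
  · exact Fil_mono g (by omega) h3
  · exact Fil_mono g (by omega) h4
  · rw [add_comm P 1]
    exact Fil_mono g (by omega) h34
  · exact Fil_mono g (by omega) h5
  · exact Fil_mono g (by omega) h6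
  · rw [add_comm P 1]
    exact Fil_mono g (by omega) h56


/-- dual columns become rows -/
theorem rho_mem {g : K} (hg : Gen g) {s k P : ℤ} {u : Fin 7 → Op K} (h : DLat g s k P u) :
    rho u ∈ Lat g⁻¹ (1 - s) k P := by
  obtain ⟨h0, h1, h2, ⟨h3, h4, h34⟩, h5, h6, h56⟩ := h.entries
  have e0 : rho u 0 = tr (u 2) := one_smul _ _
  have e1 : rho u 1 = tr (u 1) := one_smul _ _
  have e2 : rho u 2 = tr (u 0) := one_smul _ _
  have e3 : rho u 3 = (-1 : K) • tr (u 4) := rfl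
  have e4 : rho u 4 = tr (u 3) := one_smul _ _
  have e5 : rho u 5 = (-1 : K) • tr (u 6) := rfl
  have e6 : rho u 6 = tr (u 5) := one_smul _ _
  have key : ∀ a b : Op K, Ad a → Ad b →
      ((-1 : K) • tr b) * X 0 + tr a * X 1 = tr (X 1 * a + (-1 : K) • (X 0 * b)) := by
    intro a b ha hb
    rw [tr_add ((ad_X 1).mul ha) (((ad_X 0).mul hb).smul _), tr_mul (ad_X 1) ha, tr_smul _
      ((ad_X 0).mul hb), tr_mul (ad_X 0) hb, tr_X, tr_X, smul_mul_assoc, add_comm]
  refine ⟨?_, ?_, ?_, ⟨?_, ?_, ?_⟩, ?_, ?_, ?_⟩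
  · rw [e0]; exact tr_mem hg h2
  · rw [e1]; exact tr_mem hg h1
  · rw [e2]; exact tr_mem hg h0
  · rw [e3]; exact Submodule.smul_mem _ _ (Fil_mono _ (by omega) (tr_mem hg h4))
  · rw [e4]; exact Fil_mono _ (by omega) (tr_mem hg h3)
  · rw [e3, e4, key _ _ (ad_Fil hg h3) (ad_Fil hg h4)]
    exact Fil_mono _ (by omega) (tr_mem hg h34)
  · rw [e5]; exact Submodule.smul_mem _ _ (tr_mem hg h6)
  · rw [e6]; exact tr_mem hg h5
  · rw [e5, e6, key _ _ (ad_Fil hg h5) (ad_Fil hg h6)]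
    exact tr_mem hg h56

/-- row to column -/
noncomputable def rhoi (v : Fin 7 → Op K) : Fin 7 → Op K := fun i => ep K (sp i) • tr (v (sp i))

theorem rho_rhoi {v : Fin 7 → Op K} (h : ∀ i, Ad (v i)) : rho (rhoi v) = v := by
  funext i
  show ep K i • tr (ep K (sp (sp i)) • tr (v (sp (sp i)))) = v i
  rw [sp_sp, tr_smul _ (h i).tr, tr_tr (h i), smul_smul, ep_sq, one_smul]

theorem lat_fil {g : K} {s k P : ℤ} {v : Fin 7 → Op K} (h : v ∈ Lat g s k P)
    (i : Fin 7) : ∃ l : ℤ, v i ∈ Fil g l P := by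
  obtain ⟨h0, h1, h2, ⟨h3, h4, _⟩, h5, h6, _⟩ := h
  fin_cases i
  exacts [⟨_, h0⟩, ⟨_, h1⟩, ⟨_, h2⟩, ⟨_, h3⟩, ⟨_, h4⟩, ⟨_, h5⟩, ⟨_, h6⟩]

/-- pairing with a column of `K_j`-type -/
theorem pair_mem {g : K} (hg : Gen g) (hK : KGen g) {j : ℕ} {k k' l m P P' : ℤ}
    {a b u w : Op K} (ha : a ∈ Fil g k' P') (hb : b ∈ Fil g k' P')
    (hc : a * X 0 + b * X 1 ∈ Fil g (k' - j) (P' + 1)) (hu : u ∈ Fil g l P) (hw : w ∈ Fil g l P)
    (hd : X 1 * u + (-1 : K) • (X 0 * w) ∈ Fil g m (P + 1)) (h1 : k' - j + l ≤ k)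
    (h2 : k' + m ≤ k) : a * u + b * w ∈ Fil g k (P' + P) := by
  obtain ⟨y, hy, a', ha', b', hb', rfl, rfl⟩ := hK j k' P' a b ha hb hc
  have e : (a' + y * X 1) * u + (b' + (-1 : K) • (y * X 0)) * w =
      a' * u + b' * w + y * (X 1 * u + (-1 : K) • (X 0 * w)) := by
    simp only [add_mul, mul_add, smul_mul_assoc, mul_smul_comm, mul_assoc]
    abel
  rw [e]
  refine add_mem (add_mem (Fil_mono g h1 (Fil_mul' hg ha' hu))
    (Fil_mono g h1 (Fil_mul' hg hb' hw))) ?_
  have := Fil_mul' hg hy hd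
  rw [show P' - 1 + (P + 1) = P' + P by ring] at this
  exact Fil_mono g h2 this

theorem rhoi_dlat {g : K} (hg : Gen g) (hK : KGen g) {s k P : ℤ} {v : Fin 7 → Op K}
    (h : v ∈ Lat g⁻¹ (1 - s) k P) : DLat g s k P (rhoi v) := by
  have hg' := hg.inv
  have hgg : (g⁻¹)⁻¹ = g := inv_inv g
  have tm : ∀ {k P : ℤ} {T : Op K}, T ∈ Fil g⁻¹ k P → tr T ∈ Fil g k P := by
    intro k P T hT
    have := tr_mem hg' hT
    rwa [hgg] at this
  obtain ⟨v0, v1, v2, ⟨v3, v4, v34⟩, v5, v6, v56⟩ := h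
  intro k' P' r hr
  obtain ⟨r0, r1, r2, ⟨r3, r4, r34⟩, r5, r6, r56⟩ := hr
  have e0 : rhoi v 0 = tr (v 2) := one_smul _ _
  have e1 : rhoi v 1 = tr (v 1) := one_smul _ _
  have e2 : rhoi v 2 = tr (v 0) := one_smul _ _
  have e3 : rhoi v 3 = tr (v 4) := one_smul _ _
  have e4 : rhoi v 4 = (-1 : K) • tr (v 3) := rfl
  have e5 : rhoi v 5 = tr (v 6) := one_smul _ _
  have e6 : rhoi v 6 = (-1 : K) • tr (v 5) := rfl
  rw [Fin.sum_univ_seven, e0, e1, e2, e3, e4, e5, e6]
  have key : ∀ a b : Op K, Ad a → Ad b →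
      X 1 * tr b + (-1 : K) • (X 0 * ((-1 : K) • tr a)) = tr (a * X 0 + b * X 1) := by
    intro a b ha hb
    rw [tr_add (ha.mul (ad_X 0)) (hb.mul (ad_X 1)), tr_mul ha (ad_X 0), tr_mul hb (ad_X 1), tr_X,
      tr_X, mul_smul_comm, smul_smul, add_comm]
    norm_num
  have m0 : r 0 * tr (v 2) ∈ Fil g (k' + k - 2) (P' + P) :=
    Fil_mono g (by omega) (Fil_mul' hg r0 (tm v2))
  have m1 : r 1 * tr (v 1) ∈ Fil g (k' + k - 2) (P' + P) :=
    Fil_mono g (by omega) (Fil_mul' hg r1 (tm v1))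
  have m2 : r 2 * tr (v 0) ∈ Fil g (k' + k - 2) (P' + P) :=
    Fil_mono g (by omega) (Fil_mul' hg r2 (tm v0))
  have m34 : r 3 * tr (v 4) + r 4 * ((-1 : K) • tr (v 3)) ∈ Fil g (k' + k - 2) (P' + P) := by
    refine pair_mem hg hK (j := 1) (k' := k' - s) (l := k - (1 - s)) (m := k - (1 - s) - 1)
      r3 r4 (by exact_mod_cast r34) (tm v4) (Submodule.smul_mem _ _ (tm v3)) ?_ (by push_cast; omega)
      (by omega)
    rw [key _ _ (ad_Fil hg' v3) (ad_Fil hg' v4)]
    exact tm v34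
  have m56 : r 5 * tr (v 6) + r 6 * ((-1 : K) • tr (v 5)) ∈ Fil g (k' + k - 2) (P' + P) := by
    refine pair_mem hg hK (j := 2) (k' := k') (l := k) (m := k - 2)
      r5 r6 (by exact_mod_cast r56) (tm v6) (Submodule.smul_mem _ _ (tm v5)) ?_ (by push_cast; omega)
      (by omega)
    rw [key _ _ (ad_Fil hg' v5) (ad_Fil hg' v6)]
    exact tm v56
  have := add_mem (add_mem (add_mem (add_mem m0 m1) m2) m34) m56
  rw [← add_assoc, ← add_assoc] at this
  exact this

/-! ### matrices -/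

/-- signed transposition of matrices -/
noncomputable def anti (M : Mat K) : Mat K := fun j i => (ep K j * ep K i) • tr (M (sp i) (sp j))

/-- all entries adjointable -/
def AdM (M : Mat K) : Prop := ∀ i j, Ad (M i j)

theorem Pres.adM {g : K} (hg : Gen g) {s e : ℤ} {M : Mat K} (h : Pres g s e M) : AdM M :=
  fun i j => by
    obtain ⟨k, hk⟩ := h.entry i j
    exact ad_Fil hg hk

theorem anti_add {M N : Mat K} (hM : AdM M) (hN : AdM N) : anti (M + N) = anti M + anti N := by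
  funext j i
  show (ep K j * ep K i) • tr (M (sp i) (sp j) + N (sp i) (sp j)) =
    (ep K j * ep K i) • tr (M (sp i) (sp j)) + (ep K j * ep K i) • tr (N (sp i) (sp j))
  rw [tr_add (hM _ _) (hN _ _), smul_add]

theorem anti_smul (c : K) {M : Mat K} (hM : AdM M) : anti (c • M) = c • anti M := by
  funext j i
  show (ep K j * ep K i) • tr (c • M (sp i) (sp j)) =
    c • ((ep K j * ep K i) • tr (M (sp i) (sp j)))
  rw [tr_smul _ (hM _ _), smul_comm]

theorem anti_zero : anti (0 : Mat K) = 0 := by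
  funext j i
  show (ep K j * ep K i) • tr (0 : Op K) = 0
  rw [tr_zero, smul_zero]

theorem anti_one : anti (1 : Mat K) = 1 := by
  funext j i
  show (ep K j * ep K i) • tr ((1 : Mat K) (sp i) (sp j)) = (1 : Mat K) j i
  by_cases h : j = i
  · subst h
    rw [Matrix.one_apply_eq, Matrix.one_apply_eq, tr_one, ep_sq, one_smul]
  · rw [Matrix.one_apply_ne h, Matrix.one_apply_ne, tr_zero, smul_zero]
    intro h2
    apply h
    rw [← sp_sp j, ← sp_sp i, h2]

theorem anti_mul {M N : Mat K} (hM : AdM M) (hN : AdM N) : anti (M * N) = anti N * anti M := by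
  funext j i
  show (ep K j * ep K i) • tr ((M * N) (sp i) (sp j)) = (anti N * anti M) j i
  rw [Matrix.mul_apply, Matrix.mul_apply, tr_sum _ (fun l => (hM _ _).mul (hN _ _)),
    Finset.smul_sum, ← Equiv.sum_comp spE]
  refine Finset.sum_congr rfl fun l _ => ?_
  show (ep K j * ep K i) • tr (M (sp i) (sp l) * N (sp l) (sp j)) =
    ((ep K j * ep K l) • tr (N (sp l) (sp j))) * ((ep K l * ep K i) • tr (M (sp i) (sp l)))
  rw [tr_mul (hM _ _) (hN _ _), smul_mul_assoc, mul_smul_comm, smul_smul]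
  congr 1
  have := ep_sq (K := K) l
  linear_combination (-(ep K j * ep K i)) * this

theorem AdM.anti {M : Mat K} (hM : AdM M) : AdM (anti M) := fun _ _ => ((hM _ _).tr).smul _

theorem vecMul_rho {M : Mat K} (hM : AdM M) {u : Fin 7 → Op K} (hu : ∀ i, Ad (u i)) :
    rho u ᵥ* anti M = rho (fun i => ∑ j, M i j * u j) := by
  funext i
  show ∑ j, (ep K j • tr (u (sp j))) * ((ep K j * ep K i) • tr (M (sp i) (sp j))) =
    ep K i • tr (∑ j, M (sp i) j * u j)
  rw [tr_sum _ (fun l => (hM _ _).mul (hu _)), ← Equiv.sum_comp spE (fun j =>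
    tr (M (sp i) j * u j)), Finset.smul_sum]
  refine Finset.sum_congr rfl fun l _ => ?_
  show (ep K l • tr (u (sp l))) * ((ep K l * ep K i) • tr (M (sp i) (sp l))) =
    ep K i • tr (M (sp i) (sp l) * u (sp l))
  rw [tr_mul (hM _ _) (hu _), smul_mul_assoc, mul_smul_comm, smul_smul]
  congr 1
  have := ep_sq (K := K) l
  linear_combination (ep K i) * this

/-- **matrices preserving the lattices are exchanged** -/
theorem Pres.anti {g : K} (hg : Gen g) (hK : KGen g) {s e : ℤ} {M : Mat K}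
    (hM : Pres g s e M) : Pres g⁻¹ (1 - s) e (anti M) := by
  intro k P v hv
  have hva : ∀ i, Ad (v i) := fun i => by
    obtain ⟨l, hl⟩ := lat_fil hv i
    exact ad_Fil hg.inv hl
  have hu : ∀ i, Ad (rhoi v i) := fun i => ((hva _).tr).smul _
  have hd := rhoi_dlat hg hK hv
  have h1 : v ᵥ* Anti870.anti M = rho (fun i => ∑ j, M i j * rhoi v j) := by
    rw [← vecMul_rho (Pres.adM hg hM) hu, rho_rhoi hva]
  rw [h1]
  apply rho_mem hg
  intro k' P' r hr
  have h2 := hd k' (P' + e) _ (hM k' P' r hr)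
  rw [show P' + (P + e) = P' + e + P by ring]
  have h3 : ∑ i, r i * ∑ j, M i j * rhoi v j = ∑ i, (r ᵥ* M) i * rhoi v i := by
    simp only [Finset.mul_sum, Matrix.vecMul, dotProduct, Finset.sum_mul, mul_assoc]
    rw [Finset.sum_comm]
  rw [h3]
  exact h2

end Crest.Agent.R186.B281.Anti870
end

-- ▼ part R186/AntiT_870
section

/-!
Row 186, S0281 base (helper870): the anti-isomorphism, part 3: `tau : A g s ≃ (A g⁻¹ s')ᵐᵒᵖ`
(`s + s' = 1`) and the identifications `V g s 0 = Du (W g⁻¹ s')`, `W g s = Du (V g⁻¹ s' 0)`.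
-/

set_option autoImplicit false

open Matrix MulOpposite

namespace Crest.Agent.R186.B281.Anti870

open Adj870 LinkC328 Dual700

variable {K : Type} [Field K] {g : K}

theorem pres_anti' (hg : Gen g) {s s' e : ℤ} (h : s + s' = 1) {M : Mat K}
    (hM : Pres g s e M) : Pres g⁻¹ s' e (anti M) := by
  obtain rfl : s' = 1 - s := by omega
  exact Pres.anti hg (kgen hg) hM

theorem pres_antii (hg : Gen g) {s s' e : ℤ} (h : s + s' = 1) {M : Mat K}
    (hM : Pres g⁻¹ s' e M) : Pres g s e (anti M) := by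
  have h1 := pres_anti' hg.inv (s := s') (s' := s) (by omega) hM
  rwa [inv_inv] at h1

theorem anti4 {M : Mat K} (hM : AdM M) : anti (anti (anti (anti M))) = M := by
  have h2 : ∀ N : Mat K, AdM N → ∀ j i, anti (anti N) j i =
      ((ep K j * ep K i) * (ep K (sp i) * ep K (sp j))) • N j i := by
    intro N hN j i
    show (ep K j * ep K i) • tr ((ep K (sp i) * ep K (sp j)) • tr (N (sp (sp j)) (sp (sp i)))) = _
    rw [sp_sp, sp_sp, tr_smul _ (hN _ _).tr, tr_tr (hN _ _), smul_smul]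
  funext j i
  rw [h2 _ hM.anti.anti, h2 _ hM, smul_smul]
  have h3 : ((ep K j * ep K i) * (ep K (sp i) * ep K (sp j))) *
      ((ep K j * ep K i) * (ep K (sp i) * ep K (sp j))) = 1 := by
    have e1 := ep_sq (K := K) i
    have e2 := ep_sq (K := K) j
    have e3 := ep_sq (K := K) (sp i)
    have e4 := ep_sq (K := K) (sp j)
    calc _ = (ep K j * ep K j) * (ep K i * ep K i) * (ep K (sp i) * ep K (sp i)) *
        (ep K (sp j) * ep K (sp j)) := by ring
      _ = 1 := by rw [e1, e2, e3, e4]; norm_num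
  rw [h3, one_smul]

/-- the map on elements -/
noncomputable def toF (hg : Gen g) {s s' : ℤ} (h : s + s' = 1) (x : A g s) : A g⁻¹ s' :=
  ⟨((anti x.1.fst, anti x.1.snd) : Mat K × Mat K), pres_anti' hg h x.2.1, pres_anti' hg h x.2.2⟩



theorem A_ext {s : ℤ} {x y : A g s} (h1 : x.1.fst = y.1.fst) (h2 : x.1.snd = y.1.snd) : x = y :=
  Subtype.ext (TrivSqZeroExt.ext h1 h2)

theorem toF_mul (hg : Gen g) {s s' : ℤ} (h : s + s' = 1) (x y : A g s) :
    toF hg h (x * y) = toF hg h y * toF hg h x := by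
  have ax1 := Pres.adM hg x.2.1
  have ax2 := Pres.adM hg x.2.2
  have ay1 := Pres.adM hg y.2.1
  have ay2 := Pres.adM hg y.2.2
  apply A_ext
  · show anti (x.1 * y.1).fst = ((toF hg h y).1 * (toF hg h x).1).fst
    rw [TrivSqZeroExt.fst_mul, TrivSqZeroExt.fst_mul, anti_mul ax1 ay1]
    rfl
  · show anti (x.1 * y.1).snd = ((toF hg h y).1 * (toF hg h x).1).snd
    rw [TrivSqZeroExt.snd_mul, TrivSqZeroExt.snd_mul, smul_eq_mul, MulOpposite.smul_eq_mul_unop,
      MulOpposite.unop_op, smul_eq_mul, MulOpposite.smul_eq_mul_unop, MulOpposite.unop_op]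
    have e1 : AdM (x.1.fst * y.1.snd) := fun i j => by
      rw [Matrix.mul_apply]
      exact Ad.sum _ fun l => (ax1 _ _).mul (ay2 _ _)
    have e2 : AdM (x.1.snd * y.1.fst) := fun i j => by
      rw [Matrix.mul_apply]
      exact Ad.sum _ fun l => (ax2 _ _).mul (ay1 _ _)
    rw [anti_add e1 e2, anti_mul ax1 ay2, anti_mul ax2 ay1, add_comm]
    rfl

theorem toF_add (hg : Gen g) {s s' : ℤ} (h : s + s' = 1) (x y : A g s) :
    toF hg h (x + y) = toF hg h x + toF hg h y :=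
  A_ext (anti_add (Pres.adM hg x.2.1) (Pres.adM hg y.2.1))
    (anti_add (Pres.adM hg x.2.2) (Pres.adM hg y.2.2))

theorem toF_smul (hg : Gen g) {s s' : ℤ} (h : s + s' = 1) (c : K) (x : A g s) :
    toF hg h (c • x) = c • toF hg h x :=
  A_ext (anti_smul c (Pres.adM hg x.2.1)) (anti_smul c (Pres.adM hg x.2.2))

theorem toF_one (hg : Gen g) {s s' : ℤ} (h : s + s' = 1) :
    toF hg h (1 : A g s) = 1 := by
  apply A_ext
  · show anti (TrivSqZeroExt.fst (1 : DualNumber (Mat K))) =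
      TrivSqZeroExt.fst (1 : DualNumber (Mat K))
    rw [TrivSqZeroExt.fst_one, anti_one]
  · show anti (TrivSqZeroExt.snd (1 : DualNumber (Mat K))) =
      TrivSqZeroExt.snd (1 : DualNumber (Mat K))
    rw [TrivSqZeroExt.snd_one, anti_zero]

theorem toF_inj (hg : Gen g) {s s' : ℤ} (h : s + s' = 1) :
    Function.Injective (toF hg h : A g s → A g⁻¹ s') := by
  intro x y hxy
  have h1 : anti x.1.fst = anti y.1.fst := congrArg (fun z : A g⁻¹ s' => z.1.fst) hxy
  have h2 : anti x.1.snd = anti y.1.snd := congrArg (fun z : A g⁻¹ s' => z.1.snd) hxy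
  apply A_ext
  · rw [← anti4 (Pres.adM hg x.2.1), h1, anti4 (Pres.adM hg y.2.1)]
  · rw [← anti4 (Pres.adM hg x.2.2), h2, anti4 (Pres.adM hg y.2.2)]

theorem toF_surj (hg : Gen g) {s s' : ℤ} (h : s + s' = 1) :
    Function.Surjective (toF hg h : A g s → A g⁻¹ s') := by
  intro y
  have p1 := pres_antii hg h (pres_anti' hg h (pres_antii hg h y.2.1))
  have p2 := pres_antii hg h (pres_anti' hg h (pres_antii hg h y.2.2))
  refine ⟨⟨((anti (anti (anti y.1.fst)), anti (anti (anti y.1.snd))) : Mat K × Mat K),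
    p1, p2⟩, ?_⟩
  exact A_ext (anti4 (Pres.adM hg.inv y.2.1)) (anti4 (Pres.adM hg.inv y.2.2))

/-- the algebra map into the opposite -/
noncomputable def tauH (hg : Gen g) {s s' : ℤ} (h : s + s' = 1) : A g s →ₐ[K] (A g⁻¹ s')ᵐᵒᵖ where
  toFun x := op (toF hg h x)
  map_one' := by rw [toF_one]; rfl
  map_mul' x y := by rw [toF_mul]; rfl
  map_zero' := by
    have h1 : toF hg h (0 : A g s) = 0 := by
      have := toF_smul hg h (0 : K) (0 : A g s)
      rwa [zero_smul, zero_smul] at this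
    rw [h1]
    rfl
  map_add' x y := by rw [toF_add]; rfl
  commutes' c := by
    rw [Algebra.algebraMap_eq_smul_one, toF_smul, toF_one, Algebra.algebraMap_eq_smul_one]
    rfl

/-- **the anti-isomorphism of the two bases** -/
noncomputable def tau (hg : Gen g) {s s' : ℤ} (h : s + s' = 1) : A g s ≃ₐ[K] (A g⁻¹ s')ᵐᵒᵖ :=
  AlgEquiv.ofBijective (tauH hg h)
    ⟨fun x y hxy => toF_inj hg h (op_injective hxy), fun y => by
      obtain ⟨x, hx⟩ := toF_surj hg h y.unop
      exact ⟨x, by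
        show op (toF hg h x) = y
        rw [hx, op_unop]⟩⟩


/-! ### the modules -/

theorem res_tr {T : Op K} (hT : Ad T) : res (tr T) = ev1 T := by
  have h := hT (Finsupp.single (0, 0) 1) (Finsupp.single (-1, -1) 1)
  rw [B_single_right, B_single_left, one_mul, one_mul] at h
  exact h.symm

theorem ev1_tr {T : Op K} (hT : Ad T) : ev1 (tr T) = res T := by
  rw [← res_tr hT.tr, tr_tr hT]

/-- the pairing of columns -/
noncomputable def PP (w c : Fin 7 → K) : K := ∑ j, ep K j * w j * c (sp j)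

theorem PP_comm (Q Q' : Matrix (Fin 7) (Fin 7) K)
    (h : ∀ j i, Q' j i = ep K j * ep K i * Q (sp i) (sp j)) (w c : Fin 7 → K) :
    PP (fun j => ∑ i, Q' j i * w i) c = PP w (fun i => ∑ j, Q i j * c j) := by
  unfold PP
  have e1 : ∀ j, ep K j * (∑ i, Q' j i * w i) * c (sp j) =
      ∑ i, ep K i * w i * (Q (sp i) (sp j) * c (sp j)) := by
    intro j
    rw [Finset.mul_sum, Finset.sum_mul]
    refine Finset.sum_congr rfl fun i _ => ?_
    rw [h]
    have := ep_sq (K := K) j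
    linear_combination (ep K i * Q (sp i) (sp j) * w i * c (sp j)) * this
  rw [Finset.sum_congr rfl fun j _ => e1 j, Finset.sum_comm]
  refine Finset.sum_congr rfl fun i _ => ?_
  rw [← Finset.mul_sum]
  congr 1
  exact Equiv.sum_comp spE (fun j => Q (sp i) j * c j)

theorem PP_single (j : Fin 7) (c : Fin 7 → K) : PP (Pi.single j 1) c = ep K j * c (sp j) := by
  unfold PP
  rw [Finset.sum_eq_single j]
  · rw [Pi.single_eq_same, mul_one]
  · intro i _ hi
    rw [Pi.single_eq_of_ne hi, mul_zero, zero_mul]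
  · intro h
    exact absurd (Finset.mem_univ j) h


/-- `PP` as a bilinear map -/
noncomputable def PL : (Fin 7 → K) →ₗ[K] (Fin 7 → K) →ₗ[K] K :=
  LinearMap.mk₂ K PP
    (fun w w' c => by
      unfold PP
      rw [← Finset.sum_add_distrib]
      exact Finset.sum_congr rfl fun j _ => by rw [Pi.add_apply]; ring)
    (fun a w c => by
      unfold PP
      rw [Finset.smul_sum]
      exact Finset.sum_congr rfl fun j _ => by
        rw [Pi.smul_apply, smul_eq_mul, smul_eq_mul]; ring)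
    (fun w c c' => by
      unfold PP
      rw [← Finset.sum_add_distrib]
      exact Finset.sum_congr rfl fun j _ => by rw [Pi.add_apply]; ring)
    (fun a w c => by
      unfold PP
      rw [Finset.smul_sum]
      exact Finset.sum_congr rfl fun j _ => by
        rw [Pi.smul_apply, smul_eq_mul, smul_eq_mul]; ring)

theorem PL_apply (w c : Fin 7 → K) : PL w c = PP w c := rfl

theorem dual_ext {φ ψ : (Fin 7 → K) →ₗ[K] K}
    (h : ∀ j, φ (Pi.single j 1) = ψ (Pi.single j 1)) : φ = ψ := by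
  refine LinearMap.pi_ext' fun j => LinearMap.ext_ring ?_
  exact h j

theorem PL_surj (ψ : (Fin 7 → K) →ₗ[K] K) : ∃ c : Fin 7 → K, ∀ w, PP w c = ψ w := by
  refine ⟨fun i => ep K (sp i) * ψ (Pi.single (sp i) 1), fun w => ?_⟩
  have h1 : PL.flip (fun i => ep K (sp i) * ψ (Pi.single (sp i) 1)) = ψ := by
    apply dual_ext
    intro j
    show PP (Pi.single j 1) (fun i => ep K (sp i) * ψ (Pi.single (sp i) 1)) = ψ (Pi.single j 1)
    rw [PP_single, sp_sp, ← mul_assoc, ep_sq, one_mul]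
  exact LinearMap.congr_fun h1 w

theorem PP_inj {c : Fin 7 → K} (h : ∀ w, PP w c = 0) : c = 0 := by
  funext i
  have h1 := h (Pi.single (sp i) 1)
  rw [PP_single, sp_sp] at h1
  have h2 := ep_sq (K := K) (sp i)
  have h3 : c i = 0 := by linear_combination (ep K (sp i)) * h1 - (c i) * h2
  exact h3

/-- coordinates of `W` -/
noncomputable def cW (g : K) (s : ℤ) : W g s ≃ₗ[K] (Fin 7 → K) := LinearEquiv.refl K _

theorem cW_smul {s : ℤ} (x : A g s) (w : W g s) (i : Fin 7) :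
    cW g s (x • w) i = ∑ j, res (x.1.fst i j) * cW g s w j := rfl

/-- the map `V → Du W'` -/
noncomputable def eVf (hg : Gen g) {s s' : ℤ} (h : s + s' = 1) :
    V g s 0 →ₗ[A g s] Du K (tau hg h) (W g⁻¹ s') where
  toFun p := Du.mk K (tau hg h) (PL.flip (cV0 g s p) ∘ₗ (cW g⁻¹ s').toLinearMap)
  map_add' p q := by
    apply Du.ext
    intro w
    show PP (cW g⁻¹ s' w) (cV0 g s (p + q)) = PP (cW g⁻¹ s' w) (cV0 g s p) +
      PP (cW g⁻¹ s' w) (cV0 g s q)
    rw [map_add, ← PL_apply, map_add]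
    rfl
  map_smul' a p := by
    apply Du.ext
    intro w
    rw [RingHom.id_apply, Du.ev_smul]
    show PP (cW g⁻¹ s' w) (cV0 g s (a • p)) =
      PP (cW g⁻¹ s' ((tau hg h a).unop • w)) (cV0 g s p)
    have e1 : cV0 g s (a • p) = fun i => ∑ j, ev1 (a.1.fst i j) * cV0 g s p j := by
      funext i
      exact cV0_smul a p i
    have e2 : cW g⁻¹ s' ((tau hg h a).unop • w) =
        fun j => ∑ i, res (anti a.1.fst j i) * cW g⁻¹ s' w i := by
      funext j
      exact cW_smul _ w j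
    rw [e1, e2]
    refine (PP_comm (fun i j => ev1 (a.1.fst i j)) (fun j i => res (anti a.1.fst j i)) ?_ _
      _).symm
    intro j i
    show res ((ep K j * ep K i) • tr (a.1.fst (sp i) (sp j))) = _
    rw [res_smul, res_tr (Pres.adM hg a.2.1 _ _)]

theorem ev_eVf (hg : Gen g) {s s' : ℤ} (h : s + s' = 1) (p : V g s 0) (w : W g⁻¹ s') :
    Du.ev K (tau hg h) (eVf hg h p) w = PP (cW g⁻¹ s' w) (cV0 g s p) := rfl

theorem eVf_inj (hg : Gen g) {s s' : ℤ} (h : s + s' = 1) :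
    Function.Injective (eVf hg h : V g s 0 →ₗ[A g s] Du K (tau hg h) (W g⁻¹ s')) := by
  intro p q hpq
  apply (cV0 g s).injective
  rw [← sub_eq_zero]
  apply PP_inj
  intro w
  have h1 := congrArg (fun φ => Du.ev K (tau hg h) φ ((cW g⁻¹ s').symm w)) hpq
  simp only [ev_eVf, LinearEquiv.apply_symm_apply] at h1
  rw [← PL_apply, map_sub, PL_apply, PL_apply, h1, sub_self]

theorem eVf_surj (hg : Gen g) {s s' : ℤ} (h : s + s' = 1) :
    Function.Surjective (eVf hg h : V g s 0 →ₗ[A g s] Du K (tau hg h) (W g⁻¹ s')) := by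
  intro φ
  obtain ⟨c, hc⟩ := PL_surj ((Du.fn K (tau hg h) φ) ∘ₗ (cW g⁻¹ s').symm.toLinearMap)
  obtain ⟨p, hp⟩ := (cV0 g s).surjective c
  refine ⟨p, ?_⟩
  apply Du.ext
  intro w
  rw [ev_eVf, hp, hc]
  show Du.fn K (tau hg h) φ ((cW g⁻¹ s').symm (cW g⁻¹ s' w)) = _
  rw [LinearEquiv.symm_apply_apply]
  rfl

/-- **`V g s 0` is the twisted dual of `W g⁻¹ s'`** -/
noncomputable def eV (hg : Gen g) {s s' : ℤ} (h : s + s' = 1) :
    V g s 0 ≃ₗ[A g s] Du K (tau hg h) (W g⁻¹ s') :=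
  LinearEquiv.ofBijective (eVf hg h) ⟨eVf_inj hg h, eVf_surj hg h⟩

/-- the map `W → Du V'` -/
noncomputable def eWf (hg : Gen g) {s s' : ℤ} (h : s + s' = 1) :
    W g s →ₗ[A g s] Du K (tau hg h) (V g⁻¹ s' 0) where
  toFun w := Du.mk K (tau hg h) (PL.flip (cW g s w) ∘ₗ (cV0 g⁻¹ s').toLinearMap)
  map_add' p q := by
    apply Du.ext
    intro w
    show PP (cV0 g⁻¹ s' w) (cW g s (p + q)) = PP (cV0 g⁻¹ s' w) (cW g s p) +
      PP (cV0 g⁻¹ s' w) (cW g s q)
    rw [map_add, ← PL_apply, map_add]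
    rfl
  map_smul' a p := by
    apply Du.ext
    intro w
    rw [RingHom.id_apply, Du.ev_smul]
    show PP (cV0 g⁻¹ s' w) (cW g s (a • p)) =
      PP (cV0 g⁻¹ s' ((tau hg h a).unop • w)) (cW g s p)
    have e1 : cW g s (a • p) = fun i => ∑ j, res (a.1.fst i j) * cW g s p j := by
      funext i
      exact cW_smul a p i
    have e2 : cV0 g⁻¹ s' ((tau hg h a).unop • w) =
        fun j => ∑ i, ev1 (anti a.1.fst j i) * cV0 g⁻¹ s' w i := by
      funext j
      exact cV0_smul _ w j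
    rw [e1, e2]
    refine (PP_comm (fun i j => res (a.1.fst i j)) (fun j i => ev1 (anti a.1.fst j i)) ?_ _
      _).symm
    intro j i
    show ev1 ((ep K j * ep K i) • tr (a.1.fst (sp i) (sp j))) = _
    rw [ev1_smul, ev1_tr (Pres.adM hg a.2.1 _ _)]

theorem ev_eWf (hg : Gen g) {s s' : ℤ} (h : s + s' = 1) (w : W g s) (p : V g⁻¹ s' 0) :
    Du.ev K (tau hg h) (eWf hg h w) p = PP (cV0 g⁻¹ s' p) (cW g s w) := rfl

theorem eWf_inj (hg : Gen g) {s s' : ℤ} (h : s + s' = 1) :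
    Function.Injective (eWf hg h : W g s →ₗ[A g s] Du K (tau hg h) (V g⁻¹ s' 0)) := by
  intro p q hpq
  apply (cW g s).injective
  rw [← sub_eq_zero]
  apply PP_inj
  intro w
  have h1 := congrArg (fun φ => Du.ev K (tau hg h) φ ((cV0 g⁻¹ s').symm w)) hpq
  simp only [ev_eWf, LinearEquiv.apply_symm_apply] at h1
  rw [← PL_apply, map_sub, PL_apply, PL_apply, h1, sub_self]

theorem eWf_surj (hg : Gen g) {s s' : ℤ} (h : s + s' = 1) :
    Function.Surjective (eWf hg h : W g s →ₗ[A g s] Du K (tau hg h) (V g⁻¹ s' 0)) := by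
  intro φ
  obtain ⟨c, hc⟩ := PL_surj ((Du.fn K (tau hg h) φ) ∘ₗ (cV0 g⁻¹ s').symm.toLinearMap)
  obtain ⟨p, hp⟩ := (cW g s).surjective c
  refine ⟨p, ?_⟩
  apply Du.ext
  intro w
  rw [ev_eWf, hp, hc]
  show Du.fn K (tau hg h) φ ((cV0 g⁻¹ s').symm (cV0 g⁻¹ s' w)) = _
  rw [LinearEquiv.symm_apply_apply]
  rfl

/-- **`W g s` is the twisted dual of `V g⁻¹ s' 0`** -/
noncomputable def eW (hg : Gen g) {s s' : ℤ} (h : s + s' = 1) :
    W g s ≃ₗ[A g s] Du K (tau hg h) (V g⁻¹ s' 0) :=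
  LinearEquiv.ofBijective (eWf hg h) ⟨eWf_inj hg h, eWf_surj hg h⟩

/-- the three ingredients of `Two`, literally -/
noncomputable example (hg : Gen g) : A g 0 ≃ₐ[K] (A g⁻¹ 1)ᵐᵒᵖ := tau hg (by norm_num)
noncomputable example (hg : Gen g) :
    V g 0 0 ≃ₗ[A g 0] Du K (tau hg (s := 0) (s' := 1) (by norm_num)) (W g⁻¹ 1) := eV hg _
noncomputable example (hg : Gen g) :
    W g 0 ≃ₗ[A g 0] Du K (tau hg (s := 0) (s' := 1) (by norm_num)) (V g⁻¹ 1 0) := eW hg _

end Crest.Agent.R186.B281.Anti870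
end

-- ▼ part R186/NB_581

/-!
Row 186, S0281, leaf B281.A1 (helper581): the algebra `A g s` of the concrete base
(`Defs281_128`): finite dimensional, idempotents `eps v`, the characters `Q`, and the kernel of
`Q` is nil: `simples : Spine700.Simples K (A g s) 5`.
-/

set_option autoImplicit false

open Matrix

namespace Crest.Agent.R186.NB581

open B281

variable {K : Type} [Field K]

/-! ### the pieces `Fil` of small order -/

theorem Fil_neg {g : K} {k P : ℤ} (hk : k < 0) {T : Op K} (hT : T ∈ Fil g k P) : T = 0 := by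
  have h : Fil g k P = ⊥ := by
    rw [Fil, Submodule.span_eq_bot]
    rintro T ⟨a, b, h1, _, _⟩
    exfalso
    omega
  rw [h] at hT
  exact (Submodule.mem_bot K).1 hT

theorem Fil_00 {g : K} {k : ℤ} (hk : k ≤ 0) {T : Op K} (hT : T ∈ Fil g k 0) :
    ∃ c : K, T = c • (1 : Op K) := by
  induction hT using Submodule.span_induction with
  | mem x hx =>
    obtain ⟨⟨a1, a2⟩, ⟨b1, b2⟩, h1, h2, rfl⟩ := hx
    simp only at h1 h2
    obtain rfl : b1 = 0 := by omega
    obtain rfl : b2 = 0 := by omega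
    obtain rfl : a1 = 0 := by omega
    obtain rfl : a2 = 0 := by omega
    exact ⟨1, by simp [mon]⟩
  | zero => exact ⟨0, by simp⟩
  | add x y _ _ hx hy =>
    obtain ⟨c, rfl⟩ := hx
    obtain ⟨d, rfl⟩ := hy
    exact ⟨c + d, by rw [add_smul]⟩
  | smul a x _ hx =>
    obtain ⟨c, rfl⟩ := hx
    exact ⟨a * c, by rw [mul_smul]⟩

theorem Fil_01 {g : K} {k : ℤ} (hk : k ≤ 0) {T : Op K} (hT : T ∈ Fil g k 1) :
    ∃ c d : K, T = c • (X 0 : Op K) + d • (X 1 : Op K) := by
  induction hT using Submodule.span_induction with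
  | mem x hx =>
    obtain ⟨⟨a1, a2⟩, ⟨b1, b2⟩, h1, h2, rfl⟩ := hx
    simp only at h1 h2
    obtain rfl : b1 = 0 := by omega
    obtain rfl : b2 = 0 := by omega
    rcases Nat.eq_zero_or_pos a1 with rfl | ha
    · obtain rfl : a2 = 1 := by omega
      exact ⟨0, 1, by simp [mon]⟩
    · obtain rfl : a1 = 1 := by omega
      obtain rfl : a2 = 0 := by omega
      exact ⟨1, 0, by simp [mon]⟩
  | zero => exact ⟨0, 0, by simp⟩
  | add x y _ _ hx hy =>
    obtain ⟨c, d, rfl⟩ := hx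
    obtain ⟨c', d', rfl⟩ := hy
    exact ⟨c + c', d + d', by rw [add_smul, add_smul]; abel⟩
  | smul a x _ hx =>
    obtain ⟨c, d, rfl⟩ := hx
    exact ⟨a * c, a * d, by rw [mul_smul, mul_smul, smul_add]⟩

/-! ### inverses of `X` -/

/-- the inverse of `X i` -/
noncomputable def Y (i : Fin 2) : Op K := Finsupp.lmapDomain K K (fun m => m - ev i)

theorem Y_single (i : Fin 2) (m : ℤ × ℤ) (a : K) :
    Y i (Finsupp.single m a) = Finsupp.single (m - ev i) a := by
  simp [Y]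

theorem X_Y (i : Fin 2) : (X i : Op K) * Y i = 1 := by
  apply op_ext
  intro m
  simp [Module.End.mul_apply, X_single, Y_single]

theorem Y_X (i : Fin 2) : (Y i : Op K) * X i = 1 := by
  apply op_ext
  intro m
  simp [Module.End.mul_apply, X_single, Y_single]


theorem X_cancel_right {i : Fin 2} {S T : Op K} (h : S * X i = T * X i) : S = T := by
  have := congrArg (fun Z => Z * (Y i : Op K)) h
  simpa [mul_assoc, X_Y] using this


/-- right Koszul, over the Laurent operators -/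
theorem kos {a b : Op K} (h : a * X 0 + b * X 1 = 0) :
    ∃ u : Op K, a = u * X 1 ∧ b + u * X 0 = 0 := by
  refine ⟨a * Y 1, ?_, ?_⟩
  · rw [mul_assoc, Y_X, mul_one]
  · apply X_cancel_right (i := 1)
    rw [add_mul, mul_assoc, mul_assoc, X_comm 0 1, ← mul_assoc (Y 1 : Op K), Y_X,
      one_mul, zero_mul, add_comm]
    exact h

/-! ### supports -/

/-- Laurent polynomials with nonnegative `i`-th exponents -/
noncomputable def half (i : Fin 2) : Submodule K (Lau K) :=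
  Finsupp.supported K K {m | 0 ≤ co i m}

/-- homogeneous Laurent polynomials -/
noncomputable def hom (n : ℤ) : Submodule K (Lau K) :=
  Finsupp.supported K K {m | m.1 + m.2 = n}

theorem X_half (i j : Fin 2) {f : Lau K} (hf : f ∈ half (K := K) i) : X j f ∈ half (K := K) i := by
  rw [half, Finsupp.supported_eq_span_single] at hf
  induction hf using Submodule.span_induction with
  | mem x hx =>
    obtain ⟨m, hm, rfl⟩ := hx
    simp only [Set.mem_setOf_eq] at hm
    rw [X_single]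
    refine Finsupp.single_mem_supported K _ ?_
    fin_cases i <;> fin_cases j <;> simp [ev, co] at hm ⊢ <;> omega
  | zero => rw [map_zero]; exact zero_mem _
  | add x y _ _ hx hy => rw [map_add]; exact add_mem hx hy
  | smul a x _ hx => rw [map_smul]; exact Submodule.smul_mem _ _ hx

theorem D_half (g : K) (i j : Fin 2) {f : Lau K} (hf : f ∈ half (K := K) i) :
    D g j f ∈ half (K := K) i := by
  rw [half, Finsupp.supported_eq_span_single] at hf
  induction hf using Submodule.span_induction with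
  | mem x hx =>
    obtain ⟨m, hm, rfl⟩ := hx
    simp only [Set.mem_setOf_eq] at hm
    rw [D_single]
    by_cases h0 : co j m = 0
    · rw [h0, cq_zero, zero_mul, Finsupp.single_zero]
      exact zero_mem _
    · refine Finsupp.single_mem_supported K _ ?_
      fin_cases i <;> fin_cases j <;> simp [ev, co] at h0 hm ⊢ <;> omega
  | zero => rw [map_zero]; exact zero_mem _
  | add x y _ _ hx hy => rw [map_add]; exact add_mem hx hy
  | smul a x _ hx => rw [map_smul]; exact Submodule.smul_mem _ _ hx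

theorem X_hom (j : Fin 2) {n : ℤ} {f : Lau K} (hf : f ∈ hom (K := K) n) :
    X j f ∈ hom (K := K) (n + 1) := by
  rw [hom, Finsupp.supported_eq_span_single] at hf
  induction hf using Submodule.span_induction with
  | mem x hx =>
    obtain ⟨m, hm, rfl⟩ := hx
    simp only [Set.mem_setOf_eq] at hm
    rw [X_single]
    refine Finsupp.single_mem_supported K _ ?_
    fin_cases j <;> simp [ev] <;> omega
  | zero => rw [map_zero]; exact zero_mem _
  | add x y _ _ hx hy => rw [map_add]; exact add_mem hx hy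
  | smul a x _ hx => rw [map_smul]; exact Submodule.smul_mem _ _ hx

theorem D_hom (g : K) (j : Fin 2) {n : ℤ} {f : Lau K} (hf : f ∈ hom (K := K) n) :
    D g j f ∈ hom (K := K) (n - 1) := by
  rw [hom, Finsupp.supported_eq_span_single] at hf
  induction hf using Submodule.span_induction with
  | mem x hx =>
    obtain ⟨m, hm, rfl⟩ := hx
    simp only [Set.mem_setOf_eq] at hm
    rw [D_single]
    refine Finsupp.single_mem_supported K _ ?_
    fin_cases j <;> simp [ev] <;> omega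
  | zero => rw [map_zero]; exact zero_mem _
  | add x y _ _ hx hy => rw [map_add]; exact add_mem hx hy
  | smul a x _ hx => rw [map_smul]; exact Submodule.smul_mem _ _ hx

theorem Fil_half {g : K} {k P : ℤ} {T : Op K} (hT : T ∈ Fil g k P) (i : Fin 2) {f : Lau K}
    (hf : f ∈ half (K := K) i) : T f ∈ half (K := K) i := by
  have hX : ∀ (j : Fin 2) (r : ℕ) (f : Lau K), f ∈ half (K := K) i →
      ((X j : Op K) ^ r) f ∈ half (K := K) i := by
    intro j r
    induction r with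
    | zero => intro f hf; simpa using hf
    | succ r ih => intro f hf; rw [pow_succ, Module.End.mul_apply]; exact ih _ (X_half i j hf)
  have hD : ∀ (j : Fin 2) (r : ℕ) (f : Lau K), f ∈ half (K := K) i →
      ((D g j : Op K) ^ r) f ∈ half (K := K) i := by
    intro j r
    induction r with
    | zero => intro f hf; simpa using hf
    | succ r ih => intro f hf; rw [pow_succ, Module.End.mul_apply]; exact ih _ (D_half g i j hf)
  induction hT using Submodule.span_induction with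
  | mem x hx =>
    obtain ⟨a, b, _, _, rfl⟩ := hx
    unfold mon
    simp only [Module.End.mul_apply]
    exact hX _ _ _ (hX _ _ _ (hD _ _ _ (hD _ _ _ hf)))
  | zero => exact zero_mem _
  | add x y _ _ hx hy => exact add_mem hx hy
  | smul a x _ hx => exact Submodule.smul_mem _ a hx

theorem Fil_hom {g : K} {k P : ℤ} {T : Op K} (hT : T ∈ Fil g k P) {n : ℤ} {f : Lau K}
    (hf : f ∈ hom (K := K) n) : T f ∈ hom (K := K) (n + P) := by
  have hX : ∀ (j : Fin 2) (r : ℕ) (n : ℤ) (f : Lau K), f ∈ hom (K := K) n →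
      ((X j : Op K) ^ r) f ∈ hom (K := K) (n + r) := by
    intro j r
    induction r with
    | zero => intro n f hf; simpa using hf
    | succ r ih =>
      intro n f hf
      rw [pow_succ, Module.End.mul_apply]
      have := ih _ _ (X_hom j hf)
      rwa [show n + 1 + (r : ℤ) = n + ((r + 1 : ℕ) : ℤ) by push_cast; ring] at this
  have hD : ∀ (j : Fin 2) (r : ℕ) (n : ℤ) (f : Lau K), f ∈ hom (K := K) n →
      ((D g j : Op K) ^ r) f ∈ hom (K := K) (n - r) := by
    intro j r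
    induction r with
    | zero => intro n f hf; simpa using hf
    | succ r ih =>
      intro n f hf
      rw [pow_succ, Module.End.mul_apply]
      have := ih _ _ (D_hom g j hf)
      rwa [show n - 1 - (r : ℤ) = n - ((r + 1 : ℕ) : ℤ) by push_cast; ring] at this
  induction hT using Submodule.span_induction with
  | mem x hx =>
    obtain ⟨a, b, _, h2, rfl⟩ := hx
    unfold mon
    simp only [Module.End.mul_apply]
    have := hX 0 a.1 _ _ (hX 1 a.2 _ _ (hD 0 b.1 _ _ (hD 1 b.2 _ _ hf)))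
    rwa [show n - (b.2 : ℤ) - b.1 + a.2 + a.1 = n + P by rw [← h2]; ring] at this
  | zero => exact zero_mem _
  | add x y _ _ hx hy => exact add_mem hx hy
  | smul a x _ hx => exact Submodule.smul_mem _ a hx

/-- an operator `u` with `u X₁`, `u X₀` of degree `0` kills `1` -/
theorem van {g : K} {k l : ℤ} {T T' u : Op K} (hT : T ∈ Fil g k 0) (hT' : T' ∈ Fil g l 0)
    (h : u * X 1 = T) (h' : u * X 0 = T') : u (Finsupp.single (0, 0) 1) = 0 := by
  have e1 : u (Finsupp.single (0, 0) 1) = T (Finsupp.single (0, -1) 1) := by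
    rw [← h, Module.End.mul_apply, X_single]
    simp [ev]
  have e2 : u (Finsupp.single (0, 0) 1) = T' (Finsupp.single (-1, 0) 1) := by
    rw [← h', Module.End.mul_apply, X_single]
    simp [ev]
  have m1 : u (Finsupp.single (0, 0) 1) ∈ half (K := K) 0 := by
    rw [e1]
    exact Fil_half hT 0 (Finsupp.single_mem_supported K _ (by simp [co]))
  have m2 : u (Finsupp.single (0, 0) 1) ∈ half (K := K) 1 := by
    rw [e2]
    exact Fil_half hT' 1 (Finsupp.single_mem_supported K _ (by simp [co]))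
  have m3 : u (Finsupp.single (0, 0) 1) ∈ hom (K := K) (-1) := by
    rw [e1]
    have := Fil_hom hT (n := -1) (f := Finsupp.single (0, -1) 1)
      (Finsupp.single_mem_supported K _ (by simp))
    simpa using this
  rw [half, Finsupp.mem_supported] at m1 m2
  rw [hom, Finsupp.mem_supported] at m3
  rw [← Finsupp.support_eq_empty, Finset.eq_empty_iff_forall_notMem]
  intro m hm
  have h1 := m1 hm
  have h2 := m2 hm
  have h3 := m3 hm
  simp [co] at h1 h2 h3
  omega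

/-! ### the scalar of an operator -/

/-- the constant term of `T 1` -/
noncomputable def rho : Op K →ₗ[K] K where
  toFun T := (T (Finsupp.single (0, 0) 1)) (0, 0)
  map_add' S T := by simp
  map_smul' c T := by simp

theorem rho_apply (T : Op K) : rho T = (T (Finsupp.single (0, 0) 1)) (0, 0) := rfl

theorem rho_one : rho (1 : Op K) = 1 := by simp [rho_apply]

theorem rho_smul_one (c : K) : rho (c • (1 : Op K)) = c := by simp [rho_one]

theorem X_app (i : Fin 2) (f : Lau K) (m : ℤ × ℤ) : (X i f) (m + ev i) = f m := by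
  have h : Function.Injective (fun m : ℤ × ℤ => m + ev i) := fun a b h => by simpa using h
  show Finsupp.mapDomain (fun m => m + ev i) f (m + ev i) = f m
  exact Finsupp.mapDomain_apply h f m

theorem X_ne {i : Fin 2} {c : K} (h : c • (X i : Op K) = 0) : c = 0 := by
  have := congrArg (fun T : Op K => (T (Finsupp.single (0, 0) 1)) (0 + ev i)) h
  simp only [LinearMap.smul_apply, Finsupp.smul_apply, LinearMap.zero_apply,
    Finsupp.zero_apply] at this
  rw [X_app] at this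
  rw [show ((0 : ℤ × ℤ)) = (0, 0) from rfl, Finsupp.single_eq_same, smul_eq_mul, mul_one] at this
  exact this

theorem X_lin {c d : K} (h : c • (X 0 : Op K) + d • (X 1 : Op K) = 0) : c = 0 ∧ d = 0 := by
  have h1 := congrArg (fun T : Op K => (T (Finsupp.single (0, 0) 1)) (1, 0)) h
  have h2 := congrArg (fun T : Op K => (T (Finsupp.single (0, 0) 1)) (0, 1)) h
  simp [X_single, ev] at h1 h2
  exact ⟨h1, h2⟩

section ring

variable {R : Type*} [Ring R] [Algebra K R]

theorem r1 (x0 x1 a b a' b' : R) : x1 * (a * x0 + b * x1) - x0 * (a' * x0 + b' * x1) =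
    (x1 * a - x0 * a') * x0 + (x1 * b - x0 * b') * x1 := by
  noncomm_ring

theorem r2 (x0 x1 a b : R) (γ : K) (h : a * x0 + b * x1 = γ • x0) :
    (a - γ • (1 : R)) * x0 + b * x1 = 0 := by
  rw [sub_mul, smul_mul_assoc, one_mul, sub_add_eq_add_sub, h, sub_self]

theorem r3 (x0 x1 a b : R) (γ : K) (h : a * x0 + b * x1 = γ • x1) :
    a * x0 + (b - γ • (1 : R)) * x1 = 0 := by
  rw [sub_mul, smul_mul_assoc, one_mul, ← add_sub_assoc, h, sub_self]

theorem r4 (x0 x1 a u u' : R) (β γ : K) (h : a - γ • (1 : R) = u * x1)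
    (e : x1 * a - x0 * (u' * x1) = β • x1) :
    (γ • (1 : R) + x1 * u - x0 * u' - β • (1 : R)) * x1 = 0 := by
  have h5 : a = γ • 1 + u * x1 := by rw [← h]; abel
  rw [h5] at e
  have : (γ • (1 : R) + x1 * u - x0 * u' - β • (1 : R)) * x1 =
      x1 * (γ • 1 + u * x1) - x0 * (u' * x1) - β • x1 := by
    simp only [sub_mul, add_mul, smul_mul_assoc, one_mul, mul_add, mul_smul_comm, mul_one,
      mul_assoc]
  rw [this, e, sub_self]

theorem r5 (x0 x1 : R) (hx : x0 * x1 = x1 * x0) (β : K) :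
    (β • x1) * x0 + ((-β) • x0) * x1 = 0 := by
  rw [smul_mul_assoc, smul_mul_assoc, hx, neg_smul, add_neg_cancel]

theorem r7 (a b : R) : a - b = a + (-1 : K) • b := by
  rw [neg_one_smul, sub_eq_add_neg]

theorem r6 (b c : R) (h : b + c = 0) : c = (-1 : K) • b := by
  rw [neg_one_smul]
  exact eq_neg_of_add_eq_zero_right h

end ring

theorem Fil_sub {g : K} {k P : ℤ} {a b : Op K} (ha : a ∈ Fil g k P) (hb : b ∈ Fil g k P) :
    a - b ∈ Fil g k P := by
  rw [show a - b = a + (-1 : K) • b from r7 (R := Op K) a b]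
  exact add_mem ha (Submodule.smul_mem _ _ hb)

/-- the main computation: a pair of rows `(a,b)`, `(a',b')` -/
theorem cc {g : K} {k : ℤ} (hk : 0 ≤ k) {a b a' b' : Op K} (ha : a ∈ Fil g k 0)
    (hb : b ∈ Fil g k 0) (ha' : a' ∈ Fil g k 0) (hb' : b' ∈ Fil g k 0)
    (hc : a * X 0 + b * X 1 ∈ Fil g 0 1) (hc' : a' * X 0 + b' * X 1 ∈ Fil g 0 1)
    (hz : X 1 * a - X 0 * a' ∈ Fil g 0 1) (hw : X 1 * b - X 0 * b' ∈ Fil g 0 1)
    (hzw : (X 1 * a - X 0 * a') * X 0 + (X 1 * b - X 0 * b') * X 1 = 0) :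
    X 1 * a - X 0 * a' = rho a • X 1 ∧ X 1 * b - X 0 * b' = (-rho a) • X 0 ∧
      a * X 0 + b * X 1 = rho a • X 0 ∧ a' * X 0 + b' * X 1 = rho a • X 1 := by
  have h1 : (1 : Op K) ∈ Fil g k 0 := one_mem_Fil g hk
  obtain ⟨α, β, e1⟩ := Fil_01 le_rfl hz
  obtain ⟨α', β', e2⟩ := Fil_01 le_rfl hw
  rw [e1, e2] at hzw
  -- coefficients
  have c1 := congrArg (fun T : Op K => (T (Finsupp.single (0, 0) 1)) (2, 0)) hzw
  have c2 := congrArg (fun T : Op K => (T (Finsupp.single (0, 0) 1)) (1, 1)) hzw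
  have c3 := congrArg (fun T : Op K => (T (Finsupp.single (0, 0) 1)) (0, 2)) hzw
  simp [add_mul, Module.End.mul_apply, X_single, ev] at c1 c2 c3
  subst c1 c3
  rw [zero_smul, zero_add] at e1
  rw [zero_smul, add_zero] at e2
  have e3 : α' = -β := eq_neg_of_add_eq_zero_right c2
  subst e3
  -- the scalar is `rho a`
  have hβ : β = rho a := by
    have h := congrArg (fun T : Op K => (T (Finsupp.single (0, 0) 1)) ((0, 0) + ev 1)) e1
    simp only [LinearMap.sub_apply, Finsupp.sub_apply, Module.End.mul_apply, LinearMap.smul_apply,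
      Finsupp.smul_apply] at h
    rw [X_app, X_app] at h
    have h2 : (X 0 (a' (Finsupp.single (0, 0) 1))) ((0, 0) + ev 1) = 0 := by
      have h3 : a' (Finsupp.single (0, 0) 1) ∈ half (K := K) 0 :=
        Fil_half ha' 0 (Finsupp.single_mem_supported K _ (by simp [co]))
      have h4 : ((0, 0) + ev 1 : ℤ × ℤ) = (-1, 1) + ev 0 := by simp [ev]
      rw [h4, X_app]
      by_contra h5
      have := (Finsupp.mem_supported K _).1 h3 (Finsupp.mem_support_iff.2 h5)
      simp [co] at this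
    rw [h2, sub_zero] at h
    rw [rho_apply, h]
    simp
  subst hβ
  set β := rho a with hβ
  refine ⟨e1, e2, ?_⟩
  obtain ⟨γ, δ, f1⟩ := Fil_01 le_rfl hc
  obtain ⟨γ', δ', f2⟩ := Fil_01 le_rfl hc'
  have g1 : X 1 * (a * X 0 + b * X 1) - X 0 * (a' * X 0 + b' * X 1) = 0 := by
    have : X 1 * (a * X 0 + b * X 1) - X 0 * (a' * X 0 + b' * X 1) =
        (X 1 * a - X 0 * a') * X 0 + (X 1 * b - X 0 * b') * X 1 :=
      r1 (R := Op K) (X 0) (X 1) a b a' b'
    rw [this, e1, e2]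
    exact r5 (R := Op K) (X 0) (X 1) (X_comm 0 1) β
  rw [f1, f2] at g1
  have c1 := congrArg (fun T : Op K => (T (Finsupp.single (0, 0) 1)) (2, 0)) g1
  have c2 := congrArg (fun T : Op K => (T (Finsupp.single (0, 0) 1)) (1, 1)) g1
  have c3 := congrArg (fun T : Op K => (T (Finsupp.single (0, 0) 1)) (0, 2)) g1
  simp [Module.End.mul_apply, X_single, ev] at c1 c2 c3
  subst c1 c3
  rw [zero_smul, add_zero] at f1
  rw [zero_smul, zero_add] at f2
  have e3 : γ = δ' := by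
    rw [sub_eq_zero] at c2; exact c2
  subst e3
  -- Koszul
  have k1 : (a - γ • (1 : Op K)) * X 0 + b * X 1 = 0 :=
    r2 (R := Op K) (X 0) (X 1) a b γ f1
  have k2 : a' * X 0 + (b' - γ • (1 : Op K)) * X 1 = 0 :=
    r3 (R := Op K) (X 0) (X 1) a' b' γ f2
  obtain ⟨u, u1, u2⟩ := kos k1
  obtain ⟨u', u1', u2'⟩ := kos k2
  have v1 : u (Finsupp.single (0, 0) 1) = 0 :=
    van (T' := (-1 : K) • b) (Fil_sub ha (Submodule.smul_mem _ γ h1))
      (Submodule.smul_mem _ _ hb) u1.symm (r6 (R := Op K) b (u * X 0) u2)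
  have v2 : u' (Finsupp.single (0, 0) 1) = 0 :=
    van (T' := (-1 : K) • (b' - γ • (1 : Op K))) ha' (Submodule.smul_mem _ _
      (Fil_sub hb' (Submodule.smul_mem _ γ h1))) u1'.symm
      (r6 (R := Op K) (b' - γ • (1 : Op K)) (u' * X 0) u2')
  have e4 : γ = β := by
    rw [u1'] at e1
    have h6 : (γ • (1 : Op K) + X 1 * u - X 0 * u' - β • (1 : Op K)) * X 1 = 0 :=
      r4 (R := Op K) (X 0) (X 1) a u u' β γ u1 e1
    have h7 : γ • (1 : Op K) + X 1 * u - X 0 * u' - β • (1 : Op K) = 0 := by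
      apply X_cancel_right (i := 1)
      rw [h6, zero_mul]
    have h8 := congrArg (fun T : Op K => (T (Finsupp.single (0, 0) 1)) (0, 0)) h7
    simp [Module.End.mul_apply, v1, v2] at h8
    rwa [sub_eq_zero] at h8
  rw [f1, f2, e4]
  exact ⟨rfl, rfl⟩

/-! ### test rows -/

theorem row_mem {g : K} {s k P : ℤ} {v : Fin 7 → Op K} : v ∈ Lat g s k P ↔
    (v 0 ∈ Fil g k P ∧ v 1 ∈ Fil g (k - 1) P ∧ v 2 ∈ Fil g (k - 2) P ∧
    (v 3 ∈ Fil g (k - s) P ∧ v 4 ∈ Fil g (k - s) P ∧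
      v 3 * X 0 + v 4 * X 1 ∈ Fil g (k - s - 1) (P + 1)) ∧
    (v 5 ∈ Fil g k P ∧ v 6 ∈ Fil g k P ∧ v 5 * X 0 + v 6 * X 1 ∈ Fil g (k - 2) (P + 1))) :=
  Iff.rfl

/-- the row `e_i` -/
theorem e_mem (g : K) (s k : ℤ) (i : Fin 7) (h0 : i = 0 → 0 ≤ k) (h1 : i = 1 → 1 ≤ k)
    (h2 : i = 2 → 2 ≤ k) (h3 : i = 3 → s + 1 ≤ k) (h4 : i = 4 → s + 1 ≤ k) (h5 : i = 5 → 2 ≤ k)
    (h6 : i = 6 → 2 ≤ k) : (Pi.single i 1 : Fin 7 → Op K) ∈ Lat g s k 0 := by
  rw [row_mem]
  fin_cases i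
  all_goals
    simp at h0 h1 h2 h3 h4 h5 h6 ⊢
  · exact one_mem_Fil g h0
  · exact one_mem_Fil g (by omega)
  · exact one_mem_Fil g (by omega)
  · exact ⟨one_mem_Fil g (by omega), X_mem_Fil g 0 (by omega)⟩
  · exact ⟨one_mem_Fil g (by omega), X_mem_Fil g 1 (by omega)⟩
  · exact ⟨one_mem_Fil g (by omega), X_mem_Fil g 0 (by omega)⟩
  · exact ⟨one_mem_Fil g (by omega), X_mem_Fil g 1 (by omega)⟩

variable (K) in
/-- the syzygy row of `K₁` -/
noncomputable def s3 : Fin 7 → Op K := ![0, 0, 0, X 1, -X 0, 0, 0]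

variable (K) in
/-- the syzygy row of `K₂` -/
noncomputable def s5 : Fin 7 → Op K := ![0, 0, 0, 0, 0, X 1, -X 0]

theorem syz0 : (X 1 : Op K) * X 0 + -X 0 * X 1 = 0 := by
  rw [X_comm 1 0, neg_mul, add_neg_cancel]

theorem s3_mem (g : K) {s k : ℤ} (hk : s ≤ k) : s3 K ∈ Lat g s k 1 := by
  rw [row_mem]
  refine ⟨zero_mem _, zero_mem _, zero_mem _, ⟨X_mem_Fil g 1 (by omega),
    neg_mem (X_mem_Fil g 0 (by omega)), ?_⟩, zero_mem _, zero_mem _, ?_⟩
  · show (X 1 : Op K) * X 0 + -X 0 * X 1 ∈ _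
    rw [syz0]
    exact zero_mem _
  · show (0 : Op K) * X 0 + 0 * X 1 ∈ _
    rw [zero_mul, zero_mul, add_zero]
    exact zero_mem _

theorem s5_mem (g : K) {s k : ℤ} (hk : 0 ≤ k) : s5 K ∈ Lat g s k 1 := by
  rw [row_mem]
  refine ⟨zero_mem _, zero_mem _, zero_mem _, ⟨zero_mem _, zero_mem _, ?_⟩,
    X_mem_Fil g 1 (by omega), neg_mem (X_mem_Fil g 0 (by omega)), ?_⟩
  · show (0 : Op K) * X 0 + 0 * X 1 ∈ _
    rw [zero_mul, zero_mul, add_zero]
    exact zero_mem _
  · show (X 1 : Op K) * X 0 + -X 0 * X 1 ∈ _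
    rw [syz0]
    exact zero_mem _

theorem e_vec (M : Mat K) (i : Fin 7) : (Pi.single i 1 : Fin 7 → Op K) ᵥ* M = M i := by
  rw [Matrix.single_one_vecMul]
  rfl

theorem s3_vec (M : Mat K) : s3 K ᵥ* M = fun j => X 1 * M 3 j - X 0 * M 4 j := by
  funext j
  simp only [Matrix.vecMul, dotProduct, Fin.sum_univ_seven, s3]
  simp
  abel

theorem s5_vec (M : Mat K) : s5 K ᵥ* M = fun j => X 1 * M 5 j - X 0 * M 6 j := by
  funext j
  simp only [Matrix.vecMul, dotProduct, Fin.sum_univ_seven, s5]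
  simp
  abel

/-- vanishing constants -/
theorem cst {α β : K} (h : (α • (1 : Op K)) * X 0 + (β • (1 : Op K)) * X 1 = 0) :
    α = 0 ∧ β = 0 := by
  rw [smul_mul_assoc, smul_mul_assoc, one_mul, one_mul] at h
  exact X_lin h

/-- the structure of the rows of a `P`-degree zero matrix -/
structure Str (s : ℤ) (M : Mat K) : Prop where
  r00 : M 0 0 = rho (M 0 0) • (1 : Op K)
  r0 : ∀ j, j ≠ 0 → M 0 j = 0
  r11 : M 1 1 = rho (M 1 1) • (1 : Op K)
  r12 : M 1 2 = 0
  r1c : M 1 5 * X 0 + M 1 6 * X 1 = 0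
  r1s : s = 1 → M 1 3 = 0 ∧ M 1 4 = 0
  r22 : M 2 2 = rho (M 2 2) • (1 : Op K)
  r32 : M 3 2 = 0
  r42 : M 4 2 = 0
  z33 : X 1 * M 3 3 - X 0 * M 4 3 = rho (M 3 3) • X 1
  z34 : X 1 * M 3 4 - X 0 * M 4 4 = (-rho (M 3 3)) • X 0
  c3 : M 3 3 * X 0 + M 3 4 * X 1 = rho (M 3 3) • X 0
  c4 : M 4 3 * X 0 + M 4 4 * X 1 = rho (M 3 3) • X 1
  r31 : s = 0 → M 3 1 = 0 ∧ M 4 1 = 0
  c35 : s = 0 → M 3 5 * X 0 + M 3 6 * X 1 = 0 ∧ M 4 5 * X 0 + M 4 6 * X 1 = 0
  z35 : s = 0 → X 1 * M 3 5 - X 0 * M 4 5 = 0 ∧ X 1 * M 3 6 - X 0 * M 4 6 = 0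
  zc35 : s = 1 → (X 1 * M 3 5 - X 0 * M 4 5) * X 0 + (X 1 * M 3 6 - X 0 * M 4 6) * X 1 = 0
  r52 : M 5 2 = 0
  r62 : M 6 2 = 0
  z51 : X 1 * M 5 1 - X 0 * M 6 1 = 0
  z55 : X 1 * M 5 5 - X 0 * M 6 5 = rho (M 5 5) • X 1
  z56 : X 1 * M 5 6 - X 0 * M 6 6 = (-rho (M 5 5)) • X 0
  c5 : M 5 5 * X 0 + M 5 6 * X 1 = rho (M 5 5) • X 0
  c6 : M 6 5 * X 0 + M 6 6 * X 1 = rho (M 5 5) • X 1
  zc53 : s = 0 → (X 1 * M 5 3 - X 0 * M 6 3) * X 0 + (X 1 * M 5 4 - X 0 * M 6 4) * X 1 = 0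
  z53 : s = 1 → X 1 * M 5 3 - X 0 * M 6 3 = 0 ∧ X 1 * M 5 4 - X 0 * M 6 4 = 0
  c53 : s = 1 → M 5 3 * X 0 + M 5 4 * X 1 = 0 ∧ M 6 3 * X 0 + M 6 4 * X 1 = 0

theorem Fil_z {g : K} {k P : ℤ} (hk : k < 0) {T : Op K} (hT : T ∈ Fil g k P) : T = 0 :=
  Fil_neg hk hT

theorem scal {g : K} {k P : ℤ} (hk : k ≤ 0) (hP : P = 0) {T : Op K} (hT : T ∈ Fil g k P) :
    T = rho T • (1 : Op K) := by
  subst hP
  obtain ⟨c, rfl⟩ := Fil_00 hk hT
  rw [rho_smul_one]

/-- two constants with a vanishing combination -/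
theorem two_cst {g : K} {k l P Q : ℤ} (hk : k ≤ 0) (hP : P = 0) (hl : l < 0) {a b : Op K}
    (ha : a ∈ Fil g k P) (hb : b ∈ Fil g k P) (h : a * X 0 + b * X 1 ∈ Fil g l Q) :
    a = 0 ∧ b = 0 := by
  have ha' := scal hk hP ha
  have hb' := scal hk hP hb
  have h0 := Fil_neg hl h
  rw [ha', hb'] at h0
  obtain ⟨h1, h2⟩ := cst h0
  rw [ha', hb', h1, h2, zero_smul]
  exact ⟨rfl, rfl⟩

/-- two constants with a vanishing syzygy -/
theorem two_cst' {g : K} {k l P Q : ℤ} (hk : k ≤ 0) (hP : P = 0) (hl : l < 0) {a b : Op K}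
    (ha : a ∈ Fil g k P) (hb : b ∈ Fil g k P) (h : X 1 * a - X 0 * b ∈ Fil g l Q) :
    a = 0 ∧ b = 0 := by
  have ha' := scal hk hP ha
  have hb' := scal hk hP hb
  have h0 := Fil_neg hl h
  rw [ha', hb', mul_smul_comm, mul_smul_comm, mul_one, mul_one, sub_eq_add_neg, ← neg_smul,
    add_comm] at h0
  obtain ⟨h1, h2⟩ := X_lin h0
  rw [ha', hb', h2, neg_eq_zero.1 h1, zero_smul]
  exact ⟨rfl, rfl⟩

theorem str {g : K} {s : ℤ} (hs : s = 0 ∨ s = 1) {M : Mat K} (hM : Pres g s 0 M) : Str s M := by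
  have hs0 : 0 ≤ s := by omega
  have hs1 : s ≤ 1 := by omega
  have H0 := hM 0 0 _ (e_mem g s 0 0 (by simp) (by simp) (by simp) (by simp) (by simp) (by simp)
    (by simp))
  have H1 := hM 1 0 _ (e_mem g s 1 1 (by simp) (by simp) (by simp) (by simp) (by simp) (by simp)
    (by simp))
  have H2 := hM 2 0 _ (e_mem g s 2 2 (by simp) (by simp) (by simp) (by simp) (by simp) (by simp)
    (by simp))
  have H3 := hM (s + 1) 0 _ (e_mem g s (s + 1) 3 (by simp) (by simp) (by simp) (by simp) (by simp)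
    (by simp) (by simp))
  have H4 := hM (s + 1) 0 _ (e_mem g s (s + 1) 4 (by simp) (by simp) (by simp) (by simp) (by simp)
    (by simp) (by simp))
  have H5 := hM 2 0 _ (e_mem g s 2 5 (by simp) (by simp) (by simp) (by simp) (by simp) (by simp)
    (by simp))
  have H6 := hM 2 0 _ (e_mem g s 2 6 (by simp) (by simp) (by simp) (by simp) (by simp) (by simp)
    (by simp))
  have Z3 := hM s 1 _ (s3_mem g le_rfl)
  have Z5 := hM 0 1 _ (s5_mem g (s := s) le_rfl)
  rw [e_vec, row_mem] at H0 H1 H2 H3 H4 H5 H6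
  rw [s3_vec, row_mem] at Z3
  rw [s5_vec, row_mem] at Z5
  simp only [add_zero, zero_add] at H0 H1 H2 H3 H4 H5 H6 Z3 Z5
  obtain ⟨a00, a01, a02, ⟨a03, a04, a0c⟩, a05, a06, a0d⟩ := H0
  obtain ⟨a10, a11, a12, ⟨a13, a14, a1c⟩, a15, a16, a1d⟩ := H1
  obtain ⟨a20, a21, a22, ⟨a23, a24, a2c⟩, a25, a26, a2d⟩ := H2
  obtain ⟨a30, a31, a32, ⟨a33, a34, a3c⟩, a35, a36, a3d⟩ := H3
  obtain ⟨a40, a41, a42, ⟨a43, a44, a4c⟩, a45, a46, a4d⟩ := H4
  obtain ⟨a50, a51, a52, ⟨a53, a54, a5c⟩, a55, a56, a5d⟩ := H5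
  obtain ⟨a60, a61, a62, ⟨a63, a64, a6c⟩, a65, a66, a6d⟩ := H6
  obtain ⟨z30, z31, z32, ⟨z33, z34, z3c⟩, z35, z36, z3d⟩ := Z3
  obtain ⟨z50, z51, z52, ⟨z53, z54, z5c⟩, z55, z56, z5d⟩ := Z5
  have m : ∀ {k l P Q : ℤ} {T : Op K}, T ∈ Fil g k P → k ≤ l → P = Q → T ∈ Fil g l Q := by
    intro k l P Q T h h1 h2
    subst h2
    exact Fil_mono g h1 h
  -- the two diagonal blocks
  have C3 := cc (g := g) (k := 1) (by norm_num) (m a33 (by omega) rfl) (m a34 (by omega) rfl)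
    (m a43 (by omega) rfl) (m a44 (by omega) rfl) (m a3c (by omega) rfl) (m a4c (by omega) rfl)
    (m z33 (by omega) rfl) (m z34 (by omega) rfl) (Fil_z (by omega) z3c)
  have C5 := cc (g := g) (k := 2) (by norm_num) (m a55 (by omega) rfl) (m a56 (by omega) rfl)
    (m a65 (by omega) rfl) (m a66 (by omega) rfl) (m a5d (by omega) rfl) (m a6d (by omega) rfl)
    (m z55 (by omega) rfl) (m z56 (by omega) rfl) (Fil_z (by omega) z5d)
  have B0 := two_cst (by omega) rfl (by omega) a03 a04 a0c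
  have B0' := two_cst (by omega) rfl (by omega) a05 a06 a0d
  have B1 : s = 1 → M 1 3 = 0 ∧ M 1 4 = 0 := fun h =>
    two_cst (by omega) rfl (by omega) a13 a14 a1c
  have B31 : s = 0 → M 3 1 = 0 ∧ M 4 1 = 0 := fun h =>
    two_cst' (by omega) rfl (by omega) a31 a41 z31
  have B32 : M 3 2 = 0 ∧ M 4 2 = 0 := by
    rcases hs with rfl | rfl
    · exact ⟨Fil_z (by omega) a32, Fil_z (by omega) a42⟩
    · exact two_cst' (by omega) rfl (by omega) a32 a42 z32
  have B52 : M 5 2 = 0 ∧ M 6 2 = 0 := two_cst' (by omega) rfl (by omega) a52 a62 z52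
  refine
    { r00 := scal (by omega) rfl a00
      r0 := ?_
      r11 := scal (by omega) rfl a11
      r12 := Fil_z (by omega) a12
      r1c := Fil_z (by omega) a1d
      r1s := B1
      r22 := scal (by omega) rfl a22
      r32 := B32.1
      r42 := B32.2
      z33 := C3.1
      z34 := C3.2.1
      c3 := C3.2.2.1
      c4 := C3.2.2.2
      r31 := B31
      c35 := fun h => ⟨Fil_z (by omega) a3d, Fil_z (by omega) a4d⟩
      z35 := ?_
      zc35 := fun h => Fil_z (by omega) z3d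
      r52 := B52.1
      r62 := B52.2
      z51 := Fil_z (by omega) z51
      z55 := C5.1
      z56 := C5.2.1
      c5 := C5.2.2.1
      c6 := C5.2.2.2
      zc53 := fun h => Fil_z (by omega) z5c
      z53 := fun h => ⟨Fil_z (by omega) z53, Fil_z (by omega) z54⟩
      c53 := ?_ }
  · intro j hj
    fin_cases j
    · exact absurd rfl hj
    · exact Fil_z (by omega) a01
    · exact Fil_z (by omega) a02
    · exact B0.1
    · exact B0.2
    · exact B0'.1
    · exact B0'.2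
  · intro h
    have C := cc (g := g) (k := 1) (by norm_num) (m a35 (by omega) rfl) (m a36 (by omega) rfl)
      (m a45 (by omega) rfl) (m a46 (by omega) rfl) (m a3d (by omega) rfl) (m a4d (by omega) rfl)
      (m z35 (by omega) rfl) (m z36 (by omega) rfl) (Fil_z (by omega) z3d)
    have h0 : rho (M 3 5) = 0 := by
      apply X_ne (i := 0)
      rw [← C.2.2.1]
      exact Fil_z (by omega) a3d
    rw [C.1, C.2.1, h0, neg_zero, zero_smul, zero_smul]
    exact ⟨rfl, rfl⟩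
  · intro h
    have C := cc (g := g) (k := 1) (by norm_num) (m a53 (by omega) rfl) (m a54 (by omega) rfl)
      (m a63 (by omega) rfl) (m a64 (by omega) rfl) (m a5c (by omega) rfl) (m a6c (by omega) rfl)
      (m z53 (by omega) rfl) (m z54 (by omega) rfl) (Fil_z (by omega) z5c)
    have h0 : rho (M 5 3) = 0 := by
      apply X_ne (i := 1)
      rw [← C.1]
      exact Fil_z (by omega) z53
    rw [C.2.2.1, C.2.2.2, h0, zero_smul, zero_smul]
    exact ⟨rfl, rfl⟩

/-! ### the flag -/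

/-- the radical part: all five scalars vanish -/
structure Rd (M : Mat K) : Prop where
  k0 : rho (M 0 0) = 0
  k1 : rho (M 1 1) = 0
  k2 : rho (M 2 2) = 0
  k3 : rho (M 3 3) = 0
  k5 : rho (M 5 5) = 0

theorem col (M : Mat K) (v : Fin 7 → Op K) (j : Fin 7) : (v ᵥ* M) j =
    v 0 * M 0 j + v 1 * M 1 j + v 2 * M 2 j + (v 3 * M 3 j + v 4 * M 4 j) +
      (v 5 * M 5 j + v 6 * M 6 j) := by
  simp only [Matrix.vecMul, dotProduct, Fin.sum_univ_seven]
  abel

theorem colc (M : Mat K) (v : Fin 7 → Op K) (a b : Fin 7) :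
    (v ᵥ* M) a * X 0 + (v ᵥ* M) b * X 1 =
    v 0 * (M 0 a * X 0 + M 0 b * X 1) + v 1 * (M 1 a * X 0 + M 1 b * X 1) +
    v 2 * (M 2 a * X 0 + M 2 b * X 1) + (v 3 * (M 3 a * X 0 + M 3 b * X 1) +
    v 4 * (M 4 a * X 0 + M 4 b * X 1)) + (v 5 * (M 5 a * X 0 + M 5 b * X 1) +
    v 6 * (M 6 a * X 0 + M 6 b * X 1)) := by
  rw [col, col]
  simp only [add_mul, mul_add, mul_assoc]
  abel

theorem pair {p q u : Op K} (h1 : p = u * X 1) (h2 : q + u * X 0 = 0) (a b : Op K) :
    p * a + q * b = u * (X 1 * a - X 0 * b) := by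
  have h3 : q = -(u * X 0) := eq_neg_of_add_eq_zero_left h2
  rw [h1, h3, mul_sub, neg_mul, mul_assoc, mul_assoc, sub_eq_add_neg]

theorem zc (a b a' b' : Op K) : X 1 * (a * X 0 + b * X 1) - X 0 * (a' * X 0 + b' * X 1) =
    (X 1 * a - X 0 * a') * X 0 + (X 1 * b - X 0 * b') * X 1 :=
  r1 (R := Op K) _ _ _ _ _ _

section step

variable {s : ℤ} {M : Mat K} (S : Str s M) (R : Rd M) {v : Fin 7 → Op K}
include S R

theorem row0z (j : Fin 7) : M 0 j = 0 := by
  by_cases h : j = 0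
  · subst h
    rw [S.r00, R.k0, zero_smul]
  · exact S.r0 j h

theorem A1 : (v ᵥ* M) 2 = 0 := by
  rw [col, row0z S R, S.r12, S.r22, R.k2, S.r32, S.r42, S.r52, S.r62]
  simp

theorem A2 (hs : s = 0) (h2 : v 2 = 0) : (v ᵥ* M) 5 * X 0 + (v ᵥ* M) 6 * X 1 = 0 := by
  rw [colc, row0z S R, row0z S R, S.r1c, h2, (S.c35 hs).1, (S.c35 hs).2, S.c5, S.c6, R.k5]
  simp

theorem A3 (hs : s = 0) (h2 : v 2 = 0) (hc : v 5 * X 0 + v 6 * X 1 = 0) : (v ᵥ* M) 1 = 0 := by
  obtain ⟨u, u1, u2⟩ := kos hc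
  rw [col, row0z S R, S.r11, R.k1, h2, (S.r31 hs).1, (S.r31 hs).2, pair u1 u2, S.z51]
  simp

theorem A4 (hs : s = 0) (h2 : v 2 = 0) (hc : v 5 * X 0 + v 6 * X 1 = 0) (h1 : v 1 = 0) :
    (v ᵥ* M) 3 * X 0 + (v ᵥ* M) 4 * X 1 = 0 := by
  obtain ⟨u, u1, u2⟩ := kos hc
  rw [colc, row0z S R, row0z S R, h1, h2, S.c3, S.c4, R.k3, pair u1 u2, zc,
    S.zc53 hs]
  simp

theorem A5 (hs : s = 0) (h2 : v 2 = 0) (hc : v 5 * X 0 + v 6 * X 1 = 0) (h1 : v 1 = 0)
    (hc' : v 3 * X 0 + v 4 * X 1 = 0) : (v ᵥ* M) 5 = 0 ∧ (v ᵥ* M) 6 = 0 := by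
  obtain ⟨u, u1, u2⟩ := kos hc
  obtain ⟨w, w1, w2⟩ := kos hc'
  constructor
  · rw [col, row0z S R, h1, h2, pair u1 u2, S.z55, R.k5, pair w1 w2, (S.z35 hs).1]
    simp
  · rw [col, row0z S R, h1, h2, pair u1 u2, S.z56, R.k5, pair w1 w2, (S.z35 hs).2]
    simp

theorem A6 (h2 : v 2 = 0) (h1 : v 1 = 0)
    (hc' : v 3 * X 0 + v 4 * X 1 = 0) (h5 : v 5 = 0) (h6 : v 6 = 0) :
    (v ᵥ* M) 3 = 0 ∧ (v ᵥ* M) 4 = 0 := by
  obtain ⟨w, w1, w2⟩ := kos hc'
  constructor
  · rw [col, row0z S R, h1, h2, h5, h6, pair w1 w2, S.z33, R.k3]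
    simp
  · rw [col, row0z S R, h1, h2, h5, h6, pair w1 w2, S.z34, R.k3]
    simp

theorem A7 (h1 : v 1 = 0) (h2 : v 2 = 0) (h3 : v 3 = 0) (h4 : v 4 = 0) (h5 : v 5 = 0)
    (h6 : v 6 = 0) : v ᵥ* M = 0 := by
  funext j
  rw [col, row0z S R, h1, h2, h3, h4, h5, h6]
  simp

theorem B2 (hs : s = 1) (h2 : v 2 = 0) : (v ᵥ* M) 3 * X 0 + (v ᵥ* M) 4 * X 1 = 0 := by
  rw [colc, row0z S R, row0z S R, (S.r1s hs).1, (S.r1s hs).2, h2, S.c3, S.c4, R.k3,
    (S.c53 hs).1, (S.c53 hs).2]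
  simp

theorem B3 (hs : s = 1) (h2 : v 2 = 0) (hc : v 3 * X 0 + v 4 * X 1 = 0) :
    (v ᵥ* M) 5 * X 0 + (v ᵥ* M) 6 * X 1 = 0 := by
  obtain ⟨w, w1, w2⟩ := kos hc
  rw [colc, row0z S R, row0z S R, S.r1c, h2, S.c5, S.c6, R.k5, pair w1 w2, zc, S.zc35 hs]
  simp

theorem B4 (hs : s = 1) (h2 : v 2 = 0) (hc : v 3 * X 0 + v 4 * X 1 = 0)
    (hc' : v 5 * X 0 + v 6 * X 1 = 0) : (v ᵥ* M) 3 = 0 ∧ (v ᵥ* M) 4 = 0 := by
  obtain ⟨w, w1, w2⟩ := kos hc
  obtain ⟨u, u1, u2⟩ := kos hc'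
  constructor
  · rw [col, row0z S R, (S.r1s hs).1, h2, pair u1 u2, (S.z53 hs).1,
      pair w1 w2, S.z33, R.k3]
    simp
  · rw [col, row0z S R, (S.r1s hs).2, h2, pair u1 u2, (S.z53 hs).2,
      pair w1 w2, S.z34, R.k3]
    simp

theorem B5 (h2 : v 2 = 0) (hc' : v 5 * X 0 + v 6 * X 1 = 0) (h3 : v 3 = 0)
    (h4 : v 4 = 0) : (v ᵥ* M) 1 = 0 := by
  obtain ⟨u, u1, u2⟩ := kos hc'
  rw [col, row0z S R, S.r11, R.k1, h2, h3, h4, pair u1 u2, S.z51]
  simp

theorem B6 (h2 : v 2 = 0) (hc' : v 5 * X 0 + v 6 * X 1 = 0) (h3 : v 3 = 0)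
    (h4 : v 4 = 0) (h1 : v 1 = 0) : (v ᵥ* M) 5 = 0 ∧ (v ᵥ* M) 6 = 0 := by
  obtain ⟨u, u1, u2⟩ := kos hc'
  constructor
  · rw [col, row0z S R, h1, h2, h3, h4, pair u1 u2, S.z55, R.k5]
    simp
  · rw [col, row0z S R, h1, h2, h3, h4, pair u1 u2, S.z56, R.k5]
    simp

end step

theorem nil0 {s : ℤ} {M : Mat K} (S : Str s M) (R : Rd M) (hs : s = 0) (v : Fin 7 → Op K) :
    v ᵥ* M ᵥ* M ᵥ* M ᵥ* M ᵥ* M ᵥ* M ᵥ* M = 0 := by
  have a : ∀ v : Fin 7 → Op K, (v ᵥ* M) 2 = 0 := fun v => A1 S R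
  have b : ∀ v : Fin 7 → Op K, v 2 = 0 → _ := fun v => A2 S R hs (v := v)
  have c : ∀ v : Fin 7 → Op K, v 2 = 0 → _ → _ := fun v => A3 S R hs (v := v)
  have d : ∀ v : Fin 7 → Op K, v 2 = 0 → _ → _ → _ := fun v => A4 S R hs (v := v)
  have e : ∀ v : Fin 7 → Op K, v 2 = 0 → _ → _ → _ → _ := fun v => A5 S R hs (v := v)
  have b2 := b _ (a v)
  have b3 := b _ (a (v ᵥ* M))
  have b4 := b _ (a (v ᵥ* M ᵥ* M))
  have b5 := b _ (a (v ᵥ* M ᵥ* M ᵥ* M))
  have c3 := c _ (a _) b2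
  have c4 := c _ (a _) b3
  have c5 := c _ (a _) b4
  have c6 := c _ (a _) b5
  have d4 := d _ (a _) b3 c3
  have d5 := d _ (a _) b4 c4
  have e5 := e _ (a _) b4 c4 d4
  have e6 := e _ (a _) b5 c5 d5
  have f6 := A6 S R (a _) c5 d5 e5.1 e5.2
  exact A7 S R c6 (a _) f6.1 f6.2 e6.1 e6.2

theorem nil1 {s : ℤ} {M : Mat K} (S : Str s M) (R : Rd M) (hs : s = 1) (v : Fin 7 → Op K) :
    v ᵥ* M ᵥ* M ᵥ* M ᵥ* M ᵥ* M ᵥ* M ᵥ* M = 0 := by
  have a : ∀ v : Fin 7 → Op K, (v ᵥ* M) 2 = 0 := fun v => A1 S R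
  have b : ∀ v : Fin 7 → Op K, v 2 = 0 → _ := fun v => B2 S R hs (v := v)
  have c : ∀ v : Fin 7 → Op K, v 2 = 0 → _ → _ := fun v => B3 S R hs (v := v)
  have d : ∀ v : Fin 7 → Op K, v 2 = 0 → _ → _ → _ := fun v => B4 S R hs (v := v)
  have b2 := b _ (a v)
  have b3 := b _ (a (v ᵥ* M))
  have b4 := b _ (a (v ᵥ* M ᵥ* M))
  have b5 := b _ (a (v ᵥ* M ᵥ* M ᵥ* M))
  have c3 := c _ (a _) b2
  have c4 := c _ (a _) b3
  have c5 := c _ (a _) b4
  have d4 := d _ (a _) b3 c3
  have d5 := d _ (a _) b4 c4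
  have d6 := d _ (a _) b5 c5
  have e5 := B5 S R (a _) c4 d4.1 d4.2
  have e6 := B5 S R (a _) c5 d5.1 d5.2
  have f6 := B6 S R (a _) c5 d5.1 d5.2 e5
  exact A7 S R e6 (a _) d6.1 d6.2 f6.1 f6.2

theorem p7 {R : Type*} [Monoid R] (a : R) : a ^ 7 = a * a * a * a * a * a * a := by
  simp only [pow_succ, pow_zero, one_mul]

theorem pow7 {s : ℤ} (hs : s = 0 ∨ s = 1) {M : Mat K} (S : Str s M) (R : Rd M) : M ^ 7 = 0 := by
  have h : ∀ v : Fin 7 → Op K, v ᵥ* M ^ 7 = 0 := by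
    intro v
    rw [p7 M, ← Matrix.vecMul_vecMul, ← Matrix.vecMul_vecMul, ← Matrix.vecMul_vecMul,
      ← Matrix.vecMul_vecMul, ← Matrix.vecMul_vecMul, ← Matrix.vecMul_vecMul]
    rcases hs with h | h
    · exact nil0 S R h v
    · exact nil1 S R h v
  funext i
  have := h (Pi.single i 1)
  rwa [e_vec] at this

theorem mul_row (M N : Mat K) (i : Fin 7) : (M * N) i = M i ᵥ* N := by
  funext j
  rw [Matrix.mul_apply]
  rfl

/-- products of radical elements are radical -/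
theorem Rd.mul {s : ℤ} (hs : s = 0 ∨ s = 1) {M N : Mat K} (S : Str s M) (R : Rd M) (S' : Str s N)
    (R' : Rd N) (T : Str s (M * N)) : Rd (M * N) := by
  have w2 : (s3 K ᵥ* M) 2 = 0 := by rw [s3_vec]; simp [S.r32, S.r42]
  have w3 : (s3 K ᵥ* M) 3 = 0 := by rw [s3_vec]; simp only [S.z33, R.k3, zero_smul]
  have w4 : (s3 K ᵥ* M) 4 = 0 := by rw [s3_vec]; simp only [S.z34, R.k3, neg_zero, zero_smul]
  have u1 : (s5 K ᵥ* M) 1 = 0 := by rw [s5_vec]; exact S.z51
  have u2 : (s5 K ᵥ* M) 2 = 0 := by rw [s5_vec]; simp [S.r52, S.r62]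
  have u5 : (s5 K ᵥ* M) 5 = 0 := by rw [s5_vec]; simp only [S.z55, R.k5, zero_smul]
  have u6 : (s5 K ᵥ* M) 6 = 0 := by rw [s5_vec]; simp only [S.z56, R.k5, neg_zero, zero_smul]
  refine ⟨?_, ?_, ?_, ?_, ?_⟩
  · rw [mul_row, A7 S' R']
    · simp
    all_goals exact row0z S R _
  · rw [mul_row]
    rcases hs with h | h
    · rw [A3 S' R' h S.r12 S.r1c, map_zero]
    · rw [B5 S' R' S.r12 S.r1c (S.r1s h).1 (S.r1s h).2, map_zero]
  · rw [mul_row, A1 S' R', map_zero]
  · apply X_ne (i := 1)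
    rw [← T.z33]
    have : X 1 * (M * N) 3 3 - X 0 * (M * N) 4 3 = (s3 K ᵥ* (M * N)) 3 := by rw [s3_vec]
    rw [this, ← Matrix.vecMul_vecMul]
    rcases hs with h | h
    · rw [A7 S' R' _ w2 w3 w4]
      · rfl
      · rw [s3_vec]; exact (S.z35 h).1
      · rw [s3_vec]; exact (S.z35 h).2
      · rw [s3_vec]; simp [(S.r31 h).1, (S.r31 h).2]
    · refine (B4 S' R' h w2 ?_ ?_).1
      · rw [w3, w4]; simp
      · rw [s3_vec]; exact S.zc35 h
  · apply X_ne (i := 1)
    rw [← T.z55]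
    have : X 1 * (M * N) 5 5 - X 0 * (M * N) 6 5 = (s5 K ᵥ* (M * N)) 5 := by rw [s5_vec]
    rw [this, ← Matrix.vecMul_vecMul]
    rcases hs with h | h
    · refine (A5 S' R' h u2 ?_ u1 ?_).1
      · rw [u5, u6]; simp
      · rw [s5_vec]; exact S.zc53 h
    · rw [A7 S' R' u1 u2 _ _ u5 u6]
      · rfl
      · rw [s5_vec]; exact (S.z53 h).1
      · rw [s5_vec]; exact (S.z53 h).2

/-! ### diagonal elements and idempotents -/

/-- the vertex of a position -/
def blk : Fin 7 → Fin 5 := ![0, 1, 2, 3, 3, 4, 4]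

/-- the first position of a vertex -/
def pos : Fin 5 → Fin 7 := ![0, 1, 2, 3, 5]

theorem blk_pos (v : Fin 5) : blk (pos v) = v := by fin_cases v <;> rfl

/-- diagonal matrices of constants -/
noncomputable def dg (c : Fin 5 → K) : Mat K := Matrix.diagonal fun i => c (blk i) • (1 : Op K)

theorem vec_dg (c : Fin 5 → K) (v : Fin 7 → Op K) (j : Fin 7) :
    (v ᵥ* dg c) j = c (blk j) • v j := by
  rw [dg, Matrix.vecMul_diagonal, mul_smul_comm, mul_one]


theorem dg_pres (g : K) (s : ℤ) (c : Fin 5 → K) : Pres g s 0 (dg c) := by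
  intro k P v hv
  rw [add_zero]
  rw [row_mem] at hv ⊢
  obtain ⟨v0, v1, v2, ⟨v3, v4, v5⟩, v6, v7, v8⟩ := hv
  simp only [vec_dg]
  refine ⟨Submodule.smul_mem _ _ v0, Submodule.smul_mem _ _ v1, Submodule.smul_mem _ _ v2,
    ⟨Submodule.smul_mem _ _ v3, Submodule.smul_mem _ _ v4, ?_⟩,
    Submodule.smul_mem _ _ v6, Submodule.smul_mem _ _ v7, ?_⟩
  · have := Submodule.smul_mem _ (c 3) v5
    rw [smul_add, ← smul_mul_assoc, ← smul_mul_assoc] at this
    exact this
  · have := Submodule.smul_mem _ (c 4) v8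
    rw [smul_add, ← smul_mul_assoc, ← smul_mul_assoc] at this
    exact this

theorem dg_ii (c : Fin 5 → K) (v : Fin 5) : dg c (pos v) (pos v) = c v • (1 : Op K) := by
  rw [dg, Matrix.diagonal_apply_eq, blk_pos]

/-- the diagonal element of `A g s` -/
noncomputable def di (g : K) (s : ℤ) (c : Fin 5 → K) : A g s :=
  ⟨TrivSqZeroExt.inl (dg c), by
    refine ⟨?_, ?_⟩
    · rw [TrivSqZeroExt.fst_inl]; exact dg_pres g s c
    · rw [TrivSqZeroExt.snd_inl]; exact Pres.zero g s 1⟩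

theorem di_fst (g : K) (s : ℤ) (c : Fin 5 → K) : (di g s c).1.fst = dg c := rfl


theorem di_one (g : K) (s : ℤ) : di g s 1 = 1 := by
  apply Subtype.ext
  show TrivSqZeroExt.inl (dg 1) = 1
  have : dg (K := K) 1 = 1 := by
    rw [dg]
    simp
  rw [this]
  rfl







/-! ### the characters -/

/-- the five scalars -/
noncomputable def q (g : K) (s : ℤ) : A g s →ₗ[K] (Fin 5 → K) where
  toFun x := fun v => rho (x.1.fst (pos v) (pos v))
  map_add' x y := by
    funext v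
    show rho ((x.1.fst + y.1.fst) (pos v) (pos v)) = _
    rw [Matrix.add_apply, map_add]
    rfl
  map_smul' c x := by
    funext v
    show rho ((c • x.1.fst) (pos v) (pos v)) = _
    rw [Matrix.smul_apply, map_smul]
    rfl

theorem q_apply (g : K) (s : ℤ) (x : A g s) (v : Fin 5) :
    q g s x v = rho (x.1.fst (pos v) (pos v)) := rfl

theorem q_di (g : K) (s : ℤ) (c : Fin 5 → K) : q g s (di g s c) = c := by
  funext v
  rw [q_apply, di_fst, dg_ii, rho_smul_one]

theorem Rd_of {g : K} {s : ℤ} {x : A g s} (h : q g s x = 0) : Rd x.1.fst :=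
  ⟨congrFun h 0, congrFun h 1, congrFun h 2, congrFun h 3, congrFun h 4⟩

theorem of_Rd {g : K} {s : ℤ} {x : A g s} (h : Rd x.1.fst) : q g s x = 0 := by
  funext v
  fin_cases v
  exacts [h.k0, h.k1, h.k2, h.k3, h.k5]

theorem q_mul_rad {g : K} {s : ℤ} (hs : s = 0 ∨ s = 1) {x y : A g s} (hx : q g s x = 0)
    (hy : q g s y = 0) : q g s (x * y) = 0 := by
  apply of_Rd
  have e : (x * y).1.fst = x.1.fst * y.1.fst := rfl
  rw [e]
  have h3 := str hs (x * y).2.1
  rw [e] at h3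
  exact (Rd_of hx).mul hs (str hs x.2.1) (str hs y.2.1) (Rd_of hy) h3

theorem q_di_mul {g : K} {s : ℤ} (c : Fin 5 → K) (x : A g s) :
    q g s (di g s c * x) = c * q g s x := by
  funext v
  rw [q_apply]
  have e : (di g s c * x).1.fst = dg c * x.1.fst := rfl
  rw [e, dg, Matrix.diagonal_mul, blk_pos, smul_mul_assoc, one_mul, map_smul]
  rfl

theorem q_mul_di {g : K} {s : ℤ} (c : Fin 5 → K) (x : A g s) :
    q g s (x * di g s c) = q g s x * c := by
  funext v
  rw [q_apply]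
  have e : (x * di g s c).1.fst = x.1.fst * dg c := rfl
  rw [e, dg, Matrix.mul_diagonal, blk_pos, mul_smul_comm, mul_one, map_smul, smul_eq_mul,
    mul_comm]
  rfl

theorem q_mul {g : K} {s : ℤ} (hs : s = 0 ∨ s = 1) (x y : A g s) :
    q g s (x * y) = q g s x * q g s y := by
  have hx : q g s (x - di g s (q g s x)) = 0 := by rw [map_sub, q_di, sub_self]
  have hy : q g s (y - di g s (q g s y)) = 0 := by rw [map_sub, q_di, sub_self]
  have h := q_mul_rad hs hx hy
  have e : (x - di g s (q g s x)) * (y - di g s (q g s y)) =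
      x * y - di g s (q g s x) * y - x * di g s (q g s y) +
        di g s (q g s x) * di g s (q g s y) := by
    rw [sub_mul, mul_sub, mul_sub]
    abel
  rw [e, map_add, map_sub, map_sub, q_di_mul, q_mul_di, q_di_mul, q_di] at h
  have h2 : q g s (x * y) - q g s x * q g s y = 0 := by
    rw [← h]
    abel
  exact sub_eq_zero.1 h2

/-- the algebra homomorphism to `K⁵` -/
noncomputable def Q (g : K) {s : ℤ} (hs : s = 0 ∨ s = 1) : A g s →ₐ[K] (Fin 5 → K) :=
  AlgHom.ofLinearMap (q g s) (by rw [← di_one, q_di]) (q_mul hs)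


theorem Q_surj {g : K} {s : ℤ} (hs : s = 0 ∨ s = 1) : Function.Surjective (Q g hs) :=
  fun c => ⟨di g s c, q_di g s c⟩

theorem sq_zero {y : DualNumber (Mat K)} (h : y.fst = 0) : y * y = 0 := by
  apply TrivSqZeroExt.ext
  · rw [TrivSqZeroExt.fst_mul, h, mul_zero]
    rfl
  · rw [TrivSqZeroExt.snd_mul, h]
    simp

theorem Q_nil {g : K} {s : ℤ} (hs : s = 0 ∨ s = 1) (x : A g s) (h : Q g hs x = 0) :
    IsNilpotent x := by
  refine ⟨14, ?_⟩
  apply Subtype.ext
  have h1 : (x.1 ^ 7).fst = 0 := by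
    rw [TrivSqZeroExt.fst_pow]
    exact pow7 hs (str hs x.2.1) (Rd_of h)
  have h2 : (x.1 ^ 14 : DualNumber (Mat K)) = x.1 ^ 7 * x.1 ^ 7 := by rw [← pow_add]
  show (x.1 ^ 14 : DualNumber (Mat K)) = 0
  rw [h2, sq_zero h1]

theorem simples (g : K) {s : ℤ} (hs : s = 0 ∨ s = 1) : Spine700.Simples K (A g s) 5 :=
  ⟨Q g hs, Q_surj hs, Q_nil hs⟩

/-! ### finite dimension -/

theorem Fil_finite (g : K) (k P : ℤ) : FiniteDimensional K (Fil g k P) := by
  have hfin : Set.Finite {T : Op K | ∃ a b : ℕ × ℕ, (b.1 : ℤ) + b.2 ≤ k ∧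
      (a.1 : ℤ) + a.2 - (b.1 + b.2) = P ∧ T = mon g a b} := by
    have h1 : Set.Finite (Set.Iic ((k + P).toNat, (k + P).toNat) ×ˢ Set.Iic (k.toNat, k.toNat) :
        Set ((ℕ × ℕ) × (ℕ × ℕ))) := (Set.finite_Iic _).prod (Set.finite_Iic _)
    refine (h1.image fun z => mon g z.1 z.2).subset ?_
    rintro T ⟨a, b, h2, h3, rfl⟩
    refine ⟨(a, b), ⟨?_, ?_⟩, rfl⟩
    · exact Prod.mk_le_mk.2 ⟨by omega, by omega⟩
    · exact Prod.mk_le_mk.2 ⟨by omega, by omega⟩
  exact FiniteDimensional.span_of_finite K hfin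

/-- entries have order at most two -/
theorem entry_mem {g : K} {s : ℤ} (hs : s = 0 ∨ s = 1) {e : ℤ} {M : Mat K} (hM : Pres g s e M)
    (i j : Fin 7) : M i j ∈ Fil g 2 e := by
  have h := hM 2 0 _ (e_mem g s 2 i (by intro; norm_num) (by intro; norm_num)
    (by intro; norm_num) (by intro; omega) (by intro; omega) (by intro; norm_num)
    (by intro; norm_num))
  rw [e_vec, row_mem, zero_add] at h
  obtain ⟨v0, v1, v2, ⟨v3, v4, _⟩, v6, v7, _⟩ := h
  fin_cases j
  exacts [v0, Fil_mono g (by omega) v1, Fil_mono g (by omega) v2, Fil_mono g (by omega) v3,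
    Fil_mono g (by omega) v4, v6, v7]

theorem finiteDimensional (g : K) {s : ℤ} (hs : s = 0 ∨ s = 1) : FiniteDimensional K (A g s) := by
  have := Fil_finite g 2 0
  have := Fil_finite g 2 1
  let f : A g s →ₗ[K] (Fin 7 → Fin 7 → Fil g 2 0) × (Fin 7 → Fin 7 → Fil g 2 1) :=
    { toFun := fun x => (fun i j => ⟨x.1.fst i j, entry_mem hs x.2.1 i j⟩,
        fun i j => ⟨x.1.snd i j, entry_mem hs x.2.2 i j⟩)
      map_add' := fun x y => rfl
      map_smul' := fun c x => rfl }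
  refine FiniteDimensional.of_injective f ?_
  intro x y h
  apply Subtype.ext
  apply TrivSqZeroExt.ext
  · funext i j
    exact congrArg (fun z : (Fin 7 → Fin 7 → Fil g 2 0) × (Fin 7 → Fin 7 → Fil g 2 1) =>
      ((z.1 i j : Fil g 2 0) : Op K)) h
  · funext i j
    exact congrArg (fun z : (Fin 7 → Fin 7 → Fil g 2 0) × (Fin 7 → Fin 7 → Fil g 2 1) =>
      ((z.2 i j : Fil g 2 1) : Op K)) h

instance fd0 (g : K) : FiniteDimensional K (A g 0) := finiteDimensional g (Or.inl rfl)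
instance fd1 (g : K) : FiniteDimensional K (A g 1) := finiteDimensional g (Or.inr rfl)

end Crest.Agent.R186.NB581
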