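import Crest.Agent.R186.B281W_128
import Crest.Agent.R186.RingA_580

/-!
# Row 186, S0281 base: from the vertices to elements of `A g s` (helper822)

`blk7` = the vertex of a position.  A tuple of rows `ι → Fin 7 → Op K` is the `i`-th rows of a tuple
of elements of `A g s`.  `lift_exact`: if a map `f` of tuples of rows is onto (under conditions
`C₀`, `C₁` in degree `e = 0, 1`) at all vertices, then it is onto on tuples of elements of `A g s`.
-/

set_option autoImplicit false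
set_option linter.unusedSectionVars false

open Matrix

namespace Crest.Agent.R186.W4a822

open Crest.Agent.R186.B281

variable {K : Type} [Field K]

/-- the vertex of a position: `O(0), O(-1), O(-2), K₁(-s), K₂` -/
def blk7 : Fin 7 → Fin 5 := ![0, 1, 2, 3, 3, 4, 4]

/-- multiplicativity of the filtration -/
def FMul (g : K) : Prop := ∀ {j e k P : ℤ} {T S : Op K}, T ∈ Fil g j e → S ∈ Fil g k P →
  T * S ∈ Fil g (j + k) (e + P)

/-- the family of all rows -/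
noncomputable def TA {g : K} (hm : FMul g) (s : ℤ) : Fam g where
  N := Fin 7 → Op K
  L k P := Lat g s k P
  mono := by
    rintro k l P h v ⟨v0, v1, v2, ⟨v3, v4, v5⟩, v6, v7, v8⟩
    exact ⟨Fil_mono g h v0, Fil_mono g (by omega) v1, Fil_mono g (by omega) v2,
      ⟨Fil_mono g (by omega) v3, Fil_mono g (by omega) v4, Fil_mono g (by omega) v5⟩,
      Fil_mono g h v6, Fil_mono g h v7, Fil_mono g (by omega) v8⟩
  smul := by
    rintro j e k P T v hT ⟨v0, v1, v2, ⟨v3, v4, v5⟩, v6, v7, v8⟩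
    have h : ∀ {S : Op K} {c P' : ℤ} (k' P'' : ℤ), S ∈ Fil g c P' → j + c = k' → e + P' = P'' →
        T * S ∈ Fil g k' P'' := by
      intro S c P' k' P'' hS h1 h2
      rw [← h1, ← h2]
      exact hm hT hS
    refine ⟨h _ _ v0 (by ring) (by ring), h _ _ v1 (by ring) (by ring),
      h _ _ v2 (by ring) (by ring), ⟨h _ _ v3 (by ring) (by ring), h _ _ v4 (by ring) (by ring), ?_⟩,
      h _ _ v6 (by ring) (by ring), h _ _ v7 (by ring) (by ring), ?_⟩
    · show (T * v 3) * X 0 + (T * v 4) * X 1 ∈ _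
      rw [mul_assoc, mul_assoc, ← mul_add]
      exact h _ _ v5 (by ring) (by ring)
    · show (T * v 5) * X 0 + (T * v 6) * X 1 ∈ _
      rw [mul_assoc, mul_assoc, ← mul_add]
      exact h _ _ v8 (by ring) (by ring)

theorem pair_row (r : Fin 7 → Op K) (M : Mat K) : pair r (fun i => M i) = r ᵥ* M := by
  funext j
  simp only [pair, Matrix.vecMul, dotProduct, Finset.sum_apply, Pi.smul_apply, smul_eq_mul]

/-- `Pres` through the entries -/
theorem pres_iff {g : K} (hK : KGen g) (hm : FMul g) (s e : ℤ) (M : Mat K) :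
    Pres g s e M ↔ (TA hm s).Ent s e (fun i => M i) := by
  constructor
  · intro h
    refine Fam.ent_of_W (TA hm s) fun k P r hr => ?_
    have := h k P r hr
    rw [← pair_row] at this
    exact this
  · intro h k P r hr
    have := Fam.W_of_ent hK (TA hm s) h k P r hr
    rw [← pair_row]
    exact this

variable {ι κ : Type}

/-- the lattice of tuples of rows supported at the vertex `v` -/
def LT (g : K) (s : ℤ) (ι : Type) (v : Fin 5) (k P : ℤ) (r : ι → Fin 7 → Op K) : Prop :=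
  ∀ l, r l ∈ Lat g s k P ∧ ∀ j, blk7 j ≠ v → r l j = 0

/-- `x₁ z - x₀ z'` -/
noncomputable def xx (z z' : ι → Fin 7 → Op K) : ι → Fin 7 → Op K :=
  fun l j => X 1 * z l j - X 0 * z' l j

/-- `f` is onto the tuples with `C` at the line bundle vertices, degree `e` -/
def OntoO (g : K) (s : ℤ) (v w : Fin 5) (f : (ι → Fin 7 → Op K) → κ → Fin 7 → Op K)
    (C : (κ → Fin 7 → Op K) → Prop) (e : ℤ) : Prop :=
  ∀ c : ℤ, (c = 0 ∨ c = 1 ∨ c = 2) → ∀ z, LT g s κ w c e z → C z →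
    ∃ y, LT g s ι v c e y ∧ f y = z

/-- the same at the `K`-vertices -/
def OntoK (g : K) (s : ℤ) (v w : Fin 5) (f : (ι → Fin 7 → Op K) → κ → Fin 7 → Op K)
    (C : (κ → Fin 7 → Op K) → Prop) (e : ℤ) : Prop :=
  ∀ a b : ℤ, ((a = s + 1 ∧ b = s) ∨ (a = 2 ∧ b = 0)) → ∀ z z', LT g s κ w a e z →
    LT g s κ w a e z' → LT g s κ w b (e + 1) (xx z z') → C z → C z' →
    ∃ y y', LT g s ι v a e y ∧ LT g s ι v a e y' ∧ LT g s ι v b (e + 1) (xx y y') ∧
      f y = z ∧ f y' = z'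

/-- columns outside the vertex vanish -/
def SupA (g : K) (s : ℤ) (v : Fin 5) (x : A g s) : Prop :=
  ∀ i j, blk7 j ≠ v → x.1.fst i j = 0 ∧ x.1.snd i j = 0

theorem op_sub : (0 : Op K) - 0 = 0 := by
  refine LinearMap.ext fun f => ?_
  simp

/-- one half -/
theorem lift_half {g : K} (hK : KGen g) (hm : FMul g) {s : ℤ} {v w : Fin 5}
    (f : (ι → Fin 7 → Op K) → κ → Fin 7 → Op K) (C : (κ → Fin 7 → Op K) → Prop) {e : ℤ}
    (hO : OntoO g s v w f C e) (hKv : OntoK g s v w f C e)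
    (Z : κ → Mat K) (hZ : ∀ l, Pres g s e (Z l)) (hs : ∀ l i j, blk7 j ≠ w → Z l i j = 0)
    (hC : ∀ i, C (fun l => Z l i)) :
    ∃ Y : ι → Mat K, (∀ l, Pres g s e (Y l)) ∧ (∀ l i j, blk7 j ≠ v → Y l i j = 0) ∧
      ∀ i, f (fun l => Y l i) = fun l => Z l i := by
  have hE : ∀ l, (TA hm s).Ent s e (fun i => Z l i) := fun l => (pres_iff hK hm s e (Z l)).1 (hZ l)
  obtain ⟨y0, h0, f0⟩ := hO 0 (Or.inl rfl) (fun l => Z l 0)
    (fun l => ⟨(hE l).e0, hs l 0⟩) (hC 0)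
  obtain ⟨y1, h1, f1⟩ := hO 1 (Or.inr (Or.inl rfl)) (fun l => Z l 1)
    (fun l => ⟨(hE l).e1, hs l 1⟩) (hC 1)
  obtain ⟨y2, h2, f2⟩ := hO 2 (Or.inr (Or.inr rfl)) (fun l => Z l 2)
    (fun l => ⟨(hE l).e2, hs l 2⟩) (hC 2)
  obtain ⟨y3, y4, h3, h4, h34, f3, f4⟩ := hKv (s + 1) s (Or.inl ⟨rfl, rfl⟩) (fun l => Z l 3)
    (fun l => Z l 4) (fun l => ⟨(hE l).e3, hs l 3⟩) (fun l => ⟨(hE l).e4, hs l 4⟩)
    (fun l => ⟨(hE l).e34, fun j hj => by
      show X 1 * Z l 3 j - X 0 * Z l 4 j = 0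
      rw [hs l 3 j hj, hs l 4 j hj, mul_zero, mul_zero]
      exact op_sub⟩) (hC 3) (hC 4)
  obtain ⟨y5, y6, h5, h6, h56, f5, f6⟩ := hKv 2 0 (Or.inr ⟨rfl, rfl⟩) (fun l => Z l 5)
    (fun l => Z l 6) (fun l => ⟨(hE l).e5, hs l 5⟩) (fun l => ⟨(hE l).e6, hs l 6⟩)
    (fun l => ⟨(hE l).e56, fun j hj => by
      show X 1 * Z l 5 j - X 0 * Z l 6 j = 0
      rw [hs l 5 j hj, hs l 6 j hj, mul_zero, mul_zero]
      exact op_sub⟩) (hC 5) (hC 6)
  refine ⟨fun l => Matrix.of ![y0 l, y1 l, y2 l, y3 l, y4 l, y5 l, y6 l], fun l => ?_,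
    fun l i j hj => ?_, fun i => ?_⟩
  · rw [pres_iff hK hm]
    exact ⟨(h0 l).1, (h1 l).1, (h2 l).1, (h3 l).1, (h4 l).1, (h34 l).1, (h5 l).1, (h6 l).1,
      (h56 l).1⟩
  · fin_cases i
    exacts [(h0 l).2 j hj, (h1 l).2 j hj, (h2 l).2 j hj, (h3 l).2 j hj, (h4 l).2 j hj,
      (h5 l).2 j hj, (h6 l).2 j hj]
  · fin_cases i
    exacts [f0, f1, f2, f3, f4, f5, f6]

/-- **from the vertices to `A g s`** -/
theorem lift_exact {g : K} (hK : KGen g) (hm : FMul g) {s : ℤ} {v w : Fin 5}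
    (f : (ι → Fin 7 → Op K) → κ → Fin 7 → Op K) (C₀ C₁ : (κ → Fin 7 → Op K) → Prop)
    (hO₀ : OntoO g s v w f C₀ 0) (hK₀ : OntoK g s v w f C₀ 0)
    (hO₁ : OntoO g s v w f C₁ 1) (hK₁ : OntoK g s v w f C₁ 1)
    (Z : κ → A g s) (hs : ∀ l, SupA g s w (Z l))
    (hC₀ : ∀ i, C₀ (fun l => (Z l).1.fst i)) (hC₁ : ∀ i, C₁ (fun l => (Z l).1.snd i)) :
    ∃ Y : ι → A g s, (∀ l, SupA g s v (Y l)) ∧
      (∀ i, f (fun l => (Y l).1.fst i) = fun l => (Z l).1.fst i) ∧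
      ∀ i, f (fun l => (Y l).1.snd i) = fun l => (Z l).1.snd i := by
  obtain ⟨Y, a1, a2, a3⟩ := lift_half hK hm f C₀ hO₀ hK₀ (fun l => (Z l).1.fst)
    (fun l => (Z l).2.1) (fun l i j hj => (hs l i j hj).1) hC₀
  obtain ⟨Y', b1, b2, b3⟩ := lift_half hK hm f C₁ hO₁ hK₁ (fun l => (Z l).1.snd)
    (fun l => (Z l).2.2) (fun l i j hj => (hs l i j hj).2) hC₁
  exact ⟨fun l => ⟨((Y l, Y' l) : DualNumber (Mat K)), a1 l, b1 l⟩,
    fun l i j hj => ⟨a2 l i j hj, b2 l i j hj⟩, a3, b3⟩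


end Crest.Agent.R186.W4a822
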