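import Mathlib

/-!
# Row 186, S0281 base: exactness of the resolution of `W` (helper322)

`M` = a right module over the `q`-Weyl operators (right multiplications `X i`, `D i`), `F P A` = the
elements of `P`-degree `P` and order `≤ A`.  The complex (339 #31866)
`0 → F P (A-2) → C2 → C1 → F P A`, for both `s = 0` and `s = 1`:
`C1 = {(a,b),(a',b') ∈ F P A : a x0 + b x1, a' x0 + b' x1 ∈ F (P+1) (A-1-s)}`,
`C2 = {(a,b),(a',b') ∈ F P (A-1) : the same condition}`.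
-/

set_option autoImplicit false

namespace Crest.Agent.R186.WRes322

/-- the abstract interface: filtered right module over the (independent) `q`-Weyl operators. -/
structure Fil {K M : Type*} [Field K] [AddCommGroup M] [Module K M] (g : K) (X D : Fin 2 → M →ₗ[K] M)
    (F : ℤ → ℤ → Submodule K M) : Prop where
  xx : ∀ m, X 0 (X 1 m) = X 1 (X 0 m)
  dd : ∀ m, D 0 (D 1 m) = D 1 (D 0 m)
  dx0 : ∀ m, D 0 (X 0 m) = m + g • X 0 (D 0 m)
  dx1 : ∀ m, D 1 (X 1 m) = m + g • X 1 (D 1 m)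
  d0x1 : ∀ m, D 0 (X 1 m) = X 1 (D 0 m)
  d1x0 : ∀ m, D 1 (X 0 m) = X 0 (D 1 m)
  mono : ∀ P A m, m ∈ F P A → m ∈ F P (A + 1)
  Xm : ∀ i P A m, m ∈ F P A → X i m ∈ F (P + 1) A
  Dm : ∀ i P A m, m ∈ F P A → D i m ∈ F (P - 1) (A + 1)
  inj : ∀ i m, X i m = 0 → m = 0
  X1 : ∀ P A m, 1 ≤ P → m ∈ F P A → ∃ p ∈ F (P - 1) A, ∃ q ∈ F (P - 1) A, m = X 0 p + X 1 q
  X2 : ∀ P A u v, u ∈ F P A → v ∈ F P A → X 0 u + X 1 v = 0 → ∃ e ∈ F (P - 1) A, u = X 1 e ∧ v = - X 0 e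
  D1 : ∀ P A m, P ≤ -1 → m ∈ F P A → ∃ p ∈ F (P + 1) (A - 1), ∃ q ∈ F (P + 1) (A - 1), m = D 0 p + D 1 q
  D2 : ∀ P A u v, u ∈ F P A → v ∈ F P A → D 0 u + D 1 v = 0 →
    ∃ e ∈ F (P + 1) (A - 1), u = D 1 e ∧ v = - D 0 e

section
variable {K M : Type*} [Field K] [AddCommGroup M] [Module K M] {g : K} {X D : Fin 2 → M →ₗ[K] M}
  {F : ℤ → ℤ → Submodule K M}

/-- `a x0 + b x1` -/
def cc (X : Fin 2 → M →ₗ[K] M) (u : Fin 2 → M) : M := X 0 (u 0) + X 1 (u 1)

/-- `C1 s P A` (also `C2 s P A` with the order lowered by one): pairs of rows -/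
def Row (X : Fin 2 → M →ₗ[K] M) (F : ℤ → ℤ → Submodule K M) (P A B : ℤ) (u : Fin 2 → Fin 2 → M) : Prop :=
  (∀ k i, u k i ∈ F P A) ∧ ∀ k, cc X (u k) ∈ F (P + 1) B

/-- `C1 → C0` -/
def d1 (X D : Fin 2 → M →ₗ[K] M) (u : Fin 2 → Fin 2 → M) : M :=
  D 0 (cc X (u 0)) - u 0 0 + (D 1 (cc X (u 1)) - u 1 1)

/-- the element `y (x1, -x0)` -/
def syz (X : Fin 2 → M →ₗ[K] M) (y : M) : Fin 2 → M := ![X 1 y, - X 0 y]

/-- `C2 → C1` (the same formula for `s = 0` and `s = 1`) -/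
def d2 (g : K) (X D : Fin 2 → M →ₗ[K] M) (u : Fin 2 → Fin 2 → M) : Fin 2 → Fin 2 → M :=
  ![u 0 + syz X (D 0 (u 0 1)) + g • syz X (D 1 (u 1 1)),
    u 1 - g • syz X (D 0 (u 0 0)) - syz X (D 1 (u 1 0))]

/-- `C3 → C2` -/
def d3 (X D : Fin 2 → M →ₗ[K] M) (w : M) : Fin 2 → Fin 2 → M :=
  ![- syz X (D 1 w), syz X (D 0 w)]

@[simp] lemma syz_zero (y : M) : syz X y 0 = X 1 y := rfl
@[simp] lemma syz_one (y : M) : syz X y 1 = - X 0 y := rfl

variable (h : Fil g X D F)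
include h

lemma Fil.mono' {P A B : ℤ} (hAB : A ≤ B) {m : M} (hm : m ∈ F P A) : m ∈ F P B := by
  obtain ⟨n, rfl⟩ := Int.le.dest hAB
  induction n with
  | zero => simpa using hm
  | succ n ih =>
    have := h.mono P (A + n) m (ih (by omega))
    rwa [show A + (n : ℤ) + 1 = A + ((n + 1 : ℕ) : ℤ) by push_cast; ring] at this

lemma cc_syz (y : M) : cc X (syz X y) = 0 := by
  simp [cc, h.xx]

lemma d1_d2 (u : Fin 2 → Fin 2 → M) : d1 X D (d2 g X D u) = 0 := by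
  simp only [d1, d2, cc, syz, Matrix.cons_val_zero, Matrix.cons_val_one, Pi.add_apply, Pi.sub_apply,
    Pi.smul_apply, map_add, map_sub, map_smul, map_neg, h.xx, h.dx0, h.dx1, h.d0x1, h.d1x0, h.dd]
  module

lemma d2_d3 (w : M) : d2 g X D (d3 X D w) = 0 := by
  funext k i
  fin_cases k <;> fin_cases i <;>
  (simp [d3, d2, syz, h.xx, h.dx0, h.dx1, h.d0x1, h.d1x0, h.dd]; try module)

/-! ### well-definedness -/

lemma cc_mem {P A : ℤ} {u : Fin 2 → M} (hu : ∀ i, u i ∈ F P A) : cc X u ∈ F (P + 1) A :=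
  Submodule.add_mem _ (h.Xm 0 _ _ _ (hu 0)) (h.Xm 1 _ _ _ (hu 1))

lemma syz_mem {P A : ℤ} {y : M} (hy : y ∈ F (P - 1) A) (i : Fin 2) : syz X y i ∈ F P A := by
  have h0 := h.Xm 0 _ _ _ hy
  have h1 := h.Xm 1 _ _ _ hy
  rw [sub_add_cancel] at h0 h1
  fin_cases i
  · exact h1
  · exact Submodule.neg_mem _ h0


lemma cc_d2 (u : Fin 2 → Fin 2 → M) (k : Fin 2) : cc X (d2 g X D u k) = cc X (u k) := by
  fin_cases k
  · change X 0 (u 0 0 + X 1 (D 0 (u 0 1)) + g • X 1 (D 1 (u 1 1)))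
      + X 1 (u 0 1 + - X 0 (D 0 (u 0 1)) + g • - X 0 (D 1 (u 1 1))) = X 0 (u 0 0) + X 1 (u 0 1)
    simp only [map_add, map_smul, map_neg, h.xx, smul_neg]; abel
  · change X 0 (u 1 0 - g • X 1 (D 0 (u 0 0)) - X 1 (D 1 (u 1 0)))
      + X 1 (u 1 1 - g • - X 0 (D 0 (u 0 0)) - - X 0 (D 1 (u 1 0))) = X 0 (u 1 0) + X 1 (u 1 1)
    simp only [map_sub, map_smul, map_neg, h.xx, smul_neg]; abel

lemma d2_mem {P A B : ℤ} {u : Fin 2 → Fin 2 → M} (hu : Row X F P (A - 1) B u) :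
    Row X F P A B (d2 g X D u) := by
  refine ⟨fun k i => ?_, fun k => by rw [cc_d2 h]; exact hu.2 k⟩
  have key : ∀ a b c, syz X (D a (u b c)) i ∈ F P A := fun a b c => by
    have := h.Dm a _ _ _ (hu.1 b c)
    rw [sub_add_cancel] at this
    exact syz_mem h this i
  have h1 := h.mono' (show A - 1 ≤ A by omega) (hu.1 k i)
  fin_cases k
  · exact Submodule.add_mem _ (Submodule.add_mem _ h1 (key _ _ _)) (Submodule.smul_mem _ _ (key _ _ _))
  · exact Submodule.sub_mem _ (Submodule.sub_mem _ h1 (Submodule.smul_mem _ _ (key _ _ _))) (key _ _ _)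

lemma d3_mem {P A B : ℤ} {w : M} (hw : w ∈ F P (A - 2)) : Row X F P (A - 1) B (d3 X D w) := by
  have key : ∀ a i, syz X (D a w) i ∈ F P (A - 1) := fun a i => by
    have := h.Dm a _ _ _ hw
    rw [show A - 2 + 1 = A - 1 by ring] at this
    exact syz_mem h this i
  constructor
  · intro k i
    fin_cases k
    · exact Submodule.neg_mem _ (key 1 i)
    · exact key 0 i
  · intro k
    have : cc X (d3 X D w k) = 0 := by
      fin_cases k <;> simp [d3, cc, syz, h.xx]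
    rw [this]; exact Submodule.zero_mem _

/-! ### exactness -/

/-- exactness at `C0` -/
lemma ex0 {P A B : ℤ} {p q : M} (hp : p ∈ F (P - 1) A) (hq : q ∈ F (P - 1) A) :
    ∃ u, Row X F P A B u ∧ d1 X D u = X 0 p + X 1 q := by
  refine ⟨![syz X (-q), syz X p], ⟨fun k i => ?_, fun k => ?_⟩, ?_⟩
  · fin_cases k
    · exact syz_mem h (Submodule.neg_mem _ hq) i
    · exact syz_mem h hp i
  · fin_cases k
    · simp [cc_syz h]
    · simp [cc_syz h]
  · simp [d1, cc_syz h, add_comm]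

/-- exactness at `C0`, `P ≥ 1` -/
lemma ex0_pos {P A B : ℤ} (hP : 1 ≤ P) {a : M} (ha : a ∈ F P A) :
    ∃ u, Row X F P A B u ∧ d1 X D u = a := by
  obtain ⟨p, hp, q, hq, rfl⟩ := h.X1 P A a hP ha
  exact ex0 h hp hq

/-- `cc`-part of `C1` comes from `C2` -/
lemma lift_cc {P A B : ℤ} (hP : 0 ≤ P) (hB : B ≤ A - 1) {u : Fin 2 → Fin 2 → M} (hu : Row X F P A B u) :
    ∃ v, Row X F P (A - 1) B v ∧ ∀ k, cc X (u k) = cc X (v k) := by
  have key : ∀ k, ∃ p ∈ F P B, ∃ q ∈ F P B, cc X (u k) = X 0 p + X 1 q := fun k => by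
    obtain ⟨p, hp, q, hq, e⟩ := h.X1 (P + 1) B _ (by omega) (hu.2 k)
    rw [add_sub_cancel_right] at hp hq
    exact ⟨p, hp, q, hq, e⟩
  choose p hp q hq e using key
  refine ⟨fun k => ![p k, q k], ⟨fun k i => ?_, fun k => ?_⟩, fun k => e k⟩
  · fin_cases i
    · exact h.mono' hB (hp k)
    · exact h.mono' hB (hq k)
  · have : cc X ![p k, q k] = cc X (u k) := (e k).symm
    rw [this]; exact hu.2 k

omit h in
lemma d1_sub (u v : Fin 2 → Fin 2 → M) : d1 X D (u - v) = d1 X D u - d1 X D v := by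
  simp only [d1, cc, Pi.sub_apply, map_sub, map_add]; abel

omit h in
lemma d2_sub (u v : Fin 2 → Fin 2 → M) : d2 g X D (u - v) = d2 g X D u - d2 g X D v := by
  funext k i
  fin_cases k <;> fin_cases i <;> simp [d2, syz, smul_sub] <;> abel

omit h in
lemma d2_add (u v : Fin 2 → Fin 2 → M) : d2 g X D (u + v) = d2 g X D u + d2 g X D v := by
  funext k i
  fin_cases k <;> fin_cases i <;> simp [d2, syz, smul_add] <;> abel

/-- the elements of `C2` with `cc = 0` -/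
def ef (X : Fin 2 → M →ₗ[K] M) (e : Fin 2 → M) : Fin 2 → Fin 2 → M := fun k => syz X (e k)

lemma ef_mem {P A B : ℤ} {e : Fin 2 → M} (he : ∀ k, e k ∈ F (P - 1) A) : Row X F P A B (ef X e) :=
  ⟨fun k i => syz_mem h (he k) i, fun k => by
    change cc X (syz X (e k)) ∈ _
    rw [cc_syz h]; exact Submodule.zero_mem _⟩

/-- the cycle `(c x0 (x1,-x0), c x1 (x1,-x0))` -/
def kap (X : Fin 2 → M →ₗ[K] M) (c : M) : Fin 2 → Fin 2 → M := fun k => syz X (X k c)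

lemma d2_ef (e : Fin 2 → M) : d2 g X D (ef X e) = kap X (- g • (D 0 (e 0) + D 1 (e 1))) := by
  funext k i
  fin_cases k <;> fin_cases i <;>
  simp [d2, ef, kap, syz, h.xx, h.dx0, h.dx1, h.d0x1, h.d1x0, smul_add] <;> module

/-- cycles of `C1` modulo boundaries are `kap c`, `c ∈ F (P-2) A` -/
lemma cyc1 {P A B : ℤ} (hP : 0 ≤ P) (hB : B ≤ A - 1) {u : Fin 2 → Fin 2 → M} (hu : Row X F P A B u)
    (h0 : d1 X D u = 0) : ∃ v, Row X F P (A - 1) B v ∧ ∃ c ∈ F (P - 2) A, u = d2 g X D v + kap X c := by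
  obtain ⟨v, hv, e⟩ := lift_cc h hP hB hu
  have hv' := d2_mem h (A := A) hv
  set t := u - d2 g X D v with ht
  have htc : ∀ k, cc X (t k) = 0 := fun k => by
    have : cc X (t k) = cc X (u k) - cc X (d2 g X D v k) := by
      simp only [ht, cc, Pi.sub_apply, map_sub]; abel
    rw [this, cc_d2 h, e, sub_self]
  have htm : ∀ k i, t k i ∈ F P A := fun k i => Submodule.sub_mem _ (hu.1 k i) (hv'.1 k i)
  have key : ∀ k, ∃ c ∈ F (P - 1) A, t k = syz X c := fun k => by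
    obtain ⟨c, hc, h1, h2⟩ := h.X2 P A _ _ (htm k 0) (htm k 1) (htc k)
    refine ⟨c, hc, ?_⟩
    funext i
    fin_cases i
    · exact h1
    · exact h2
  choose c hc hct using key
  have h1 : d1 X D t = 0 := by rw [ht, d1_sub, h0, d1_d2 h, sub_zero]
  have h2 : X 0 (c 1) + X 1 (- c 0) = 0 := by
    have e1 : d1 X D t = X 0 (c 1) + X 1 (- c 0) := by
      simp only [d1, htc, map_zero]
      rw [hct 0, hct 1]
      simp [add_comm]
    rw [← e1, h1]
  obtain ⟨c', hc', e1, e2⟩ := h.X2 (P - 1) A _ _ (hc 1) (Submodule.neg_mem _ (hc 0)) h2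
  rw [sub_sub] at hc'
  refine ⟨v, hv, c', by simpa using hc', ?_⟩
  have e2' : c 0 = X 0 c' := neg_injective e2
  have : t = kap X c' := by
    funext k
    rw [hct k]
    fin_cases k
    · simp [kap, e2']
    · simp [kap, e1]
  rw [← this, ht]; abel

/-- exactness at `C1`, `0 ≤ P ≤ 1` -/
lemma ex1 (hg : g ≠ 0) {P A B : ℤ} (hP : 0 ≤ P) (hP1 : P ≤ 1) (hB : B ≤ A - 1)
    {u : Fin 2 → Fin 2 → M} (hu : Row X F P A B u)
    (h0 : d1 X D u = 0) : ∃ v, Row X F P (A - 1) B v ∧ d2 g X D v = u := by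
  obtain ⟨v, hv, c, hc, rfl⟩ := cyc1 h hP hB hu h0
  obtain ⟨p, hp, q, hq, e⟩ := h.D1 _ _ _ (by omega) hc
  rw [show P - 2 + 1 = P - 1 by ring] at hp hq
  have he : ∀ k, (fun k => - g⁻¹ • (![p, q] : Fin 2 → M) k) k ∈ F (P - 1) (A - 1) := fun k => by
    fin_cases k
    · exact Submodule.smul_mem _ _ hp
    · exact Submodule.smul_mem _ _ hq
  refine ⟨v + ef X (fun k => - g⁻¹ • (![p, q] : Fin 2 → M) k), ⟨fun k i =>
    Submodule.add_mem _ (hv.1 k i) ((ef_mem h he (B := B)).1 k i), fun k => ?_⟩, ?_⟩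
  · have := Submodule.add_mem _ (hv.2 k) ((ef_mem h he (B := B)).2 k)
    convert this using 1
    simp only [cc, Pi.add_apply, map_add]; abel
  · rw [d2_add, d2_ef h, e]
    congr 2
    simp only [Matrix.cons_val_zero, Matrix.cons_val_one, map_smul, ← smul_add, smul_smul]
    rw [neg_mul_neg, mul_inv_cancel₀ hg, one_smul]

/-- exactness at `C2` -/
lemma ex2 (hg : g ≠ 0) {P A B : ℤ} {u : Fin 2 → Fin 2 → M} (hu : Row X F P (A - 1) B u)
    (h0 : d2 g X D u = 0) : ∃ w ∈ F P (A - 2), d3 X D w = u := by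
  have hcc : ∀ k, cc X (u k) = 0 := fun k => by
    rw [← cc_d2 h, h0]; simp [cc]
  have key : ∀ k, ∃ c ∈ F (P - 1) (A - 1), u k = syz X c := fun k => by
    obtain ⟨c, hc, h1, h2⟩ := h.X2 P (A - 1) _ _ (hu.1 k 0) (hu.1 k 1) (hcc k)
    refine ⟨c, hc, ?_⟩
    funext i
    fin_cases i
    · exact h1
    · exact h2
  choose c hc hct using key
  have hu' : u = ef X c := funext hct
  have h1 : X 0 (X 0 (- g • (D 0 (c 0) + D 1 (c 1)))) = 0 := by
    have := congrFun (congrFun (hu' ▸ h0) 0) 1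
    rw [d2_ef h] at this
    exact neg_eq_zero.1 this
  have h2 : D 0 (c 0) + D 1 (c 1) = 0 := by
    have := h.inj _ _ (h.inj _ _ h1)
    rcases smul_eq_zero.1 this with h3 | h3
    · exact absurd (neg_eq_zero.1 h3) hg
    · exact h3
  obtain ⟨n, hn, e1, e2⟩ := h.D2 _ _ _ _ (hc 0) (hc 1) h2
  refine ⟨- n, ?_, ?_⟩
  · rw [show A - 2 = A - 1 - 1 by ring]
    rw [sub_add_cancel] at hn
    exact Submodule.neg_mem _ hn
  · rw [hu']
    funext k
    fin_cases k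
    · funext i; fin_cases i <;> simp [d3, ef, e1]
    · funext i; fin_cases i <;> simp [d3, ef, e2]

/-- exactness at `C3` -/
lemma ex3 {P A : ℤ} {w : M} (hd : ∀ P A m, m ∈ F P A → D 1 m = 0 → m = 0) (hw : w ∈ F P A)
    (h0 : d3 X D w = 0) : w = 0 := by
  have := congrFun (congrFun h0 0) 0
  simp only [d3, Matrix.cons_val_zero, Pi.neg_apply, syz_zero, Pi.zero_apply, neg_eq_zero] at this
  exact hd P A _ hw (h.inj _ _ this)

end

end Crest.Agent.R186.WRes322
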