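import Crest.Agent.R186.ExtRes_700
import Crest.Agent.R186.Cell_580
import Crest.Agent.R186.Dual_700

-- ▼ part R186/Coind_328
section

/-!
Row 186 (helper328), S0281, block LINK: coinduction along a ring map.

`A → G` a ring map (given as `Module A G` with `IsScalarTower A G G`), `W` a left `A`-module,
`Co A G W = Hom_A(G, W)` with `(x • φ) g = φ (g * x)`.  If `Ext^j_A(G, W) = 0` for `j > 0`, then for
every `G`-module `Z` (with `IsScalarTower A G Z`): `Ext^i_G(Z, Co W) = 0 ↔ Ext^i_A(Z, W) = 0`.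
-/

set_option autoImplicit false
set_option linter.style.haveILetI false
set_option linter.unusedSectionVars false

universe u v

open CategoryTheory CategoryTheory.Abelian

namespace Crest.Agent.R186.Coind328

open ExtRes700

/-! ### one short exact sequence with injective middle term -/

section ses

variable {R : Type u} [Ring R]
variable {Y I Y' : Type u} [AddCommGroup Y] [Module R Y] [AddCommGroup I] [Module R I]
  [AddCommGroup Y'] [Module R Y'] (f : Y →ₗ[R] I) (g : I →ₗ[R] Y')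
  (hf : Function.Injective f) (hg : Function.Surjective g) (he : Function.Exact f g)
  {X : Type u} [AddCommGroup X] [Module R X]

include hf hg he

theorem ses_one (hI : E0 R X I 1) : E0 R X Y 1 ↔
    ∀ φ : X →ₗ[R] Y', ∃ ψ : X →ₗ[R] I, g ∘ₗ ψ = φ := by
  have hse := se f g hf hg he
  constructor
  · intro h φ
    let x : Ext (ModuleCat.of R X) (ModuleCat.of R Y') 0 := Ext.mk₀ (ModuleCat.ofHom φ)
    have h0 : x.comp hse.extClass (zero_add 1) = 0 := h.elim _ _
    obtain ⟨y, hy⟩ := Ext.covariant_sequence_exact₃ (ModuleCat.of R X) hse x (zero_add 1) h0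
    obtain ⟨ψ, rfl⟩ := Ext.homEquiv₀.symm.surjective y
    rw [Ext.homEquiv₀_symm_apply, Ext.mk₀_comp_mk₀] at hy
    have h1 := Ext.homEquiv₀.symm.injective
      (a₁ := ψ ≫ ModuleCat.ofHom g) (a₂ := ModuleCat.ofHom φ)
      (by simpa [Ext.homEquiv₀_symm_apply] using hy)
    exact ⟨ψ.hom, congrArg ModuleCat.Hom.hom h1⟩
  · intro h
    apply sub_of_zero
    intro x
    have h0 : x.comp (Ext.mk₀ (ModuleCat.ofHom f)) (add_zero 1) = 0 := hI.elim _ _
    obtain ⟨y, hy⟩ := Ext.covariant_sequence_exact₁ (ModuleCat.of R X) hse x h0 (zero_add 1)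
    obtain ⟨φ, rfl⟩ := Ext.homEquiv₀.symm.surjective y
    obtain ⟨ψ, hψ⟩ := h φ.hom
    have h1 : φ = ModuleCat.ofHom ψ ≫ ModuleCat.ofHom g := by
      ext1
      exact hψ.symm
    rw [← hy, Ext.homEquiv₀_symm_apply, h1, ← Ext.mk₀_comp_mk₀]
    rw [Ext.comp_assoc (Ext.mk₀ (ModuleCat.ofHom ψ))
      (Ext.mk₀ (ModuleCat.ofHom g)) hse.extClass
      (zero_add 0) (zero_add 1) (by omega)]
    have h2 : (Ext.mk₀ (ModuleCat.ofHom g)).comp hse.extClass
      (zero_add 1) = 0 := hse.comp_extClass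
    rw [h2, Ext.comp_zero]

theorem ses_succ (hI : ∀ j, 0 < j → E0 R X I j) (i : ℕ) :
    E0 R X Y (i + 2) ↔ E0 R X Y' (i + 1) := by
  constructor
  · intro h
    exact cright f g hf hg he (i + 1) (hI _ (by omega)) h
  · intro h
    exact cleft f g hf hg he (i + 1) h (hI _ (by omega))

end ses

/-- enough injectives, unbundled -/
theorem exists_emb (A : Type u) [Ring A] (W : Type u) [AddCommGroup W] [Module A W] :
    ∃ (I : Type u) (_ : AddCommGroup I) (_ : Module A I), Module.Injective A I ∧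
      ∃ η : W →ₗ[A] I, Function.Injective η := by
  let J : ModuleCat.{u} A := Injective.under (ModuleCat.of A W)
  let j : ModuleCat.of A W ⟶ J := Injective.ι (ModuleCat.of A W)
  refine ⟨J, inferInstance, inferInstance, ?_, j.hom, ?_⟩
  · apply (Module.injective_iff_injective_object A J).2
    exact (inferInstance : Injective J)
  · exact (ModuleCat.mono_iff_injective j).1 inferInstance

/-! ### coinduction -/

section co

variable (A G : Type u) [Ring A] [Ring G] [Module A G] [IsScalarTower A G G]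

/-- the coinduced module -/
def Co (W : Type u) [AddCommGroup W] [Module A W] : Type u := G →ₗ[A] W

variable {A G}
variable {W : Type u} [AddCommGroup W] [Module A W]

namespace Co

instance : AddCommGroup (Co A G W) := inferInstanceAs (AddCommGroup (G →ₗ[A] W))

/-- the underlying map -/
def ev (φ : Co A G W) : G →ₗ[A] W := φ

/-- from a linear map -/
def of (φ : G →ₗ[A] W) : Co A G W := φ

@[simp] theorem ev_of (φ : G →ₗ[A] W) : ev (of φ) = φ := rfl
@[simp] theorem of_ev (φ : Co A G W) : of (ev φ) = φ := rfl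

@[ext] theorem ext {φ ψ : Co A G W} (h : ∀ g, φ.ev g = ψ.ev g) : φ = ψ := LinearMap.ext h

@[simp] theorem ev_add (φ ψ : Co A G W) : (φ + ψ).ev = φ.ev + ψ.ev := rfl
@[simp] theorem ev_zero : (0 : Co A G W).ev = 0 := rfl
@[simp] theorem ev_sub (φ ψ : Co A G W) : (φ - ψ).ev = φ.ev - ψ.ev := rfl

/-- right multiplication -/
def rm (x : G) : G →ₗ[A] G where
  toFun g := g * x
  map_add' a b := add_mul a b x
  map_smul' a b := smul_mul_assoc a b x

@[simp] theorem rm_apply (x g : G) : rm (A := A) x g = g * x := rfl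

instance : Module G (Co A G W) where
  smul x φ := of (φ.ev ∘ₗ rm x)
  one_smul φ := by
    apply ext
    intro g
    change φ.ev (g * 1) = φ.ev g
    rw [mul_one]
  mul_smul x y φ := by
    apply ext
    intro g
    change φ.ev (g * (x * y)) = φ.ev (g * x * y)
    rw [mul_assoc]
  smul_zero x := rfl
  smul_add x φ ψ := rfl
  add_smul x y φ := by
    apply ext
    intro g
    change φ.ev (g * (x + y)) = φ.ev (g * x) + φ.ev (g * y)
    rw [mul_add, map_add]
  zero_smul φ := by
    apply ext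
    intro g
    change φ.ev (g * 0) = 0
    rw [mul_zero, map_zero]

@[simp] theorem ev_smul (x : G) (φ : Co A G W) (g : G) : (x • φ).ev g = φ.ev (g * x) := rfl

variable {W' : Type u} [AddCommGroup W'] [Module A W']

/-- functoriality -/
def map (h : W →ₗ[A] W') : Co A G W →ₗ[G] Co A G W' where
  toFun φ := of (h ∘ₗ φ.ev)
  map_add' φ ψ := by
    apply ext
    intro g
    exact map_add h _ _
  map_smul' x φ := rfl

@[simp] theorem ev_map (h : W →ₗ[A] W') (φ : Co A G W) (g : G) :
    (map h φ).ev g = h (φ.ev g) := rfl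

theorem map_inj {h : W →ₗ[A] W'} (hh : Function.Injective h) :
    Function.Injective (map (G := G) h) := by
  intro φ ψ e
  apply ext
  intro g
  apply hh
  exact LinearMap.congr_fun (congrArg ev e) g

section adj

variable {Z : Type u} [AddCommGroup Z] [Module G Z] [Module A Z] [IsScalarTower A G Z]

/-- `Hom_A(Z, W) → Hom_G(Z, Co W)` -/
def up (ψ : Z →ₗ[A] W) : Z →ₗ[G] Co A G W where
  toFun z := of
    { toFun := fun g => ψ (g • z)
      map_add' := fun a b => by rw [add_smul, map_add]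
      map_smul' := fun a b => by
        rw [RingHom.id_apply, smul_assoc, map_smul] }
  map_add' y z := by
    apply ext
    intro g
    change ψ (g • (y + z)) = ψ (g • y) + ψ (g • z)
    rw [smul_add, map_add]
  map_smul' x z := by
    apply ext
    intro g
    change ψ (g • x • z) = ψ ((g * x) • z)
    rw [mul_smul]

@[simp] theorem ev_up (ψ : Z →ₗ[A] W) (z : Z) (g : G) : (up (G := G) ψ z).ev g = ψ (g • z) := rfl

/-- `Hom_G(Z, Co W) → Hom_A(Z, W)` -/
def down (Φ : Z →ₗ[G] Co A G W) : Z →ₗ[A] W where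
  toFun z := (Φ z).ev 1
  map_add' y z := by rw [map_add, ev_add, LinearMap.add_apply]
  map_smul' a z := by
    have h1 : a • z = (a • (1 : G)) • z := by rw [smul_assoc, one_smul]
    rw [h1, map_smul, ev_smul, one_mul, map_smul, RingHom.id_apply]

@[simp] theorem down_apply (Φ : Z →ₗ[G] Co A G W) (z : Z) : down Φ z = (Φ z).ev 1 := rfl

theorem up_down (Φ : Z →ₗ[G] Co A G W) : up (down Φ) = Φ := by
  apply LinearMap.ext
  intro z
  apply ext
  intro g
  rw [ev_up, down_apply, map_smul, ev_smul, one_mul]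

theorem down_up (ψ : Z →ₗ[A] W) : down (up (G := G) ψ) = ψ := by
  apply LinearMap.ext
  intro z
  rw [down_apply, ev_up, one_smul]

theorem map_up (h : W →ₗ[A] W') (ψ : Z →ₗ[A] W) : map h ∘ₗ up (G := G) ψ = up (h ∘ₗ ψ) := rfl

end adj

/-- the ring map -/
def toG (A G : Type u) [Ring A] [Ring G] [Module A G] [IsScalarTower A G G] : A →+* G where
  toFun a := a • (1 : G)
  map_one' := one_smul A 1
  map_mul' a b := by rw [smul_mul_assoc, one_mul, mul_smul]
  map_zero' := zero_smul A 1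
  map_add' a b := add_smul a b 1

theorem inj_co (hW : Module.Injective A W) : Module.Injective G (Co A G W) := by
  constructor
  intro X Y _ _ _ _ f hf g
  letI mX : Module A X := Module.compHom X (toG A G)
  letI mY : Module A Y := Module.compHom Y (toG A G)
  haveI tX : IsScalarTower A G X := ⟨fun a x y => by
    change (a • x) • y = (a • (1 : G)) • (x • y)
    rw [← mul_smul, smul_mul_assoc, one_mul]⟩
  haveI tY : IsScalarTower A G Y := ⟨fun a x y => by
    change (a • x) • y = (a • (1 : G)) • (x • y)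
    rw [← mul_smul, smul_mul_assoc, one_mul]⟩
  let f' : X →ₗ[A] Y :=
    { toFun := f
      map_add' := map_add f
      map_smul' := fun a x => by
        change f ((a • (1 : G)) • x) = (a • (1 : G)) • f x
        rw [map_smul] }
  obtain ⟨h, hh⟩ := hW.out f' hf (down g)
  refine ⟨up h, fun x => ?_⟩
  apply ext
  intro b
  rw [ev_up]
  have h1 : b • f x = f' (b • x) := (map_smul f b x).symm
  rw [h1, hh, down_apply, map_smul, ev_smul, one_mul]

end Co

end co

/-! ### the theorem -/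

section main

variable {A G : Type u} [Ring A] [Ring G] [Module A G] [IsScalarTower A G G]

theorem zero_iff_co {W : Type u} [AddCommGroup W] [Module A W]
    {Z : Type u} [AddCommGroup Z] [Module G Z] [Module A Z] [IsScalarTower A G Z] :
    E0 G Z (Co A G W) 0 ↔ E0 A Z W 0 := by
  rw [zero_iff, zero_iff]
  constructor
  · intro h f
    have h1 := h (Co.up f)
    rw [← Co.down_up (G := G) f, h1]
    rfl
  · intro h f
    rw [← Co.up_down f, h (Co.down f)]
    apply LinearMap.ext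
    intro z
    apply Co.ext
    intro g
    rfl

/-- **coinduction and `Ext`.** -/
theorem ext_co (i : ℕ) : ∀ (W : Type u) [AddCommGroup W] [Module A W]
    (_ : ∀ j, 0 < j → E0 A G W j)
    (Z : Type u) [AddCommGroup Z] [Module G Z] [Module A Z] [IsScalarTower A G Z],
    E0 G Z (Co A G W) i ↔ E0 A Z W i := by
  induction i with
  | zero =>
    intro W _ _ _ Z _ _ _ _
    exact zero_iff_co
  | succ i ih =>
    intro W _ _ hW Z _ _ _ _
    obtain ⟨I, _, _, hI, η, hη⟩ := exists_emb A W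
    let W' := I ⧸ LinearMap.range η
    let π : I →ₗ[A] W' := (LinearMap.range η).mkQ
    have hπ : Function.Surjective π := Submodule.mkQ_surjective _
    have hex : Function.Exact η π := by
      intro x
      change (Submodule.Quotient.mk x : W') = 0 ↔ _
      rw [Submodule.Quotient.mk_eq_zero]
      rfl
    have hW' : ∀ j, 0 < j → E0 A G W' j := fun j hj =>
      cright η π hη hπ hex j (by
        obtain ⟨k, rfl⟩ := Nat.exists_eq_add_of_le' hj
        exact inj hI k) (hW (j + 1) (by omega))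
    have hl : ∀ φ : G →ₗ[A] W', ∃ ψ : G →ₗ[A] I, π ∘ₗ ψ = φ :=
      (ses_one η π hη hπ hex (inj hI 0)).1 (hW 1 one_pos)
    have cη := Co.map_inj (G := G) hη
    have cπ : Function.Surjective (Co.map (G := G) π) := by
      intro φ
      obtain ⟨ψ, hψ⟩ := hl φ.ev
      refine ⟨Co.of ψ, ?_⟩
      apply Co.ext
      intro g
      exact LinearMap.congr_fun hψ g
    have cex : Function.Exact (Co.map (G := G) η) (Co.map (G := G) π) := by
      intro φ
      constructor
      · intro h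
        have h1 : ∀ g, φ.ev g ∈ LinearMap.range η := by
          intro g
          have h2 : π (φ.ev g) = 0 := LinearMap.congr_fun (congrArg Co.ev h) g
          exact (hex _).1 h2
        let e := LinearEquiv.ofInjective η hη
        refine ⟨Co.of (e.symm.toLinearMap ∘ₗ (φ.ev.codRestrict _ h1)), ?_⟩
        apply Co.ext
        intro g
        have h3 : e (e.symm (φ.ev.codRestrict _ h1 g)) = φ.ev.codRestrict _ h1 g :=
          e.apply_symm_apply _
        exact congrArg Subtype.val h3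
      · rintro ⟨ψ, rfl⟩
        apply Co.ext
        intro g
        exact hex.apply_apply_eq_zero (ψ.ev g)
    have cI : Module.Injective G (Co A G I) := Co.inj_co hI
    cases i with
    | zero =>
      change E0 G Z (Co A G W) 1 ↔ E0 A Z W 1
      rw [ses_one _ _ cη cπ cex (inj cI 0), ses_one η π hη hπ hex (inj hI 0)]
      constructor
      · intro h φ
        obtain ⟨Ψ, hΨ⟩ := h (Co.up φ)
        refine ⟨Co.down Ψ, ?_⟩
        apply LinearMap.ext
        intro z
        have h1 := LinearMap.congr_fun (congrArg Co.ev (LinearMap.congr_fun hΨ z)) 1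
        change π ((Ψ z).ev 1) = φ z
        have h2 : (Co.up (G := G) φ z).ev 1 = φ z := by rw [Co.ev_up, one_smul]
        rw [← h2]
        exact h1
      · intro h Φ
        obtain ⟨ψ, hψ⟩ := h (Co.down Φ)
        refine ⟨Co.up ψ, ?_⟩
        rw [Co.map_up, hψ, Co.up_down]
    | succ i =>
      rw [ses_succ _ _ cη cπ cex (fun j hj => by
        obtain ⟨k, rfl⟩ := Nat.exists_eq_add_of_le' hj
        exact inj cI k) i, ses_succ η π hη hπ hex (fun j hj => by
        obtain ⟨k, rfl⟩ := Nat.exists_eq_add_of_le' hj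
        exact inj hI k) i]
      exact ih W' hW' Z

end main

end Crest.Agent.R186.Coind328
end

-- ▼ part R186/LinkA_328
section

/-!
Row 186, S0281, block LINK (helper328): the `A`-level block of `LinkK_721`.

* `XX` : the module `X₀ = {(x, y) ∈ I₁ × J | d₁ x = t y}`; exact `0 → V → I₀ → X₀ → U₁ → 0`,
  `U₁ = ker (d₂ ∘ t)`, and `Ext^*(V', X₀) = 0`, `Ext^*(X₀, W) = 0`;
* `YY` : the module `Y₁ = (P₁ × Y) / P₂`; exact `0 → Y / λ P₃ → Y₁ → P₀ → W → 0`, and
  `Ext^*(V', Y₁) = 0`, `Ext^*(Y₁, W) = 0`.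
-/

set_option autoImplicit false
set_option linter.unusedSectionVars false
set_option linter.style.haveILetI false

universe u

open CategoryTheory CategoryTheory.Abelian

namespace Crest.Agent.R186.LinkA328

open ExtRes700

variable {A : Type u} [Ring A]

/-! ### two-term lemmas -/

section two

variable {X Y Z : Type u} [AddCommGroup X] [Module A X] [AddCommGroup Y] [Module A Y]
  [AddCommGroup Z] [Module A Z] (f : X →ₗ[A] Y) (g : Y →ₗ[A] Z)
  (hf : Function.Injective f) (hg : Function.Surjective g) (he : Function.Exact f g)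

include hf hg he

/-- `0 → X → Y → Z → 0` with `Ext^{>0}(N, Y) = 0 = Ext^{>0}(N, Z)` and `Hom(N, Y) ≃ Hom(N, Z)` -/
theorem ker_left {N : Type u} [AddCommGroup N] [Module A N]
    (hY : ∀ j, 0 < j → E0 A N Y j) (hZ : ∀ j, 0 < j → E0 A N Z j)
    (hi : ∀ φ : N →ₗ[A] Y, g ∘ₗ φ = 0 → φ = 0)
    (hs : ∀ φ : N →ₗ[A] Z, ∃ ψ : N →ₗ[A] Y, g ∘ₗ ψ = φ) (j : ℕ) : E0 A N X j := by
  rcases j with _ | _ | j
  · rw [zero_iff]
    intro φ
    have h1 : f ∘ₗ φ = 0 := by
      apply hi
      rw [← LinearMap.comp_assoc, he.linearMap_comp_eq_zero, LinearMap.zero_comp]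
    ext x
    apply hf
    rw [LinearMap.zero_apply, map_zero]
    exact LinearMap.congr_fun h1 x
  · exact (Coind328.ses_one f g hf hg he (hY 1 one_pos)).2 hs
  · exact cleft f g hf hg he (j + 1) (hZ _ (by omega)) (hY _ (by omega))

/-- `0 → X → Y → Z → 0` with `Ext^{>0}(Y, N) = 0 = Ext^{>0}(X, N)` and `Hom(Y, N) ≃ Hom(X, N)` -/
theorem coker_right {N : Type u} [AddCommGroup N] [Module A N]
    (hY : ∀ j, 0 < j → E0 A Y N j) (hX : ∀ j, 0 < j → E0 A X N j)
    (hi : ∀ φ : Y →ₗ[A] N, φ ∘ₗ f = 0 → φ = 0)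
    (hs : ∀ φ : X →ₗ[A] N, ∃ ψ : Y →ₗ[A] N, ψ ∘ₗ f = φ) (j : ℕ) : E0 A Z N j := by
  rcases j with _ | _ | j
  · rw [zero_iff]
    intro φ
    have h1 : φ ∘ₗ g = 0 := by
      apply hi
      rw [LinearMap.comp_assoc, he.linearMap_comp_eq_zero, LinearMap.comp_zero]
    ext x
    obtain ⟨y, rfl⟩ := hg x
    exact LinearMap.congr_fun h1 y
  · exact Cell580.ev_one he hf hg (hY 1 one_pos) hs
  · exact right f g hf hg he (j + 1) (hX _ (by omega)) (hY _ (by omega))

/-- all three-term vanishing in the second variable, left term from the two others -/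
theorem left_of {N : Type u} [AddCommGroup N] [Module A N]
    (hY : ∀ j, E0 A Y N j) (hZ : ∀ j, E0 A Z N j) (j : ℕ) : E0 A X N j :=
  left f g hf hg he j (hY j) (hZ (j + 1))


theorem cright_of {N : Type u} [AddCommGroup N] [Module A N]
    (hX : ∀ j, E0 A N X j) (hY : ∀ j, E0 A N Y j) (j : ℕ) : E0 A N Z j :=
  cright f g hf hg he j (hY j) (hX (j + 1))


end two

/-! ### `X₀` -/

section X0

variable {V I0 I1 I2 I3 J : Type u} [AddCommGroup V] [Module A V] [AddCommGroup I0] [Module A I0]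
  [AddCommGroup I1] [Module A I1] [AddCommGroup I2] [Module A I2] [AddCommGroup I3] [Module A I3]
  [AddCommGroup J] [Module A J]
  (η : V →ₗ[A] I0) (d0 : I0 →ₗ[A] I1) (d1 : I1 →ₗ[A] I2) (d2 : I2 →ₗ[A] I3) (t : J →ₗ[A] I2)

/-- `{(x, y) | d₁ x = t y}` -/
def XX : Submodule A (I1 × J) where
  carrier := {z | d1 z.1 = t z.2}
  zero_mem' := by simp
  add_mem' := fun {a b} ha hb => by
    simp only [Set.mem_setOf_eq, Prod.fst_add, Prod.snd_add, map_add] at *
    rw [ha, hb]
  smul_mem' := fun c a ha => by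
    simp only [Set.mem_setOf_eq, Prod.smul_fst, Prod.smul_snd, map_smul] at *
    rw [ha]

/-- `I₁ × J → I₂` -/
def xq : I1 × J →ₗ[A] I2 := d1 ∘ₗ LinearMap.fst A I1 J - t ∘ₗ LinearMap.snd A I1 J

@[simp] theorem xq_apply (z : I1 × J) : xq d1 t z = d1 z.1 - t z.2 := rfl

theorem xx_exact : Function.Exact (XX d1 t).subtype (xq d1 t) := by
  intro z
  rw [xq_apply, sub_eq_zero]
  constructor
  · intro h
    exact ⟨⟨z, h⟩, rfl⟩
  · rintro ⟨y, rfl⟩
    exact y.2

theorem xq_surj (h12 : Function.Exact d1 d2) (hr : Function.Surjective (d2 ∘ₗ t)) :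
    Function.Surjective (xq d1 t) := by
  intro z
  obtain ⟨y, hy⟩ := hr (d2 z)
  have h1 : d2 (z - t y) = 0 := by
    rw [map_sub, sub_eq_zero]
    exact hy.symm
  obtain ⟨x, hx⟩ := (h12 _).1 h1
  refine ⟨(x, -y), ?_⟩
  rw [xq_apply, hx, map_neg, sub_neg_eq_add, sub_add_cancel]

/-- `I₀ → X₀` -/
def xa (h01 : Function.Exact d0 d1) : I0 →ₗ[A] XX d1 t where
  toFun z := ⟨(d0 z, 0), by
    change d1 (d0 z) = t 0
    rw [map_zero]
    exact h01.apply_apply_eq_zero z⟩
  map_add' a b := by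
    apply Subtype.ext
    apply Prod.ext
    · exact map_add d0 a b
    · exact (add_zero (0 : J)).symm
  map_smul' c a := by
    apply Subtype.ext
    apply Prod.ext
    · exact map_smul d0 c a
    · exact (smul_zero c).symm

@[simp] theorem xa_fst (h01 : Function.Exact d0 d1) (z : I0) :
    (xa d0 d1 t h01 z).1.1 = d0 z := rfl
@[simp] theorem xa_snd (h01 : Function.Exact d0 d1) (z : I0) :
    (xa d0 d1 t h01 z).1.2 = 0 := rfl

/-- `X₀ → J` -/
def xb : XX d1 t →ₗ[A] J := LinearMap.snd A I1 J ∘ₗ (XX d1 t).subtype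

@[simp] theorem xb_apply (z : XX d1 t) : xb d1 t z = z.1.2 := rfl

/-- exactness at `I₀` -/
theorem xa_exact (h : Function.Exact η d0) (h01 : Function.Exact d0 d1) :
    Function.Exact η (xa d0 d1 t h01) := by
  intro z
  rw [← h z]
  constructor
  · intro e
    exact congrArg (fun w => w.1.1) e
  · intro e
    apply Subtype.ext
    apply Prod.ext
    · exact e
    · rfl

/-- exactness at `X₀` -/
theorem xb_exact (h01 : Function.Exact d0 d1) :
    Function.Exact (xa d0 d1 t h01) (xb d1 t) := by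
  intro z
  constructor
  · intro e
    have h1 : d1 z.1.1 = 0 := by
      rw [z.2]
      change t (xb d1 t z) = 0
      rw [e, map_zero]
    obtain ⟨y, hy⟩ := (h01 _).1 h1
    refine ⟨y, ?_⟩
    apply Subtype.ext
    apply Prod.ext
    · exact hy
    · exact e.symm
  · rintro ⟨y, rfl⟩
    rfl

/-- the range of `X₀ → J` is `U₁` -/
theorem xb_range (h12 : Function.Exact d1 d2) (y : J) :
    (∃ z, xb d1 t z = y) ↔ d2 (t y) = 0 := by
  constructor
  · rintro ⟨z, rfl⟩
    rw [xb_apply, ← z.2]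
    exact h12.apply_apply_eq_zero _
  · intro h
    obtain ⟨x, hx⟩ := (h12 _).1 h
    exact ⟨⟨(x, y), hx⟩, rfl⟩

/-- **(V1)** `Ext^*(N, X₀) = 0`. -/
theorem xx_left (h12 : Function.Exact d1 d2) (hr : Function.Surjective (d2 ∘ₗ t))
    {N : Type u} [AddCommGroup N] [Module A N]
    (h1 : ∀ j, 0 < j → E0 A N I1 j) (h2 : ∀ j, 0 < j → E0 A N I2 j) (hJ : ∀ j, E0 A N J j)
    (hi : ∀ φ : N →ₗ[A] I1, d1 ∘ₗ φ = 0 → φ = 0)
    (hs : ∀ φ : N →ₗ[A] I2, ∃ ψ : N →ₗ[A] I1, d1 ∘ₗ ψ = φ) (j : ℕ) : E0 A N (XX d1 t) j := by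
  refine ker_left (XX d1 t).subtype (xq d1 t) (Submodule.injective_subtype _)
    (xq_surj d1 d2 t h12 hr) (xx_exact d1 t)
    (fun j hj => prod_right j (h1 j hj) (hJ j)) h2 ?_ ?_ j
  · intro φ hφ
    have h3 : LinearMap.snd A I1 J ∘ₗ φ = 0 := zero_iff.1 (hJ 0) _
    have h4 : d1 ∘ₗ (LinearMap.fst A I1 J ∘ₗ φ) = 0 := by
      ext x
      have h5 := LinearMap.congr_fun hφ x
      rw [LinearMap.comp_apply, xq_apply, LinearMap.zero_apply] at h5
      have h6 : (φ x).2 = 0 := LinearMap.congr_fun h3 x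
      rw [h6, map_zero, sub_zero] at h5
      exact h5
    have h5 := hi _ h4
    ext x
    · exact LinearMap.congr_fun h5 x
    · exact LinearMap.congr_fun h3 x
  · intro φ
    obtain ⟨ψ, hψ⟩ := hs φ
    refine ⟨LinearMap.inl A I1 J ∘ₗ ψ, ?_⟩
    ext x
    have h5 := LinearMap.congr_fun hψ x
    rw [LinearMap.comp_apply, xq_apply]
    change d1 (ψ x) - t 0 = φ x
    rw [map_zero, sub_zero]
    exact h5

/-- **(V3)** `Ext^*(X₀, N) = 0`. -/
theorem xx_right (h12 : Function.Exact d1 d2) (hr : Function.Surjective (d2 ∘ₗ t))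
    {N : Type u} [AddCommGroup N] [Module A N]
    (h1 : ∀ j, E0 A I1 N j) (h2 : ∀ j, E0 A I2 N j) (hJ : ∀ j, E0 A J N j) (j : ℕ) :
    E0 A (XX d1 t) N j :=
  left_of (XX d1 t).subtype (xq d1 t) (Submodule.injective_subtype _)
    (xq_surj d1 d2 t h12 hr) (xx_exact d1 t) (fun j => prod_left j (h1 j) (hJ j)) h2 j

end X0

/-! ### `Y₁` -/

section Y1

variable {W P0 P1 P2 P3 Y : Type u} [AddCommGroup W] [Module A W] [AddCommGroup P0] [Module A P0]
  [AddCommGroup P1] [Module A P1] [AddCommGroup P2] [Module A P2] [AddCommGroup P3] [Module A P3]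
  [AddCommGroup Y] [Module A Y]
  (d3 : P3 →ₗ[A] P2) (d2 : P2 →ₗ[A] P1) (d1 : P1 →ₗ[A] P0) (ε : P0 →ₗ[A] W) (t : P2 →ₗ[A] Y)

/-- `P₂ → P₁ × Y` -/
def yq : P2 →ₗ[A] P1 × Y := d2.prod (-t)

@[simp] theorem yq_apply (x : P2) : yq d2 t x = (d2 x, -t x) := rfl

/-- `(P₁ × Y) / P₂` -/
abbrev YY : Type u := (P1 × Y) ⧸ LinearMap.range (yq d2 t)

theorem yq_inj (h32 : Function.Exact d3 d2) (hl : Function.Injective (t ∘ₗ d3)) :
    Function.Injective (yq d2 t) := by
  rw [injective_iff_map_eq_zero]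
  intro x hx
  rw [yq_apply] at hx
  have h1 : d2 x = 0 := congrArg Prod.fst hx
  have h2 : t x = 0 := neg_eq_zero.1 (congrArg Prod.snd hx)
  obtain ⟨z, rfl⟩ := (h32 _).1 h1
  have h3 : z = 0 := (injective_iff_map_eq_zero _).1 hl z h2
  rw [h3, map_zero]

theorem yq_exact : Function.Exact (yq d2 t) (LinearMap.range (yq d2 t)).mkQ := by
  intro x
  rw [Submodule.mkQ_apply, Submodule.Quotient.mk_eq_zero]
  rfl

/-- `Y → Y₁` -/
def ya : Y →ₗ[A] YY d2 t := (LinearMap.range (yq d2 t)).mkQ ∘ₗ LinearMap.inr A P1 Y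

theorem ya_apply (y : Y) : ya d2 t y = Submodule.Quotient.mk (0, y) := rfl

/-- the kernel of `Y → Y₁` is the range of `λ = t ∘ d₃` -/
theorem ya_ker (h32 : Function.Exact d3 d2) (y : Y) :
    ya d2 t y = 0 ↔ ∃ x, t (d3 x) = y := by
  rw [ya_apply, Submodule.Quotient.mk_eq_zero]
  constructor
  · rintro ⟨z, hz⟩
    rw [yq_apply] at hz
    have h1 : d2 z = 0 := congrArg Prod.fst hz
    have h2 : -t z = y := congrArg Prod.snd hz
    obtain ⟨x, rfl⟩ := (h32 _).1 h1
    exact ⟨-x, by rw [map_neg, map_neg]; exact h2⟩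
  · rintro ⟨x, rfl⟩
    refine ⟨-(d3 x), ?_⟩
    rw [yq_apply]
    apply Prod.ext
    · change d2 (-(d3 x)) = 0
      rw [map_neg, h32.apply_apply_eq_zero, neg_zero]
    · change -t (-(d3 x)) = t (d3 x)
      rw [map_neg, neg_neg]

/-- `Y₁ → P₀` -/
def yb (h21 : Function.Exact d2 d1) : YY d2 t →ₗ[A] P0 :=
  (LinearMap.range (yq d2 t)).liftQ (d1 ∘ₗ LinearMap.fst A P1 Y) (by
    rintro _ ⟨x, rfl⟩
    exact h21.apply_apply_eq_zero x)


/-- exactness at `Y₁` -/
theorem yb_exact (h21 : Function.Exact d2 d1) :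
    Function.Exact (ya d2 t) (yb d2 d1 t h21) := by
  intro z
  obtain ⟨z, rfl⟩ := Submodule.mkQ_surjective _ z
  constructor
  · intro h
    have h1 : d1 z.1 = 0 := h
    obtain ⟨x, hx⟩ := (h21 _).1 h1
    refine ⟨z.2 + t x, ?_⟩
    rw [ya_apply, Submodule.mkQ_apply, Submodule.Quotient.eq]
    refine ⟨-x, ?_⟩
    rw [yq_apply]
    apply Prod.ext
    · change d2 (-x) = 0 - z.1
      rw [map_neg, hx, zero_sub]
    · change -t (-x) = (z.2 + t x) - z.2
      rw [map_neg, neg_neg, add_sub_cancel_left]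
  · rintro ⟨y, hy⟩
    rw [← hy]
    change d1 (0 : P1) = 0
    exact map_zero d1

/-- exactness at `P₀` -/
theorem ye_exact (h21 : Function.Exact d2 d1) (h10 : Function.Exact d1 ε) :
    Function.Exact (yb d2 d1 t h21) ε := by
  intro z
  rw [h10 z]
  constructor
  · rintro ⟨x, rfl⟩
    exact ⟨Submodule.Quotient.mk (x, 0), rfl⟩
  · rintro ⟨w, rfl⟩
    obtain ⟨w, rfl⟩ := Submodule.mkQ_surjective _ w
    exact ⟨w.1, rfl⟩

/-- **(V2)** `Ext^*(N, Y₁) = 0`. -/
theorem yy_left (h32 : Function.Exact d3 d2) (hl : Function.Injective (t ∘ₗ d3))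
    {N : Type u} [AddCommGroup N] [Module A N]
    (h1 : ∀ j, E0 A N P1 j) (h2 : ∀ j, E0 A N P2 j) (hY : ∀ j, E0 A N Y j) (j : ℕ) :
    E0 A N (YY d2 t) j :=
  cright_of (yq d2 t) (LinearMap.range (yq d2 t)).mkQ (yq_inj d3 d2 t h32 hl)
    (Submodule.mkQ_surjective _) (yq_exact d2 t) h2 (fun j => prod_right j (h1 j) (hY j)) j

/-- **(V4)** `Ext^*(Y₁, N) = 0`. -/
theorem yy_right (h32 : Function.Exact d3 d2) (hl : Function.Injective (t ∘ₗ d3))
    {N : Type u} [AddCommGroup N] [Module A N]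
    (h1 : ∀ j, 0 < j → E0 A P1 N j) (h2 : ∀ j, 0 < j → E0 A P2 N j) (hY : ∀ j, E0 A Y N j)
    (hi : ∀ φ : P1 →ₗ[A] N, φ ∘ₗ d2 = 0 → φ = 0)
    (hs : ∀ φ : P2 →ₗ[A] N, ∃ ψ : P1 →ₗ[A] N, ψ ∘ₗ d2 = φ) (j : ℕ) :
    E0 A (YY d2 t) N j := by
  refine coker_right (yq d2 t) (LinearMap.range (yq d2 t)).mkQ (yq_inj d3 d2 t h32 hl)
    (Submodule.mkQ_surjective _) (yq_exact d2 t)
    (fun j hj => prod_left j (h1 j hj) (hY j)) h2 ?_ ?_ j
  · intro φ hφ
    have h3 : φ ∘ₗ LinearMap.inr A P1 Y = 0 := zero_iff.1 (hY 0) _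
    have h4 : (φ ∘ₗ LinearMap.inl A P1 Y) ∘ₗ d2 = 0 := by
      ext x
      have h5 := LinearMap.congr_fun hφ x
      have h6 : φ (0, t x) = 0 := LinearMap.congr_fun h3 (t x)
      rw [LinearMap.comp_apply, yq_apply, LinearMap.zero_apply] at h5
      have h7 : ((d2 x, -t x) : P1 × Y) = (d2 x, 0) - (0, t x) := by
        apply Prod.ext
        · exact (sub_zero _).symm
        · exact (zero_sub _).symm
      rw [h7, map_sub, h6, sub_zero] at h5
      exact h5
    have h5 := hi _ h4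
    ext x
    · exact LinearMap.congr_fun h5 x
    · exact LinearMap.congr_fun h3 x
  · intro φ
    obtain ⟨ψ, hψ⟩ := hs φ
    refine ⟨ψ ∘ₗ LinearMap.fst A P1 Y, ?_⟩
    ext x
    exact LinearMap.congr_fun hψ x

end Y1

end Crest.Agent.R186.LinkA328
end

-- ▼ part R186/Trans_328
section

/-!
Row 186, S0281 (helper328): transport of `Ext` along a ring isomorphism, and the twisted dual
`Dt τ X' = Dl K X'` of a left `A'`-module along `τ : A → A'ᵐᵒᵖ`.
-/

set_option autoImplicit false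
set_option linter.style.haveILetI false
set_option linter.unusedSectionVars false

universe u v

open CategoryTheory CategoryTheory.Abelian MulOpposite

namespace Crest.Agent.R186.Trans328

open ExtRes700 Coind328 Dual700

section iso

variable {R S : Type u} [Ring R] [Ring S] [Module R S] [IsScalarTower R S S]

/-- `S ≃ R` as `R`-modules -/
noncomputable def selfEquiv (hb : Function.Bijective (fun r : R => r • (1 : S))) : R ≃ₗ[R] S :=
  LinearEquiv.ofBijective
    { toFun := fun r => r • (1 : S)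
      map_add' := fun a b => add_smul a b 1
      map_smul' := fun a b => by
        rw [smul_eq_mul, mul_smul, RingHom.id_apply] } hb

variable {Y : Type u} [AddCommGroup Y] [Module S Y] [Module R Y] [IsScalarTower R S Y]

/-- `Hom_R(S, Y) = Y` -/
noncomputable def coEquiv (hb : Function.Bijective (fun r : R => r • (1 : S))) :
    Co R S Y ≃ₗ[S] Y := by
  let f : Y →ₗ[S] Co R S Y := Co.up (LinearMap.id : Y →ₗ[R] Y)
  have hf : Function.Bijective f := by
    constructor
    · intro x y h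
      have h1 := LinearMap.congr_fun (congrArg Co.ev h) 1
      change (LinearMap.id : Y →ₗ[R] Y) ((1 : S) • x) = (LinearMap.id : Y →ₗ[R] Y) ((1 : S) • y)
        at h1
      rw [one_smul, one_smul] at h1
      exact h1
    · intro φ
      refine ⟨φ.ev 1, ?_⟩
      apply Co.ext
      intro s
      obtain ⟨r, rfl⟩ := hb.2 s
      rw [Co.ev_up, LinearMap.id_apply]
      change (r • (1 : S)) • φ.ev 1 = φ.ev (r • (1 : S))
      rw [smul_assoc, one_smul, map_smul]
  exact (LinearEquiv.ofBijective f hf).symm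

/-- **`Ext` along a ring isomorphism** (as a bijective scalar action). -/
theorem e0_iff (hb : Function.Bijective (fun r : R => r • (1 : S)))
    (X : Type u) [AddCommGroup X] [Module S X] [Module R X] [IsScalarTower R S X] (i : ℕ) :
    E0 S X Y i ↔ E0 R X Y i := by
  have hp : ∀ j, 0 < j → E0 R S Y j := by
    intro j hj
    obtain ⟨k, rfl⟩ := Nat.exists_eq_add_of_le' hj
    exact iso_left (selfEquiv hb) (k + 1) (proj (R := R) (X := R) k)
  have h1 := ext_co (A := R) (G := S) i Y hp X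
  rw [← h1]
  constructor
  · intro h
    exact iso_right (coEquiv hb).symm i h
  · intro h
    exact iso_right (coEquiv hb) i h

end iso

/-! ### restriction along a ring isomorphism -/

section tau

variable {A B : Type u} [Ring A] [Ring B]

/-- restriction of scalars along `σ` -/
def Rs (_σ : A ≃+* B) (X : Type u) : Type u := X

variable (σ : A ≃+* B) {X Y Z : Type u} [AddCommGroup X] [Module B X] [AddCommGroup Y] [Module B Y]
  [AddCommGroup Z] [Module B Z]

instance : AddCommGroup (Rs σ X) := inferInstanceAs (AddCommGroup X)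

instance : Module A (Rs σ X) := Module.compHom X σ.toRingHom

/-- the identity -/
def toRs (x : X) : Rs σ X := x


theorem Rs.smul_def (a : A) (x : X) : a • toRs σ x = toRs σ (σ a • x) := rfl

/-- restriction of a linear map -/
def Rs.map (f : X →ₗ[B] Y) : Rs σ X →ₗ[A] Rs σ Y where
  toFun x := f x
  map_add' x y := map_add f x y
  map_smul' a x := LinearMap.map_smul f (σ a) (show X from x)

@[simp] theorem Rs.map_apply (f : X →ₗ[B] Y) (x : Rs σ X) : Rs.map σ f x = f x := rfl

/-- a map of restrictions is a restriction -/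
def Rs.unmap (f : Rs σ X →ₗ[A] Rs σ Y) : X →ₗ[B] Y where
  toFun x := f x
  map_add' x y := map_add f x y
  map_smul' b x := by
    have h1 := LinearMap.map_smul f (σ.symm b) x
    have h2 : ∀ z : X, (σ.symm b) • toRs σ z = toRs σ (b • z) := by
      intro z
      rw [Rs.smul_def, σ.apply_symm_apply]
    have h3 : ∀ z : Y, (σ.symm b) • toRs σ z = toRs σ (b • z) := by
      intro z
      rw [Rs.smul_def, σ.apply_symm_apply]
    exact ((congrArg f (h2 x)).symm.trans h1).trans (h3 (f x))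

theorem Rs.map_unmap (f : Rs σ X →ₗ[A] Rs σ Y) : Rs.map σ (Rs.unmap σ f) = f := rfl



/-- **`Ext` along a ring isomorphism.** -/
theorem e0_rs (i : ℕ) : E0 A (Rs σ X) (Rs σ Y) i ↔ E0 B X Y i := by
  letI mB : Module A B := Module.compHom B σ.toRingHom
  letI mX : Module A X := Module.compHom X σ.toRingHom
  letI mY : Module A Y := Module.compHom Y σ.toRingHom
  haveI tB : IsScalarTower A B B := ⟨fun a x y => by
    change (σ a * x) * y = σ a * (x * y)
    rw [mul_assoc]⟩
  haveI tX : IsScalarTower A B X := ⟨fun a x y => by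
    change (σ a * x) • y = σ a • (x • y)
    rw [mul_smul]⟩
  haveI tY : IsScalarTower A B Y := ⟨fun a x y => by
    change (σ a * x) • y = σ a • (x • y)
    rw [mul_smul]⟩
  have hb : Function.Bijective (fun r : A => r • (1 : B)) := by
    have h1 : (fun r : A => r • (1 : B)) = σ := by
      funext r
      change σ r * 1 = σ r
      rw [mul_one]
    rw [h1]
    exact σ.bijective
  have h := e0_iff (R := A) (S := B) (Y := Y) hb X i
  exact h.symm

end tau

/-! ### the twisted dual -/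

section dual

variable (K : Type u) [Field K] {A A' : Type u} [Ring A] [Algebra K A] [Ring A'] [Algebra K A']
  (τ : A ≃+* A'ᵐᵒᵖ)

/-- the twisted dual -/
abbrev Dt (X : Type u) [AddCommGroup X] [Module K X] : Type u := Rs τ (Dl K X)

variable {X Y Z : Type u} [AddCommGroup X] [Module K X] [Module A' X] [IsScalarTower K A' X]
  [AddCommGroup Y] [Module K Y] [Module A' Y] [IsScalarTower K A' Y]
  [AddCommGroup Z] [Module K Z] [Module A' Z] [IsScalarTower K A' Z]

/-- the twisted dual of a map -/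
noncomputable def dt (f : X →ₗ[A'] Y) : Dt K τ Y →ₗ[A] Dt K τ X := Rs.map τ (dm K f)






/-- **`Ext_A(Dt Y, Dt X) = Ext_{A'}(X, Y)`.** -/
theorem e0_dt [IsNoetherianRing A'] [Module.Finite A' X] [FiniteDimensional K Y] (i : ℕ) :
    E0 A (Dt K τ Y) (Dt K τ X) i ↔ E0 A' X Y i := by
  rw [e0_rs τ i]
  exact (dual_iff X Y i).symm

/-- every map of twisted duals is a twisted dual -/
theorem dt_full [FiniteDimensional K Y] (F : Dt K τ Y →ₗ[A] Dt K τ X) :
    ∃ f : X →ₗ[A'] Y, dt K τ f = F := by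
  obtain ⟨f, hf⟩ := dm_surjective (Rs.unmap τ F)
  refine ⟨f, ?_⟩
  change Rs.map τ (dm K f) = F
  rw [hf, Rs.map_unmap]

end dual

end Crest.Agent.R186.Trans328
end

-- ▼ part R186/LinkB_328

/-!
Row 186, S0281, block LINK (helper328): the interface base → link.

* `Side K A` : one side of the base over a finite-dimensional `K`-algebra `A`;
* its output: `Y`, `lam : P3 → Y`, `Y1`, and the vanishing of `Ext(V, Y)`, `Ext(Y, W)`,
  `Ext(V, Y1)`, `Ext(Y1, W)`.
-/

set_option autoImplicit false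
set_option linter.unusedSectionVars false
set_option linter.style.haveILetI false

universe u

open CategoryTheory CategoryTheory.Abelian

namespace Crest.Agent.R186.LinkB328

open ExtRes700 LinkA328 Trans328 Dual700

/-- one side of the base -/
structure Side (K : Type u) [Field K] (A : Type u) [Ring A] [Algebra K A] where
  V : Type u
  W : Type u
  P0 : Type u
  P1 : Type u
  P2 : Type u
  P3 : Type u
  [gV : AddCommGroup V]
  [kV : Module K V]
  [mV : Module A V]
  [sV : IsScalarTower K A V]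
  [fV : FiniteDimensional K V]
  [nV : Nontrivial V]
  [gW : AddCommGroup W]
  [kW : Module K W]
  [mW : Module A W]
  [sW : IsScalarTower K A W]
  [fW : FiniteDimensional K W]
  [nW : Nontrivial W]
  [g0 : AddCommGroup P0]
  [k0 : Module K P0]
  [m0 : Module A P0]
  [s0 : IsScalarTower K A P0]
  [f0 : Module.Finite A P0]
  [p0 : Module.Projective A P0]
  [g1 : AddCommGroup P1]
  [k1 : Module K P1]
  [m1 : Module A P1]
  [s1 : IsScalarTower K A P1]
  [f1 : Module.Finite A P1]
  [p1 : Module.Projective A P1]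
  [g2 : AddCommGroup P2]
  [k2 : Module K P2]
  [m2 : Module A P2]
  [s2 : IsScalarTower K A P2]
  [f2 : Module.Finite A P2]
  [p2 : Module.Projective A P2]
  [g3 : AddCommGroup P3]
  [k3 : Module K P3]
  [m3 : Module A P3]
  [s3 : IsScalarTower K A P3]
  [f3 : Module.Finite A P3]
  [p3 : Module.Projective A P3]
  /-- nullness of `V` -/
  null : ∀ j, E0 A V A j
  /-- the resolution of `W` -/
  d3 : P3 →ₗ[A] P2
  d2 : P2 →ₗ[A] P1
  d1 : P1 →ₗ[A] P0
  ε : P0 →ₗ[A] W
  h3 : Function.Injective d3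
  e32 : Function.Exact d3 d2
  e21 : Function.Exact d2 d1
  e10 : Function.Exact d1 ε
  hε : Function.Surjective ε
  /-- right multiplications by `h²` and `a` -/
  h : P3 →ₗ[A] P0
  a : P3 →ₗ[A] P0
  t : P2 →ₗ[A] P0
  ta : t ∘ₗ d3 = a
  hh : Function.Injective h
  ah : ∀ x y, a x = h y → x = 0
  /-- `Hom(P0, W) = K ε` -/
  one : ∀ φ : P0 →ₗ[A] W, ∃ c : K, ∀ x, φ x = c • ε x
  /-- `Hom(P0, W) ≃ Hom(P3, W)` -/
  hi : ∀ φ : P0 →ₗ[A] W, φ ∘ₗ h = 0 → φ = 0
  hs : ∀ φ : P3 →ₗ[A] W, ∃ ψ : P0 →ₗ[A] W, ψ ∘ₗ h = φ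
  /-- `Hom(P1, W) ≃ Hom(P2, W)` -/
  mi : ∀ φ : P1 →ₗ[A] W, φ ∘ₗ d2 = 0 → φ = 0
  ms : ∀ φ : P2 →ₗ[A] W, ∃ ψ : P1 →ₗ[A] W, ψ ∘ₗ d2 = φ

attribute [instance] Side.gV Side.kV Side.mV Side.sV Side.fV Side.nV Side.gW Side.kW Side.mW
  Side.sW Side.fW Side.nW Side.g0 Side.k0 Side.m0 Side.s0 Side.f0 Side.p0 Side.g1 Side.k1 Side.m1
  Side.s1 Side.f1 Side.p1 Side.g2 Side.k2 Side.m2 Side.s2 Side.f2 Side.p2 Side.g3 Side.k3 Side.m3
  Side.s3 Side.f3 Side.p3

/-- `Ext^j(V, P) = 0` for finite projective `P` from `Ext^j(V, A) = 0` -/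
theorem null_proj {A : Type u} [Ring A] {V : Type u} [AddCommGroup V] [Module A V]
    (null : ∀ j, E0 A V A j) (P : Type u) [AddCommGroup P] [Module A P] [Module.Finite A P]
    [Module.Projective A P] (j : ℕ) : E0 A V P j := by
  obtain ⟨n, f, hf⟩ := Module.Finite.exists_fin' A P
  obtain ⟨s, hs⟩ := Module.projective_lifting_property f LinearMap.id hf
  exact retract_right s f hs j (pi_right j n (null j))

namespace Side

variable {K : Type u} [Field K] {A : Type u} [Ring A] [Algebra K A] (S : Side K A)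

/-- `Y = P0 / h P3` -/
abbrev Y : Type u := S.P0 ⧸ LinearMap.range S.h

/-- `P0 → Y` -/
def yp : S.P0 →ₗ[A] S.Y := (LinearMap.range S.h).mkQ

theorem yp_surj : Function.Surjective S.yp := Submodule.mkQ_surjective _

theorem yp_exact : Function.Exact S.h S.yp := by
  intro x
  change (Submodule.Quotient.mk x : S.Y) = 0 ↔ _
  rw [Submodule.Quotient.mk_eq_zero]
  rfl

/-- `P3 → Y` -/
def lam : S.P3 →ₗ[A] S.Y := S.yp ∘ₗ S.a

theorem lam_inj : Function.Injective S.lam := by
  rw [injective_iff_map_eq_zero]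
  intro x hx
  obtain ⟨y, hy⟩ := (S.yp_exact (S.a x)).1 hx
  exact S.ah x y hy.symm

/-- `P2 → Y` -/
def tY : S.P2 →ₗ[A] S.Y := S.yp ∘ₗ S.t

theorem tY_d3 : S.tY ∘ₗ S.d3 = S.lam := by
  rw [tY, lam, LinearMap.comp_assoc, S.ta]

theorem tY_inj : Function.Injective (S.tY ∘ₗ S.d3) := by
  rw [S.tY_d3]
  exact S.lam_inj

/-- `Y₁` -/
abbrev Y1 : Type u := YY S.d2 S.tY

theorem VP (P : Type u) [AddCommGroup P] [Module A P] [Module.Finite A P]
    [Module.Projective A P] (j : ℕ) : E0 A S.V P j := null_proj S.null P j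

theorem VY (j : ℕ) : E0 A S.V S.Y j :=
  cright_of S.h S.yp S.hh S.yp_surj S.yp_exact (S.VP S.P3) (S.VP S.P0) j

theorem pW (P : Type u) [AddCommGroup P] [Module A P] [Module.Projective A P] (j : ℕ)
    (hj : 0 < j) : E0 A P S.W j := by
  obtain ⟨i, rfl⟩ := Nat.exists_eq_add_of_le' hj
  exact proj i

theorem YW (j : ℕ) : E0 A S.Y S.W j :=
  coker_right S.h S.yp S.hh S.yp_surj S.yp_exact (S.pW S.P0) (S.pW S.P3) S.hi S.hs j

theorem VY1 (j : ℕ) : E0 A S.V S.Y1 j :=
  yy_left S.d3 S.d2 S.tY S.e32 S.tY_inj (S.VP S.P1) (S.VP S.P2) S.VY j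

theorem Y1W (j : ℕ) : E0 A S.Y1 S.W j :=
  yy_right S.d3 S.d2 S.tY S.e32 S.tY_inj (S.pW S.P1) (S.pW S.P2) S.YW S.mi S.ms j

/-- every map `P3 → W` is a multiple of `ε ∘ h` -/
theorem one3 (φ : S.P3 →ₗ[A] S.W) : ∃ c : K, ∀ x, φ x = c • S.ε (S.h x) := by
  obtain ⟨ψ, rfl⟩ := S.hs φ
  obtain ⟨c, hc⟩ := S.one ψ
  exact ⟨c, fun x => hc (S.h x)⟩

theorem eps_h_ne : S.ε ∘ₗ S.h ≠ 0 := by
  intro h0
  have h1 := S.hi S.ε h0
  obtain ⟨w, hw⟩ := exists_ne (0 : S.W)
  obtain ⟨x, rfl⟩ := S.hε w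
  exact hw (LinearMap.congr_fun h1 x)

/-- `Y → Y₁` -/
def yaY : S.Y →ₗ[A] S.Y1 := ya S.d2 S.tY

/-- the kernel of `Y → Y₁` is `λ P3` -/
theorem yaY_ker (y : S.Y) : S.yaY y = 0 ↔ ∃ x, S.lam x = y := by
  have h1 := ya_ker S.d3 S.d2 S.tY S.e32 y
  have h2 : ∀ x, S.tY (S.d3 x) = S.lam x := fun x => LinearMap.congr_fun S.tY_d3 x
  simp only [h2] at h1
  exact h1

/-- `Y₁ → P₀` -/
def ybY : S.Y1 →ₗ[A] S.P0 := yb S.d2 S.d1 S.tY S.e21

theorem ybY_exact : Function.Exact S.yaY S.ybY := yb_exact S.d2 S.d1 S.tY S.e21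

theorem eY_exact : Function.Exact S.ybY S.ε := ye_exact S.d2 S.d1 S.ε S.tY S.e21 S.e10

end Side

end Crest.Agent.R186.LinkB328
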