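import Crest.Agent.R186.CellFin_355_Mg
import Crest.Agent.R186.LinkC_328
import Crest.Agent.R186.W0A_822
import Crest.Agent.R186.W0def_93
import Crest.Agent.R186.Indep_667
import Crest.Agent.R186.Defs281_128
import Crest.Agent.R186.NB_581_Mg
import Crest.Agent.R186.W1_952_Mg
import Crest.Agent.R186.W0eps_881_Mg
import Crest.Agent.R186.LCP_369
import Crest.Agent.R186.KL_355
import Crest.Agent.R186.LCE_229
import Crest.Agent.R186.KR_355
import Crest.Agent.R186.RowPr_461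
import Crest.Agent.R186.DevW_147
import Crest.Agent.R186.KRT_823

-- ▼ part R186/LinkK9_721
section

/-!
Row 186, S0281, block LINK (helper721), part 9: **the final link theorem**.

From `A`-level data to the literal hypotheses of `CellFin.c0281_cell`.
-/

set_option autoImplicit false
set_option linter.unusedSectionVars false
set_option linter.style.haveILetI false
set_option linter.unusedVariables false

universe u w

open CategoryTheory CategoryTheory.Abelian MulOpposite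

namespace Crest.Agent.R186.LinkK721

open ExtRes700 Dual700

section

variable {k : Type u} [Field k] {A : Type u} [Ring A] [Algebra k A] [Module.Finite k A]
  {J Y : Type u} [AddCommGroup J] [Module k J] [Module A J] [IsScalarTower k A J]
  [AddCommGroup Y] [Module k Y] [Module A Y] [IsScalarTower k A Y]
  {Jq Yq : Type u} [AddCommGroup Jq] [Module k Jq] [Module A Jq] [IsScalarTower k A Jq]
  [AddCommGroup Yq] [Module k Yq] [Module A Yq] [IsScalarTower k A Yq]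
  [Module.Finite k J] [Module.Finite k Y] [Module.Finite k Jq] [Module.Finite k Yq]
  {V0 W I' X0 P' Y1 : Type u}
  [AddCommGroup V0] [Module k V0] [Module A V0] [IsScalarTower k A V0] [Module.Finite k V0]
  [AddCommGroup W] [Module k W] [Module A W] [IsScalarTower k A W] [Module.Finite k W]
  [AddCommGroup I'] [Module k I'] [Module A I'] [IsScalarTower k A I'] [Module.Finite k I']
  [AddCommGroup X0] [Module k X0] [Module A X0] [IsScalarTower k A X0] [Module.Finite k X0]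
  [AddCommGroup P'] [Module k P'] [Module A P'] [IsScalarTower k A P'] [Module.Finite k P']
  [AddCommGroup Y1] [Module k Y1] [Module A Y1] [IsScalarTower k A Y1] [Module.Finite k Y1]
  {πJ : J →ₗ[A] Jq} {πY : Y →ₗ[A] Yq} (hJ : Function.Surjective πJ)
  (hY : Function.Surjective πY)

/-! ### the four modules and the three maps -/

/-- `E1 = (I' ; Y1)` -/
noncomputable def actE1 (ρ : I' →ₗ[A] Jq) (j1 : Yq →ₗ[A] Y1) :
    Act k (LinearMap.ker πJ) (LinearMap.ker πY) I' Y1 := actQ hJ ρ j1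

/-- `E2 = (X0 ; P')` -/
def actE2 (π : X0 →ₗ[A] LinearMap.ker πJ) (jP : LinearMap.ker πY →ₗ[A] P') :
    Act k (LinearMap.ker πJ) (LinearMap.ker πY) X0 P' := actP π jP

/-- `V → E1` -/
noncomputable def mi (ι : V0 →ₗ[A] Jq) (inc0 : V0 →ₗ[A] I') (ρ : I' →ₗ[A] Jq)
    (hρ : ρ ∘ₗ inc0 = ι) (j1 : Yq →ₗ[A] Y1) :
    GM (actV (k := k) (πY := πY) hJ ι) →ₗ[GG (k := k) πJ πY]
      GM (actE1 (k := k) (πY := πY) hJ ρ j1) :=
  GM.hom _ _ inc0 j1 (fun f x => by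
    show j1 (bar hJ f (ι x)) = j1 (bar hJ f (ρ (inc0 x)))
    rw [← hρ]
    rfl)

/-- `E1 → E2` -/
noncomputable def mp (ρ : I' →ₗ[A] Jq) (j1 : Yq →ₗ[A] Y1) (d : I' →ₗ[A] X0)
    (π : X0 →ₗ[A] LinearMap.ker πJ) (d' : Y1 →ₗ[A] P') (jP : LinearMap.ker πY →ₗ[A] P')
    (h1 : π ∘ₗ d = 0) (h2 : d' ∘ₗ j1 = 0) :
    GM (actE1 (k := k) (πY := πY) hJ ρ j1) →ₗ[GG (k := k) πJ πY]
      GM (actE2 (k := k) (πJ := πJ) (πY := πY) π jP) :=
  GM.hom _ _ d d' (fun f x => by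
    have e1 : d' (j1 (bar hJ f (ρ x))) = 0 := LinearMap.congr_fun h2 _
    have e2 : π (d x) = 0 := LinearMap.congr_fun h1 x
    refine Eq.trans e1 ?_
    show 0 = jP ⟨f.1 (π (d x) : J), f.2 _ (π (d x)).2⟩
    have e3 : (⟨f.1 (π (d x) : J), f.2 _ (π (d x)).2⟩ : LinearMap.ker πY) = 0 := by
      apply Subtype.ext
      show f.1 (π (d x) : J) = 0
      rw [e2]
      exact map_zero f.1
    rw [e3, map_zero])

/-- `E2 → M` -/
noncomputable def mq (π : X0 →ₗ[A] LinearMap.ker πJ) (jP : LinearMap.ker πY →ₗ[A] P')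
    (q' : P' →ₗ[A] W) (ϖ : LinearMap.ker πY →ₗ[A] W) (h : q' ∘ₗ jP = ϖ) :
    GM (actE2 (k := k) (πJ := πJ) (πY := πY) π jP) →ₗ[GG (k := k) πJ πY]
      GM (actM (k := k) (πJ := πJ) ϖ) :=
  GM.hom _ _ π q' (fun f x => by
    show q' (jP ⟨f.1 (π x : J), f.2 _ (π x).2⟩) = ϖ ⟨f.1 (π x : J), f.2 _ (π x).2⟩
    rw [← h]
    rfl)

/-- the simples of `Gam` -/
theorem simples {n : ℕ} (h : Spine700.Simples k A n) :
    Spine700.Simples k (GG (k := k) πJ πY) n := by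
  obtain ⟨Q, hQ, hn⟩ := h
  refine ⟨Q.comp prj, hQ.comp fun a => ⟨inc a, rfl⟩, fun x hx => ?_⟩
  obtain ⟨m, hm⟩ := hn x.1 hx
  refine ⟨m + m, ?_⟩
  have h1 : (x ^ m).1 = 0 := by
    have h2 : prj (x ^ m) = prj x ^ m := map_pow prj x m
    exact h2.trans hm
  rw [pow_add]
  refine Gam.ext ?_ fun j => ?_
  · rw [mul_fst, h1, mul_zero, zero_fst]
  · rw [mul_snd_apply, h1, zero_smul, zero_smul, map_zero, add_zero, zero_snd_apply]

end

/-- **S0281 from the `A`-level link data.** -/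
theorem c0281_link {k : Type} [Field k] {A : Type} [Ring A] [Algebra k A] [Module.Finite k A]
    {J Y Jq Yq V0 W I' X0 P' Y1 : Type}
    [AddCommGroup J] [Module k J] [Module A J] [IsScalarTower k A J] [Module.Finite k J]
    [AddCommGroup Y] [Module k Y] [Module A Y] [IsScalarTower k A Y] [Module.Finite k Y]
    [AddCommGroup Jq] [Module k Jq] [Module A Jq] [IsScalarTower k A Jq] [Module.Finite k Jq]
    [AddCommGroup Yq] [Module k Yq] [Module A Yq] [IsScalarTower k A Yq] [Module.Finite k Yq]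
    [AddCommGroup V0] [Module k V0] [Module A V0] [IsScalarTower k A V0] [Module.Finite k V0]
    [AddCommGroup W] [Module k W] [Module A W] [IsScalarTower k A W] [Module.Finite k W]
    [AddCommGroup I'] [Module k I'] [Module A I'] [IsScalarTower k A I'] [Module.Finite k I']
    [AddCommGroup X0] [Module k X0] [Module A X0] [IsScalarTower k A X0] [Module.Finite k X0]
    [AddCommGroup P'] [Module k P'] [Module A P'] [IsScalarTower k A P'] [Module.Finite k P']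
    [AddCommGroup Y1] [Module k Y1] [Module A Y1] [IsScalarTower k A Y1] [Module.Finite k Y1]
    -- `J ↠ J/U`, `Y ↠ Y/P`
    (πJ : J →ₗ[A] Jq) (hJ : Function.Surjective πJ)
    (πY : Y →ₗ[A] Yq) (hY : Function.Surjective πY)
    (ι : V0 →ₗ[A] Jq) (hι : ι ≠ 0) (ϖ : LinearMap.ker πY →ₗ[A] W) (hϖ : ϖ ≠ 0)
    -- `0 → V0 → I' → X0 → U → 0`
    (inc0 : V0 →ₗ[A] I') (d : I' →ₗ[A] X0) (π : X0 →ₗ[A] LinearMap.ker πJ)
    (hi0 : Function.Injective inc0) (e1 : Function.Exact inc0 d) (e2 : Function.Exact d π)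
    (hπ : Function.Surjective π) (ρ : I' →ₗ[A] Jq) (hρ : ρ ∘ₗ inc0 = ι)
    -- `0 → Y/P → Y1 → P' → W → 0`
    (j1 : Yq →ₗ[A] Y1) (d' : Y1 →ₗ[A] P') (q' : P' →ₗ[A] W)
    (hj1 : Function.Injective j1) (e3 : Function.Exact j1 d') (e4 : Function.Exact d' q')
    (hq' : Function.Surjective q') (jP : LinearMap.ker πY →ₗ[A] P') (hjP : q' ∘ₗ jP = ϖ)
    -- left side
    (vA : ∀ i, E0 A V0 A i) (vJ : ∀ i, E0 A V0 J i) (vY : ∀ i, E0 A V0 Y i)
    (vP : ∀ i, E0 A V0 (LinearMap.ker πY) i) (vJq : ∀ i, E0 A V0 Jq (i + 1))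
    (hVq : ∀ f : V0 →ₗ[A] Jq, ∃ c : k, ∀ v, f v = c • ι v)
    (vX : ∀ i, E0 A V0 X0 i) (vY1 : ∀ i, E0 A V0 Y1 i) (vP' : ∀ i, E0 A V0 P' i)
    (vI : ∀ i, E0 A V0 I' (i + 1))
    (hVI : ∀ f : V0 →ₗ[A] I', ∃ c : k, ∀ v, f v = c • inc0 v)
    -- right side
    (wA : ∀ i, E0 Aᵐᵒᵖ (Dl k W) Aᵐᵒᵖ i) (wJ : ∀ i, E0 A J W i) (wY : ∀ i, E0 A Y W i)
    (wJq : ∀ i, E0 A Jq W i) (wP : ∀ i, E0 A (LinearMap.ker πY) W (i + 1))
    (hPW : ∀ f : LinearMap.ker πY →ₗ[A] W, ∃ c : k, ∀ p, f p = c • ϖ p)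
    (wX : ∀ i, E0 A X0 W i) (wY1 : ∀ i, E0 A Y1 W i) (wI : ∀ i, E0 A I' W i)
    (wP' : ∀ i, E0 A P' W (i + 1))
    (hPW' : ∀ f : P' →ₗ[A] W, ∃ c : k, ∀ p, f p = c • q' p)
    {n : ℕ} (hn7 : n ≤ 7) (hn : Spine700.Simples k A n) : Spine700.C0281.{w} k := by
  haveI : IsNoetherianRing A := noethG k A
  haveI : Module.Finite A J := finiteG (k := k) J
  haveI : Module.Finite A Jq := finiteG (k := k) Jq
  -- the (co)induction data
  let cV := coiV (k := k) hJ ι hY hι hVq vJ vJq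
  let cM := coiM (k := k) (πJ := πJ) ϖ hJ hϖ hPW wY wP
  -- the four modules
  let cE1 := actE1 (k := k) (πY := πY) hJ ρ j1
  let cE2 := actE2 (k := k) (πJ := πJ) (πY := πY) π jP
  have p1 : π ∘ₗ d = 0 := e2.linearMap_comp_eq_zero
  have p2 : d' ∘ₗ j1 = 0 := e3.linearMap_comp_eq_zero
  -- nonzero
  obtain ⟨v1, hv1⟩ : ∃ v, ι v ≠ 0 := by
    by_contra h4
    push Not at h4
    exact hι (LinearMap.ext h4)
  obtain ⟨w1, hw1⟩ : ∃ p, ϖ p ≠ 0 := by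
    by_contra h4
    push Not at h4
    exact hϖ (LinearMap.ext h4)
  haveI : Nontrivial (GM (actV (k := k) (πY := πY) hJ ι)) :=
    ⟨((v1, 0) : V0 × Yq), ((0, 0) : V0 × Yq), fun h => hv1 (by
      have h1 : v1 = 0 := congrArg Prod.fst h
      rw [h1, map_zero])⟩
  haveI : Nontrivial (GM (actM (k := k) (πJ := πJ) ϖ)) :=
    ⟨((0, ϖ w1) : LinearMap.ker πJ × W), ((0, 0) : LinearMap.ker πJ × W), fun h => hw1
      (congrArg Prod.snd h)⟩
  haveI : Module.Finite k (LinearMap.ker πJ) := finite_sub (k := k) (LinearMap.ker πJ)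
  -- restriction of pairs
  have rV : ∀ {X₁ X₂ : Type} [AddCommGroup X₁] [Module A X₁] [AddCommGroup X₂] [Module A X₂]
      (c : Act k (LinearMap.ker πJ) (LinearMap.ker πY) X₁ X₂) (i : ℕ), E0 A V0 X₁ i →
      E0 A V0 X₂ i → E0 A V0 (RA (phi k πJ πY) (GM c)) i := fun c i h1 h2 =>
    iso_right (raGM c).symm i (prod_right i h1 h2)
  have rW : ∀ {X₁ X₂ : Type} [AddCommGroup X₁] [Module A X₁] [AddCommGroup X₂] [Module A X₂]
      (c : Act k (LinearMap.ker πJ) (LinearMap.ker πY) X₁ X₂) (i : ℕ), E0 A X₁ W i →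
      E0 A X₂ W i → E0 A (RA (phi k πJ πY) (GM c)) W i := fun c i h1 h2 =>
    iso_left (raGM c).symm i (prod_left i h1 h2)
  haveI : Module.Finite (GG (k := k) πJ πY) (GM cE1) := finiteG (k := k) (GM cE1)
  haveI : Module.Finite (GG (k := k) πJ πY) (GM cE2) := finiteG (k := k) (GM cE2)
  refine CellFin.c0281_cell (K := k) (G := GG (k := k) πJ πY)
    (GM (actV (k := k) (πY := πY) hJ ι)) (GM cE1) (GM cE2) (GM (actM (k := k) (πJ := πJ) ϖ))
    (mi hJ ι inc0 ρ hρ j1) (mp hJ ρ j1 d π d' jP p1 p2) (mq π jP q' ϖ hjP)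
    (GM.hom_inj _ hi0 hj1) (GM.hom_exact _ _ e1 e3) (GM.hom_exact _ _ e2 e4)
    (GM.hom_surj _ hπ hq') ?_ ?_ ?_ ?_ ?_ ?_ ?_ ?_ hn7 (simples hn)
  · -- null
    intro j
    exact ind inc cV (GG (k := k) πJ πY) j (e0_left πJ πY hJ j (vA j) (vY j) (vP j))
  · intro j
    exact ind inc cV (GM cE2) j (rV cE2 j (vX j) (vP' j))
  · intro j hj
    obtain ⟨i, rfl⟩ := Nat.exists_eq_add_of_le' hj
    exact ind inc cV (GM cE1) (i + 1) (rV cE1 (i + 1) (vI i) (vY1 (i + 1)))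
  · -- `Hom(V, E1) = k i`
    intro φ
    let φ1 : V0 →ₗ[A] I' × Y1 := (raGM cE1).toLinearMap ∘ₗ RA.map (phi k πJ πY) φ ∘ₗ
      sV (k := k) (πY := πY) hJ ι
    obtain ⟨c, hc⟩ := hVI (LinearMap.fst A I' Y1 ∘ₗ φ1)
    have hz : LinearMap.snd A I' Y1 ∘ₗ φ1 = 0 := zero_iff.1 (vY1 0) _
    refine ⟨c, ?_⟩
    -- the difference vanishes on the generators
    have h0 : ∀ v : V0, φ (prV hJ ι v 0) =
        c • mi (k := k) (πY := πY) hJ ι inc0 ρ hρ j1 (prV hJ ι v 0) := by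
      intro v
      refine Prod.ext (hc v) ?_
      refine (LinearMap.congr_fun hz v).trans ?_
      show (0 : Y1) = c • j1 0
      rw [map_zero, smul_zero]
    obtain ⟨ξ, hξ⟩ := exists_fun (k := k) _ hv1
    intro x
    obtain ⟨y, hy⟩ := hY x.2
    have h6 : x = prV hJ ι x.1 0 + (el (a1 πJ πY ξ y) : GG (k := k) πJ πY) •
        prV (k := k) (πY := πY) hJ ι v1 0 := by
      rw [smul_prV, el_fst, zero_smul, el_snd, bar_a1, hξ, one_smul, hy]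
      exact Prod.ext (add_zero _).symm (zero_add _).symm
    rw [h6, map_add, map_add, map_smul, map_smul, h0, h0, smul_add]
    congr 1
    exact (smul_comm' (k := k) (A := GG (k := k) πJ πY) (Y := GM cE1) _ c _).symm
  · -- conull
    intro j
    refine coindR inc cM j ?_
    exact e0_right πJ πY hJ hY j (wA j) ((dual_iff (K := k) J W j).1 (wJ j))
      ((dual_iff (K := k) Jq W j).1 (wJq j))
  · intro j
    exact cM.coind j ⟨GM cE1⟩ (rW cE1 j (wI j) (wY1 j))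
  · intro j hj
    obtain ⟨i, rfl⟩ := Nat.exists_eq_add_of_le' hj
    exact cM.coind (i + 1) ⟨GM cE2⟩ (rW cE2 (i + 1) (wX (i + 1)) (wP' i))
  · -- `Hom(E2, M) = k q`
    intro φ
    let φ1 : X0 × P' →ₗ[A] W := cM.pr ∘ₗ RA.map (phi k πJ πY) φ ∘ₗ (raGM cE2).symm.toLinearMap
    obtain ⟨c, hc⟩ := hPW' (φ1 ∘ₗ LinearMap.inr A X0 P')
    have hz : φ1 ∘ₗ LinearMap.inl A X0 P' = 0 := zero_iff.1 (wX 0) _
    refine ⟨c, ?_⟩
    have h1 : ∀ x : X0 × P', φ1 x = c • q' x.2 := by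
      intro x
      have h2 : x = LinearMap.inl A X0 P' x.1 + LinearMap.inr A X0 P' x.2 :=
        Prod.ext (add_zero _).symm (zero_add _).symm
      have h3 : φ1 (LinearMap.inl A X0 P' x.1) = 0 := LinearMap.congr_fun hz x.1
      have h4 : φ1 (LinearMap.inr A X0 P' x.2) = c • q' x.2 := hc x.2
      conv_lhs => rw [h2]
      rw [map_add, h3, h4, zero_add]
    intro x
    rw [← sub_eq_zero]
    refine cM.uni _ fun g => ?_
    have h5 : g • (φ x - c • mq (k := k) π jP q' ϖ hjP x) =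
        φ (g • x) - c • mq (k := k) π jP q' ϖ hjP (g • x) := by
      rw [smul_sub, map_smul, map_smul]
      congr 1
      exact (smul_comm' _ _ _).symm
    rw [h5]
    have h6 : cM.pr (φ (g • x) - c • mq (k := k) π jP q' ϖ hjP (g • x) :
        GM (actM (k := k) (πJ := πJ) ϖ)) =
        cM.pr (φ (g • x) : GM (actM (k := k) (πJ := πJ) ϖ)) -
        cM.pr (c • mq (k := k) π jP q' ϖ hjP (g • x) : GM (actM (k := k) (πJ := πJ) ϖ)) :=
      map_sub cM.pr _ _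
    refine h6.trans (sub_eq_zero.2 ?_)
    exact h1 (g • x)

end Crest.Agent.R186.LinkK721
end

-- ▼ part R186/LinkE_328
section

/-!
Row 186, S0281, block LINK (helper328): the joint.  A two-sided base `LinkC328.Two K A A'` with
`A`, `A'` finite-dimensional and at most seven simples gives `C0281`
(via 721's `LinkK721.c0281_link`, i.e. 355's `CellFin.c0281_cell`).
-/

set_option autoImplicit false
set_option linter.unusedSectionVars false
set_option linter.style.haveILetI false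

universe u w

open CategoryTheory CategoryTheory.Abelian MulOpposite

namespace Crest.Agent.R186.LinkE328

open ExtRes700 LinkA328 LinkB328 LinkC328 Trans328 Dual700 LinkK721

/-! ### the left side: `P3 ≃ ker (Y → Y / λ P3)` -/

section side

variable {K : Type u} [Field K] {A : Type u} [Ring A] [Algebra K A] (S : Side K A)

/-- `Y / λ P3` -/
abbrev Yq : Type u := S.Y ⧸ LinearMap.range S.lam

/-- `Y → Y / λ P3` -/
def piY : S.Y →ₗ[A] Yq S := (LinearMap.range S.lam).mkQ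

theorem piY_surj : Function.Surjective (piY S) := Submodule.mkQ_surjective _

theorem piY_lam (x : S.P3) : piY S (S.lam x) = 0 :=
  (Submodule.Quotient.mk_eq_zero _).2 ⟨x, rfl⟩

theorem piY_zero (y : S.Y) (h : piY S y = 0) : ∃ x, S.lam x = y :=
  (Submodule.Quotient.mk_eq_zero (p := LinearMap.range S.lam)).1 h

/-- `P3 → ker` -/
def eP0 : S.P3 →ₗ[A] LinearMap.ker (piY S) := S.lam.codRestrict _ fun x => piY_lam S x

theorem eP0_bij : Function.Bijective (eP0 S) := by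
  constructor
  · intro x y h
    exact S.lam_inj (congrArg Subtype.val h)
  · rintro ⟨y, hy⟩
    obtain ⟨x, hx⟩ := piY_zero S y hy
    exact ⟨x, Subtype.ext hx⟩

/-- `P3 ≃ ker` -/
noncomputable def eP : S.P3 ≃ₗ[A] LinearMap.ker (piY S) := LinearEquiv.ofBijective _ (eP0_bij S)

/-- `ker → P0` -/
noncomputable def jP : LinearMap.ker (piY S) →ₗ[A] S.P0 := S.h ∘ₗ (eP S).symm.toLinearMap

theorem jP_eP (x : S.P3) : jP S (eP S x) = S.h x := by
  change S.h ((eP S).symm (eP S x)) = S.h x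
  rw [LinearEquiv.symm_apply_apply]

/-- `ker → W` -/
noncomputable def om : LinearMap.ker (piY S) →ₗ[A] S.W := S.ε ∘ₗ jP S

theorem om_ne : om S ≠ 0 := by
  intro h
  apply S.eps_h_ne
  ext x
  have h1 := LinearMap.congr_fun h (eP S x)
  change S.ε (jP S (eP S x)) = 0 at h1
  rw [jP_eP] at h1
  exact h1

theorem om_one (f : LinearMap.ker (piY S) →ₗ[A] S.W) : ∃ c : K, ∀ p, f p = c • om S p := by
  obtain ⟨c, hc⟩ := S.one3 (f ∘ₗ (eP S).toLinearMap)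
  refine ⟨c, fun p => ?_⟩
  have h1 := hc ((eP S).symm p)
  change f (eP S ((eP S).symm p)) = _ at h1
  rw [LinearEquiv.apply_symm_apply] at h1
  exact h1

/-- `Y / λ P3 → Y₁` -/
def j1 : Yq S →ₗ[A] S.Y1 := (LinearMap.range S.lam).liftQ S.yaY (by
  rintro _ ⟨x, rfl⟩
  exact (S.yaY_ker _).2 ⟨x, rfl⟩)

theorem j1_pi (y : S.Y) : j1 S (piY S y) = S.yaY y := rfl

theorem j1_inj : Function.Injective (j1 S) := by
  rw [injective_iff_map_eq_zero]
  intro z hz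
  obtain ⟨y, rfl⟩ := piY_surj S z
  rw [j1_pi] at hz
  obtain ⟨x, rfl⟩ := (S.yaY_ker _).1 hz
  exact piY_lam S x

theorem j1_exact : Function.Exact (j1 S) S.ybY := by
  intro z
  rw [S.ybY_exact z]
  constructor
  · rintro ⟨y, rfl⟩
    exact ⟨piY S y, rfl⟩
  · rintro ⟨y, rfl⟩
    obtain ⟨y, rfl⟩ := piY_surj S y
    exact ⟨y, rfl⟩

end side

/-! ### the two-sided part -/

section two

variable {K : Type u} [Field K] {A A' : Type u} [Ring A] [Algebra K A] [Ring A'] [Algebra K A']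
  (T : Two K A A')

/-- `V → I3` -/
def io : T.S.V →ₗ[A] T.I3 := T.hI ∘ₗ T.η

theorem io_eq : io T = du K T.τ (T.S'.ε ∘ₗ T.S'.h) ∘ₗ T.eV.toLinearMap := rfl

theorem du_zero_iff {τ : A ≃ₐ[K] A'ᵐᵒᵖ} {X Y : Type u} [AddCommGroup X] [Module K X] [Module A' X]
    [IsScalarTower K A' X] [AddCommGroup Y] [Module K Y] [Module A' Y] [IsScalarTower K A' Y]
    (f : X →ₗ[A'] Y) (h : du K τ f = 0) : f = 0 := dm_injective (K := K) (by
  have h3 : du K τ f = du K τ 0 := by rw [h, du_zero]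
  ext ψ
  exact congrArg (fun F : Du K τ Y →ₗ[A] Du K τ X => F ψ) h3)

theorem io_ne : io T ≠ 0 := by
  intro h
  apply T.S'.eps_h_ne
  apply du_zero_iff (K := K) (τ := T.τ)
  ext φ
  have h1 := LinearMap.congr_fun h (T.eV.symm φ)
  rw [io_eq] at h1
  change du K T.τ (T.S'.ε ∘ₗ T.S'.h) (T.eV (T.eV.symm φ)) = 0 at h1
  rw [LinearEquiv.apply_symm_apply] at h1
  exact h1

theorem io_one (φ : T.S.V →ₗ[A] T.I3) : ∃ c : K, ∀ v, φ v = c • io T v := by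
  obtain ⟨f, hf⟩ := du_full (K := K) (τ := T.τ) (X := T.S'.P3) (Y := T.S'.W)
    (φ ∘ₗ T.eV.symm.toLinearMap)
  obtain ⟨c, hc⟩ := T.S'.one3 f
  refine ⟨c, fun v => ?_⟩
  have h1 : φ v = du K T.τ f (T.eV v) := by
    rw [hf]
    simp
  rw [h1]
  apply Du.ext
  intro x
  rw [ev_du, hc, Du.ev_ksmul]
  exact LinearMap.map_smul (Du.fn K T.τ (T.eV v)) c _

/-- `X₀ → U` -/
def pX : T.X0 →ₗ[A] LinearMap.ker T.ρ := (xb T.c1 T.tJ).codRestrict _ fun z => by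
  have h1 := (xb_range T.c1 T.c2 T.tJ T.x2 (xb T.c1 T.tJ z)).1 ⟨z, rfl⟩
  rw [LinearMap.mem_ker, ← T.c2_tJ]
  exact h1

theorem pX_exact : Function.Exact (xa T.c0 T.c1 T.tJ T.x1) (pX T) := by
  intro z
  rw [← xb_exact T.c0 T.c1 T.tJ T.x1 z]
  exact Subtype.ext_iff

theorem pX_surj : Function.Surjective (pX T) := by
  rintro ⟨y, hy⟩
  rw [LinearMap.mem_ker, ← T.c2_tJ] at hy
  obtain ⟨z, hz⟩ := (xb_range T.c1 T.c2 T.tJ T.x2 y).2 hy
  exact ⟨z, Subtype.ext hz⟩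

/-- `Aᵐᵒᵖ → D (Du A')` -/
def dA0 (τ : A ≃ₐ[K] A'ᵐᵒᵖ) : Aᵐᵒᵖ →ₗ[Aᵐᵒᵖ] Dl K (Du K τ A') where
  toFun a := show Du K τ A' →ₗ[K] K from
    { toFun := fun φ => Du.ev K τ φ (τ a.unop).unop
      map_add' := fun _ _ => rfl
      map_smul' := fun _ _ => rfl }
  map_add' a b := by
    apply Dl.ext
    intro φ
    change Du.ev K τ φ (τ (a.unop + b.unop)).unop =
      Du.ev K τ φ (τ a.unop).unop + Du.ev K τ φ (τ b.unop).unop
    rw [map_add]
    exact LinearMap.map_add (Du.fn K τ φ) _ _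
  map_smul' b a := by
    apply Dl.ext
    intro φ
    change Du.ev K τ φ (τ (a.unop * b.unop)).unop = Du.ev K τ (b.unop • φ) (τ a.unop).unop
    rw [Du.ev_smul, map_mul]
    rfl

theorem dA0_bij (τ : A ≃ₐ[K] A'ᵐᵒᵖ) [FiniteDimensional K A'] : Function.Bijective (dA0 τ) := by
  constructor
  · rw [injective_iff_map_eq_zero]
    intro a ha
    have h1 : Module.Dual.eval K A' (τ a.unop).unop = 0 := by
      ext φ
      exact congrArg (fun F : Dl K (Du K τ A') => F (Du.mk K τ φ)) ha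
    have h2 := (Module.bijective_dual_eval K A').1 (h1.trans (map_zero _).symm)
    have h3 : τ a.unop = 0 := MulOpposite.unop_injective h2
    have h4 : a.unop = 0 := by
      apply τ.injective
      rw [h3, map_zero]
    exact MulOpposite.unop_injective h4
  · intro Φ
    obtain ⟨x, hx⟩ := (Module.bijective_dual_eval K A').2
      (show (A' →ₗ[K] K) →ₗ[K] K from
        { toFun := fun φ => Φ (Du.mk K τ φ)
          map_add' := fun φ ψ => LinearMap.map_add (show Du K τ A' →ₗ[K] K from Φ) _ _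
          map_smul' := fun c φ => LinearMap.map_smul (show Du K τ A' →ₗ[K] K from Φ) c _ })
    refine ⟨op (τ.symm (op x)), ?_⟩
    apply Dl.ext
    intro φ
    change Du.ev K τ φ (τ (τ.symm (op x))).unop = Φ φ
    rw [AlgEquiv.apply_symm_apply]
    exact congrArg (fun F : (A' →ₗ[K] K) →ₗ[K] K => F (Du.fn K τ φ)) hx

/-- **`RHom_{Aᵐᵒᵖ}(D W, Aᵐᵒᵖ) = 0`.** -/
theorem wA [FiniteDimensional K A] [FiniteDimensional K A'] (i : ℕ) :
    E0 Aᵐᵒᵖ (Dl K T.S.W) Aᵐᵒᵖ i := by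
  haveI : IsNoetherianRing A := noethG K A
  haveI : IsNoetherianRing A' := noethG K A'
  haveI : Module.Finite A' T.S'.V := finiteG (k := K) T.S'.V
  haveI : Module.Finite A (Du K T.τ A') := finiteG (k := K) (Du K T.τ A')
  have h1 := T.IW A' i
  have h2 := (dual_iff (K := K) (Du K T.τ A') T.S.W i).1 h1
  exact iso_right (LinearEquiv.ofBijective _ (dA0_bij T.τ)).symm i h2

end two

/-- **the joint** -/
theorem c0281_two {K : Type} [Field K] {A A' : Type} [Ring A] [Algebra K A] [Ring A']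
    [Algebra K A'] [FiniteDimensional K A] [FiniteDimensional K A'] (T : Two K A A')
    {n : ℕ} (hn7 : n ≤ 7) (hn : Spine700.Simples K A n) : Spine700.C0281.{w} K := by
  haveI : IsNoetherianRing A := noethG K A
  haveI : IsNoetherianRing A' := noethG K A'
  haveI f0 : FiniteDimensional K T.S'.P0 := Module.Finite.trans A' _
  haveI f1 : FiniteDimensional K T.S'.P1 := Module.Finite.trans A' _
  haveI f2 : FiniteDimensional K T.S'.P2 := Module.Finite.trans A' _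
  haveI f3 : FiniteDimensional K T.S'.P3 := Module.Finite.trans A' _
  haveI g0 : FiniteDimensional K T.S.P0 := Module.Finite.trans A _
  haveI g1 : FiniteDimensional K T.S.P1 := Module.Finite.trans A _
  haveI g2 : FiniteDimensional K T.S.P2 := Module.Finite.trans A _
  haveI g3 : FiniteDimensional K T.S.P3 := Module.Finite.trans A _
  haveI : Module.Finite A' T.S'.V := finiteG (k := K) T.S'.V
  haveI : FiniteDimensional K T.S'.Y := inferInstance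
  haveI : Module.Finite A' T.S'.Y := finiteG (k := K) T.S'.Y
  haveI : FiniteDimensional K T.S.Y := inferInstance
  haveI : Module.Finite K T.X0 := finite_sub (k := K) T.X0
  haveI : Module.Finite K T.S.Y1 := inferInstance
  haveI : Module.Finite K (Yq T.S) := inferInstance
  exact c0281_link (k := K) (A := A) T.ρ T.ρ_surj (piY T.S) (piY_surj T.S) (io T) (io_ne T)
    (om T.S) (om_ne T.S) T.η (xa T.c0 T.c1 T.tJ T.x1) (pX T) T.η_inj
    (xa_exact T.η T.c0 T.c1 T.tJ T.x0 T.x1) (pX_exact T) (pX_surj T) T.hI rfl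
    (j1 T.S) T.S.ybY T.S.ε (j1_inj T.S) (j1_exact T.S) T.S.eY_exact T.S.hε (jP T.S) rfl
    T.S.null T.VJ T.S.VY (fun i => iso_right (eP T.S) i (T.S.VP T.S.P3 i))
    (fun i => T.VI T.S'.P3 (i + 1) (Nat.succ_pos i)) (io_one T) T.VX0 T.S.VY1 (T.S.VP T.S.P0)
    (fun i => T.VI T.S'.P0 (i + 1) (Nat.succ_pos i)) T.one'
    (wA T) T.JW T.S.YW (T.IW T.S'.P3)
    (fun i => iso_left (eP T.S) (i + 1) (T.S.pW T.S.P3 (i + 1) (Nat.succ_pos i)))
    (om_one T.S) T.X0W T.S.Y1W (T.IW T.S'.P0)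
    (fun i => T.S.pW T.S.P0 (i + 1) (Nat.succ_pos i)) T.S.one hn7 hn

end Crest.Agent.R186.LinkE328
end

-- ▼ part R186/W0B_822
section

/-!
# Row 186, S0281 base, leaf W0 (s = 0), helper822: 93's maps `W0.d3`, `W0.d2`, `W0.d1` are 322's maps
on rows; exactness.
-/

set_option autoImplicit false
set_option linter.unusedSectionVars false

open Matrix

namespace Crest.Agent.R186.W0B822

open Crest.Agent.R186.B281 Crest.Agent.R186.W0A822

variable {K : Type} [Field K] {g : K}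

theorem mul_single_apply (M : Mat K) (a b : Fin 7) (T : Op K) (i j : Fin 7) :
    (M * Matrix.single a b T) i j = if j = b then M i a * T else 0 := by
  have h : (M * Matrix.single a b T) i j = (M i ᵥ* Matrix.single a b T) j := rfl
  rw [h, W0.row_mul_single, Pi.single_apply]

theorem ff_mul {v w : Fin 5} (x : Pv g 0 v) (m : Pv g 0 w) (i j : Fin 7) :
    ff (mulR v m x) i j = ((x : A g 0).1.fst * (m : A g 0).1.fst) i j := rfl

theorem ss_mul {v w : Fin 5} (x : Pv g 0 v) (m : Pv g 0 w) (hm : (m : A g 0).1.snd = 0)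
    (i j : Fin 7) :
    ss (mulR v m x) i j = ((x : A g 0).1.snd * (m : A g 0).1.fst) i j := by
  rw [ss_def, mulR_coe, snd_mulA, hm, Matrix.mul_zero, zero_add]



theorem m3_ff (hg : Gen g) (x : Pv g 0 2) (k l : Fin 2) (i : Fin 7) :
    ff (mulR 2 (W0.m3 hg k l) x) i 1 = ff x i 2 * W0.c3 g k l := by
  rw [ff_mul]
  exact (mul_single_apply _ 2 1 _ i 1).trans (if_pos rfl)

theorem m3_ss (hg : Gen g) (x : Pv g 0 2) (k l : Fin 2) (i : Fin 7) :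
    ss (mulR 2 (W0.m3 hg k l) x) i 1 = ss x i 2 * W0.c3 g k l := by
  rw [ss_mul _ _ rfl]
  exact (mul_single_apply _ 2 1 _ i 1).trans (if_pos rfl)

theorem d3_coef (w : Op K) (k l : Fin 2) :
    w * W0.c3 g k l = WRes322.d3 Xr (Dr g) w k l := by
  fin_cases k <;> fin_cases l <;>
    simp [W0.c3, WRes322.d3, WRes322.syz, mul_assoc]

theorem is3 (hg : Gen g) : Is3 (W0.d3 hg) := by
  intro x i
  refine ⟨?_, ?_⟩
  · funext k l
    exact (m3_ff hg x k l i).trans (d3_coef _ k l)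
  · funext k l
    exact (m3_ss hg x k l i).trans (d3_coef _ k l)

theorem m2_mat (M : Mat K) (a b k : Fin 2) (i : Fin 7) :
    (M * (Matrix.single 1 3 (W0.c2 g a b k 0) + Matrix.single 1 4 (W0.c2 g a b k 1) : Mat K)) i 3 =
      M i 1 * W0.c2 g a b k 0 ∧
    (M * (Matrix.single 1 3 (W0.c2 g a b k 0) + Matrix.single 1 4 (W0.c2 g a b k 1) : Mat K)) i 4 =
      M i 1 * W0.c2 g a b k 1 := by
  refine ⟨?_, ?_⟩
  · rw [Matrix.mul_add, Matrix.add_apply, mul_single_apply, mul_single_apply, if_pos rfl,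
      if_neg (by decide), add_zero]
  · rw [Matrix.mul_add, Matrix.add_apply, mul_single_apply, mul_single_apply, if_pos rfl,
      if_neg (by decide), zero_add]

/-- the sum over the four coefficients is 322's `d2` -/
theorem d2_coef (u : Fin 2 → Fin 2 → Op K) (k j : Fin 2) :
    (∑ a, ∑ b, u a b * W0.c2 g a b k j) = WRes322.d2 g Xr (Dr g) u k j := by
  simp only [Fin.sum_univ_two]
  fin_cases k <;> fin_cases j
  · simp [W0.c2, WRes322.d2, WRes322.syz, mul_assoc, Matrix.vecHead]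
  · simp [W0.c2, WRes322.d2, WRes322.syz, mul_assoc, Matrix.vecHead, Matrix.vecTail, mul_add,
      sub_eq_add_neg]
  · simp [W0.c2, WRes322.d2, WRes322.syz, mul_assoc, Matrix.vecHead, Matrix.vecTail, mul_add,
      sub_eq_add_neg]
    abel
  · simp [W0.c2, WRes322.d2, WRes322.syz, mul_assoc, Matrix.vecHead, Matrix.vecTail, mul_add,
      sub_eq_add_neg]
    abel

theorem ff_sum4 {w : Fin 5} (F : Fin 2 → Fin 2 → Pv g 0 w) (i j : Fin 7) :
    ff (∑ a, ∑ b, F a b) i j = ∑ a, ∑ b, ff (F a b) i j := by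
  simp only [Fin.sum_univ_two]
  rfl

theorem ss_sum4 {w : Fin 5} (F : Fin 2 → Fin 2 → Pv g 0 w) (i j : Fin 7) :
    ss (∑ a, ∑ b, F a b) i j = ∑ a, ∑ b, ss (F a b) i j := by
  simp only [Fin.sum_univ_two]
  rfl

theorem d2_ff (hg : Gen g) (u : Fin 2 → Fin 2 → Pv g 0 1) (k : Fin 2) (i : Fin 7) :
    ff (W0.d2 hg u k) i 3 = (∑ a, ∑ b, ff (u a b) i 1 * W0.c2 g a b k 0) ∧
    ff (W0.d2 hg u k) i 4 = (∑ a, ∑ b, ff (u a b) i 1 * W0.c2 g a b k 1) := by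
  rw [W0.d2_apply, ff_sum4, ff_sum4]
  refine ⟨?_, ?_⟩
  · refine Finset.sum_congr rfl fun a _ => Finset.sum_congr rfl fun b _ => ?_
    exact (m2_mat _ a b k i).1
  · refine Finset.sum_congr rfl fun a _ => Finset.sum_congr rfl fun b _ => ?_
    exact (m2_mat _ a b k i).2

theorem d2_ss (hg : Gen g) (u : Fin 2 → Fin 2 → Pv g 0 1) (k : Fin 2) (i : Fin 7) :
    ss (W0.d2 hg u k) i 3 = (∑ a, ∑ b, ss (u a b) i 1 * W0.c2 g a b k 0) ∧
    ss (W0.d2 hg u k) i 4 = (∑ a, ∑ b, ss (u a b) i 1 * W0.c2 g a b k 1) := by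
  rw [W0.d2_apply, ss_sum4, ss_sum4]
  refine ⟨?_, ?_⟩
  · refine Finset.sum_congr rfl fun a _ => Finset.sum_congr rfl fun b _ => ?_
    rw [ss_mul _ _ rfl]
    exact (m2_mat _ a b k i).1
  · refine Finset.sum_congr rfl fun a _ => Finset.sum_congr rfl fun b _ => ?_
    rw [ss_mul _ _ rfl]
    exact (m2_mat _ a b k i).2

theorem is2 (hg : Gen g) : Is2 (W0.d2 hg) := by
  intro u i
  refine ⟨?_, ?_⟩
  · funext k j
    fin_cases j
    · exact ((d2_ff hg u k i).1).trans (d2_coef (r1f u i) k 0)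
    · exact ((d2_ff hg u k i).2).trans (d2_coef (r1f u i) k 1)
  · funext k j
    fin_cases j
    · exact ((d2_ss hg u k i).1).trans (d2_coef (r1s u i) k 0)
    · exact ((d2_ss hg u k i).2).trans (d2_coef (r1s u i) k 1)

theorem m1_mat (M : Mat K) (k : Fin 2) (i : Fin 7) :
    (M * (Matrix.single 3 0 (W0.c1 g k 0) + Matrix.single 4 0 (W0.c1 g k 1) : Mat K)) i 0 =
      M i 3 * W0.c1 g k 0 + M i 4 * W0.c1 g k 1 := by
  rw [Matrix.mul_add, Matrix.add_apply, mul_single_apply, mul_single_apply, if_pos rfl, if_pos rfl]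

theorem d1_coef (u : Fin 2 → Fin 2 → Op K) :
    (∑ k, (u k 0 * W0.c1 g k 0 + u k 1 * W0.c1 g k 1)) = WRes322.d1 Xr (Dr g) u := by
  rw [Fin.sum_univ_two]
  simp only [W0.c1, WRes322.d1, WRes322.cc, LinearMap.mulRight_apply, Matrix.cons_val_zero,
    Matrix.cons_val_one, add_mul, mul_sub, mul_one, mul_assoc]
  abel

theorem ff_sum2 {w : Fin 5} (F : Fin 2 → Pv g 0 w) (i j : Fin 7) :
    ff (∑ a, F a) i j = ∑ a, ff (F a) i j := by
  simp only [Fin.sum_univ_two]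
  rfl

theorem ss_sum2 {w : Fin 5} (F : Fin 2 → Pv g 0 w) (i j : Fin 7) :
    ss (∑ a, F a) i j = ∑ a, ss (F a) i j := by
  simp only [Fin.sum_univ_two]
  rfl

theorem d1_ff (hg : Gen g) (u : Fin 2 → Pv g 0 3) (i : Fin 7) :
    ff (W0.d1 hg u) i 0 = ∑ k, (ff (u k) i 3 * W0.c1 g k 0 + ff (u k) i 4 * W0.c1 g k 1) := by
  rw [W0.d1_apply, ff_sum2]
  exact Finset.sum_congr rfl fun k _ => m1_mat _ k i

theorem d1_ss (hg : Gen g) (u : Fin 2 → Pv g 0 3) (i : Fin 7) :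
    ss (W0.d1 hg u) i 0 = ∑ k, (ss (u k) i 3 * W0.c1 g k 0 + ss (u k) i 4 * W0.c1 g k 1) := by
  rw [W0.d1_apply, ss_sum2]
  refine Finset.sum_congr rfl fun k _ => ?_
  rw [ss_mul _ _ rfl]
  exact m1_mat _ k i

theorem is1 (hg : Gen g) : Is1 (W0.d1 hg) := fun u i =>
  ⟨(d1_ff hg u i).trans (d1_coef (r3f u i)), (d1_ss hg u i).trans (d1_coef (r3s u i))⟩

/-- **`Exact d2 d1`** -/
theorem e21 (hg : Gen g) : Function.Exact (W0.d2 hg) (W0.d1 hg) :=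
  W0A822.e21 hg (is2 hg) (is1 hg)

/-- **`Exact d3 d2`** -/
theorem e32 (hg : Gen g) : Function.Exact (W0.d3 hg) (W0.d2 hg) :=
  W0A822.e32 hg (is3 hg) (is2 hg)

/-- **`Injective d3`** -/
theorem h3 (hg : Gen g) : Function.Injective (W0.d3 hg) := W0A822.inj3 hg (is3 hg)

end Crest.Agent.R186.W0B822
end

-- ▼ part R186/Par_667
section

/-!
Row 186, S0281, leaf B281.PAR (helper667): the parameter of the base over the ground field
`k0 = Frac F₂[x, y, z]`.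
-/

set_option autoImplicit false

namespace Crest.Agent.R186.Par667

open Crest.Agent.R186.B281

/-- the parameter -/
noncomputable def g0 : Indep667.k0 := Indep667.par 0

theorem gen0 : Gen g0 := by
  refine ⟨Indep667.par_ne_zero 0, fun n hn h => ?_⟩
  have h1 := Indep667.par_indep3 (n : ℤ) 0 0 (by
    rw [zpow_natCast, zpow_zero, zpow_zero, mul_one, mul_one]; exact h)
  omega


end Crest.Agent.R186.Par667
end

-- ▼ part R186/Fin281_713
section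

/-!
Row 186, S0281 (helper713): THE ASSEMBLY of the base.

* `two` = the two sides over `A g 0` and `A g⁻¹ 1` (136's `sideM0`, `sideM1`, 870's `tau`, `eV`,
  `eW`), from the nullness of `V g 0 0`, `V g⁻¹ 1 0` and the exactness of the resolutions of
  `W g 0` (93 / 822 / 881) and `W g⁻¹ 1` (952);
* `c0281_of` = `Spine700.C0281 K` (328's `c0281_two`, 581's `simples`).
-/

set_option autoImplicit false
set_option linter.unusedSectionVars false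

namespace Crest.Agent.R186.Fin713

open B281 ExtRes700 LinkB328 LinkC328

universe w

variable {K : Type} [Field K] {g : K}

/-- the two sides -/
noncomputable def two (hg : Gen g)
    (null0 : ∀ j, E0 (A g 0) (V g 0 0) (A g 0) j)
    (null1 : ∀ j, E0 (A g⁻¹ 1) (V g⁻¹ 1 0) (A g⁻¹ 1) j) : Two K (A g 0) (A g⁻¹ 1) where
  S := B281M.sideM0 hg null0 (W0B822.h3 hg) (W0B822.e32 hg) (W0B822.e21 hg) (W0eps881.e10 hg)
    (W0eps881.heps g)
  S' := B281M.sideM1 hg.inv null1 (W1.h3 hg.inv) (W1.e32 hg.inv) (W1.e21 hg.inv)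
    (W1.e10 hg.inv) (W1.hε hg.inv)
  τ := Anti870.tau hg (by norm_num)
  eV := Anti870.eV hg (by norm_num)
  eW := Anti870.eW hg (by norm_num)

/-- the end -/
theorem c0281_of (hg : Gen g)
    (null0 : ∀ j, E0 (A g 0) (V g 0 0) (A g 0) j)
    (null1 : ∀ j, E0 (A g⁻¹ 1) (V g⁻¹ 1 0) (A g⁻¹ 1) j) : Spine700.C0281.{w} K :=
  LinkE328.c0281_two (two hg null0 null1) (by norm_num) (NB581.simples g (Or.inl rfl))


end Crest.Agent.R186.Fin713
end

-- ▼ part R186/LCS_369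
section

/-!
# Row 186, S0281 base (helper369): the `h = 0` square of a pair of families
-/

set_option autoImplicit false

namespace Crest.Agent.R186.LC369

namespace Pr

variable {K : Type*} [Field K] {g : K} {U : Type*} [AddCommGroup U] [Module K U] (R : Pr K g U)

/-- the quotient `L k P / L' k P` -/
abbrev N (k P : ℤ) : Type _ := ↥(R.L k P) ⧸ ((R.L' k P).comap (R.L k P).subtype)

/-- the class of an element -/
def cl (k P : ℤ) (u : U) (hu : u ∈ R.L k P) : R.N k P := Submodule.Quotient.mk ⟨u, hu⟩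

theorem cl_zero_iff {k P : ℤ} {u : U} (hu : u ∈ R.L k P) : R.cl k P u hu = 0 ↔ u ∈ R.L' k P := by
  rw [cl, Submodule.Quotient.mk_eq_zero]
  rfl

theorem cl_eq_iff {k P : ℤ} {u v : U} (hu : u ∈ R.L k P) (hv : v ∈ R.L k P) :
    R.cl k P u hu = R.cl k P v hv ↔ u - v ∈ R.L' k P := by
  rw [cl, cl, Submodule.Quotient.eq]
  rfl

theorem cl_surj {k P : ℤ} (w : R.N k P) : ∃ u, ∃ hu : u ∈ R.L k P, R.cl k P u hu = w := by
  obtain ⟨⟨u, hu⟩, rfl⟩ := Submodule.mkQ_surjective _ w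
  exact ⟨u, hu, rfl⟩

/-- induced maps -/
def mp (T : U →ₗ[K] U) (k P k' P' : ℤ) (hT : ∀ u, u ∈ R.L k P → T u ∈ R.L k' P')
    (hT' : ∀ u, u ∈ R.L' k P → T u ∈ R.L' k' P') : R.N k P →ₗ[K] R.N k' P' :=
  Submodule.mapQ _ _ (T.restrict hT) (fun u hu => hT' _ hu)

theorem mp_cl (T : U →ₗ[K] U) (k P k' P' : ℤ) (hT : ∀ u, u ∈ R.L k P → T u ∈ R.L k' P')
    (hT' : ∀ u, u ∈ R.L' k P → T u ∈ R.L' k' P') {u : U} (hu : u ∈ R.L k P) :
    R.mp T k P k' P' hT hT' (R.cl k P u hu) = R.cl k' P' (T u) (hT u hu) := rfl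

theorem cl_sub {k P : ℤ} {u v : U} (hu : u ∈ R.L k P) (hv : v ∈ R.L k P) :
    R.cl k P u hu - R.cl k P v hv = R.cl k P (u - v) (sub_mem hu hv) := rfl

theorem cl_add {k P : ℤ} {u v : U} (hu : u ∈ R.L k P) (hv : v ∈ R.L k P) :
    R.cl k P u hu + R.cl k P v hv = R.cl k P (u + v) (add_mem hu hv) := rfl

theorem cl_smul {k P : ℤ} {u : U} (c : K) (hu : u ∈ R.L k P) :
    c • R.cl k P u hu = R.cl k P (c • u) (Submodule.smul_mem _ c hu) := rfl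

/-- the relation `x_i d_j = g^[i=j] d_j x_i` modulo lower order -/
theorem rel (i j : Fin 2) (u : U) :
    R.x j (R.d i u) - (if i = j then g else 1) • R.d i (R.x j u) = if i = j then u else 0 := by
  by_cases hij : i = j
  · subst hij
    simp only [if_true]
    rw [R.xd0]
    abel
  · simp only [if_neg hij, one_smul]
    rw [R.xd1 j i u (fun h => hij h.symm), sub_self]

/-- the `h = 0` square of a pair of families -/
def toSq (k P : ℤ) (hDS : R.DS (k + 2)) (hXS : R.XS (k + 2) P) :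
    Sq K g (R.N k P) (R.N (k + 1) (P - 1)) (R.N (k + 2) (P - 2)) (R.N k (P + 1))
      (R.N (k + 1) P) (R.N (k + 2) (P - 1)) (R.N (k + 2) P) where
  xa i := R.mp (R.x i) k P k (P + 1) (R.xL i k P) (R.xL' i k P)
  xb i := R.mp (R.x i) (k + 1) (P - 1) (k + 1) P
    (fun u hu => by have := R.xL i _ _ u hu; rwa [sub_add_cancel] at this)
    (fun u hu => by have := R.xL' i _ _ u hu; rwa [sub_add_cancel] at this)
  xc i := R.mp (R.x i) (k + 2) (P - 2) (k + 2) (P - 1)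
    (fun u hu => by have := R.xL i _ _ u hu; rwa [show P - 2 + 1 = P - 1 by ring] at this)
    (fun u hu => by have := R.xL' i _ _ u hu; rwa [show P - 2 + 1 = P - 1 by ring] at this)
  xd i := R.mp (R.x i) (k + 2) (P - 1) (k + 2) P
    (fun u hu => by have := R.xL i _ _ u hu; rwa [sub_add_cancel] at this)
    (fun u hu => by have := R.xL' i _ _ u hu; rwa [sub_add_cancel] at this)
  da i := R.mp (R.d i) k P (k + 1) (P - 1) (R.dL i k P) (R.dL' i k P)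
  db i := R.mp (R.d i) (k + 1) (P - 1) (k + 2) (P - 2)
    (fun u hu => by
      have := R.dL i _ _ u hu
      rwa [show k + 1 + 1 = k + 2 by ring, show P - 1 - 1 = P - 2 by ring] at this)
    (fun u hu => by
      have := R.dL' i _ _ u hu
      rwa [show k + 1 + 1 = k + 2 by ring, show P - 1 - 1 = P - 2 by ring] at this)
  dc i := R.mp (R.d i) k (P + 1) (k + 1) P
    (fun u hu => by have := R.dL i _ _ u hu; rwa [add_sub_cancel_right] at this)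
    (fun u hu => by have := R.dL' i _ _ u hu; rwa [add_sub_cancel_right] at this)
  dd i := R.mp (R.d i) (k + 1) P (k + 2) (P - 1)
    (fun u hu => by have := R.dL i _ _ u hu; rwa [show k + 1 + 1 = k + 2 by ring] at this)
    (fun u hu => by have := R.dL' i _ _ u hu; rwa [show k + 1 + 1 = k + 2 by ring] at this)
  ra i j w := by
    obtain ⟨u, hu, rfl⟩ := R.cl_surj w
    rw [mp_cl, mp_cl, mp_cl, mp_cl, cl_smul, cl_eq_iff, R.rel]
    split_ifs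
    · exact R.h _ _ _ hu
    · exact zero_mem _
  rb i j w := by
    obtain ⟨u, hu, rfl⟩ := R.cl_surj w
    rw [mp_cl, mp_cl, mp_cl, mp_cl, cl_smul, cl_eq_iff, R.rel]
    split_ifs
    · have := R.h _ _ _ hu
      rwa [show k + 1 + 1 = k + 2 by ring] at this
    · exact zero_mem _
  da_inj w h := by
    obtain ⟨u, hu, rfl⟩ := R.cl_surj w
    rw [mp_cl, cl_zero_iff] at h
    rw [cl_zero_iff]
    exact R.DI _ _ _ hu h
  dc_inj w h := by
    obtain ⟨u, hu, rfl⟩ := R.cl_surj w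
    rw [mp_cl, cl_zero_iff] at h
    rw [cl_zero_iff]
    refine R.DI _ _ _ hu ?_
    rwa [add_sub_cancel_right]
  xc_inj w h := by
    obtain ⟨u, hu, rfl⟩ := R.cl_surj w
    rw [mp_cl, cl_zero_iff] at h
    rw [cl_zero_iff]
    refine R.XI _ _ _ hu ?_
    rwa [show P - 2 + 1 = P - 1 by ring]
  dk w w' h := by
    obtain ⟨u, hu, rfl⟩ := R.cl_surj w
    obtain ⟨v, hv, rfl⟩ := R.cl_surj w'
    rw [mp_cl, mp_cl, cl_eq_iff] at h
    obtain ⟨z, hz, h1, h2⟩ := R.DK (k + 1) (P - 1) u v hu hv (by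
      rwa [show k + 1 + 1 = k + 2 by ring, show P - 1 - 1 = P - 2 by ring])
    rw [add_sub_cancel_right, sub_add_cancel] at hz
    refine ⟨R.cl k P z hz, ?_, ?_⟩
    · rw [mp_cl, cl_eq_iff]; exact h1
    · rw [mp_cl, cl_eq_iff]; exact h2
  dk' w w' h := by
    obtain ⟨u, hu, rfl⟩ := R.cl_surj w
    obtain ⟨v, hv, rfl⟩ := R.cl_surj w'
    rw [mp_cl, mp_cl, cl_eq_iff] at h
    obtain ⟨z, hz, h1, h2⟩ := R.DK (k + 1) P u v hu hv (by
      rwa [show k + 1 + 1 = k + 2 by ring])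
    rw [add_sub_cancel_right] at hz
    refine ⟨R.cl k (P + 1) z hz, ?_, ?_⟩
    · rw [mp_cl, cl_eq_iff]; exact h1
    · rw [mp_cl, cl_eq_iff]; exact h2
  ds w := by
    obtain ⟨u, hu, rfl⟩ := R.cl_surj w
    obtain ⟨a, ha, b, hb, h⟩ := hDS (P - 2) u hu
    rw [show k + 2 - 1 = k + 1 by ring, show P - 2 + 1 = P - 1 by ring] at ha hb
    refine ⟨R.cl _ _ a ha, R.cl _ _ b hb, ?_⟩
    rw [mp_cl, mp_cl, cl_sub, cl_eq_iff]
    exact h
  ds' w := by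
    obtain ⟨u, hu, rfl⟩ := R.cl_surj w
    obtain ⟨a, ha, b, hb, h⟩ := hDS (P - 1) u hu
    rw [show k + 2 - 1 = k + 1 by ring, show P - 1 + 1 = P by ring] at ha hb
    refine ⟨R.cl _ _ a ha, R.cl _ _ b hb, ?_⟩
    rw [mp_cl, mp_cl, cl_sub, cl_eq_iff]
    exact h
  xk w w' h := by
    obtain ⟨u, hu, rfl⟩ := R.cl_surj w
    obtain ⟨v, hv, rfl⟩ := R.cl_surj w'
    rw [mp_cl, mp_cl, cl_eq_iff] at h
    obtain ⟨z, hz, h1, h2⟩ := R.XK (k + 2) (P - 1) v u hv hu (by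
      rw [sub_add_cancel]
      have := neg_mem h
      rwa [neg_sub] at this)
    rw [show P - 1 - 1 = P - 2 by ring] at hz
    refine ⟨R.cl _ _ z hz, ?_, ?_⟩
    · rw [mp_cl, cl_eq_iff]; exact h2
    · rw [mp_cl, cl_eq_iff]; exact h1
  xs w := by
    obtain ⟨u, hu, rfl⟩ := R.cl_surj w
    obtain ⟨a, ha, b, hb, h⟩ := hXS u hu
    refine ⟨R.cl _ _ a ha, R.cl _ _ b hb, ?_⟩
    rw [mp_cl, mp_cl, cl_sub, cl_eq_iff]
    exact h

end Pr

end Crest.Agent.R186.LC369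
end

-- ▼ part R186/LCT_369
section

/-!
# Row 186, S0281 base (helper369): the filtered LC theorem (`h = 1`, `s = 0`), elementwise
-/

set_option autoImplicit false

namespace Crest.Agent.R186.LC369

namespace Dict

variable {K : Type*} [Field K] {g : K} {N00 N01 N02 N10 N11 N12 N22 : Type*}
    [AddCommGroup N00] [Module K N00] [AddCommGroup N01] [Module K N01]
    [AddCommGroup N02] [Module K N02] [AddCommGroup N10] [Module K N10]
    [AddCommGroup N11] [Module K N11] [AddCommGroup N12] [Module K N12]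
    [AddCommGroup N22] [Module K N22]
    {S : Sq K g N00 N01 N02 N10 N11 N12 N22} {U : Type*} [AddCommGroup U] [Module K U]
    (T : Dict S U) (lam : ℕ → K)

/-! ## total symbol functions -/

open Classical in
noncomputable def q1 (u : U) : N11 := if h : u ∈ T.L1 then T.p1 ⟨u, h⟩ else 0
open Classical in
noncomputable def q2 (u : U) : N22 := if h : u ∈ T.L2 then T.p2 ⟨u, h⟩ else 0
open Classical in
noncomputable def qp (u : U) : N10 := if h : u ∈ T.Lp then T.pp ⟨u, h⟩ else 0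

theorem q1_of {u : U} (h : u ∈ T.L1) : T.q1 u = T.p1 ⟨u, h⟩ := dif_pos h
theorem q2_of {u : U} (h : u ∈ T.L2) : T.q2 u = T.p2 ⟨u, h⟩ := dif_pos h
theorem qp_of {u : U} (h : u ∈ T.Lp) : T.qp u = T.pp ⟨u, h⟩ := dif_pos h

theorem q1_add {u v : U} (hu : u ∈ T.L1) (hv : v ∈ T.L1) : T.q1 (u + v) = T.q1 u + T.q1 v := by
  rw [T.q1_of hu, T.q1_of hv, T.q1_of (add_mem hu hv), ← map_add]; rfl
theorem q1_sub {u v : U} (hu : u ∈ T.L1) (hv : v ∈ T.L1) : T.q1 (u - v) = T.q1 u - T.q1 v := by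
  rw [T.q1_of hu, T.q1_of hv, T.q1_of (sub_mem hu hv), ← map_sub]; rfl
theorem q1_smul {u : U} (c : K) (hu : u ∈ T.L1) : T.q1 (c • u) = c • T.q1 u := by
  rw [T.q1_of hu, T.q1_of (Submodule.smul_mem _ c hu), ← map_smul]; rfl
theorem q1_neg {u : U} (hu : u ∈ T.L1) : T.q1 (-u) = -T.q1 u := by
  rw [T.q1_of hu, T.q1_of (neg_mem hu), ← map_neg]; rfl
theorem q1_low {u : U} (hu : u ∈ T.L0) : T.q1 u = 0 := by
  rw [T.q1_of (T.h01 u hu)]; exact T.k01 u hu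

theorem q2_add {u v : U} (hu : u ∈ T.L2) (hv : v ∈ T.L2) : T.q2 (u + v) = T.q2 u + T.q2 v := by
  rw [T.q2_of hu, T.q2_of hv, T.q2_of (add_mem hu hv), ← map_add]; rfl
theorem q2_sub {u v : U} (hu : u ∈ T.L2) (hv : v ∈ T.L2) : T.q2 (u - v) = T.q2 u - T.q2 v := by
  rw [T.q2_of hu, T.q2_of hv, T.q2_of (sub_mem hu hv), ← map_sub]; rfl
theorem q2_smul {u : U} (c : K) (hu : u ∈ T.L2) : T.q2 (c • u) = c • T.q2 u := by
  rw [T.q2_of hu, T.q2_of (Submodule.smul_mem _ c hu), ← map_smul]; rfl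
theorem q2_low {u : U} (hu : u ∈ T.L1) : T.q2 u = 0 := by
  rw [T.q2_of (T.h12 u hu)]; exact T.k12 u hu

theorem qp_sub {u v : U} (hu : u ∈ T.Lp) (hv : v ∈ T.Lp) : T.qp (u - v) = T.qp u - T.qp v := by
  rw [T.qp_of hu, T.qp_of hv, T.qp_of (sub_mem hu hv), ← map_sub]; rfl
theorem qp_smul {u : U} (c : K) (hu : u ∈ T.Lp) : T.qp (c • u) = c • T.qp u := by
  rw [T.qp_of hu, T.qp_of (Submodule.smul_mem _ c hu), ← map_smul]; rfl

theorem M1_iff {u : U} : u ∈ T.M1 ↔ u ∈ T.L1 ∧ T.q1 u = 0 := by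
  rw [mem_M1]
  exact ⟨fun ⟨h, h0⟩ => ⟨h, by rw [T.q1_of h]; exact h0⟩, fun ⟨h, h0⟩ => ⟨h, by rwa [T.q1_of h] at h0⟩⟩
theorem M2_iff {u : U} : u ∈ T.M2 ↔ u ∈ T.L2 ∧ T.q2 u = 0 := by
  rw [mem_M2]
  exact ⟨fun ⟨h, h0⟩ => ⟨h, by rw [T.q2_of h]; exact h0⟩, fun ⟨h, h0⟩ => ⟨h, by rwa [T.q2_of h] at h0⟩⟩
theorem Mp_iff {u : U} : u ∈ T.Mp ↔ u ∈ T.Lp ∧ T.qp u = 0 := by
  rw [mem_Mp]
  exact ⟨fun ⟨h, h0⟩ => ⟨h, by rw [T.qp_of h]; exact h0⟩, fun ⟨h, h0⟩ => ⟨h, by rwa [T.qp_of h] at h0⟩⟩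

/-- the `μ`-part of a `K`-vertex element -/
def mu (u v : U) : U := T.x 1 u - T.x 0 v

/-! ## the differentials of `Hom(K(n), -)`, `581`'s maps, `j` = exponent of `x1` -/

def D1u (n : ℕ) (φ : ℕ → U) (e : Fin 2) (j : ℕ) : U :=
  if e = 0 then T.x 0 (T.d 0 (φ j)) - lam (n - j) • φ j
  else T.x 0 (T.d 1 (φ j)) - lam j • φ (j - 1)

def D1v (n : ℕ) (φ : ℕ → U) (e : Fin 2) (j : ℕ) : U :=
  if e = 0 then T.x 1 (T.d 0 (φ j)) - lam (n - j) • φ (j + 1)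
  else T.x 1 (T.d 1 (φ j)) - lam j • φ j

def D2u (n : ℕ) (u v : Fin 2 → ℕ → U) : ℕ → U
  | 0 => -(lam (n + 1) • u 1 0) - g⁻¹ • T.x 0 (T.d 1 (u 0 0)) + T.x 0 (T.d 0 (u 1 0))
  | j + 1 => lam (j + 1) • u 0 j - lam (n - j) • u 1 (j + 1) + g⁻¹ • T.x 0 (T.d 0 (v 1 j))
      - T.x 0 (T.d 1 (v 0 j))

def D2v (n : ℕ) (u v : Fin 2 → ℕ → U) : ℕ → U
  | 0 => -(lam (n + 1) • v 1 0) - g⁻¹ • T.x 1 (T.d 1 (u 0 0)) + T.x 1 (T.d 0 (u 1 0))
  | j + 1 => lam (j + 1) • v 0 j - lam (n - j) • v 1 (j + 1) + g⁻¹ • T.x 1 (T.d 0 (v 1 j))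
      - T.x 1 (T.d 1 (v 0 j))

def D2p (n : ℕ) (u v : Fin 2 → ℕ → U) (e : Fin 2) (j : ℕ) : U :=
  if e = 0 then -(g⁻¹ • u 0 (j + 1)) + v 0 j + (lam (n - j))⁻¹ • T.d 0 (T.mu (u 0 j) (v 0 j))
  else -(u 1 (j + 1)) + g⁻¹ • v 1 j + (lam (n - j))⁻¹ • T.d 1 (T.mu (u 0 j) (v 0 j))

/-- the part of `D3` coming from the `K₂`-slots and from `-D_0` on the second `O(-1)`-slot -/
def D3a (n : ℕ) (a b : ℕ → U) (ψ : Fin 2 → ℕ → U) (j : ℕ) : U :=
  a (j + 1) - b j - (lam (n + 1 - j))⁻¹ • T.d 0 (T.mu (a j) (b j))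
    - (if j = n then (lam (n + 1))⁻¹ • T.d 1 (T.mu (a (n + 1)) (b (n + 1))) else 0)
    - lam (n - j) • ψ 1 j

def D3 (n : ℕ) (a b : ℕ → U) (ψ : Fin 2 → ℕ → U) : ℕ → U
  | 0 => T.D3a lam n a b ψ 0
  | j + 1 => T.D3a lam n a b ψ (j + 1) + (lam (j + 1) - 1) • ψ 0 j - g • T.d 1 (T.x 1 (ψ 0 j))
      + T.d 0 (T.x 1 (ψ 1 j))

/-- `K₁`-vertex elements -/
def C1 (n : ℕ) (u v : Fin 2 → ℕ → U) : Prop :=
  ∀ e, ∀ j ≤ n, u e j ∈ T.L1 ∧ v e j ∈ T.L1 ∧ T.mu (u e j) (v e j) ∈ T.Lp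
def C1' (n : ℕ) (u v : Fin 2 → ℕ → U) : Prop :=
  ∀ e, ∀ j ≤ n, u e j ∈ T.M1 ∧ v e j ∈ T.M1 ∧ T.mu (u e j) (v e j) ∈ T.Mp
/-- `K₂`-vertex elements -/
def C2 (n : ℕ) (a b : ℕ → U) : Prop :=
  ∀ j ≤ n + 1, a j ∈ T.L2 ∧ b j ∈ T.L2 ∧ T.mu (a j) (b j) ∈ T.Lp
def C2' (n : ℕ) (a b : ℕ → U) : Prop :=
  ∀ j ≤ n + 1, a j ∈ T.M2 ∧ b j ∈ T.M2 ∧ T.mu (a j) (b j) ∈ T.Mp

/-! ## symbols of the differentials -/

section symb
variable {lam}

theorem q1_xd {u : U} (h : u ∈ T.L0) (j i : Fin 2) :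
    T.q1 (T.x j (T.d i u)) = S.xb j (S.da i (T.p0 ⟨u, h⟩)) := by
  rw [T.q1_of (T.xdm0 j i u h)]; exact T.pxd0 j i u h

theorem q2_xd {u : U} (h : u ∈ T.L1) (j i : Fin 2) :
    T.q2 (T.x j (T.d i u)) = S.xd j (S.dd i (T.q1 u)) := by
  rw [T.q2_of (T.xdm1 j i u h), T.q1_of h]; exact T.pxd1 j i u h

theorem q1_d {u : U} (h : u ∈ T.Lp) (i : Fin 2) : T.q1 (T.d i u) = S.dc i (T.qp u) := by
  rw [T.q1_of (T.dm i u h), T.qp_of h]; exact T.pd i u h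

theorem qp_x {u : U} (h : u ∈ T.L0) (i : Fin 2) : T.qp (T.x i u) = S.xa i (T.p0 ⟨u, h⟩) := by
  rw [T.qp_of (T.xm i u h)]; exact T.px i u h

/-- `D1` lands in `C1` -/
theorem D1_C1 (n : ℕ) {φ : ℕ → U} (hφ : ∀ j, φ j ∈ T.L0) : T.C1 n (T.D1u lam n φ) (T.D1v lam n φ) := by
  have hm : ∀ (c : K) (j : ℕ), c • φ j ∈ T.L1 := fun c j => T.h01 _ (Submodule.smul_mem _ c (hφ j))
  have hx : ∀ (a b : Fin 2) (j : ℕ), T.x a (T.d b (φ j)) ∈ T.L1 := fun a b j => T.xdm0 a b _ (hφ j)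
  intro e j _
  fin_cases e
  · refine ⟨?_, ?_, ?_⟩
    · simp only [D1u, Fin.zero_eta, if_true]; exact sub_mem (hx _ _ _) (hm _ _)
    · simp only [D1v, Fin.zero_eta, if_true]; exact sub_mem (hx _ _ _) (hm _ _)
    · simp only [mu, D1u, D1v, Fin.zero_eta, if_true, map_sub, map_smul, T.xx]
      rw [sub_sub_sub_cancel_left]
      exact sub_mem (Submodule.smul_mem _ _ (T.xm _ _ (hφ _))) (Submodule.smul_mem _ _ (T.xm _ _ (hφ _)))
  · refine ⟨?_, ?_, ?_⟩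
    · simp only [D1u, Fin.mk_one, one_ne_zero, if_false]; exact sub_mem (hx _ _ _) (hm _ _)
    · simp only [D1v, Fin.mk_one, one_ne_zero, if_false]; exact sub_mem (hx _ _ _) (hm _ _)
    · simp only [mu, D1u, D1v, Fin.mk_one, one_ne_zero, if_false, map_sub, map_smul, T.xx]
      rw [sub_sub_sub_cancel_left]
      exact sub_mem (Submodule.smul_mem _ _ (T.xm _ _ (hφ _))) (Submodule.smul_mem _ _ (T.xm _ _ (hφ _)))

theorem q_D1 (n : ℕ) {φ : ℕ → U} (hφ : ∀ j, φ j ∈ T.L0) (e : Fin 2) (j : ℕ) :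
    T.q1 (T.D1u lam n φ e j) = S.xb 0 (zeta S (fun j => T.p0 ⟨φ j, hφ j⟩) e j) ∧
    T.q1 (T.D1v lam n φ e j) = S.xb 1 (zeta S (fun j => T.p0 ⟨φ j, hφ j⟩) e j) ∧
    T.qp (T.mu (T.D1u lam n φ e j) (T.D1v lam n φ e j)) =
      mm S lam n (fun j => T.p0 ⟨φ j, hφ j⟩) e j := by
  have hm : ∀ (c : K) (j : ℕ), c • φ j ∈ T.L0 := fun c j => Submodule.smul_mem _ c (hφ j)
  have hx : ∀ (a b : Fin 2) (j : ℕ), T.x a (T.d b (φ j)) ∈ T.L1 := fun a b j => T.xdm0 a b _ (hφ j)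
  fin_cases e
  · refine ⟨?_, ?_, ?_⟩
    · simp only [D1u, Fin.zero_eta, if_true]
      rw [T.q1_sub (hx _ _ _) (T.h01 _ (hm _ _)), T.q1_low (hm _ _), sub_zero, T.q1_xd (hφ j)]
      rfl
    · simp only [D1v, Fin.zero_eta, if_true]
      rw [T.q1_sub (hx _ _ _) (T.h01 _ (hm _ _)), T.q1_low (hm _ _), sub_zero, T.q1_xd (hφ j)]
      rfl
    · simp only [mu, D1u, D1v, Fin.zero_eta, if_true, map_sub, map_smul, T.xx]
      rw [sub_sub_sub_cancel_left, ← smul_sub, T.qp_smul _ (sub_mem (T.xm _ _ (hφ _)) (T.xm _ _ (hφ _))),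
        T.qp_sub (T.xm _ _ (hφ _)) (T.xm _ _ (hφ _)), T.qp_x (hφ _), T.qp_x (hφ _)]
      simp [mm]
  · refine ⟨?_, ?_, ?_⟩
    · simp only [D1u, Fin.mk_one, one_ne_zero, if_false]
      rw [T.q1_sub (hx _ _ _) (T.h01 _ (hm _ _)), T.q1_low (hm _ _), sub_zero, T.q1_xd (hφ j)]
      rfl
    · simp only [D1v, Fin.mk_one, one_ne_zero, if_false]
      rw [T.q1_sub (hx _ _ _) (T.h01 _ (hm _ _)), T.q1_low (hm _ _), sub_zero, T.q1_xd (hφ j)]
      rfl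
    · simp only [mu, D1u, D1v, Fin.mk_one, one_ne_zero, if_false, map_sub, map_smul, T.xx]
      rw [sub_sub_sub_cancel_left, ← smul_sub, T.qp_smul _ (sub_mem (T.xm _ _ (hφ _)) (T.xm _ _ (hφ _))),
        T.qp_sub (T.xm _ _ (hφ _)) (T.xm _ _ (hφ _)), T.qp_x (hφ _), T.qp_x (hφ _)]
      simp [mm]

theorem mu_sub (u v u' v' : U) : T.mu (u - u') (v - v') = T.mu u v - T.mu u' v' := by
  simp only [mu, map_sub]; abel

theorem mu_D2_zero (n : ℕ) (u v : Fin 2 → ℕ → U) :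
    T.mu (T.D2u lam n u v 0) (T.D2v lam n u v 0) = -(lam (n + 1) • T.mu (u 1 0) (v 1 0)) := by
  simp only [mu, D2u, D2v, map_add, map_sub, map_neg, map_smul, T.xx, smul_sub]
  abel

theorem mu_D2_succ (n j : ℕ) (u v : Fin 2 → ℕ → U) :
    T.mu (T.D2u lam n u v (j + 1)) (T.D2v lam n u v (j + 1)) =
      lam (j + 1) • T.mu (u 0 j) (v 0 j) - lam (n - j) • T.mu (u 1 (j + 1)) (v 1 (j + 1)) := by
  simp only [mu, D2u, D2v, map_add, map_sub, map_smul, T.xx, smul_sub]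
  abel

/-- the junk term -/
theorem junk (h0 : lam 0 = 0) {n : ℕ} {M : Submodule K U} {w : ℕ → U} (hw : ∀ j ≤ n, w j ∈ M) {j : ℕ}
    (hj : j ≤ n) : lam (n - j) • w (j + 1) ∈ M := by
  rcases Nat.lt_or_ge j n with h | h
  · exact Submodule.smul_mem _ _ (hw _ h)
  · rw [Nat.sub_eq_zero_of_le h, h0, zero_smul]; exact zero_mem _

theorem q2_eq4 {a b c d : U} (ha : a ∈ T.L1) (hb : b ∈ T.L1) (hc : c ∈ T.L2) (hd : d ∈ T.L2) :
    T.q2 (a - b + c - d) = T.q2 c - T.q2 d := by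
  have h1 : a - b ∈ T.L1 := sub_mem ha hb
  rw [T.q2_sub (add_mem (T.h12 _ h1) hc) hd, T.q2_add (T.h12 _ h1) hc, T.q2_low h1, zero_add]

variable {n : ℕ} {u v : Fin 2 → ℕ → U} {ζ : Fin 2 → ℕ → N01}

/-- symbols of `D2` on the `K₂`-slots -/
theorem q_D2 (hg : g ≠ 0) (h0 : lam 0 = 0) (hC : T.C1 n u v)
    (hu : ∀ e, ∀ j ≤ n, T.q1 (u e j) = S.xb 0 (ζ e j)) (hv : ∀ e, ∀ j ≤ n, T.q1 (v e j) = S.xb 1 (ζ e j)) :
    ∀ j ≤ n + 1, T.D2u lam n u v j ∈ T.L2 ∧ T.D2v lam n u v j ∈ T.L2 ∧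
      T.q2 (T.D2u lam n u v j) = S.xd 0 (ZZ S ζ j) ∧ T.q2 (T.D2v lam n u v j) = S.xd 1 (ZZ S ζ j) := by
  intro j hj
  rcases j with _ | j
  · obtain ⟨a0, b0, _⟩ := hC 0 0 (Nat.zero_le _)
    obtain ⟨a1, b1, _⟩ := hC 1 0 (Nat.zero_le _)
    have m1 : ∀ i, g⁻¹ • T.x i (T.d 1 (u 0 0)) ∈ T.L2 := fun i => Submodule.smul_mem _ _ (T.xdm1 _ _ _ a0)
    have m2 : ∀ i, T.x i (T.d 0 (u 1 0)) ∈ T.L2 := fun i => T.xdm1 _ _ _ a1
    have k1 : ∀ w, w ∈ T.L1 → ∀ i, T.q2 (-(lam (n + 1) • w) - g⁻¹ • T.x i (T.d 1 (u 0 0)) +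
        T.x i (T.d 0 (u 1 0))) = S.xd i (ZZ S ζ 0) := by
      intro w hw i
      have m3 : -(lam (n + 1) • w) ∈ T.L1 := neg_mem (Submodule.smul_mem _ _ hw)
      rw [T.q2_add (sub_mem (T.h12 _ m3) (m1 i)) (m2 i), T.q2_sub (T.h12 _ m3) (m1 i), T.q2_low m3,
        T.q2_smul _ (T.xdm1 _ _ _ a0), T.q2_xd a0, T.q2_xd a1, hu 0 0 (Nat.zero_le _),
        hu 1 0 (Nat.zero_le _)]
      simp only [ZZ, map_smul, map_sub, S.rb, if_true, one_ne_zero, if_false, smul_sub, smul_smul,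
        inv_mul_cancel₀ hg, one_smul, Fin.isValue]
      abel
    refine ⟨?_, ?_, k1 _ a1 0, k1 _ b1 1⟩
    · exact add_mem (sub_mem (T.h12 _ (neg_mem (Submodule.smul_mem _ _ a1))) (m1 0)) (m2 0)
    · exact add_mem (sub_mem (T.h12 _ (neg_mem (Submodule.smul_mem _ _ b1))) (m1 1)) (m2 1)
  · have hjn : j ≤ n := by omega
    obtain ⟨a0, b0, _⟩ := hC 0 j hjn
    obtain ⟨a1, b1, _⟩ := hC 1 j hjn
    have m1 : ∀ i, g⁻¹ • T.x i (T.d 0 (v 1 j)) ∈ T.L2 := fun i => Submodule.smul_mem _ _ (T.xdm1 _ _ _ b1)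
    have m2 : ∀ i, T.x i (T.d 1 (v 0 j)) ∈ T.L2 := fun i => T.xdm1 _ _ _ b0
    have ju : lam (n - j) • u 1 (j + 1) ∈ T.L1 := junk h0 (fun j hj => (hC 1 j hj).1) hjn
    have jv : lam (n - j) • v 1 (j + 1) ∈ T.L1 := junk h0 (fun j hj => (hC 1 j hj).2.1) hjn
    have k1 : ∀ w w', w ∈ T.L1 → w' ∈ T.L1 → ∀ i, T.q2 (w - w' + g⁻¹ • T.x i (T.d 0 (v 1 j)) -
        T.x i (T.d 1 (v 0 j))) = S.xd i (ZZ S ζ (j + 1)) := by
      intro w w' hw hw' i
      rw [T.q2_eq4 hw hw' (m1 i) (m2 i), T.q2_smul _ (T.xdm1 _ _ _ b1), T.q2_xd b1, T.q2_xd b0,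
        hv 0 j hjn, hv 1 j hjn]
      simp only [ZZ, map_smul, map_sub, S.rb, if_true, zero_ne_one, if_false, smul_sub, smul_smul,
        inv_mul_cancel₀ hg, one_smul, Fin.isValue]
    refine ⟨?_, ?_, k1 _ _ (Submodule.smul_mem _ _ a0) ju 0, k1 _ _ (Submodule.smul_mem _ _ b0) jv 1⟩
    · exact sub_mem (add_mem (T.h12 _ (sub_mem (Submodule.smul_mem _ _ a0) ju)) (m1 0)) (m2 0)
    · exact sub_mem (add_mem (T.h12 _ (sub_mem (Submodule.smul_mem _ _ b0) jv)) (m1 1)) (m2 1)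

theorem qp_D2 (h0 : lam 0 = 0) (hC : T.C1 n u v) :
    ∀ j ≤ n + 1, T.mu (T.D2u lam n u v j) (T.D2v lam n u v j) ∈ T.Lp ∧
      T.qp (T.mu (T.D2u lam n u v j) (T.D2v lam n u v j)) =
        MM lam n (fun e j => T.qp (T.mu (u e j) (v e j))) j := by
  intro j hj
  rcases j with _ | j
  · obtain ⟨_, _, a1⟩ := hC 1 0 (Nat.zero_le _)
    rw [T.mu_D2_zero]
    refine ⟨neg_mem (Submodule.smul_mem _ _ a1), ?_⟩
    rw [← neg_smul, T.qp_smul _ a1]
    simp [MM, h0]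
  · have hjn : j ≤ n := by omega
    obtain ⟨_, _, a0⟩ := hC 0 j hjn
    have ju : lam (n - j) • T.mu (u 1 (j + 1)) (v 1 (j + 1)) ∈ T.Lp :=
      junk (w := fun j => T.mu (u 1 j) (v 1 j)) h0 (fun j hj => (hC 1 j hj).2.2) hjn
    rw [T.mu_D2_succ]
    refine ⟨sub_mem (Submodule.smul_mem _ _ a0) ju, ?_⟩
    rw [T.qp_sub (Submodule.smul_mem _ _ a0) ju, T.qp_smul _ a0]
    simp only [MM, Nat.add_sub_cancel, Nat.succ_sub_succ_eq_sub, Nat.sub_zero]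
    rcases Nat.lt_or_ge j n with h | h
    · rw [T.qp_smul _ (hC 1 (j + 1) h).2.2]
    · rw [Nat.sub_eq_zero_of_le h, h0, zero_smul, zero_smul, T.qp_of (zero_mem _)]
      congr 1
      exact map_zero _

theorem q_D2p (hg : g ≠ 0) (hC : T.C1 n u v)
    (hu : ∀ e, ∀ j ≤ n, T.q1 (u e j) = S.xb 0 (ζ e j)) (hv : ∀ e, ∀ j ≤ n, T.q1 (v e j) = S.xb 1 (ζ e j))
    (e : Fin 2) {j : ℕ} (hj : j < n) :
    T.D2p lam n u v e j ∈ T.L1 ∧ T.q1 (T.D2p lam n u v e j) =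
      psi S lam n ζ (fun e j => T.qp (T.mu (u e j) (v e j))) e j := by
  obtain ⟨a0, b0, c0⟩ := hC 0 j hj.le
  obtain ⟨a1, b1, _⟩ := hC 1 j hj.le
  obtain ⟨a0', _, _⟩ := hC 0 (j + 1) hj
  obtain ⟨a1', _, _⟩ := hC 1 (j + 1) hj
  fin_cases e
  · have m1 : -(g⁻¹ • u 0 (j + 1)) ∈ T.L1 := neg_mem (Submodule.smul_mem _ _ a0')
    have m2 : T.d 0 (T.mu (u 0 j) (v 0 j)) ∈ T.L1 := T.dm _ _ c0
    simp only [D2p, Fin.zero_eta, if_true]
    refine ⟨add_mem (add_mem m1 b0) (Submodule.smul_mem _ _ m2), ?_⟩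
    rw [T.q1_add (add_mem m1 b0) (Submodule.smul_mem _ _ m2), T.q1_add m1 b0, T.q1_smul _ m2,
      T.q1_d c0, T.q1_neg (Submodule.smul_mem _ _ a0'), T.q1_smul _ a0', hu 0 _ hj, hv 0 _ hj.le]
    simp [psi]
  · have m1 : -(u 1 (j + 1)) ∈ T.L1 := neg_mem a1'
    have m2 : T.d 1 (T.mu (u 0 j) (v 0 j)) ∈ T.L1 := T.dm _ _ c0
    have m3 : g⁻¹ • v 1 j ∈ T.L1 := Submodule.smul_mem _ _ b1
    simp only [D2p, Fin.mk_one, one_ne_zero, if_false]
    refine ⟨add_mem (add_mem m1 m3) (Submodule.smul_mem _ _ m2), ?_⟩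
    rw [T.q1_add (add_mem m1 m3) (Submodule.smul_mem _ _ m2), T.q1_add m1 m3, T.q1_smul _ m2,
      T.q1_d c0, T.q1_neg a1', T.q1_smul _ b1, hu 1 _ hj, hv 1 _ hj.le]
    simp [psi]

/-! ## exactness in degrees `0`, `1` -/

theorem exact0 (n : ℕ) {φ : ℕ → U} (hφ : ∀ j, φ j ∈ T.L0)
    (h : T.C1' n (T.D1u lam n φ) (T.D1v lam n φ)) : ∀ j ≤ n, φ j ∈ T.M0 := by
  intro j hj
  rw [T.mem_M0]
  refine ⟨hφ j, H0 S n (fun j => T.p0 ⟨φ j, hφ j⟩) ?_ j hj⟩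
  intro e j hj
  obtain ⟨h1, h2, h3⟩ := h e j hj
  obtain ⟨s1, s2, s3⟩ := T.q_D1 (lam := lam) n hφ e j
  have e1 := (T.M1_iff.1 h1).2
  have e2 := (T.M1_iff.1 h2).2
  rw [s2] at e2
  exact T.xbi _ e2

theorem xdi (z : N12) (h : S.xd 1 z = 0) : z = 0 := by
  obtain ⟨w, h1, h2⟩ := S.xk 0 z (by rw [h, map_zero])
  rw [S.xc_inj w h1.symm, map_zero] at h2
  exact h2

theorem exact1 (hg : g ≠ 0) (n : ℕ) (hlam : ∀ m, 0 < m → m ≤ n + 1 → lam m ≠ 0) (h0 : lam 0 = 0)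
    {u v : Fin 2 → ℕ → U} (hC : T.C1 n u v)
    (h2 : T.C2' n (T.D2u lam n u v) (T.D2v lam n u v))
    (hp : ∀ e, ∀ j < n, T.D2p lam n u v e j ∈ T.M1) :
    ∃ φ : ℕ → U, (∀ j, φ j ∈ T.L0) ∧
      T.C1' n (fun e j => u e j - T.D1u lam n φ e j) (fun e j => v e j - T.D1v lam n φ e j) := by
  have key : ∀ e j, ∃ z : N01, j ≤ n → T.q1 (u e j) = S.xb 0 z ∧ T.q1 (v e j) = S.xb 1 z := by
    intro e j
    by_cases hj : j ≤ n
    · obtain ⟨a, b, c⟩ := hC e j hj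
      obtain ⟨z, hz1, hz2⟩ := T.k1 _ _ a b c
      exact ⟨z, fun _ => ⟨by rw [T.q1_of a, hz1], by rw [T.q1_of b, hz2]⟩⟩
    · exact ⟨0, fun h => absurd h hj⟩
  choose ζ hζ using key
  have hu : ∀ e, ∀ j ≤ n, T.q1 (u e j) = S.xb 0 (ζ e j) := fun e j hj => (hζ e j hj).1
  have hv : ∀ e, ∀ j ≤ n, T.q1 (v e j) = S.xb 1 (ζ e j) := fun e j hj => (hζ e j hj).2
  obtain ⟨φ', hφ1, hφ2⟩ := H1 S hg n hlam h0 ζ (fun e j => T.qp (T.mu (u e j) (v e j)))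
    (fun j hj => by
      obtain ⟨_, _, _, h4⟩ := T.q_D2 hg h0 hC hu hv j hj
      rw [(T.M2_iff.1 (h2 j hj).2.1).2] at h4
      exact xdi (S := S) _ h4.symm)
    (fun j hj => by
      rw [← (T.qp_D2 h0 hC j hj).2]
      exact (T.Mp_iff.1 (h2 j hj).2.2).2)
    (fun e j hj => by
      rw [← (T.q_D2p hg hC hu hv e hj).2]
      exact (T.M1_iff.1 (hp e j hj)).2)
  choose ψ hψ using fun j => T.s0 (φ' j)
  refine ⟨fun j => (ψ j : U), fun j => (ψ j).2, ?_⟩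
  intro e j hj
  have hφ : ∀ j, (ψ j : U) ∈ T.L0 := fun j => (ψ j).2
  obtain ⟨a, b, c⟩ := hC e j hj
  obtain ⟨a', b', c'⟩ := T.D1_C1 (lam := lam) n hφ e j hj
  obtain ⟨s1, s2, s3⟩ := T.q_D1 (lam := lam) n hφ e j
  have hφ' : (fun j => T.p0 ⟨(ψ j : U), hφ j⟩) = φ' := funext fun j => hψ j
  rw [hφ'] at s1 s2 s3
  refine ⟨T.M1_iff.2 ⟨sub_mem a a', ?_⟩, T.M1_iff.2 ⟨sub_mem b b', ?_⟩, T.Mp_iff.2 ⟨?_, ?_⟩⟩
  · rw [T.q1_sub a a', s1, hu e j hj, hφ1 e j hj, sub_self]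
  · rw [T.q1_sub b b', s2, hv e j hj, hφ1 e j hj, sub_self]
  · rw [T.mu_sub]; exact sub_mem c c'
  · rw [T.mu_sub, T.qp_sub c c', s3]
    exact sub_eq_zero.2 (hφ2 e j hj)

/-! ## degrees `2`, `3` -/

variable {a b : ℕ → U} {ψ : Fin 2 → ℕ → U} {Z : ℕ → N12}

theorem q_D3 (h0 : lam 0 = 0) (hC : T.C2 n a b) (hψ : ∀ e, ∀ j < n, ψ e j ∈ T.L1)
    (ha : ∀ j ≤ n + 1, T.q2 (a j) = S.xd 0 (Z j)) (hb : ∀ j ≤ n + 1, T.q2 (b j) = S.xd 1 (Z j)) :
    ∀ j ≤ n, T.D3 lam n a b ψ j ∈ T.L2 ∧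
      T.q2 (T.D3 lam n a b ψ j) = tau S Z (fun e j => T.q1 (ψ e j)) j := by
  have base : ∀ j ≤ n, T.D3a lam n a b ψ j ∈ T.L2 ∧
      T.q2 (T.D3a lam n a b ψ j) = S.xd 0 (Z (j + 1)) - S.xd 1 (Z j) := by
    intro j hj
    obtain ⟨a1, _, _⟩ := hC (j + 1) (by omega)
    obtain ⟨_, b2, c2⟩ := hC j (by omega)
    obtain ⟨_, _, c3⟩ := hC (n + 1) le_rfl
    have m1 : (lam (n + 1 - j))⁻¹ • T.d 0 (T.mu (a j) (b j)) ∈ T.L1 :=
      Submodule.smul_mem _ _ (T.dm _ _ c2)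
    have m2 : (if j = n then (lam (n + 1))⁻¹ • T.d 1 (T.mu (a (n + 1)) (b (n + 1))) else 0) ∈ T.L1 := by
      split_ifs
      · exact Submodule.smul_mem _ _ (T.dm _ _ c3)
      · exact zero_mem _
    have m3 : lam (n - j) • ψ 1 j ∈ T.L1 := by
      rcases Nat.lt_or_ge j n with h | h
      · exact Submodule.smul_mem _ _ (hψ 1 j h)
      · rw [Nat.sub_eq_zero_of_le h, h0, zero_smul]; exact zero_mem _
    have m0 : a (j + 1) - b j ∈ T.L2 := sub_mem a1 b2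
    unfold D3a
    refine ⟨sub_mem (sub_mem (sub_mem m0 (T.h12 _ m1)) (T.h12 _ m2)) (T.h12 _ m3), ?_⟩
    rw [T.q2_sub (sub_mem (sub_mem m0 (T.h12 _ m1)) (T.h12 _ m2)) (T.h12 _ m3),
      T.q2_sub (sub_mem m0 (T.h12 _ m1)) (T.h12 _ m2), T.q2_sub m0 (T.h12 _ m1), T.q2_low m1,
      T.q2_low m2, T.q2_low m3, T.q2_sub a1 b2, ha _ (by omega), hb _ (by omega), sub_zero, sub_zero,
      sub_zero]
  intro j hj
  rcases j with _ | j
  · exact base 0 hj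
  · obtain ⟨h1, h2⟩ := base (j + 1) hj
    have p0 := hψ 0 j hj
    have p1 := hψ 1 j hj
    have e1 : T.D3 lam n a b ψ (j + 1) = T.D3a lam n a b ψ (j + 1) + lam (j + 1) • ψ 0 j
        - T.x 1 (T.d 1 (ψ 0 j)) + T.x 1 (T.d 0 (ψ 1 j)) := by
      simp only [D3]
      rw [T.xd0 1 (ψ 0 j), T.xd1 1 0 (ψ 1 j) (by decide), sub_smul, one_smul]
      abel
    have m1 : lam (j + 1) • ψ 0 j ∈ T.L1 := Submodule.smul_mem _ _ p0
    have m2 : T.x 1 (T.d 1 (ψ 0 j)) ∈ T.L2 := T.xdm1 _ _ _ p0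
    have m3 : T.x 1 (T.d 0 (ψ 1 j)) ∈ T.L2 := T.xdm1 _ _ _ p1
    rw [e1]
    refine ⟨add_mem (sub_mem (add_mem h1 (T.h12 _ m1)) m2) m3, ?_⟩
    rw [T.q2_add (sub_mem (add_mem h1 (T.h12 _ m1)) m2) m3, T.q2_sub (add_mem h1 (T.h12 _ m1)) m2,
      T.q2_add h1 (T.h12 _ m1), T.q2_low m1, add_zero, h2, T.q2_xd p0, T.q2_xd p1]
    rfl

theorem exact2 (hg : g ≠ 0) (n : ℕ) (hlam : ∀ m, 0 < m → m ≤ n + 1 → lam m ≠ 0) (h0 : lam 0 = 0)
    {a b : ℕ → U} {ψ : Fin 2 → ℕ → U} (hC : T.C2 n a b) (hψ : ∀ e, ∀ j < n, ψ e j ∈ T.L1)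
    (h3 : ∀ j ≤ n, T.D3 lam n a b ψ j ∈ T.M2) :
    ∃ u v : Fin 2 → ℕ → U, (∀ e j, u e j ∈ T.L1 ∧ v e j ∈ T.L1 ∧ T.mu (u e j) (v e j) ∈ T.Lp) ∧
      T.C2' n (fun j => a j - T.D2u lam n u v j) (fun j => b j - T.D2v lam n u v j) ∧
      ∀ e, ∀ j < n, ψ e j - T.D2p lam n u v e j ∈ T.M1 := by
  have key : ∀ j, ∃ z : N12, j ≤ n + 1 → T.q2 (a j) = S.xd 0 z ∧ T.q2 (b j) = S.xd 1 z := by
    intro j
    by_cases hj : j ≤ n + 1
    · obtain ⟨a, b, c⟩ := hC j hj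
      obtain ⟨z, hz1, hz2⟩ := T.k2 _ _ a b c
      exact ⟨z, fun _ => ⟨by rw [T.q2_of a, hz1], by rw [T.q2_of b, hz2]⟩⟩
    · exact ⟨0, fun h => absurd h hj⟩
  choose Z hZ using key
  have ha : ∀ j ≤ n + 1, T.q2 (a j) = S.xd 0 (Z j) := fun j hj => (hZ j hj).1
  have hb : ∀ j ≤ n + 1, T.q2 (b j) = S.xd 1 (Z j) := fun j hj => (hZ j hj).2
  obtain ⟨ζ, m, g1, g2, g3⟩ := H2 S hg n hlam h0 Z (fun j => T.qp (T.mu (a j) (b j)))
    (fun e j => T.q1 (ψ e j)) (fun j hj => by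
      rw [← (T.q_D3 h0 hC hψ ha hb j hj).2]
      exact (T.M2_iff.1 (h3 j hj)).2)
  choose u v hu hv hm su sv sm using fun e j => T.l1 (ζ e j) (m e j)
  have hC1 : ∀ e j, u e j ∈ T.L1 ∧ v e j ∈ T.L1 ∧ T.mu (u e j) (v e j) ∈ T.Lp :=
    fun e j => ⟨hu e j, hv e j, hm e j⟩
  have hC1' : T.C1 n u v := fun e j _ => hC1 e j
  have su' : ∀ e, ∀ j ≤ n, T.q1 (u e j) = S.xb 0 (ζ e j) := fun e j _ => by rw [T.q1_of (hu e j), su]
  have sv' : ∀ e, ∀ j ≤ n, T.q1 (v e j) = S.xb 1 (ζ e j) := fun e j _ => by rw [T.q1_of (hv e j), sv]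
  have sm' : (fun e j => T.qp (T.mu (u e j) (v e j))) = m := by
    funext e j
    exact (T.qp_of (hm e j)).trans (sm e j)
  refine ⟨u, v, hC1, ?_, ?_⟩
  · intro j hj
    obtain ⟨a1, b1, c1⟩ := hC j hj
    obtain ⟨t1, t2, t3, t4⟩ := T.q_D2 hg h0 hC1' su' sv' j hj
    obtain ⟨t5, t6⟩ := T.qp_D2 (lam := lam) h0 hC1' j hj
    rw [sm'] at t6
    refine ⟨T.M2_iff.2 ⟨sub_mem a1 t1, ?_⟩, T.M2_iff.2 ⟨sub_mem b1 t2, ?_⟩, T.Mp_iff.2 ⟨?_, ?_⟩⟩
    · rw [T.q2_sub a1 t1, t3, ha j hj, g1 j hj, sub_self]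
    · rw [T.q2_sub b1 t2, t4, hb j hj, g1 j hj, sub_self]
    · rw [T.mu_sub]; exact sub_mem c1 t5
    · rw [T.mu_sub, T.qp_sub c1 t5, t6]
      exact sub_eq_zero.2 (g2 j hj)
  · intro e j hj
    obtain ⟨t1, t2⟩ := T.q_D2p (lam := lam) hg hC1' su' sv' e hj
    rw [sm'] at t2
    refine T.M1_iff.2 ⟨sub_mem (hψ e j hj) t1, ?_⟩
    rw [T.q1_sub (hψ e j hj) t1, t2]
    exact sub_eq_zero.2 (g3 e j hj)

theorem exact3 (n : ℕ) (h0 : lam 0 = 0) {τ : ℕ → U} (hτ : ∀ j ≤ n, τ j ∈ T.L2) :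
    ∃ (a b : ℕ → U) (ψ : Fin 2 → ℕ → U),
      (∀ j, a j ∈ T.L2 ∧ b j ∈ T.L2 ∧ T.mu (a j) (b j) ∈ T.Lp) ∧ (∀ e j, ψ e j ∈ T.L1) ∧
      ∀ j ≤ n, τ j - T.D3 lam n a b ψ j ∈ T.M2 := by
  obtain ⟨Z, ψ', hZ⟩ := H3 S n (fun j => T.q2 (τ j))
  choose a b ha hb hm sa sb sm using fun j => T.l2 (Z j) 0
  choose ψ hψ using fun e j => T.s1 (ψ' e j)
  have hC : ∀ j, a j ∈ T.L2 ∧ b j ∈ T.L2 ∧ T.mu (a j) (b j) ∈ T.Lp := fun j => ⟨ha j, hb j, hm j⟩
  have hψ2 : ∀ e j, (ψ e j : U) ∈ T.L1 := fun e j => (ψ e j).2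
  have hψ3 : (fun e j => T.q1 (ψ e j : U)) = ψ' := by
    funext e j
    rw [T.q1_of (hψ2 e j)]
    exact hψ e j
  refine ⟨a, b, fun e j => (ψ e j : U), hC, hψ2, ?_⟩
  intro j hj
  obtain ⟨t1, t2⟩ := T.q_D3 (lam := lam) h0 (fun j _ => hC j) (fun e j _ => hψ2 e j)
    (fun j _ => by rw [T.q2_of (ha j), sa]) (fun j _ => by rw [T.q2_of (hb j), sb]) j hj
  rw [hψ3] at t2
  refine T.M2_iff.2 ⟨sub_mem (hτ j hj) t1, ?_⟩
  rw [T.q2_sub (hτ j hj) t1, t2, ← hZ j hj, sub_self]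

end symb

end Dict

end Crest.Agent.R186.LC369
private theorem rz_15b872fff0 : type_of% @_root_.Crest.Agent.R186.LC369.Dict.D2u.eq_1 := @_root_.Crest.Agent.R186.LC369.Dict.D2u.eq_1 -- L84
private theorem rz_eee5239e68 : type_of% @_root_.Crest.Agent.R186.LC369.Dict.D2v.eq_1 := @_root_.Crest.Agent.R186.LC369.Dict.D2v.eq_1 -- L89
private theorem rz_2bc7f36796 : type_of% @_root_.Crest.Agent.R186.LC369.Dict.D3.eq_1 := @_root_.Crest.Agent.R186.LC369.Dict.D3.eq_1 -- L104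
end

-- ▼ part R186/LCA_369
section

/-!
# Row 186, S0281 base (helper369): transposition of the maps `KN.D1, D2, D3` (`s = 0`)

`b0 b1 b2` : the left `Op K`-linear maps with given values on the units, `U` an `Op K`-module;
`A1 : b0 φ ∘ D1 = b1 (D1u φ) (D1v φ)`, `A2 : b1 u v ∘ D2 = b2 (D2u ..) (D2v ..) (D2p ..)`,
`A3 : b2 a b ψ ∘ D3 = b0 (D3 a b ψ)`.
-/

set_option autoImplicit false

namespace Crest.Agent.R186.LC369

open Crest.Agent.R186.B281 Crest.Agent.R186.B281.KN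

variable {K : Type} [Field K] {U : Type} [AddCommGroup U] [Module (Op K) U]

section builders

variable (n : ℕ)

/-- `x ↦ ∑ x_j • φ_j` -/
noncomputable def b0 (φ : ℕ → U) : (Fin (n + 1) → Op K) →ₗ[Op K] U where
  toFun x := ∑ j : Fin (n + 1), x j • φ j
  map_add' x y := by simp only [Pi.add_apply, add_smul, Finset.sum_add_distrib]
  map_smul' T x := by
    simp only [Pi.smul_apply, smul_eq_mul, mul_smul, RingHom.id_apply, Finset.smul_sum]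

/-- the `K₁`-slots -/
noncomputable def b1 (u v : Fin 2 → ℕ → U) : (Fin 2 → Fin (n + 1) → Fin 2 → Op K) →ₗ[Op K] U where
  toFun w := ∑ j : Fin (n + 1), (w 0 j 0 • u 0 j + w 0 j 1 • v 0 j) +
    ∑ j : Fin (n + 1), (w 1 j 0 • u 1 j + w 1 j 1 • v 1 j)
  map_add' x y := by
    simp only [Pi.add_apply, add_smul, Finset.sum_add_distrib]
    abel
  map_smul' T x := by
    simp only [Pi.smul_apply, smul_eq_mul, mul_smul, RingHom.id_apply, Finset.smul_sum, smul_add]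

/-- the `K₂`-slots and the `O(-1)`-slots -/
noncomputable def b2 (a b : ℕ → U) (ψ : Fin 2 → ℕ → U) :
    ((Fin (n + 2) → Fin 2 → Op K) × (Fin 2 → Fin n → Op K)) →ₗ[Op K] U where
  toFun p := ∑ j : Fin (n + 2), (p.1 j 0 • a j + p.1 j 1 • b j) +
    (∑ j : Fin n, p.2 0 j • ψ 0 j + ∑ j : Fin n, p.2 1 j • ψ 1 j)
  map_add' x y := by
    simp only [Prod.fst_add, Prod.snd_add, Pi.add_apply, add_smul, Finset.sum_add_distrib]
    abel
  map_smul' T x := by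
    simp only [Prod.smul_fst, Prod.smul_snd, Pi.smul_apply, smul_eq_mul, mul_smul,
      RingHom.id_apply, Finset.smul_sum, smul_add]

theorem b0_apply (φ : ℕ → U) (x : Fin (n + 1) → Op K) :
    b0 n φ x = ∑ j ∈ Finset.range (n + 1), ez x j • φ j := by
  rw [← Fin.sum_univ_eq_sum_range (fun j => ez x j • φ j)]
  simp only [ez_fin]
  rfl

theorem b1_apply (u v : Fin 2 → ℕ → U) (w : Fin 2 → Fin (n + 1) → Fin 2 → Op K) :
    b1 n u v w = ∑ j ∈ Finset.range (n + 1), (ez2 w 0 j 0 • u 0 j + ez2 w 0 j 1 • v 0 j) +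
      ∑ j ∈ Finset.range (n + 1), (ez2 w 1 j 0 • u 1 j + ez2 w 1 j 1 • v 1 j) := by
  rw [← Fin.sum_univ_eq_sum_range (fun j => ez2 w 0 j 0 • u 0 j + ez2 w 0 j 1 • v 0 j),
    ← Fin.sum_univ_eq_sum_range (fun j => ez2 w 1 j 0 • u 1 j + ez2 w 1 j 1 • v 1 j)]
  simp only [ez2, ez_fin]
  rfl

theorem b2_apply (a b : ℕ → U) (ψ : Fin 2 → ℕ → U)
    (p : (Fin (n + 2) → Fin 2 → Op K) × (Fin 2 → Fin n → Op K)) :
    b2 n a b ψ p = ∑ j ∈ Finset.range (n + 2), (ez p.1 j 0 • a j + ez p.1 j 1 • b j) +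
      (∑ j ∈ Finset.range n, ez2 p.2 0 j • ψ 0 j + ∑ j ∈ Finset.range n, ez2 p.2 1 j • ψ 1 j) := by
  rw [← Fin.sum_univ_eq_sum_range (fun j => ez p.1 j 0 • a j + ez p.1 j 1 • b j),
    ← Fin.sum_univ_eq_sum_range (fun j => ez2 p.2 0 j • ψ 0 j),
    ← Fin.sum_univ_eq_sum_range (fun j => ez2 p.2 1 j • ψ 1 j)]
  simp only [ez2, ez_fin]
  rfl

end builders

section sums

variable {g : K} {M : Type*} [AddCommGroup M]

theorem sum_sh (n : ℕ) (F G : ℕ → M) (h0 : F 0 = 0) (h : ∀ j, j < n → F (j + 1) = G j)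
    (hn : G n = 0) : ∑ j ∈ Finset.range (n + 1), F j = ∑ j ∈ Finset.range (n + 1), G j := by
  rw [Finset.sum_range_succ', h0, add_zero, Finset.sum_range_succ, hn, add_zero]
  exact Finset.sum_congr rfl fun j hj => h j (Finset.mem_range.1 hj)

end sums

section transp

variable {g : K} {N00 N01 N02 N10 N11 N12 N22 : Type*}
    [AddCommGroup N00] [Module K N00] [AddCommGroup N01] [Module K N01]
    [AddCommGroup N02] [Module K N02] [AddCommGroup N10] [Module K N10]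
    [AddCommGroup N11] [Module K N11] [AddCommGroup N12] [Module K N12]
    [AddCommGroup N22] [Module K N22]
    {S : Sq K g N00 N01 N02 N10 N11 N12 N22} [Module K U] [IsScalarTower K (Op K) U]
    (T : Dict S U)

/-- `T` is literal -/
structure Lit (T : Dict S U) : Prop where
  x : ∀ i u, T.x i u = (X i : Op K) • u
  d : ∀ i u, T.d i u = D g i • u

/-- the constants -/
noncomputable def cl' (g : K) (m : ℕ) : K := cq g (m : ℤ)

theorem cl'_zero : cl' g 0 = 0 := by simp [cl', cq_zero]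

theorem ez_sup {M : Type*} [Zero M] {m : ℕ} (x : Fin m → M) : ez x m = 0 := ez_of_ge x le_rfl

theorem sA (c : K) (A : Op K) (u : U) : (c • A) • u = A • (c • u) := by
  rw [smul_assoc, ← algebraMap_smul (Op K) c (A • u), ← algebraMap_smul (Op K) c u, smul_smul,
    smul_smul, Algebra.commutes]

theorem sB (c : K) (A : Op K) (u : U) : A • (c • u) = c • (A • u) := by
  rw [← sA, smul_assoc]

theorem A1 (hT : Lit T) (n : ℕ) (φ : ℕ → U) :
    b0 n φ ∘ₗ D1 g n = b1 n (T.D1u (cl' g) n φ) (T.D1v (cl' g) n φ) := by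
  refine LinearMap.ext fun v => ?_
  have hD : ez (D1 g n v) = fun j => if j < n + 1 then d1f g n (ez2 v) j else 0 := by
    funext j
    unfold ez
    split_ifs
    · rfl
    · rfl
  rw [LinearMap.comp_apply, b0_apply, b1_apply, hD]
  set w := ez2 v with hw
  have h1 : w 1 (n + 1) = 0 := ez_sup _
  have e1 : ∀ j, (cc (w 0 j) * D g 0 + cc (w 1 j) * D g 1) • φ j =
      w 0 j 0 • (X 0 : Op K) • D g 0 • φ j + w 0 j 1 • (X 1 : Op K) • D g 0 • φ j +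
      (w 1 j 0 • (X 0 : Op K) • D g 1 • φ j + w 1 j 1 • (X 1 : Op K) • D g 1 • φ j) := by
    intro j
    simp only [cc, add_mul, add_smul, mul_smul]
  have s1 := sum_sh n (fun j => (cl' g (n + 1 - j) • sh (w 0) j 1) • φ j)
    (fun j => w 0 j 1 • (cl' g (n - j) • φ (j + 1)))
    (by simp) (fun j hj => by
      simp only [sh_succ, Nat.add_sub_add_right]
      exact sA _ _ _)
    (by simp [cl'_zero])
  have s2 := sum_sh n (fun j => w 1 j 0 • (cl' g j • φ (j - 1)))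
    (fun j => (cl' g (j + 1) • w 1 (j + 1) 0) • φ j)
    (by simp [cl'_zero]) (fun j hj => by
      simp only [Nat.add_sub_cancel]
      exact (sA _ _ _).symm)
    (by simp [h1])
  have key : ∀ j ∈ Finset.range (n + 1), (if j < n + 1 then d1f g n w j else 0) • φ j =
      (w 0 j 0 • T.D1u (cl' g) n φ 0 j + w 0 j 1 • T.D1v (cl' g) n φ 0 j) +
      (w 1 j 0 • T.D1u (cl' g) n φ 1 j + w 1 j 1 • T.D1v (cl' g) n φ 1 j) +
      (w 0 j 1 • (cl' g (n - j) • φ (j + 1)) - (cl' g (n + 1 - j) • sh (w 0) j 1) • φ j) +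
      (w 1 j 0 • (cl' g j • φ (j - 1)) - (cl' g (j + 1) • w 1 (j + 1) 0) • φ j) := by
    intro j hj
    rw [if_pos (Finset.mem_range.1 hj)]
    simp only [d1f, Dict.D1u, Dict.D1v, sub_smul, e1, hT.x, hT.d, if_true, if_false, one_ne_zero,
      smul_sub]
    rw [show cq g ((n - j : ℕ) : ℤ) = cl' g (n - j) from rfl,
      show cq g ((n + 1 - j : ℕ) : ℤ) = cl' g (n + 1 - j) from rfl,
      show cq g ((j : ℕ) : ℤ) = cl' g j from rfl,
      show cq g ((j + 1 : ℕ) : ℤ) = cl' g (j + 1) from rfl, sA (cl' g (n - j)) (w 0 j 0),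
      sA (cl' g j) (w 1 j 1)]
    abel
  rw [Finset.sum_congr rfl key, Finset.sum_add_distrib, Finset.sum_add_distrib,
    Finset.sum_add_distrib, Finset.sum_sub_distrib, Finset.sum_sub_distrib]
  rw [s1, s2]
  abel

theorem sum_sh' {M : Type*} [AddCommGroup M] (n : ℕ) (F G : ℕ → M)
    (h : ∀ j, j < n → F (j + 1) = G j) (hn : G n = 0) :
    ∑ j ∈ Finset.range (n + 1), F j = F 0 + ∑ j ∈ Finset.range (n + 1), G j := by
  rw [Finset.sum_range_succ', Finset.sum_range_succ G, hn, add_zero, add_comm]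
  congr 1
  exact Finset.sum_congr rfl fun j hj => h j (Finset.mem_range.1 hj)

omit [Module K U] [IsScalarTower K (Op K) U] in
theorem ccD (v : Fin 2 → Op K) (A : Op K) (x : U) : (cc v * A) • x =
    v 0 • (X 0 : Op K) • A • x + v 1 • (X 1 : Op K) • A • x := by
  simp only [cc, add_mul, add_smul, mul_smul]

theorem A2w (hT : Lit T) (n : ℕ) (u v : Fin 2 → ℕ → U) (w : ℕ → Fin 2 → Op K) :
    ∑ j ∈ Finset.range (n + 1), (d2w0 g w j 0 • u 0 j + d2w0 g w j 1 • v 0 j) +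
      ∑ j ∈ Finset.range (n + 1), (d2w1 g n w j 0 • u 1 j + d2w1 g n w j 1 • v 1 j) =
    ∑ j ∈ Finset.range (n + 2), (w j 0 • T.D2u (cl' g) n u v j + w j 1 • T.D2v (cl' g) n u v j) := by
  have s1 := sum_sh' n (fun j => cl' g (n + 1 - j) • (w j 0 • u 1 j + w j 1 • v 1 j))
    (fun j => cl' g (n - j) • (w (j + 1) 0 • u 1 (j + 1) + w (j + 1) 1 • v 1 (j + 1)))
    (fun j hj => by simp only [Nat.add_sub_add_right]) (by simp [cl'_zero])
  have key : ∀ j ∈ Finset.range (n + 1),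
      (d2w0 g w j 0 • u 0 j + d2w0 g w j 1 • v 0 j) +
        (d2w1 g n w j 0 • u 1 j + d2w1 g n w j 1 • v 1 j) =
      (w (j + 1) 0 • T.D2u (cl' g) n u v (j + 1) + w (j + 1) 1 • T.D2v (cl' g) n u v (j + 1)) +
      cl' g (n - j) • (w (j + 1) 0 • u 1 (j + 1) + w (j + 1) 1 • v 1 (j + 1)) -
      cl' g (n + 1 - j) • (w j 0 • u 1 j + w j 1 • v 1 j) +
      (if j = 0 then -(g⁻¹ • (cc (w 0) * D g 1) • u 0 0) + (cc (w 0) * D g 0) • u 1 0 else 0) := by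
    intro j hj
    have q1 : d2w0 g w j 0 = cl' g (j + 1) • w (j + 1) 0 -
        (if j = 0 then g⁻¹ • (cc (w 0) * D g 1) else 0) := by
      unfold d2w0
      split_ifs
      · exact sub_zero _
      · exact sub_zero _
    have q2 : d2w0 g w j 1 = cl' g (j + 1) • w (j + 1) 1 - cc (w (j + 1)) * D g 1 := by
      unfold d2w0
      split_ifs
      · show _ - g⁻¹ • (0 : Op K) - _ = _
        rw [smul_zero, sub_zero]
        rfl
      · show _ - (0 : Op K) - _ = _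
        rw [sub_zero]
        rfl
    have q3 : d2w1 g n w j 0 = -(cl' g (n + 1 - j) • w j 0) +
        (if j = 0 then cc (w 0) * D g 0 else 0) := by
      unfold d2w1
      split_ifs
      · show _ + _ + g⁻¹ • (0 : Op K) = _
        rw [smul_zero, add_zero]
        rfl
      · show _ + _ + g⁻¹ • (0 : Op K) = _
        rw [smul_zero, add_zero]
        rfl
    have q4 : d2w1 g n w j 1 = -(cl' g (n + 1 - j) • w j 1) +
        g⁻¹ • (cc (w (j + 1)) * D g 0) := by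
      unfold d2w1
      split_ifs
      · show _ + (0 : Op K) + _ = _
        rw [add_zero]
        rfl
      · show _ + (0 : Op K) + _ = _
        rw [add_zero]
        rfl
    rw [q1, q2, q3, q4]
    simp only [Dict.D2u, Dict.D2v, hT.x, hT.d]
    by_cases hj0 : j = 0
    · subst hj0
      simp only [if_true, sub_smul, add_smul, neg_smul, smul_add, smul_sub,
        smul_assoc, ccD, sB]
      abel
    · simp only [hj0, if_false, sub_smul, add_smul, neg_smul, smul_add, smul_sub,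
        smul_assoc, ccD, sB, sub_zero, add_zero]
      abel
  rw [← Finset.sum_add_distrib, Finset.sum_congr rfl key, Finset.sum_add_distrib,
    Finset.sum_sub_distrib, Finset.sum_add_distrib, s1, Finset.sum_range_succ' _ (n + 1),
    Finset.sum_ite_eq' (Finset.range (n + 1)) 0, if_pos (Finset.mem_range.2 (Nat.succ_pos n))]
  simp only [Dict.D2u, Dict.D2v, hT.x, hT.d, ccD, smul_add, smul_sub, smul_neg, sB,
    Finset.sum_add_distrib, Finset.sum_sub_distrib, Nat.sub_zero]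
  abel

theorem A2h (hT : Lit T) (n : ℕ) (u v : Fin 2 → ℕ → U) (h : Fin 2 → ℕ → Op K) (h0 : h 0 n = 0)
    (h1 : h 1 n = 0) :
    ∑ j ∈ Finset.range (n + 1), (d2h0 g n h j 0 • u 0 j + d2h0 g n h j 1 • v 0 j) +
      ∑ j ∈ Finset.range (n + 1), (d2h1 g h j 0 • u 1 j + d2h1 g h j 1 • v 1 j) =
    ∑ j ∈ Finset.range n, h 0 j • T.D2p (cl' g) n u v 0 j +
      ∑ j ∈ Finset.range n, h 1 j • T.D2p (cl' g) n u v 1 j := by
  have s1 : ∑ j ∈ Finset.range (n + 1), sh (h 0) j • u 0 j =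
      ∑ j ∈ Finset.range n, h 0 j • u 0 (j + 1) := by
    rw [Finset.sum_range_succ', sh_zero, zero_smul, add_zero]
    rfl
  have s2 : ∑ j ∈ Finset.range (n + 1), sh (h 1) j • u 1 j =
      ∑ j ∈ Finset.range n, h 1 j • u 1 (j + 1) := by
    rw [Finset.sum_range_succ', sh_zero, zero_smul, add_zero]
    rfl
  obtain ⟨F, hF⟩ : ∃ F : ℕ → U, ∀ j, F j = h 0 j • v 0 j + g⁻¹ • h 1 j • v 1 j +
        (cl' g (n - j))⁻¹ • (h 0 j • D g 0 • T.mu (u 0 j) (v 0 j) +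
          h 1 j • D g 1 • T.mu (u 0 j) (v 0 j)) := ⟨_, fun _ => rfl⟩
  have s3 : ∑ j ∈ Finset.range (n + 1), F j = ∑ j ∈ Finset.range n, F j := by
    rw [Finset.sum_range_succ, hF n, h0, h1]
    simp only [zero_smul, smul_zero, add_zero]
  have key : ∀ j ∈ Finset.range (n + 1),
      (d2h0 g n h j 0 • u 0 j + d2h0 g n h j 1 • v 0 j) +
        (d2h1 g h j 0 • u 1 j + d2h1 g h j 1 • v 1 j) =
      -(g⁻¹ • (sh (h 0) j • u 0 j)) - sh (h 1) j • u 1 j + F j := by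
    intro j hj
    have q1 : d2h0 g n h j 0 = -(g⁻¹ • sh (h 0) j) +
        (cl' g (n - j))⁻¹ • ((h 0 j * D g 0 + h 1 j * D g 1) * X 1) := rfl
    have q2 : d2h0 g n h j 1 = h 0 j +
        (cl' g (n - j))⁻¹ • (-((h 0 j * D g 0 + h 1 j * D g 1) * X 0)) := rfl
    have q3 : d2h1 g h j 0 = -sh (h 1) j := rfl
    have q4 : d2h1 g h j 1 = g⁻¹ • h 1 j := rfl
    rw [q1, q2, q3, q4, hF]
    simp only [Dict.mu, hT.x, add_smul, neg_smul, smul_add, smul_sub, smul_neg, smul_assoc, add_mul,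
      mul_smul]
    abel
  have key2 : ∀ j ∈ Finset.range n, h 0 j • T.D2p (cl' g) n u v 0 j +
        h 1 j • T.D2p (cl' g) n u v 1 j =
      -(g⁻¹ • (h 0 j • u 0 (j + 1))) - h 1 j • u 1 (j + 1) + F j := by
    intro j hj
    rw [hF]
    simp only [Dict.D2p, hT.d, if_true, one_ne_zero, if_false, smul_add, smul_neg, sB]
    abel
  rw [← Finset.sum_add_distrib, ← Finset.sum_add_distrib, Finset.sum_congr rfl key,
    Finset.sum_congr rfl key2]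
  simp only [Finset.sum_add_distrib, Finset.sum_sub_distrib, Finset.sum_neg_distrib,
    ← Finset.smul_sum]
  rw [s1, s2, s3]

theorem A2 (hT : Lit T) (n : ℕ) (u v : Fin 2 → ℕ → U) :
    b1 n u v ∘ₗ D2 g n = b2 n (T.D2u (cl' g) n u v) (T.D2v (cl' g) n u v) (T.D2p (cl' g) n u v) := by
  refine LinearMap.ext fun p => ?_
  rw [LinearMap.comp_apply, b2_apply, ← A2w T hT, ← A2h T hT n u v (ez2 p.2) (ez_sup _) (ez_sup _)]
  have e0 : ∀ j ∈ Finset.range (n + 1), ez2 (D2 g n p) 0 j =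
      d2w0 g (ez p.1) j + d2h0 g n (ez2 p.2) j := by
    intro j hj
    exact ez_of_lt _ (Finset.mem_range.1 hj)
  have e1 : ∀ j ∈ Finset.range (n + 1), ez2 (D2 g n p) 1 j =
      d2w1 g n (ez p.1) j + d2h1 g (ez2 p.2) j := by
    intro j hj
    exact ez_of_lt _ (Finset.mem_range.1 hj)
  have f0 : ∀ j ∈ Finset.range (n + 1), ez2 (D2 g n p) 0 j 0 • u 0 j + ez2 (D2 g n p) 0 j 1 • v 0 j =
      (d2w0 g (ez p.1) j 0 • u 0 j + d2w0 g (ez p.1) j 1 • v 0 j) +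
      (d2h0 g n (ez2 p.2) j 0 • u 0 j + d2h0 g n (ez2 p.2) j 1 • v 0 j) := by
    intro j hj
    rw [e0 j hj, Pi.add_apply, Pi.add_apply, add_smul, add_smul]
    abel
  have f1 : ∀ j ∈ Finset.range (n + 1), ez2 (D2 g n p) 1 j 0 • u 1 j + ez2 (D2 g n p) 1 j 1 • v 1 j =
      (d2w1 g n (ez p.1) j 0 • u 1 j + d2w1 g n (ez p.1) j 1 • v 1 j) +
      (d2h1 g (ez2 p.2) j 0 • u 1 j + d2h1 g (ez2 p.2) j 1 • v 1 j) := by
    intro j hj
    rw [e1 j hj, Pi.add_apply, Pi.add_apply, add_smul, add_smul]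
    abel
  rw [b1_apply, Finset.sum_congr rfl f0, Finset.sum_congr rfl f1]
  simp only [Finset.sum_add_distrib]
  abel

theorem A3 (hT : Lit T) (n : ℕ) (a b : ℕ → U) (ψ : Fin 2 → ℕ → U) :
    b2 n a b ψ ∘ₗ D3 g n = b0 n (T.D3 (cl' g) n a b ψ) := by
  refine LinearMap.ext fun x => ?_
  rw [LinearMap.comp_apply, b2_apply, b0_apply]
  set y := ez x with hy
  have hy1 : y (n + 1) = 0 := ez_sup _
  have ew : ∀ j ∈ Finset.range (n + 2), ez (D3 g n x).1 j = d3w g n y j := fun j hj =>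
    ez_of_lt _ (Finset.mem_range.1 hj)
  have eh0 : ∀ j ∈ Finset.range n, ez2 (D3 g n x).2 0 j • ψ 0 j = d3h0 g y j • ψ 0 j := fun j hj => by
    rw [show ez2 (D3 g n x).2 0 j = d3h0 g y j from ez_of_lt _ (Finset.mem_range.1 hj)]
  have eh1 : ∀ j ∈ Finset.range n, ez2 (D3 g n x).2 1 j • ψ 1 j = d3h1 g n y j • ψ 1 j := fun j hj => by
    rw [show ez2 (D3 g n x).2 1 j = d3h1 g n y j from ez_of_lt _ (Finset.mem_range.1 hj)]
  have k1 : ∀ j ∈ Finset.range (n + 2), ez (D3 g n x).1 j 0 • a j + ez (D3 g n x).1 j 1 • b j =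
      (sh y j • a j - y j • b j - (cl' g (n + 1 - j))⁻¹ • (y j • D g 0 • T.mu (a j) (b j))) -
      (if j = n + 1 then (cl' g (n + 1))⁻¹ • (y n • D g 1 • T.mu (a (n + 1)) (b (n + 1))) else 0) := by
    intro j hj
    rw [ew j hj]
    have q1 : d3w g n y j 0 = sh y j - (cl' g (n + 1 - j))⁻¹ • (y j * D g 0 * X 1) -
        (if j = n + 1 then (cl' g (n + 1))⁻¹ • (y n * D g 1 * X 1) else 0) := by
      unfold d3w
      split_ifs <;> rfl
    have q2 : d3w g n y j 1 = -y j - (cl' g (n + 1 - j))⁻¹ • (-(y j * D g 0 * X 0)) -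
        (if j = n + 1 then (cl' g (n + 1))⁻¹ • (-(y n * D g 1 * X 0)) else 0) := by
      unfold d3w
      split_ifs <;> rfl
    rw [q1, q2]
    split_ifs with hj'
    · subst hj'
      simp only [Dict.mu, hT.x, sub_smul, neg_smul, smul_sub, smul_neg, smul_assoc, mul_smul]
      abel
    · simp only [Dict.mu, hT.x, sub_smul, neg_smul, smul_sub, smul_neg, smul_assoc, mul_smul,
        sub_zero]
      abel
  obtain ⟨E, hE0, hE⟩ : ∃ E : ℕ → U, E 0 = 0 ∧ ∀ j, E (j + 1) = (cl' g (j + 1) - 1) • ψ 0 j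
      - g • D g 1 • (X 1 : Op K) • ψ 0 j + D g 0 • (X 1 : Op K) • ψ 1 j :=
    ⟨fun j => Nat.casesOn j 0 fun j => (cl' g (j + 1) - 1) • ψ 0 j
      - g • D g 1 • (X 1 : Op K) • ψ 0 j + D g 0 • (X 1 : Op K) • ψ 1 j, rfl, fun _ => rfl⟩
  have hD3 : ∀ j, T.D3 (cl' g) n a b ψ j = T.D3a (cl' g) n a b ψ j + E j := by
    intro j
    rcases j with _ | j
    · rw [hE0, add_zero]
      rfl
    · rw [hE]
      simp only [Dict.D3, hT.x, hT.d]
      abel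
  have k2 : ∀ j ∈ Finset.range (n + 1), y j • T.D3 (cl' g) n a b ψ j =
      y j • a (j + 1) - y j • b j - (cl' g (n + 1 - j))⁻¹ • (y j • D g 0 • T.mu (a j) (b j)) -
      (if j = n then (cl' g (n + 1))⁻¹ • (y n • D g 1 • T.mu (a (n + 1)) (b (n + 1))) else 0) -
      cl' g (n - j) • (y j • ψ 1 j) + y j • E j := by
    intro j hj
    rw [hD3]
    simp only [Dict.D3a, hT.d]
    split_ifs with hj'
    · subst hj'
      simp only [smul_add, smul_sub, sB]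
    · simp only [smul_add, smul_sub, sB, sub_zero]
  have t1 : ∑ j ∈ Finset.range (n + 1 + 1), sh y j • a j = ∑ j ∈ Finset.range (n + 1), y j • a (j + 1) := by
    rw [Finset.sum_range_succ', sh_zero, zero_smul, add_zero]
    rfl
  have t2 : ∑ j ∈ Finset.range (n + 1 + 1), y j • b j = ∑ j ∈ Finset.range (n + 1), y j • b j := by
    rw [Finset.sum_range_succ _ (n + 1), hy1, zero_smul, add_zero]
  have t3 : ∑ j ∈ Finset.range (n + 1 + 1), (cl' g (n + 1 - j))⁻¹ • (y j • D g 0 • T.mu (a j) (b j)) =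
      ∑ j ∈ Finset.range (n + 1), (cl' g (n + 1 - j))⁻¹ • (y j • D g 0 • T.mu (a j) (b j)) := by
    rw [Finset.sum_range_succ _ (n + 1), hy1, zero_smul, smul_zero, add_zero]
  have t4 : ∑ j ∈ Finset.range (n + 1), cl' g (n - j) • (y j • ψ 1 j) =
      ∑ j ∈ Finset.range n, cl' g (n - j) • (y j • ψ 1 j) := by
    rw [Finset.sum_range_succ, Nat.sub_self, cl'_zero, zero_smul, add_zero]
  have t5 : ∑ j ∈ Finset.range (n + 1), y j • E j = ∑ j ∈ Finset.range n, y (j + 1) • E (j + 1) := by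
    rw [Finset.sum_range_succ', hE0, smul_zero, add_zero]
  have k3 : ∀ j ∈ Finset.range n, d3h0 g y j • ψ 0 j + d3h1 g n y j • ψ 1 j =
      y (j + 1) • E (j + 1) - cl' g (n - j) • (y j • ψ 1 j) := by
    intro j hj
    have q1 : d3h0 g y j = (cl' g (j + 1) - 1) • y (j + 1) - g • (y (j + 1) * D g 1 * X 1) := rfl
    have q2 : d3h1 g n y j = y (j + 1) * D g 0 * X 1 - cl' g (n - j) • y j := rfl
    rw [q1, q2, hE]
    generalize cl' g (j + 1) - 1 = c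
    simp only [sub_smul, smul_add, smul_sub, sB, smul_assoc, mul_smul]
    abel
  rw [Finset.sum_congr rfl k1, Finset.sum_congr rfl eh0, Finset.sum_congr rfl eh1,
    Finset.sum_congr rfl k2, ← Finset.sum_add_distrib (s := Finset.range n), Finset.sum_congr rfl k3]
  simp only [Finset.sum_add_distrib, Finset.sum_sub_distrib, Finset.sum_ite_eq', Finset.mem_range]
  rw [if_pos (by omega : n + 1 < n + 2), if_pos (by omega : n < n + 1)]
  rw [show n + 2 = n + 1 + 1 from rfl, t1, t2, t3, t4, t5]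
  abel

end transp

end Crest.Agent.R186.LC369
end

-- ▼ part R186/LCE_369
section

/-!
# Row 186, S0281 base (helper369): LCQ0, the filtered exactness statements of `LCA_229` for `s = 0`

`Mt T F F' e` : the dictionary `T` is the lattice family `F` with subfamily `F'` in degree `e`;
`ex0 ex1 ex2 ex3` : the hypotheses of `H0_of, H1_of, H3_of` for `355`'s maps `g1 g2 g3`.
-/

set_option autoImplicit false
set_option linter.unusedSectionVars false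

namespace Crest.Agent.R186.LC369

open Crest.Agent.R186.B281 Crest.Agent.R186.B281.KN Crest.Agent.R186.B281.KR FamX823

variable {K : Type} [Field K] {g : K}

section hf

variable {N : Type} [AddCommGroup N] [Module K N] [Module (Op K) N]

theorem HF_pi2 {T : Fam g} {e : ℤ} {L : ℤ → ℤ → Submodule K N} (f0 f1 : T.N →ₗ[Op K] N)
    (Φ : (Fin 2 → T.N) →ₗ[Op K] N) (hΦ : ∀ x, Φ x = f0 (x 0) + f1 (x 1)) :
    HF e (pi T (Fin 2)) L Φ ↔ HF e T L f0 ∧ HF e T L f1 := by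
  constructor
  · intro h
    constructor
    · intro k P n hn
      have h1 : (![n, 0] : Fin 2 → T.N) ∈ (pi T (Fin 2)).L k P :=
        mem_pi.2 (Fin.forall_fin_two.2 ⟨hn, zero_mem _⟩)
      have h2 : Φ ![n, 0] ∈ L k (P + e) := h h1
      rw [hΦ] at h2
      have h3 : f0 n + f1 0 ∈ L k (P + e) := h2
      rwa [map_zero, add_zero] at h3
    · intro k P n hn
      have h1 : (![0, n] : Fin 2 → T.N) ∈ (pi T (Fin 2)).L k P :=
        mem_pi.2 (Fin.forall_fin_two.2 ⟨zero_mem _, hn⟩)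
      have h2 : Φ ![0, n] ∈ L k (P + e) := h h1
      rw [hΦ] at h2
      have h3 : f0 0 + f1 n ∈ L k (P + e) := h2
      rwa [map_zero, zero_add] at h3
  · rintro ⟨h0, h1⟩ k P x hx
    have hx' := mem_pi.1 hx
    change Fin 2 → T.N at x
    have h2 : Φ x ∈ L k (P + e) := by
      rw [hΦ]
      exact add_mem (h0 (hx' 0)) (h1 (hx' 1))
    exact h2


variable {L : ℤ → ℤ → Submodule K N}

/-- filtered maps out of `K₀` -/
theorem HF_G0 (hg : Gen g) (e : ℤ) (hL : SM g L) (n : ℕ) (φ : ℕ → N) :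
    HF e (G0 hg n) L (b0 n φ) ↔ ∀ j ≤ n, φ j ∈ L 0 e := by
  have h := HF_tO hg 0 e hL (n + 1) φ
  have h2 : HF e (G0 hg n) L (b0 n φ) ↔ HF e (pi (TO hg 0) (Fin (n + 1))) L (tO (n + 1) φ) :=
    Iff.rfl
  rw [h2, h]
  exact forall_congr' fun j => by rw [Nat.lt_succ_iff]

/-- filtered maps out of `K₃` -/
theorem HF_G3 (hg : Gen g) (e : ℤ) (hL : SM g L) (n : ℕ) (φ : ℕ → N) :
    HF e (G3 hg n) L (b0 n φ) ↔ ∀ j ≤ n, φ j ∈ L 2 e := by
  have h := HF_tO hg 2 e hL (n + 1) φ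
  have h2 : HF e (G3 hg n) L (b0 n φ) ↔ HF e (pi (TO hg 2) (Fin (n + 1))) L (tO (n + 1) φ) :=
    Iff.rfl
  rw [h2, h]
  exact forall_congr' fun j => by rw [Nat.lt_succ_iff]

/-- filtered maps out of `K₁` -/
theorem HF_G1 (hg : Gen g) (e : ℤ) (hL : SM g L) (n : ℕ) (u v : Fin 2 → ℕ → N) :
    HF e (G1 hg n) L (b1 n u v) ↔ ∀ i, ∀ j ≤ n, u i j ∈ L 1 e ∧ v i j ∈ L 1 e ∧
      (X 1 : Op K) • u i j - (X 0 : Op K) • v i j ∈ L 0 (e + 1) := by
  have h := fun i => HF_tK hg 0 e 1 hL (n + 1) (u i) (v i)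
  rw [show (0 : ℤ) + ((1 : ℕ) : ℤ) = 0 + 1 from rfl] at h
  have h2 : HF e (G1 hg n) L (b1 n u v) ↔
      HF e (pi (TK hg 0 (0 + 1)) (Fin (n + 1))) L (tK (n + 1) (u 0) (v 0)) ∧
      HF e (pi (TK hg 0 (0 + 1)) (Fin (n + 1))) L (tK (n + 1) (u 1) (v 1)) :=
    HF_pi2 (T := pi (TV hg 0 3) (Fin (n + 1))) (tK (n + 1) (u 0) (v 0)) (tK (n + 1) (u 1) (v 1))
      (b1 n u v) (fun x => rfl)
  rw [h2, h 0, h 1, Fin.forall_fin_two, zero_add]
  exact and_congr (forall_congr' fun j => by rw [Nat.lt_succ_iff])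
    (forall_congr' fun j => by rw [Nat.lt_succ_iff])

theorem b2_eq (n : ℕ) (a b : ℕ → N) (ψ : Fin 2 → ℕ → N)
    (p : (Fin (n + 2) → Fin 2 → Op K) × (Fin 2 → Fin n → Op K)) :
    b2 n a b ψ p = tK (n + 2) a b p.1 + (tO n (ψ 0) (p.2 0) + tO n (ψ 1) (p.2 1)) := rfl

theorem HF_G2_iff (hg : Gen g) (e : ℤ) (n : ℕ)
    (Φ : ((Fin (n + 2) → Fin 2 → Op K) × (Fin 2 → Fin n → Op K)) →ₗ[Op K] N) :
    HF e (G2 hg n) L Φ ↔ ∀ k P (p : (Fin (n + 2) → Fin 2 → Op K) × (Fin 2 → Fin n → Op K)),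
      (∀ j, RK g 0 2 k P (p.1 j)) → (∀ i j, p.2 i j ∈ Fil g (k - 1) P) → Φ p ∈ L k (P + e) :=
  ⟨fun h _ _ p h1 h2 => h ((mem_G2 hg n p).2 ⟨h1, h2⟩),
    fun h k P p hp => h k P p ((mem_G2 hg n p).1 hp).1 ((mem_G2 hg n p).1 hp).2⟩

/-- filtered maps out of `K₂` -/
theorem HF_G2 (hg : Gen g) (e : ℤ) (hL : SM g L) (n : ℕ) (a b : ℕ → N) (ψ : Fin 2 → ℕ → N) :
    HF e (G2 hg n) L (b2 n a b ψ) ↔ (∀ j ≤ n + 1, a j ∈ L 2 e ∧ b j ∈ L 2 e ∧
      (X 1 : Op K) • a j - (X 0 : Op K) • b j ∈ L 0 (e + 1)) ∧ ∀ i, ∀ j < n, ψ i j ∈ L 1 e := by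
  have h := HF_tK hg 0 e 2 hL (n + 2) a b
  rw [show (0 : ℤ) + ((2 : ℕ) : ℤ) = 2 from rfl] at h
  have h' := fun i => HF_tO hg 1 e hL n (ψ i)
  have hK : (∀ j ≤ n + 1, a j ∈ L 2 e ∧ b j ∈ L 2 e ∧
      (X 1 : Op K) • a j - (X 0 : Op K) • b j ∈ L 0 (e + 1)) ↔
      HF e (pi (TK hg 0 2) (Fin (n + 2))) L (tK (n + 2) a b) := by
    rw [h]
    exact forall_congr' fun j => by rw [Nat.lt_succ_iff]
  rw [hK, HF_G2_iff]
  constructor
  · intro H
    constructor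
    · intro k P x hx
      have h1 := H k P (x, 0) (fun j => mem_pi.1 hx j) (fun i j => zero_mem _)
      rw [b2_eq] at h1
      have h2 : tK (n + 2) a b x + (tO n (ψ 0) 0 + tO n (ψ 1) 0) ∈ L k (P + e) := h1
      rwa [map_zero, map_zero, add_zero, add_zero] at h2
    · refine Fin.forall_fin_two.2 ⟨?_, ?_⟩
      · refine (h' 0).1 ?_
        intro k P x hx
        have h1 := H k P (0, ![x, 0]) (fun j => RK.zero)
          (Fin.forall_fin_two.2 ⟨fun j => mem_pi.1 hx j, fun j => zero_mem _⟩)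
        rw [b2_eq] at h1
        have h2 : tK (n + 2) a b 0 + (tO n (ψ 0) x + tO n (ψ 1) 0) ∈ L k (P + e) := h1
        rwa [map_zero, map_zero, zero_add, add_zero] at h2
      · refine (h' 1).1 ?_
        intro k P x hx
        have h1 := H k P (0, ![0, x]) (fun j => RK.zero)
          (Fin.forall_fin_two.2 ⟨fun j => zero_mem _, fun j => mem_pi.1 hx j⟩)
        rw [b2_eq] at h1
        have h2 : tK (n + 2) a b 0 + (tO n (ψ 0) 0 + tO n (ψ 1) x) ∈ L k (P + e) := h1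
        rwa [map_zero, map_zero, zero_add, zero_add] at h2
  · rintro ⟨H1, H2⟩ k P p hp1 hp2
    rw [b2_eq]
    refine add_mem (H1 (mem_pi.2 hp1)) (add_mem ?_ ?_)
    · exact (h' 0).2 (H2 0) (mem_pi.2 (hp2 0))
    · exact (h' 1).2 (H2 1) (mem_pi.2 (hp2 1))

theorem exists_b1 {n : ℕ} (Φ : (Fin 2 → Fin (n + 1) → Fin 2 → Op K) →ₗ[Op K] N) :
    ∃ u v : Fin 2 → ℕ → N, Φ = b1 n u v := by
  obtain ⟨Y00, Y01, Y10, Y11, h⟩ := exists_tP2 Φ
  exact ⟨![Y00, Y10], ![Y01, Y11], h.trans (LinearMap.ext fun w => rfl)⟩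

theorem exists_b2 {n : ℕ}
    (Φ : ((Fin (n + 2) → Fin 2 → Op K) × (Fin 2 → Fin n → Op K)) →ₗ[Op K] N) :
    ∃ (a b : ℕ → N) (ψ : Fin 2 → ℕ → N), Φ = b2 n a b ψ := by
  classical
  obtain ⟨y0, y1, h1, h2⟩ := exists_tK (Φ ∘ₗ LinearMap.inl (Op K) _ _)
  obtain ⟨w0, h3, -⟩ := exists_tO (Φ ∘ₗ LinearMap.inr (Op K) _ _ ∘ₗ
    LinearMap.single (Op K) (fun _ : Fin 2 => Fin n → Op K) 0)
  obtain ⟨w1, h4, -⟩ := exists_tO (Φ ∘ₗ LinearMap.inr (Op K) _ _ ∘ₗ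
    LinearMap.single (Op K) (fun _ : Fin 2 => Fin n → Op K) 1)
  refine ⟨y0, y1, ![w0, w1], ?_⟩
  apply LinearMap.ext
  rintro ⟨w, q⟩
  have e1 := LinearMap.congr_fun h1 w
  have e3 := LinearMap.congr_fun h3 (q 0)
  have e4 := LinearMap.congr_fun h4 (q 1)
  rw [b2_eq]
  show _ = tK (n + 2) y0 y1 w + (tO n w0 (q 0) + tO n w1 (q 1))
  rw [← e1, ← e3, ← e4]
  show Φ (w, q) = Φ (w, 0) + (Φ (0, Pi.single 0 (q 0)) + Φ (0, Pi.single 1 (q 1)))
  rw [← map_add, ← map_add]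
  congr 1
  refine Prod.ext ?_ ?_
  · show w = w + (0 + 0)
    rw [add_zero, add_zero]
  · show q = 0 + (Pi.single 0 (q 0) + Pi.single 1 (q 1))
    rw [zero_add]
    have := Finset.univ_sum_single q
    rw [Fin.sum_univ_two] at this
    exact this.symm

theorem b0_sub (n : ℕ) (φ φ' : ℕ → N) : b0 (K := K) n φ - b0 n φ' = b0 n (fun j => φ j - φ' j) := by
  refine LinearMap.ext fun x => ?_
  rw [LinearMap.sub_apply]
  show (∑ j : Fin (n + 1), x j • φ j) - (∑ j : Fin (n + 1), x j • φ' j) =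
    ∑ j : Fin (n + 1), x j • (φ j - φ' j)
  simp only [smul_sub, Finset.sum_sub_distrib]

theorem b1_sub (n : ℕ) (u v u' v' : Fin 2 → ℕ → N) : b1 (K := K) n u v - b1 n u' v' =
    b1 n (fun i j => u i j - u' i j) (fun i j => v i j - v' i j) := by
  refine LinearMap.ext fun x => ?_
  rw [LinearMap.sub_apply]
  show (∑ j : Fin (n + 1), (x 0 j 0 • u 0 j + x 0 j 1 • v 0 j) +
    ∑ j : Fin (n + 1), (x 1 j 0 • u 1 j + x 1 j 1 • v 1 j)) -
    (∑ j : Fin (n + 1), (x 0 j 0 • u' 0 j + x 0 j 1 • v' 0 j) +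
    ∑ j : Fin (n + 1), (x 1 j 0 • u' 1 j + x 1 j 1 • v' 1 j)) =
    ∑ j : Fin (n + 1), (x 0 j 0 • (u 0 j - u' 0 j) + x 0 j 1 • (v 0 j - v' 0 j)) +
    ∑ j : Fin (n + 1), (x 1 j 0 • (u 1 j - u' 1 j) + x 1 j 1 • (v 1 j - v' 1 j))
  simp only [smul_sub, Finset.sum_add_distrib, Finset.sum_sub_distrib]
  abel

theorem b2_sub (n : ℕ) (a b a' b' : ℕ → N) (ψ ψ' : Fin 2 → ℕ → N) :
    b2 (K := K) n a b ψ - b2 n a' b' ψ' =
    b2 n (fun j => a j - a' j) (fun j => b j - b' j) (fun i j => ψ i j - ψ' i j) := by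
  refine LinearMap.ext fun x => ?_
  rw [LinearMap.sub_apply]
  show (∑ j : Fin (n + 2), (x.1 j 0 • a j + x.1 j 1 • b j) +
    (∑ j : Fin n, x.2 0 j • ψ 0 j + ∑ j : Fin n, x.2 1 j • ψ 1 j)) -
    (∑ j : Fin (n + 2), (x.1 j 0 • a' j + x.1 j 1 • b' j) +
    (∑ j : Fin n, x.2 0 j • ψ' 0 j + ∑ j : Fin n, x.2 1 j • ψ' 1 j)) =
    ∑ j : Fin (n + 2), (x.1 j 0 • (a j - a' j) + x.1 j 1 • (b j - b' j)) +
    (∑ j : Fin n, x.2 0 j • (ψ 0 j - ψ' 0 j) + ∑ j : Fin n, x.2 1 j • (ψ 1 j - ψ' 1 j))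
  simp only [smul_sub, Finset.sum_add_distrib, Finset.sum_sub_distrib]
  abel

end hf

section main

variable {N00 N01 N02 N10 N11 N12 N22 : Type*}
    [AddCommGroup N00] [Module K N00] [AddCommGroup N01] [Module K N01]
    [AddCommGroup N02] [Module K N02] [AddCommGroup N10] [Module K N10]
    [AddCommGroup N11] [Module K N11] [AddCommGroup N12] [Module K N12]
    [AddCommGroup N22] [Module K N22]
    {S : Sq K g N00 N01 N02 N10 N11 N12 N22} {F : Fam g} {F' : F.Sub}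

/-- the dictionary `T` is `(F, F')` in degree `e` -/
structure Mt (T : Dict S F.N) (F' : F.Sub) (e : ℤ) : Prop where
  x : ∀ i u, T.x i u = (X i : Op K) • u
  d : ∀ i u, T.d i u = D g i • u
  l0 : ∀ u, u ∈ T.L0 ↔ u ∈ F.L 0 e
  l1 : ∀ u, u ∈ T.L1 ↔ u ∈ F.L 1 e
  l2 : ∀ u, u ∈ T.L2 ↔ u ∈ F.L 2 e
  lp : ∀ u, u ∈ T.Lp ↔ u ∈ F.L 0 (e + 1)
  m0 : ∀ u, u ∈ T.M0 ↔ u ∈ F'.L 0 e
  m1 : ∀ u, u ∈ T.M1 ↔ u ∈ F'.L 1 e
  m2 : ∀ u, u ∈ T.M2 ↔ u ∈ F'.L 2 e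
  mp : ∀ u, u ∈ T.Mp ↔ u ∈ F'.L 0 (e + 1)

variable {T : Dict S F.N} {e : ℤ}

theorem Mt.lit (M : Mt T F' e) : Lit T := ⟨M.x, M.d⟩

theorem smF : SM g F.L := fun _ _ _ _ _ _ => F.smul

theorem smF' (F' : F.Sub) : SM g F'.L := fun _ _ _ _ _ _ => F'.smul

theorem cl'_ne (hg : Gen g) {m : ℕ} (hm : 0 < m) : cl' g m ≠ 0 :=
  cq_ne hg (by exact_mod_cast hm.ne')

theorem ex0 (hg : Gen g) (M : Mt T F' e) (n : ℕ) (Φ : (G0 hg n).N →ₗ[Op K] F.N)
    (h : HF e (G0 hg n) F.L Φ) (h' : HF e (G1 hg n) F'.L (Φ ∘ₗ (g1 hg n).f)) :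
    HF e (G0 hg n) F'.L Φ := by
  obtain ⟨φ, hφ, hφ0⟩ := exists_tO (m := n + 1) Φ
  have hφ' : Φ = b0 n φ := hφ
  have h1 : HF e (G0 hg n) F.L (b0 n φ) := hφ' ▸ h
  rw [HF_G0 hg e smF] at h1
  have h2 : HF e (G1 hg n) F'.L (b0 n φ ∘ₗ (g1 hg n).f) := hφ' ▸ h'
  have hA : b0 n φ ∘ₗ (g1 hg n).f = b1 n (T.D1u (cl' g) n φ) (T.D1v (cl' g) n φ) := A1 T M.lit n φ
  rw [hA, HF_G1 hg e (smF' F')] at h2
  have hL : ∀ j, φ j ∈ T.L0 := by
    intro j
    rcases Nat.lt_or_ge j (n + 1) with hj | hj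
    · exact (M.l0 _).2 (h1 j (Nat.lt_succ_iff.1 hj))
    · rw [hφ0 j hj]
      exact zero_mem _
  have h3 : T.C1' n (T.D1u (cl' g) n φ) (T.D1v (cl' g) n φ) := by
    intro i j hj
    obtain ⟨a, b, c⟩ := h2 i j hj
    refine ⟨(M.m1 _).2 a, (M.m1 _).2 b, (M.mp _).2 ?_⟩
    rw [Dict.mu, M.x, M.x]
    exact c
  have h4 := T.exact0 (lam := cl' g) n hL h3
  have h5 : HF e (G0 hg n) F'.L (b0 n φ) := (HF_G0 hg e (smF' F') n φ).2 fun j hj =>
    (M.m0 _).1 (h4 j hj)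
  exact hφ' ▸ h5

theorem ex1 (hg : Gen g) (M : Mt T F' e) (n : ℕ) (Φ : (G1 hg n).N →ₗ[Op K] F.N)
    (h : HF e (G1 hg n) F.L Φ) (h' : HF e (G2 hg n) F'.L (Φ ∘ₗ (g2 hg n).f)) :
    ∃ Γ : (G0 hg n).N →ₗ[Op K] F.N, HF e (G0 hg n) F.L Γ ∧
      HF e (G1 hg n) F'.L (Φ - Γ ∘ₗ (g1 hg n).f) := by
  obtain ⟨u, v, hΦ⟩ := exists_b1 (n := n) Φ
  have h1 : HF e (G1 hg n) F.L (b1 n u v) := hΦ ▸ h
  rw [HF_G1 hg e smF] at h1
  have h2 : HF e (G2 hg n) F'.L (b1 n u v ∘ₗ (g2 hg n).f) := hΦ ▸ h'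
  have hA : b1 n u v ∘ₗ (g2 hg n).f =
      b2 n (T.D2u (cl' g) n u v) (T.D2v (cl' g) n u v) (T.D2p (cl' g) n u v) := A2 T M.lit n u v
  rw [hA, HF_G2 hg e (smF' F')] at h2
  have hC : T.C1 n u v := by
    intro i j hj
    obtain ⟨a, b, c⟩ := h1 i j hj
    refine ⟨(M.l1 _).2 a, (M.l1 _).2 b, (M.lp _).2 ?_⟩
    rw [Dict.mu, M.x, M.x]
    exact c
  have hC2 : T.C2' n (T.D2u (cl' g) n u v) (T.D2v (cl' g) n u v) := by
    intro j hj
    obtain ⟨a, b, c⟩ := h2.1 j hj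
    refine ⟨(M.m2 _).2 a, (M.m2 _).2 b, (M.mp _).2 ?_⟩
    rw [Dict.mu, M.x, M.x]
    exact c
  obtain ⟨φ, hφ, hC3⟩ := T.exact1 (lam := cl' g) hg.ne n (fun m hm _ => cl'_ne hg hm) cl'_zero hC
    hC2 (fun i j hj => (M.m1 _).2 (h2.2 i j hj))
  refine ⟨b0 n φ, (HF_G0 hg e smF n φ).2 fun j _ => (M.l0 _).1 (hφ j), ?_⟩
  have hA1 : b0 n φ ∘ₗ (g1 hg n).f = b1 n (T.D1u (cl' g) n φ) (T.D1v (cl' g) n φ) := A1 T M.lit n φ
  have hS : Φ - b0 n φ ∘ₗ (g1 hg n).f = b1 n (fun i j => u i j - T.D1u (cl' g) n φ i j)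
      (fun i j => v i j - T.D1v (cl' g) n φ i j) := by
    rw [hA1, hΦ]
    exact b1_sub n u v _ _
  refine (congrArg (HF e (G1 hg n) F'.L) hS).mpr ((HF_G1 hg e (smF' F') n _ _).2 ?_)
  intro i j hj
  obtain ⟨a, b, c⟩ := hC3 i j hj
  refine ⟨(M.m1 _).1 a, (M.m1 _).1 b, ?_⟩
  have c' := (M.mp _).1 c
  rw [Dict.mu, M.x, M.x] at c'
  exact c'

theorem ex2 (hg : Gen g) (M : Mt T F' e) (n : ℕ) (Φ : (G2 hg n).N →ₗ[Op K] F.N)
    (h : HF e (G2 hg n) F.L Φ) (h' : HF e (G3 hg n) F'.L (Φ ∘ₗ (g3 hg n).f)) :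
    ∃ Γ : (G1 hg n).N →ₗ[Op K] F.N, HF e (G1 hg n) F.L Γ ∧
      HF e (G2 hg n) F'.L (Φ - Γ ∘ₗ (g2 hg n).f) := by
  obtain ⟨a, b, ψ, hΦ⟩ := exists_b2 (n := n) Φ
  have h1 : HF e (G2 hg n) F.L (b2 n a b ψ) := hΦ ▸ h
  rw [HF_G2 hg e smF] at h1
  have h2 : HF e (G3 hg n) F'.L (b2 n a b ψ ∘ₗ (g3 hg n).f) := hΦ ▸ h'
  have hA : b2 n a b ψ ∘ₗ (g3 hg n).f = b0 n (T.D3 (cl' g) n a b ψ) := A3 T M.lit n a b ψ
  rw [hA, HF_G3 hg e (smF' F')] at h2
  have hC : T.C2 n a b := by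
    intro j hj
    obtain ⟨a, b, c⟩ := h1.1 j hj
    refine ⟨(M.l2 _).2 a, (M.l2 _).2 b, (M.lp _).2 ?_⟩
    rw [Dict.mu, M.x, M.x]
    exact c
  obtain ⟨u, v, hC1, hC2, hC3⟩ := T.exact2 (lam := cl' g) hg.ne n (fun m hm _ => cl'_ne hg hm)
    cl'_zero hC (fun i j hj => (M.l1 _).2 (h1.2 i j hj)) (fun j hj => (M.m2 _).2 (h2 j hj))
  refine ⟨b1 n u v, (HF_G1 hg e smF n u v).2 fun i j _ => ?_, ?_⟩
  · obtain ⟨a, b, c⟩ := hC1 i j
    refine ⟨(M.l1 _).1 a, (M.l1 _).1 b, ?_⟩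
    have c' := (M.lp _).1 c
    rw [Dict.mu, M.x, M.x] at c'
    exact c'
  · have hA1 : b1 n u v ∘ₗ (g2 hg n).f =
        b2 n (T.D2u (cl' g) n u v) (T.D2v (cl' g) n u v) (T.D2p (cl' g) n u v) := A2 T M.lit n u v
    have hS : Φ - b1 n u v ∘ₗ (g2 hg n).f = b2 n (fun j => a j - T.D2u (cl' g) n u v j)
        (fun j => b j - T.D2v (cl' g) n u v j) (fun i j => ψ i j - T.D2p (cl' g) n u v i j) := by
      rw [hA1, hΦ]
      exact b2_sub n a b _ _ ψ _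
    refine (congrArg (HF e (G2 hg n) F'.L) hS).mpr ((HF_G2 hg e (smF' F') n _ _ _).2 ?_)
    refine ⟨fun j hj => ?_, fun i j hj => (M.m1 _).1 (hC3 i j hj)⟩
    obtain ⟨a, b, c⟩ := hC2 j hj
    refine ⟨(M.m2 _).1 a, (M.m2 _).1 b, ?_⟩
    have c' := (M.mp _).1 c
    rw [Dict.mu, M.x, M.x] at c'
    exact c'

theorem ex3 (hg : Gen g) (M : Mt T F' e) (n : ℕ) (Φ : (G3 hg n).N →ₗ[Op K] F.N)
    (h : HF e (G3 hg n) F.L Φ) :
    ∃ Γ : (G2 hg n).N →ₗ[Op K] F.N, HF e (G2 hg n) F.L Γ ∧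
      HF e (G3 hg n) F'.L (Φ - Γ ∘ₗ (g3 hg n).f) := by
  obtain ⟨φ, hφ, hφ0⟩ := exists_tO (m := n + 1) Φ
  have hφ' : Φ = b0 n φ := hφ
  have h1 : HF e (G3 hg n) F.L (b0 n φ) := hφ' ▸ h
  rw [HF_G3 hg e smF] at h1
  obtain ⟨a, b, ψ, hC1, hC2, hC3⟩ := T.exact3 (lam := cl' g) n cl'_zero
    (fun j hj => (M.l2 _).2 (h1 j hj))
  refine ⟨b2 n a b ψ, (HF_G2 hg e smF n a b ψ).2 ⟨fun j _ => ?_, fun i j _ => (M.l1 _).1 (hC2 i j)⟩,
    ?_⟩
  · obtain ⟨a, b, c⟩ := hC1 j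
    refine ⟨(M.l2 _).1 a, (M.l2 _).1 b, ?_⟩
    have c' := (M.lp _).1 c
    rw [Dict.mu, M.x, M.x] at c'
    exact c'
  · have hA1 : b2 n a b ψ ∘ₗ (g3 hg n).f = b0 n (T.D3 (cl' g) n a b ψ) := A3 T M.lit n a b ψ
    have hS : Φ - b2 n a b ψ ∘ₗ (g3 hg n).f = b0 n (fun j => φ j - T.D3 (cl' g) n a b ψ j) := by
      rw [hA1, hφ']
      exact b0_sub n φ _
    exact (congrArg (HF e (G3 hg n) F'.L) hS).mpr ((HF_G3 hg e (smF' F') n _).2
      fun j hj => (M.m2 _).1 (hC3 j hj))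

end main

end Crest.Agent.R186.LC369
end

-- ▼ part R186/LCD_369
section

/-!
# Row 186, S0281 base (helper369): the dictionary of a pair of families (`Q1, Q2, Q3`)
-/

set_option autoImplicit false

namespace Crest.Agent.R186.LC369

namespace Pr

variable {K : Type*} [Field K] {g : K} {U : Type*} [AddCommGroup U] [Module K U] (R : Pr K g U)

/-- the quotient map -/
def pr (k P : ℤ) : R.L k P →ₗ[K] R.N k P := Submodule.mkQ _

theorem pr_cl {k P : ℤ} {u : U} (hu : u ∈ R.L k P) : R.pr k P ⟨u, hu⟩ = R.cl k P u hu := rfl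

theorem xb_cl {k P : ℤ} {hDS : R.DS (k + 2)} {hXS : R.XS (k + 2) P} (i : Fin 2) {u : U}
    (hu : u ∈ R.L (k + 1) (P - 1)) (h : R.x i u ∈ R.L (k + 1) P) :
    (R.toSq k P hDS hXS).xb i (R.cl (k + 1) (P - 1) u hu) = R.cl (k + 1) P (R.x i u) h := rfl

theorem xd_cl {k P : ℤ} {hDS : R.DS (k + 2)} {hXS : R.XS (k + 2) P} (i : Fin 2) {u : U}
    (hu : u ∈ R.L (k + 2) (P - 1)) (h : R.x i u ∈ R.L (k + 2) P) :
    (R.toSq k P hDS hXS).xd i (R.cl (k + 2) (P - 1) u hu) = R.cl (k + 2) P (R.x i u) h := rfl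

theorem xL1 {k P : ℤ} (i : Fin 2) {u : U} (hu : u ∈ R.L k (P - 1)) : R.x i u ∈ R.L k P := by
  have := R.xL i _ _ _ hu
  rwa [sub_add_cancel] at this

/-- the dictionary of a pair of families, at the bidegree `(k, P)` -/
def toDict (k P : ℤ) (hDS : R.DS (k + 2)) (hXS : R.XS (k + 2) P) (hX1 : R.LX k (k + 1) P)
    (hX2 : R.LX k (k + 2) P) : Dict (R.toSq k P hDS hXS) U where
  x := R.x
  d := R.d
  xx := R.xx
  xd0 := R.xd0
  xd1 := R.xd1
  L0 := R.L k P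
  L1 := R.L (k + 1) P
  L2 := R.L (k + 2) P
  Lp := R.L k (P + 1)
  p0 := R.pr k P
  p1 := R.pr (k + 1) P
  p2 := R.pr (k + 2) P
  pp := R.pr k (P + 1)
  h01 u hu := R.le _ _ _ (R.h _ _ _ hu)
  h12 u hu := by
    have := R.le _ _ _ (R.h _ _ _ hu)
    rwa [show k + 1 + 1 = k + 2 by ring] at this
  k01 u hu := by rw [pr_cl, cl_zero_iff]; exact R.h _ _ _ hu
  k12 u hu := by
    rw [pr_cl, cl_zero_iff]
    have := R.h _ _ _ hu
    rwa [show k + 1 + 1 = k + 2 by ring] at this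
  xm i u hu := R.xL _ _ _ _ hu
  px i u hu := rfl
  dm i u hu := by
    have := R.dL i _ _ _ hu
    rwa [add_sub_cancel_right] at this
  pd i u hu := rfl
  xdm0 j i u hu := by
    have := R.xL j _ _ _ (R.dL i _ _ _ hu)
    rwa [sub_add_cancel] at this
  pxd0 j i u hu := rfl
  xdm1 j i u hu := by
    have := R.xL j _ _ _ (R.dL i _ _ _ hu)
    rwa [sub_add_cancel, show k + 1 + 1 = k + 2 by ring] at this
  pxd1 j i u hu := rfl
  k1 u v hu hv h := by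
    obtain ⟨w, hw, h1, h2⟩ := R.XK (k + 1) P u v hu hv (R.h _ _ _ h)
    refine ⟨R.cl _ _ w hw, ?_, ?_⟩
    · rw [pr_cl, R.xb_cl 0 hw (R.xL1 0 hw), cl_eq_iff]
      exact h1
    · rw [pr_cl, R.xb_cl 1 hw (R.xL1 1 hw), cl_eq_iff]
      exact h2
  k2 u v hu hv h := by
    have h' := R.h _ _ _ (R.le _ _ _ (R.h _ _ _ h))
    rw [show k + 1 + 1 = k + 2 by ring] at h'
    obtain ⟨w, hw, h1, h2⟩ := R.XK (k + 2) P u v hu hv h'
    refine ⟨R.cl _ _ w hw, ?_, ?_⟩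
    · rw [pr_cl, R.xd_cl 0 hw (R.xL1 0 hw), cl_eq_iff]
      exact h1
    · rw [pr_cl, R.xd_cl 1 hw (R.xL1 1 hw), cl_eq_iff]
      exact h2
  xbi z h := by
    obtain ⟨u, hu, rfl⟩ := R.cl_surj z
    rw [R.xb_cl 1 hu (R.xL1 1 hu), cl_zero_iff] at h
    rw [cl_zero_iff]
    refine R.XI _ _ _ hu ?_
    rwa [sub_add_cancel]
  s0 := Submodule.mkQ_surjective _
  s1 := Submodule.mkQ_surjective _
  l1 z m := by
    obtain ⟨w, hw, rfl⟩ := R.cl_surj z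
    obtain ⟨μ, hμ, rfl⟩ := R.cl_surj m
    obtain ⟨u, hu, v, hv, h⟩ := hX1 μ hμ
    have e1 : ∀ i, R.x i w ∈ R.L (k + 1) P := fun i => by
      have := R.xL i _ _ _ hw
      rwa [sub_add_cancel] at this
    have e2 : R.x 1 (R.x 0 w + u) - R.x 0 (R.x 1 w + v) = R.x 1 u - R.x 0 v := by
      rw [map_add, map_add, R.xx]; abel
    have e3 : R.x 1 u - R.x 0 v ∈ R.L k (P + 1) := by
      have := sub_mem hμ (R.le _ _ _ h)
      rwa [sub_sub_cancel] at this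
    refine ⟨R.x 0 w + u, R.x 1 w + v, add_mem (e1 0) (R.le _ _ _ hu), add_mem (e1 1) (R.le _ _ _ hv),
      by rw [e2]; exact e3, ?_, ?_, ?_⟩
    · rw [pr_cl, R.xb_cl 0 hw (e1 0), cl_eq_iff, add_sub_cancel_left]
      exact hu
    · rw [pr_cl, R.xb_cl 1 hw (e1 1), cl_eq_iff, add_sub_cancel_left]
      exact hv
    · rw [pr_cl, cl_eq_iff, e2, ← neg_mem_iff, neg_sub]
      exact h
  l2 z m := by
    obtain ⟨w, hw, rfl⟩ := R.cl_surj z
    obtain ⟨μ, hμ, rfl⟩ := R.cl_surj m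
    obtain ⟨u, hu, v, hv, h⟩ := hX2 μ hμ
    have e1 : ∀ i, R.x i w ∈ R.L (k + 2) P := fun i => by
      have := R.xL i _ _ _ hw
      rwa [sub_add_cancel] at this
    have e2 : R.x 1 (R.x 0 w + u) - R.x 0 (R.x 1 w + v) = R.x 1 u - R.x 0 v := by
      rw [map_add, map_add, R.xx]; abel
    have e3 : R.x 1 u - R.x 0 v ∈ R.L k (P + 1) := by
      have := sub_mem hμ (R.le _ _ _ h)
      rwa [sub_sub_cancel] at this
    refine ⟨R.x 0 w + u, R.x 1 w + v, add_mem (e1 0) (R.le _ _ _ hu), add_mem (e1 1) (R.le _ _ _ hv),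
      by rw [e2]; exact e3, ?_, ?_, ?_⟩
    · rw [pr_cl, R.xd_cl 0 hw (e1 0), cl_eq_iff, add_sub_cancel_left]
      exact hu
    · rw [pr_cl, R.xd_cl 1 hw (e1 1), cl_eq_iff, add_sub_cancel_left]
      exact hv
    · rw [pr_cl, cl_eq_iff, e2, ← neg_mem_iff, neg_sub]
      exact h

end Pr

end Crest.Agent.R186.LC369
end

-- ▼ part R186/LCI4_461
section

/-!
# Row 186, S0281 base, LCQ s = 0 (helper461): the dictionary of `Q4 = K₁-rows / K₂-rows`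

`q4 hg hP : Dict ((filPr hg).toSq (-1) (P+1) ..) (Fin 2 → Op K)`, symbols of `a x₀ + b x₁`.
-/

set_option autoImplicit false

namespace Crest.Agent.R186.B281.Sym461

open LC369

variable {K : Type} [Field K] {g : K}

/-- `a x₀ + b x₁` -/
noncomputable def cf (v : Fin 2 → Op K) : Op K := v 0 * X 0 + v 1 * X 1

section ring

variable {K : Type*} [Field K] {R : Type*} [Ring R] [Algebra K R]

theorem cf_add' (a b a' b' x y : R) :
    (a + a') * x + (b + b') * y = (a * x + b * y) + (a' * x + b' * y) := by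
  rw [add_mul, add_mul]; abel

theorem cf_sub' (a b a' b' x y : R) :
    (a - a') * x + (b - b') * y = (a * x + b * y) - (a' * x + b' * y) := by
  rw [sub_mul, sub_mul]; abel

theorem cf_smul' (t : K) (a b x y : R) :
    (t • a) * x + (t • b) * y = t • (a * x + b * y) := by
  rw [smul_mul_assoc, smul_mul_assoc, smul_add]

end ring

theorem cf_add (v w : Fin 2 → Op K) : cf (v + w) = cf v + cf w := cf_add' _ _ _ _ _ _

theorem cf_sub (v w : Fin 2 → Op K) : cf (v - w) = cf v - cf w := cf_sub' _ _ _ _ _ _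

theorem cf_smul (t : K) (v : Fin 2 → Op K) : cf (t • v) = t • cf v := cf_smul' t _ _ _ _

theorem cf_lp (T : Op K) (v : Fin 2 → Op K) : cf (lp T v) = T * cf v := c_left T _ _ _ _

theorem cf_kap (e : Op K) : cf (kap e) = 0 := kap_c e (X 0) (X 1) (X_comm 0 1)

theorem cf_mem {k P k' P' : ℤ} (hk : k' = k - 1) (hP : P' = P + 1) {v : Fin 2 → Op K}
    (hv : v ∈ Rw g k P) : cf v ∈ Fil g k' P' := by
  subst hk hP
  exact hv.2.2

theorem cf_memL (hg : Gen g) {k P k' P' : ℤ} (hk : k' = k - 1) (hP : P' = P + 1)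
    {v : Fin 2 → Op K} (hv : v ∈ Rw g k P) : cf v ∈ (filPr hg).L k' P' := cf_mem hk hP hv

/-- the symbol of `a x₀ + b x₁` -/
noncomputable def pc (hg : Gen g) (k P k' P' : ℤ) (hk : k' = k - 1) (hP : P' = P + 1) :
    Rw g k P →ₗ[K] (filPr hg).N k' P' where
  toFun v := (filPr hg).cl k' P' (cf v.1) (cf_memL hg hk hP v.2)
  map_add' v w := by
    refine Eq.trans ?_ (Pr.cl_add _ _ _).symm
    refine (Pr.cl_eq_iff _ _ _).2 ?_
    have h : cf (v + w).1 - (cf v.1 + cf w.1) = 0 := by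
      rw [show (v + w).1 = v.1 + w.1 from rfl, cf_add, sub_self]
    rw [h]
    exact zero_mem _
  map_smul' t v := by
    rw [RingHom.id_apply]
    refine Eq.trans ?_ (Pr.cl_smul _ t _).symm
    refine (Pr.cl_eq_iff _ _ _).2 ?_
    have h : cf (t • v).1 - t • cf v.1 = 0 := by
      rw [show (t • v).1 = t • v.1 from rfl, cf_smul, sub_self]
    rw [h]
    exact zero_mem _


theorem pc_eq (hg : Gen g) {k P k' P' : ℤ} {hk : k' = k - 1} {hP : P' = P + 1}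
    {v : Fin 2 → Op K} {hv : v ∈ Rw g k P} {c : Op K} (hc : c ∈ (filPr hg).L k' P')
    (h : cf v - c ∈ (filPr hg).L' k' P') :
    pc hg k P k' P' hk hP ⟨v, hv⟩ = (filPr hg).cl k' P' c hc :=
  (Pr.cl_eq_iff _ _ _).2 h

theorem pc_eq' (hg : Gen g) {k P k' P' : ℤ} {hk : k' = k - 1} {hP : P' = P + 1}
    {v : Fin 2 → Op K} {hv : v ∈ Rw g k P} {c : Op K} (hc : c ∈ (filPr hg).L k' P')
    (h : cf v = c) : pc hg k P k' P' hk hP ⟨v, hv⟩ = (filPr hg).cl k' P' c hc := by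
  refine pc_eq hg hc ?_
  rw [h, sub_self]
  exact zero_mem _

theorem pc_zero (hg : Gen g) {k P k' P' : ℤ} {hk : k' = k - 1} {hP : P' = P + 1}
    {v : Fin 2 → Op K} {hv : v ∈ Rw g k P} :
    pc hg k P k' P' hk hP ⟨v, hv⟩ = 0 ↔ cf v ∈ Fil g (k' - 1) P' :=
  Pr.cl_zero_iff _ _

theorem Rw_mono (hg : Gen g) {k l : ℤ} (h : k ≤ l) {P : ℤ} {v : Fin 2 → Op K}
    (hv : v ∈ Rw g k P) : v ∈ Rw g l P :=
  ⟨Fil_mono hg h _ hv.1, Fil_mono hg h _ hv.2.1, Fil_mono hg (by omega) _ hv.2.2⟩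

theorem Fp_mono (hg : Gen g) {k l : ℤ} (h : k ≤ l) {P : ℤ} {v : Fin 2 → Op K}
    (hv : v ∈ Fp g k P) : v ∈ Fp g l P := by
  rw [mem_Fp] at hv ⊢
  exact ⟨Fil_mono hg h _ hv.1, Fil_mono hg h _ hv.2⟩

/-- every `c ∈ Fil k (P+1)`, `P ≥ 0`, is `cf` of a pair in `Fil k P` -/
theorem cf_surj (hg : Gen g) {k P : ℤ} (hP : 0 ≤ P) {c : Op K} (hc : c ∈ Fil g k (P + 1)) :
    ∃ v ∈ Fp g k P, cf v = c := by
  obtain ⟨a, ha, b, hb, h⟩ := LK693.X1r hg (by omega : 1 ≤ P + 1) hc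
  rw [add_sub_cancel_right] at ha hb
  exact ⟨![a, b], mem_Fp.2 ⟨ha, hb⟩, h.symm⟩

theorem Fp_Rw (hg : Gen g) {k P : ℤ} {v : Fin 2 → Op K} (hv : v ∈ Fp g k P) :
    v ∈ Rw g (k + 1) P := by
  refine Rw_le hg ?_
  rwa [add_sub_cancel_right]

/-- a pair of `Fil k P` with `cf v ∈ Fil (k-1) (P+1)` is a row -/
theorem Rw_of (g : K) {k P : ℤ} {v : Fin 2 → Op K} (hv : v ∈ Fp g k P)
    (h : cf v ∈ Fil g (k - 1) (P + 1)) : v ∈ Rw g k P := by
  rw [mem_Fp] at hv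
  exact ⟨hv.1, hv.2, h⟩

theorem cf_zero_gen (hg : Gen g) {k P : ℤ} {v : Fin 2 → Op K} (hv : v ∈ Fp g k P)
    (h : cf v = 0) : ∃ e ∈ Fil g k (P - 1), v = kap e := by
  rw [mem_Fp] at hv
  obtain ⟨e, he, h1, h2⟩ := LK693.X2r hg hv.1 hv.2 h
  refine ⟨e, he, funext (Fin.forall_fin_two.2 ⟨h1, h2⟩)⟩

/-- the pairs giving `x₀ z`, `x₁ z` -/
theorem lift_z (hg : Gen g) {k P : ℤ} (hP : 0 ≤ P) {z : Op K} (hz : z ∈ Fil g k P) :
    ∃ u ∈ Fp g k P, ∃ v ∈ Fp g k P, cf u = X 0 * z ∧ cf v = X 1 * z ∧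
      lp (X 1) u - lp (X 0) v ∈ Fp g k (P + 1) ∧ cf (lp (X 1) u - lp (X 0) v) = 0 := by
  obtain ⟨u, hu, h1⟩ := cf_surj hg hP (X_mem hg 0 hz)
  obtain ⟨v, hv, h2⟩ := cf_surj hg hP (X_mem hg 1 hz)
  refine ⟨u, hu, v, hv, h1, h2, sub_mem (Fp_X hg 1 hu) (Fp_X hg 0 hv), ?_⟩
  rw [cf_sub, cf_lp, cf_lp, h1, h2, ← mul_assoc, ← mul_assoc, X_comm 0 1, sub_self]

/-- the pairs giving `m` -/
theorem lift_m (hg : Gen g) {k P : ℤ} (hP : 0 ≤ P) {m : Op K} (hm : m ∈ Fil g k (P + 1 + 1)) :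
    ∃ u ∈ Fp g k P, ∃ v ∈ Fp g k P, cf u ∈ Fil g k (P + 1) ∧ cf v ∈ Fil g k (P + 1) ∧
      lp (X 1) u - lp (X 0) v ∈ Fp g k (P + 1) ∧ cf (lp (X 1) u - lp (X 0) v) = m := by
  obtain ⟨m0, h0, m1, h1, rfl⟩ := XS' hg (by omega : 1 ≤ P + 1 + 1) hm
  rw [add_sub_cancel_right] at h0 h1
  obtain ⟨u, hu, e1⟩ := cf_surj hg hP h1
  obtain ⟨v, hv, e2⟩ := cf_surj hg hP (neg_mem h0)
  refine ⟨u, hu, v, hv, by rw [e1]; exact h1, by rw [e2]; exact neg_mem h0,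
    sub_mem (Fp_X hg 1 hu) (Fp_X hg 0 hv), ?_⟩
  rw [cf_sub, cf_lp, cf_lp, e1, e2, mul_neg, sub_neg_eq_add, add_comm]


/-- the pairs giving `x₀ z`, `x₁ z`, one level up, corrected by the syzygies -/
theorem lift_z2 (hg : Gen g) {k P : ℤ} (hP : 0 ≤ P) (hk : P + k ≠ 0 ∨ k < 0) {z : Op K}
    (hz : z ∈ Fil g k P) :
    ∃ u ∈ Rw g (k + 1) P, ∃ v ∈ Rw g (k + 1) P, cf u = X 0 * z ∧ cf v = X 1 * z ∧
      lp (X 1) u - lp (X 0) v ∈ Fp g (k - 1) (P + 1) ∧ cf (lp (X 1) u - lp (X 0) v) = 0 := by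
  obtain ⟨u, hu, v, hv, h1, h2, h3, h4⟩ := lift_z hg hP hz
  obtain ⟨e, he, h5⟩ := cf_zero_gen hg h3 h4
  rw [add_sub_cancel_right] at he
  obtain ⟨e0, he0, e1, he1, h6⟩ := filPr_XS hg hk e he
  have hk0 := Rw_mono hg (by omega : k ≤ k + 1) (kap_mem hg he0)
  have hk1 := Rw_mono hg (by omega : k ≤ k + 1) (kap_mem hg he1)
  refine ⟨u + kap e1, add_mem (Fp_Rw hg hu) hk1, v + kap e0, add_mem (Fp_Rw hg hv) hk0,
    ?_, ?_, ?_, ?_⟩
  · rw [cf_add, cf_kap, add_zero, h1]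
  · rw [cf_add, cf_kap, add_zero, h2]
  · have h7 := kap_Fp hg h6
    have h8 : kap (e - ((filPr hg).x 0 e0 - (filPr hg).x 1 e1)) =
      kap e - (lp (X 0) (kap e0) - lp (X 1) (kap e1)) := kap_lin e (X 0) (X 1) e0 e1
    rw [h8, ← h5] at h7
    convert h7 using 1
    rw [map_add, map_add]
    abel
  · rw [cf_sub, cf_lp, cf_lp, cf_add, cf_add, cf_kap, cf_kap, add_zero, add_zero, h1, h2,
      ← mul_assoc, ← mul_assoc, X_comm 0 1, sub_self]

section ring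

variable {R : Type*} [Ring R]

theorem sub_aux {a b c : R} (h : a = c) : a + b - c = b := by
  rw [h, add_sub_cancel_left]

end ring

theorem lp_split (u u' v v' : Fin 2 → Op K) : lp (X 1) (u + u') - lp (X 0) (v + v') =
    (lp (X 1) u - lp (X 0) v) + (lp (X 1) u' - lp (X 0) v') := by
  rw [map_add, map_add]; abel

theorem Fp_Rw' (hg : Gen g) {k l P : ℤ} (h : k + 1 ≤ l) {v : Fin 2 → Op K} (hv : v ∈ Fp g k P) :
    v ∈ Rw g l P := Rw_mono hg h (Fp_Rw hg hv)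

theorem el1 (hg : Gen g) {P : ℤ} (hP : 0 ≤ P) {z m : Op K} (hz : z ∈ Fil g 0 P)
    (hm : m ∈ Fil g (-1) (P + 1 + 1)) : ∃ u ∈ Rw g 1 P, ∃ v ∈ Rw g 1 P,
      lp (X 1) u - lp (X 0) v ∈ Rw g 0 (P + 1) ∧ cf u - X 0 * z ∈ Fil g (-1) (P + 1) ∧
        cf v - X 1 * z ∈ Fil g (-1) (P + 1) ∧ cf (lp (X 1) u - lp (X 0) v) = m := by
  obtain ⟨u, hu, v, hv, e0, e1, e2, e3⟩ := lift_z hg hP hz
  obtain ⟨u', hu', v', hv', c0, c1, c2, c3⟩ := lift_m hg hP hm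
  have h2 : lp (X 1) u - lp (X 0) v ∈ Rw g 0 (P + 1) :=
    Rw_of g e2 (by rw [e3]; exact zero_mem _)
  have h3 : lp (X 1) u' - lp (X 0) v' ∈ Rw g 0 (P + 1) := Fp_Rw' hg (by norm_num) c2
  have hu1 : u ∈ Rw g 1 P := Fp_Rw' hg (by norm_num) hu
  have hv1 : v ∈ Rw g 1 P := Fp_Rw' hg (by norm_num) hv
  have hu2 : u' ∈ Rw g 1 P := Fp_Rw' hg (by norm_num) hu'
  have hv2 : v' ∈ Rw g 1 P := Fp_Rw' hg (by norm_num) hv'
  have h4 : cf (u + u') - X 0 * z = cf u' := by rw [cf_add]; exact sub_aux e0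
  have h5 : cf (v + v') - X 1 * z = cf v' := by rw [cf_add]; exact sub_aux e1
  refine ⟨u + u', add_mem hu1 hu2, v + v', add_mem hv1 hv2, ?_, ?_, ?_, ?_⟩
  · rw [lp_split]
    exact add_mem h2 h3
  · rw [h4]
    exact c0
  · rw [h5]
    exact c1
  · rw [lp_split, cf_add, e3, c3, zero_add]

theorem el2 (hg : Gen g) {P : ℤ} (hP : 0 ≤ P) {z m : Op K} (hz : z ∈ Fil g 1 P)
    (hm : m ∈ Fil g (-1) (P + 1 + 1)) : ∃ u ∈ Rw g 2 P, ∃ v ∈ Rw g 2 P,
      lp (X 1) u - lp (X 0) v ∈ Rw g 0 (P + 1) ∧ cf u - X 0 * z ∈ Fil g 0 (P + 1) ∧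
        cf v - X 1 * z ∈ Fil g 0 (P + 1) ∧ cf (lp (X 1) u - lp (X 0) v) = m := by
  obtain ⟨u, hu, v, hv, e0, e1, e2, e3⟩ := lift_z2 hg hP (Or.inl (by omega)) hz
  obtain ⟨u', hu', v', hv', c0, c1, c2, c3⟩ := lift_m hg hP hm
  have e2' : lp (X 1) u - lp (X 0) v ∈ Fp g 0 (P + 1) := Fp_mono hg (by norm_num) e2
  have h2 : lp (X 1) u - lp (X 0) v ∈ Rw g 0 (P + 1) :=
    Rw_of g e2' (by rw [e3]; exact zero_mem _)
  have h3 : lp (X 1) u' - lp (X 0) v' ∈ Rw g 0 (P + 1) := Fp_Rw' hg (by norm_num) c2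
  have hu1 : u ∈ Rw g 2 P := Rw_mono hg (by norm_num) hu
  have hv1 : v ∈ Rw g 2 P := Rw_mono hg (by norm_num) hv
  have hu2 : u' ∈ Rw g 2 P := Fp_Rw' hg (by norm_num) hu'
  have hv2 : v' ∈ Rw g 2 P := Fp_Rw' hg (by norm_num) hv'
  have h4 : cf (u + u') - X 0 * z = cf u' := by rw [cf_add]; exact sub_aux e0
  have h5 : cf (v + v') - X 1 * z = cf v' := by rw [cf_add]; exact sub_aux e1
  refine ⟨u + u', add_mem hu1 hu2, v + v', add_mem hv1 hv2, ?_, ?_, ?_, ?_⟩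
  · rw [lp_split]
    exact add_mem h2 h3
  · rw [h4]
    exact Fil_mono hg (by norm_num) _ c0
  · rw [h5]
    exact Fil_mono hg (by norm_num) _ c1
  · rw [lp_split, cf_add, e3, c3, zero_add]

/-- **the dictionary of `Q4`** -/
noncomputable def q4 (hg : Gen g) {P : ℤ} (hP : 0 ≤ P) :
    Dict ((filPr hg).toSq (-1) (P + 1) (filPr_DS hg (by norm_num))
      (filPr_XS hg (Or.inl (by omega)))) (Fin 2 → Op K) where
  x i := lp (X i)
  d i := lp (D g i)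
  xx u := (rowPr hg).xx u
  xd0 i u := (rowPr hg).xd0 i u
  xd1 i j u h := (rowPr hg).xd1 i j u h
  L0 := Rw g 0 P
  L1 := Rw g 1 P
  L2 := Rw g 2 P
  Lp := Rw g 0 (P + 1)
  p0 := pc hg 0 P _ _ (by norm_num) rfl
  p1 := pc hg 1 P _ _ (by norm_num) rfl
  p2 := pc hg 2 P _ _ (by norm_num) rfl
  pp := pc hg 0 (P + 1) _ _ (by norm_num) rfl
  h01 u hu := Rw_mono hg (by norm_num) hu
  h12 u hu := Rw_mono hg (by norm_num) hu
  k01 u hu := (pc_zero hg).2 (cf_mem (by norm_num) rfl hu)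
  k12 u hu := (pc_zero hg).2 (cf_mem (by norm_num) rfl hu)
  xm i u hu := Rw_X hg i hu
  px i u hu := pc_eq' hg _ (cf_lp _ _)
  dm i u hu := by
    have := Rw_D hg i hu
    rwa [add_sub_cancel_right] at this
  pd i u hu := pc_eq' hg _ (cf_lp _ _)
  xdm0 j i u hu := by
    have := Rw_X hg j (Rw_D hg i hu)
    rwa [sub_add_cancel] at this
  pxd0 j i u hu := pc_eq' hg _ (by rw [cf_lp, cf_lp]; rfl)
  xdm1 j i u hu := by
    have := Rw_X hg j (Rw_D hg i hu)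
    rwa [sub_add_cancel] at this
  pxd1 j i u hu := pc_eq' hg _ (by rw [cf_lp, cf_lp]; rfl)
  k1 u v hu hv h := by
    have h0 := cf_mem (k' := 0) (P' := P + 1) (by norm_num) rfl hu
    have h1 := cf_mem (k' := 0) (P' := P + 1) (by norm_num) rfl hv
    have h2 := cf_mem (k' := 0 - 1) (P' := P + 1 + 1) rfl rfl h
    rw [cf_sub, cf_lp, cf_lp] at h2
    obtain ⟨w, hw, e0, e1⟩ := XK hg h0 h1 h2
    exact ⟨(filPr hg).cl _ _ w hw, pc_eq hg _ e0, pc_eq hg _ e1⟩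
  k2 u v hu hv h := by
    have h0 := cf_mem (k' := 1) (P' := P + 1) (by norm_num) rfl hu
    have h1 := cf_mem (k' := 1) (P' := P + 1) (by norm_num) rfl hv
    have h2 := cf_mem (k' := 0 - 1) (P' := P + 1 + 1) rfl rfl h
    rw [cf_sub, cf_lp, cf_lp] at h2
    obtain ⟨w, hw, e0, e1⟩ := XK hg h0 h1 (Fil_mono hg (by norm_num) _ h2)
    exact ⟨(filPr hg).cl _ _ w hw, pc_eq hg _ e0, pc_eq hg _ e1⟩
  xbi z h := by
    obtain ⟨u, hu, rfl⟩ := (filPr hg).cl_surj z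
    have h1 := (Pr.cl_zero_iff _ _).1 h
    refine (Pr.cl_zero_iff _ _).2 ?_
    have h2 : X 1 * u ∈ Fil g (-1 + 1 - 1) (P + 1 - 1 + 1) := by
      rw [sub_add_cancel]
      exact h1
    exact XI hg 1 hu h2
  s0 := by
    intro z
    obtain ⟨c, hc, rfl⟩ := (filPr hg).cl_surj z
    obtain ⟨v, hv, h⟩ := cf_surj hg hP hc
    exact ⟨⟨v, Rw_mono hg (by norm_num) (Fp_Rw hg hv)⟩, pc_eq' hg _ h⟩
  s1 := by
    intro z
    obtain ⟨c, hc, rfl⟩ := (filPr hg).cl_surj z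
    obtain ⟨v, hv, h⟩ := cf_surj hg hP hc
    exact ⟨⟨v, Rw_mono hg (by norm_num) (Fp_Rw hg hv)⟩, pc_eq' hg _ h⟩
  l1 z m := by
    obtain ⟨z, hz, rfl⟩ := (filPr hg).cl_surj z
    obtain ⟨m, hm, rfl⟩ := (filPr hg).cl_surj m
    have hz' : z ∈ Fil g 0 P := by
      have : P + 1 - 1 = P := by ring
      rw [this] at hz
      exact hz
    obtain ⟨u, hu, v, hv, h, e0, e1, e2⟩ := el1 hg hP hz' hm
    exact ⟨u, v, hu, hv, h, pc_eq hg _ e0, pc_eq hg _ e1, pc_eq' hg _ e2⟩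
  l2 z m := by
    obtain ⟨z, hz, rfl⟩ := (filPr hg).cl_surj z
    obtain ⟨m, hm, rfl⟩ := (filPr hg).cl_surj m
    have hz' : z ∈ Fil g 1 P := by
      have : P + 1 - 1 = P := by ring
      rw [this] at hz
      exact hz
    obtain ⟨u, hu, v, hv, h, e0, e1, e2⟩ := el2 hg hP hz' hm
    exact ⟨u, v, hu, hv, h, pc_eq hg _ e0, pc_eq hg _ e1, pc_eq' hg _ e2⟩

section mem

variable (hg : Gen g) {P : ℤ} (hP : 0 ≤ P)


theorem q4_M0 {v : Fin 2 → Op K} : v ∈ (q4 hg hP).M0 ↔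
    v ∈ Rw g 0 P ∧ v 0 * X 0 + v 1 * X 1 ∈ Fil g (-2) (P + 1) := by
  rw [Dict.mem_M0]
  have key : ∀ h : v ∈ Rw g 0 P, (q4 hg hP).p0 ⟨v, h⟩ = 0 ↔ cf v ∈ Fil g (-1 - 1) (P + 1) :=
    fun h => Pr.cl_zero_iff (filPr hg) (cf_memL hg (k' := -1) (by norm_num) rfl h)
  exact ⟨fun ⟨h, h0⟩ => ⟨h, (key h).1 h0⟩, fun ⟨h, h0⟩ => ⟨h, (key h).2 h0⟩⟩

theorem q4_M1 {v : Fin 2 → Op K} : v ∈ (q4 hg hP).M1 ↔
    v ∈ Rw g 1 P ∧ v 0 * X 0 + v 1 * X 1 ∈ Fil g (-1) (P + 1) := by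
  rw [Dict.mem_M1]
  have key : ∀ h : v ∈ Rw g 1 P, (q4 hg hP).p1 ⟨v, h⟩ = 0 ↔ cf v ∈ Fil g (-1 + 1 - 1) (P + 1) :=
    fun h => Pr.cl_zero_iff (filPr hg) (cf_memL hg (k' := -1 + 1) (by norm_num) rfl h)
  exact ⟨fun ⟨h, h0⟩ => ⟨h, (key h).1 h0⟩, fun ⟨h, h0⟩ => ⟨h, (key h).2 h0⟩⟩

theorem q4_M2 {v : Fin 2 → Op K} : v ∈ (q4 hg hP).M2 ↔
    v ∈ Rw g 2 P ∧ v 0 * X 0 + v 1 * X 1 ∈ Fil g 0 (P + 1) := by
  rw [Dict.mem_M2]
  have key : ∀ h : v ∈ Rw g 2 P, (q4 hg hP).p2 ⟨v, h⟩ = 0 ↔ cf v ∈ Fil g (-1 + 2 - 1) (P + 1) :=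
    fun h => Pr.cl_zero_iff (filPr hg) (cf_memL hg (k' := -1 + 2) (by norm_num) rfl h)
  exact ⟨fun ⟨h, h0⟩ => ⟨h, (key h).1 h0⟩, fun ⟨h, h0⟩ => ⟨h, (key h).2 h0⟩⟩

theorem q4_Mp {v : Fin 2 → Op K} : v ∈ (q4 hg hP).Mp ↔
    v ∈ Rw g 0 (P + 1) ∧ v 0 * X 0 + v 1 * X 1 ∈ Fil g (-2) (P + 1 + 1) := by
  rw [Dict.mem_Mp]
  have key : ∀ h : v ∈ Rw g 0 (P + 1), (q4 hg hP).pp ⟨v, h⟩ = 0 ↔
      cf v ∈ Fil g (-1 - 1) (P + 1 + 1) :=
    fun h => Pr.cl_zero_iff (filPr hg) (cf_memL hg (k' := -1) (by norm_num) rfl h)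
  exact ⟨fun ⟨h, h0⟩ => ⟨h, (key h).1 h0⟩, fun ⟨h, h0⟩ => ⟨h, (key h).2 h0⟩⟩

end mem

end Crest.Agent.R186.B281.Sym461
end

-- ▼ part R186/LCQ_369

/-!
# Row 186, S0281 base (helper369): LCQ0 : `Ext (E g 0 n, Q_j) = 0` for the four quotients, `s = 0`
-/

set_option autoImplicit false
set_option linter.unusedSectionVars false

namespace Crest.Agent.R186.LC369

open Crest.Agent.R186.B281 Crest.Agent.R186.B281.KR ExtRes700 Crest.Agent.R186.B281.Dev147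

variable {K : Type} [Field K] {g : K}

section join

variable {N00 N01 N02 N10 N11 N12 N22 : Type*}
    [AddCommGroup N00] [Module K N00] [AddCommGroup N01] [Module K N01]
    [AddCommGroup N02] [Module K N02] [AddCommGroup N10] [Module K N10]
    [AddCommGroup N11] [Module K N11] [AddCommGroup N12] [Module K N12]
    [AddCommGroup N22] [Module K N22]
    {N00' N01' N02' N10' N11' N12' N22' : Type*}
    [AddCommGroup N00'] [Module K N00'] [AddCommGroup N01'] [Module K N01']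
    [AddCommGroup N02'] [Module K N02'] [AddCommGroup N10'] [Module K N10']
    [AddCommGroup N11'] [Module K N11'] [AddCommGroup N12'] [Module K N12']
    [AddCommGroup N22'] [Module K N22']
    {S0 : Sq K g N00 N01 N02 N10 N11 N12 N22} {S1 : Sq K g N00' N01' N02' N10' N11' N12' N22'}
    {F : Fam g} {F' : F.Sub} {T0 : Dict S0 F.N} {T1 : Dict S1 F.N}
    {Y : Type} [AddCommGroup Y] [Module (A g 0) Y] {π : F.W 0 →ₗ[A g 0] Y}

theorem good0 (hg : Gen g) (n : ℕ) : Good 0 (G0 hg n) := good_pi (good_TV hg 0 0) _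
theorem good1 (hg : Gen g) (n : ℕ) : Good 0 (G1 hg n) := good_pi (good_pi (good_TV hg 0 3) _) _
theorem good2 (hg : Gen g) (n : ℕ) : Good 0 (G2 hg n) :=
  good_prod (good_pi (good_TV hg 0 4) _) (good_pi (good_pi (good_TV hg 0 1) _) _)
theorem good3 (hg : Gen g) (n : ℕ) : Good 0 (G3 hg n) := good_pi (good_TV hg 0 2) _

theorem lcq_of (hg : Gen g) (M0 : Mt T0 F' 0) (M1 : Mt T1 F' 1) (hπ : IsQuo F F' 0 π) (n q : ℕ) :
    E0 (A g 0) (E g 0 n) Y q := by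
  refine NullChain538.MRes.ext_all (R := KRT823.mresW0 hg n) (Y := Y) ?_ ?_ ?_ ?_ q
  · exact H0_of hπ (good0 hg n) (good1 hg n) (g1 hg n) (by
      rintro e (rfl | rfl) Φ h h'
      · exact ex0 hg M0 n Φ h h'
      · exact ex0 hg M1 n Φ h h')
  · exact H1_of hπ (good1 hg n) (good2 hg n) (g1 hg n) (g2 hg n) (by
      rintro e (rfl | rfl) Φ h h'
      · exact ex1 hg M0 n Φ h h'
      · exact ex1 hg M1 n Φ h h')
  · exact H1_of hπ (good2 hg n) (good3 hg n) (g2 hg n) (g3 hg n) (by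
      rintro e (rfl | rfl) Φ h h'
      · exact ex2 hg M0 n Φ h h'
      · exact ex2 hg M1 n Φ h h')
  · exact H3_of hπ (good3 hg n) (g3 hg n) (by
      rintro e (rfl | rfl) Φ h
      · exact ex3 hg M0 n Φ h
      · exact ex3 hg M1 n Φ h)

end join

section inst

/-- the elements of symbol `0` of `toDict` -/
theorem toDict_m {U : Type*} [AddCommGroup U] [Module K U] (R : Pr K g U) (k P : ℤ) (u : U) :
    u ∈ (LinearMap.ker (R.pr k P)).map (R.L k P).subtype ↔ u ∈ R.L' k P := by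
  rw [Submodule.mem_map]
  constructor
  · rintro ⟨⟨w, hw⟩, h1, rfl⟩
    rw [LinearMap.mem_ker, Pr.pr_cl, Pr.cl_zero_iff] at h1
    exact h1
  · intro h
    refine ⟨⟨u, R.le _ _ _ h⟩, ?_, rfl⟩
    rw [LinearMap.mem_ker, Pr.pr_cl, Pr.cl_zero_iff]
    exact h

theorem mt_of_pr {F : Fam g} {F' : F.Sub} (R : Pr K g F.N) (k P : ℤ) (hDS : R.DS (k + 2))
    (hXS : R.XS (k + 2) P) (hX1 : R.LX k (k + 1) P) (hX2 : R.LX k (k + 2) P)
    (hx : ∀ i u, R.x i u = (X i : Op K) • u) (hd : ∀ i u, R.d i u = D g i • u)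
    (hL : ∀ a a' b u, a' = a + k → (u ∈ R.L a' b ↔ u ∈ F.L a b))
    (hL' : ∀ a a' b u, a' = a + k → (u ∈ R.L' a' b ↔ u ∈ F'.L a b)) :
    Mt (R.toDict k P hDS hXS hX1 hX2) F' P where
  x := hx
  d := hd
  l0 u := hL 0 k P u (by ring)
  l1 u := hL 1 (k + 1) P u (by ring)
  l2 u := hL 2 (k + 2) P u (by ring)
  lp u := hL 0 k (P + 1) u (by ring)
  m0 u := (toDict_m R k P u).trans (hL' 0 k P u (by ring))
  m1 u := (toDict_m R (k + 1) P u).trans (hL' 1 (k + 1) P u (by ring))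
  m2 u := (toDict_m R (k + 2) P u).trans (hL' 2 (k + 2) P u (by ring))
  mp u := (toDict_m R k (P + 1) u).trans (hL' 0 k (P + 1) u (by ring))

variable (hg : Gen g)

/-- `Q_1` -/
theorem q1E (n q : ℕ) : E0 (A g 0) (E g 0 n) (QT0 hg 0) q := by
  have key : ∀ (P : ℤ) (hP : 0 ≤ P), Mt (F := TO hg (1 : ℕ))
      ((Sym461.filPr hg).toDict (-1) P (Sym461.filPr_DS hg (by norm_num))
        (Sym461.filPr_XS hg (Or.inl (by omega))) (Sym461.filPr_LX hg (by norm_num) (Or.inr (by norm_num)))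
        (Sym461.filPr_LX hg (by norm_num) (Or.inr (by norm_num))))
      (subO hg (1 : ℕ) (2 : ℕ) (by norm_num)) P := by
    intro P hP
    refine mt_of_pr (F := TO hg (1 : ℕ)) (Sym461.filPr hg) (-1) P _ _ _ _ (fun i u => rfl)
      (fun i u => rfl) ?_ ?_
    · intro a a' b u h
      subst h
      exact Iff.rfl
    · intro a a' b u h
      subst h
      show u ∈ Fil g (a + -1 - 1) b ↔ u ∈ Fil g (a - ((2 : ℕ) : ℤ)) b
      rw [show a + -1 - 1 = a - ((2 : ℕ) : ℤ) by push_cast; ring]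
  exact lcq_of hg (key 0 le_rfl) (key 1 zero_le_one) (isQuo0 hg 0) n q

/-- `Q_2` -/
theorem q2E (n q : ℕ) : E0 (A g 0) (E g 0 n) (QT0 hg 1) q := by
  have key : ∀ (P : ℤ) (hP : 0 ≤ P), Mt (F := TO hg (0 : ℕ))
      ((Sym461.filPr hg).toDict 0 P (Sym461.filPr_DS hg (by norm_num))
        (Sym461.filPr_XS hg (Or.inl (by omega))) (Sym461.filPr_LX hg (by norm_num) (Or.inl (by omega)))
        (Sym461.filPr_LX hg (by norm_num) (Or.inl (by omega))))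
      (subO hg (0 : ℕ) (1 : ℕ) (by norm_num)) P := by
    intro P hP
    refine mt_of_pr (F := TO hg (0 : ℕ)) (Sym461.filPr hg) 0 P _ _ _ _ (fun i u => rfl)
      (fun i u => rfl) ?_ ?_
    · intro a a' b u h
      subst h
      show u ∈ Fil g (a + 0) b ↔ u ∈ Fil g (a - ((0 : ℕ) : ℤ)) b
      rw [show a + 0 = a - ((0 : ℕ) : ℤ) by push_cast; ring]
    · intro a a' b u h
      subst h
      show u ∈ Fil g (a + 0 - 1) b ↔ u ∈ Fil g (a - ((1 : ℕ) : ℤ)) b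
      rw [show a + 0 - 1 = a - ((1 : ℕ) : ℤ) by push_cast; ring]
  exact lcq_of hg (key 0 le_rfl) (key 1 zero_le_one) (isQuo0 hg 1) n q

/-- `Q_3` -/
theorem q3E (n q : ℕ) : E0 (A g 0) (E g 0 n) (QT0 hg 2) q := by
  have key : ∀ (P : ℤ) (hP : 0 ≤ P), Mt (F := TK hg 0 (0 + 1))
      ((Sym461.rowPr hg).toDict 0 P (Sym461.rowPr_DS hg (by norm_num))
        (Sym461.rowPr_XS hg (Or.inl (by omega))) (Sym461.rowPr_LX hg (by norm_num) (Or.inl (by omega)))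
        (Sym461.rowPr_LX hg (by norm_num) (Or.inl (by omega))))
      (subP hg 0 (0 + 1) (by norm_num)) P := by
    intro P hP
    refine mt_of_pr (F := TK hg 0 (0 + 1)) (Sym461.rowPr hg) 0 P _ _ _ _ (fun i u => rfl)
      (fun i u => rfl) ?_ ?_
    · intro a a' b u h
      have e : a' = a := by omega
      subst e
      show (u 0 ∈ Fil g a' b ∧ u 1 ∈ Fil g a' b ∧ u 0 * X 0 + u 1 * X 1 ∈ Fil g (a' - 1) (b + 1)) ↔
        (u 0 ∈ Fil g (a' - 0) b ∧ u 1 ∈ Fil g (a' - 0) b ∧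
          u 0 * X 0 + u 1 * X 1 ∈ Fil g (a' - (0 + 1)) (b + 1))
      rw [sub_zero, zero_add]
    · intro a a' b u h
      have e : a' = a := by omega
      subst e
      show (u ∈ Sym461.Fp g (a' - 1) b) ↔ (u 0 ∈ Fil g (a' - (0 + 1)) b ∧ u 1 ∈ Fil g (a' - (0 + 1)) b)
      rw [zero_add]
      exact Sym461.mem_Fp
  exact lcq_of hg (key 0 le_rfl) (key 1 zero_le_one) (isQuo0 hg 2) n q

/-- `Q_4` -/
theorem q4E (n q : ℕ) : E0 (A g 0) (E g 0 n) (QT0 hg 3) q := by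
  have hRw : ∀ (a b : ℤ) (u : Fin 2 → Op K), u ∈ Sym461.Rw g a b ↔
      u ∈ (TK hg 0 (0 + 1)).L a b := by
    intro a b u
    show (u 0 ∈ Fil g a b ∧ u 1 ∈ Fil g a b ∧ u 0 * X 0 + u 1 * X 1 ∈ Fil g (a - 1) (b + 1)) ↔
        (u 0 ∈ Fil g (a - 0) b ∧ u 1 ∈ Fil g (a - 0) b ∧
          u 0 * X 0 + u 1 * X 1 ∈ Fil g (a - (0 + 1)) (b + 1))
    rw [sub_zero, zero_add]
  have hM : ∀ (a b : ℤ) (u : Fin 2 → Op K),
      (u ∈ Sym461.Rw g a b ∧ u 0 * X 0 + u 1 * X 1 ∈ Fil g (a - 2) (b + 1)) ↔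
      u ∈ (subK hg 0 (0 + 1) 0 2 (by norm_num) (by norm_num)).L a b := by
    intro a b u
    show ((u 0 ∈ Fil g a b ∧ u 1 ∈ Fil g a b ∧ u 0 * X 0 + u 1 * X 1 ∈ Fil g (a - 1) (b + 1)) ∧
        u 0 * X 0 + u 1 * X 1 ∈ Fil g (a - 2) (b + 1)) ↔
        (u 0 ∈ Fil g (a - 0) b ∧ u 1 ∈ Fil g (a - 0) b ∧
          u 0 * X 0 + u 1 * X 1 ∈ Fil g (a - 2) (b + 1))
    rw [sub_zero]
    constructor
    · rintro ⟨⟨h1, h2, _⟩, h3⟩
      exact ⟨h1, h2, h3⟩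
    · rintro ⟨h1, h2, h3⟩
      exact ⟨⟨h1, h2, Fil_mono g (by omega) h3⟩, h3⟩
  have key : ∀ (P : ℤ) (hP : 0 ≤ P), Mt (F := TK hg 0 (0 + 1)) (Sym461.q4 hg hP)
      (subK hg 0 (0 + 1) 0 2 (by norm_num) (by norm_num)) P := by
    intro P hP
    exact
    { x := fun i u => rfl
      d := fun i u => rfl
      l0 := fun u => hRw 0 P u
      l1 := fun u => hRw 1 P u
      l2 := fun u => hRw 2 P u
      lp := fun u => hRw 0 (P + 1) u
      m0 := fun u => (Sym461.q4_M0 hg hP).trans (hM 0 P u)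
      m1 := fun u => (Sym461.q4_M1 hg hP).trans (hM 1 P u)
      m2 := fun u => (Sym461.q4_M2 hg hP).trans (hM 2 P u)
      mp := fun u => (Sym461.q4_Mp hg hP).trans (hM 0 (P + 1) u) }
  exact lcq_of hg (key 0 le_rfl) (key 1 zero_le_one) (isQuo0 hg 3) n q

/-- all four quotients -/
theorem hQ0 (j : Fin 4) (n q : ℕ) : E0 (A g 0) (E g 0 n) (QT0 hg j) q := by
  match j with
  | 0 => exact q1E hg n q
  | 1 => exact q2E hg n q
  | 2 => exact q3E hg n q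
  | 3 => exact q4E hg n q

end inst

end Crest.Agent.R186.LC369
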