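import Crest.Agent.R186.Defs281_128
import Crest.Agent.R186.Inst_823

/-!
Row 186, S0281, base (helper355): the LITERAL maps of the resolutions `K(n)` of `E n` on rows,
for `s = 0` (581 #31526) and `s = 1` (525 #31909).  The index `j` of a polynomial of degree `m` is
the exponent of `x₁` (`f_j = x₀^(m-j) x₁^j`, `j ≤ m`).  A row of the block `K_j` is a pair
`v : Fin 2 → Op K`.  Everything is left `Op K`-linear (right multiplications by operators).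
-/

set_option autoImplicit false

namespace Crest.Agent.R186.B281

namespace KN

/-- extension by zero of a tuple -/
def ez {M : Type*} [Zero M] {m : ℕ} (x : Fin m → M) (j : ℕ) : M := if h : j < m then x ⟨j, h⟩ else 0

/-- the shift of a sequence -/
def sh {M : Type*} [Zero M] (u : ℕ → M) : ℕ → M
  | 0 => 0
  | j + 1 => u j

section
variable {M : Type*} {m : ℕ}

theorem ez_of_lt [Zero M] (x : Fin m → M) {j : ℕ} (h : j < m) : ez x j = x ⟨j, h⟩ := dif_pos h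

theorem ez_of_ge [Zero M] (x : Fin m → M) {j : ℕ} (h : m ≤ j) : ez x j = 0 :=
  dif_neg (not_lt.2 h)

@[simp] theorem ez_fin [Zero M] (x : Fin m → M) (j : Fin m) : ez x j = x j := ez_of_lt x j.2

theorem ez_add [AddZeroClass M] (x y : Fin m → M) (j : ℕ) : ez (x + y) j = ez x j + ez y j := by
  unfold ez
  split_ifs
  · rfl
  · rw [add_zero]

theorem ez_smul {R : Type*} [Zero M] [SMulZeroClass R M] (r : R) (x : Fin m → M) (j : ℕ) :
    ez (r • x) j = r • ez x j := by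
  unfold ez
  split_ifs
  · rfl
  · rw [smul_zero]

@[simp] theorem sh_zero [Zero M] (u : ℕ → M) : sh u 0 = 0 := rfl

@[simp] theorem sh_succ [Zero M] (u : ℕ → M) (j : ℕ) : sh u (j + 1) = u j := rfl



end

variable {K : Type} [Field K]

/-- `a x₀ + b x₁` -/
noncomputable def cc (v : Fin 2 → Op K) : Op K := v 0 * X 0 + v 1 * X 1

/-- the row `c (x₁, -x₀)` -/
noncomputable def syz (c : Op K) : Fin 2 → Op K := ![c * X 1, -(c * X 0)]

theorem cc_add (v w : Fin 2 → Op K) : cc (v + w) = cc v + cc w := by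
  simp only [cc, Pi.add_apply, add_mul]
  abel

theorem cc_smul (T : Op K) (v : Fin 2 → Op K) : cc (T • v) = T * cc v := by
  simp only [cc, Pi.smul_apply, smul_eq_mul, mul_add, mul_assoc]

@[simp] theorem cc_zero : cc (0 : Fin 2 → Op K) = 0 := by simp [cc]

/-! ### `s = 0` -/

/-- `K₁ → K₀` -/
noncomputable def d1f (g : K) (n : ℕ) (v : Fin 2 → ℕ → Fin 2 → Op K) (j : ℕ) : Op K :=
  cc (v 0 j) * D g 0 + cc (v 1 j) * D g 1 - cq g (n - j : ℕ) • v 0 j 0 - cq g j • v 1 j 1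
    - cq g (n + 1 - j : ℕ) • sh (v 0) j 1 - cq g (j + 1 : ℕ) • v 1 (j + 1) 0

/-- `K₂ → K₁`, the part on `K₂ ⊗ [n+1]`, slot `0` -/
noncomputable def d2w0 (g : K) (w : ℕ → Fin 2 → Op K) (j : ℕ) : Fin 2 → Op K :=
  cq g (j + 1 : ℕ) • w (j + 1) - (if j = 0 then g⁻¹ • ![cc (w 0) * D g 1, 0] else 0)
    - ![0, cc (w (j + 1)) * D g 1]

/-- `K₂ → K₁`, the part on `K₂ ⊗ [n+1]`, slot `1` -/
noncomputable def d2w1 (g : K) (n : ℕ) (w : ℕ → Fin 2 → Op K) (j : ℕ) : Fin 2 → Op K :=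
  -(cq g (n + 1 - j : ℕ) • w j) + (if j = 0 then ![cc (w 0) * D g 0, 0] else 0)
    + g⁻¹ • ![0, cc (w (j + 1)) * D g 0]

/-- `K₂ → K₁`, the part on `O(-1) ⊗ [n-1]²`, slot `0` -/
noncomputable def d2h0 (g : K) (n : ℕ) (h : Fin 2 → ℕ → Op K) (j : ℕ) : Fin 2 → Op K :=
  ![-(g⁻¹ • sh (h 0) j), h 0 j] + (cq g (n - j : ℕ))⁻¹ • syz (h 0 j * D g 0 + h 1 j * D g 1)

/-- `K₂ → K₁`, the part on `O(-1) ⊗ [n-1]²`, slot `1` -/
noncomputable def d2h1 (g : K) (h : Fin 2 → ℕ → Op K) (j : ℕ) : Fin 2 → Op K :=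
  ![-sh (h 1) j, g⁻¹ • h 1 j]

/-- `K₃ → K₂`, the component in `K₂ ⊗ [n+1]` -/
noncomputable def d3w (g : K) (n : ℕ) (u : ℕ → Op K) (j : ℕ) : Fin 2 → Op K :=
  ![sh u j, -u j] - (cq g (n + 1 - j : ℕ))⁻¹ • syz (u j * D g 0)
    - (if j = n + 1 then (cq g (n + 1 : ℕ))⁻¹ • syz (u n * D g 1) else 0)

/-- `K₃ → K₂`, the component in `O(-1) ⊗ [n-1]`, slot `0` -/
noncomputable def d3h0 (g : K) (u : ℕ → Op K) (j : ℕ) : Op K :=
  (cq g (j + 1 : ℕ) - 1) • u (j + 1) - g • (u (j + 1) * D g 1 * X 1)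

/-- `K₃ → K₂`, the component in `O(-1) ⊗ [n-1]`, slot `1` -/
noncomputable def d3h1 (g : K) (n : ℕ) (u : ℕ → Op K) (j : ℕ) : Op K :=
  u (j + 1) * D g 0 * X 1 - cq g (n - j : ℕ) • u j

/-! ### `s = 1` -/

/-- `K₁ → K₀`, the part on `K₂ ⊗ [n-1]` -/
noncomputable def e1w (g : K) (n : ℕ) (w : ℕ → Fin 2 → Op K) (j : ℕ) : Op K :=
  (cq g (n - j : ℕ))⁻¹ • (cc (w j) * D g 0) - w j 0 - sh w j 1

/-- `K₁ → K₀`, the part on `O(-1) ⊗ [n+1]²` -/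
noncomputable def e1q (g : K) (n : ℕ) (q : Fin 2 → ℕ → Op K) (j : ℕ) : Op K :=
  q 0 j * D g 0 * X 0 - cq g (n + 1 - j : ℕ) • q 0 j
    + (if j = n then q 0 (n + 1) * D g 0 * X 1 else 0)
    + (q 1 j * D g 1 * X 0 - cq g (j + 1 : ℕ) • q 1 (j + 1)
      + (if j = n then q 1 (n + 1) * D g 1 * X 1 else 0))

/-- `K₂ → K₁`, the component in `K₂ ⊗ [n-1]` -/
noncomputable def e2w (g : K) (n : ℕ) (v : Fin 2 → ℕ → Fin 2 → Op K) (j : ℕ) : Fin 2 → Op K :=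
  -(cq g (n - j : ℕ) • v 0 j) - syz (v 0 j 1 * D g 0)
    + (-(cq g (j + 1 : ℕ) • v 1 (j + 1)) - g • syz (v 1 j 1 * D g 1))

/-- `K₂ → K₁`, the component in `O(-1) ⊗ [n+1]`, slot `0` -/
noncomputable def e2q0 (g : K) (n : ℕ) (v : Fin 2 → ℕ → Fin 2 → Op K) (j : ℕ) : Op K :=
  g • v 0 j 0 + sh (v 0) j 1
    - (if j = n + 1 then (cq g (n + 1 : ℕ))⁻¹ • (cc (v 0 n) * D g 1) else 0)
    + (cq g (n + 1 - j : ℕ))⁻¹ • (cc (v 1 j) * D g 1)

/-- `K₂ → K₁`, the component in `O(-1) ⊗ [n+1]`, slot `1` -/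
noncomputable def e2q1 (g : K) (n : ℕ) (v : Fin 2 → ℕ → Fin 2 → Op K) (j : ℕ) : Op K :=
  (if j = n + 1 then (cq g (n + 1 : ℕ))⁻¹ • (cc (v 0 n) * D g 0) else 0)
    + (v 1 j 0 + g • sh (v 1) j 1 - (cq g (n + 1 - j : ℕ))⁻¹ • (cc (v 1 j) * D g 0))

/-- `K₃ → K₂`, slot `0` -/
noncomputable def e3v0 (g : K) (u : ℕ → Op K) (j : ℕ) : Fin 2 → Op K :=
  ![u j * D g 1 * X 1 - cq g (j + 1 : ℕ) • u j,
    -(u j * D g 1 * X 0) + cq g (j + 1 : ℕ) • u (j + 1)]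

/-- `K₃ → K₂`, slot `1` -/
noncomputable def e3v1 (g : K) (n : ℕ) (u : ℕ → Op K) (j : ℕ) : Fin 2 → Op K :=
  ![-(u j * D g 0 * X 1) + cq g (n + 1 - j : ℕ) • sh u j,
    u j * D g 0 * X 0 - cq g (n + 1 - j : ℕ) • u j]

end KN

end Crest.Agent.R186.B281
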