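import Crest.Agent.R186.KPv1_755
import Crest.Agent.R186.NullV_275
import Crest.Agent.R186.EVA_538
import Crest.Agent.R186.KN_355
import Crest.Agent.R186.N1B_113
import Crest.Agent.R186.DevW_147

-- ▼ part R186/Rs1_755
section

/-!
Row 186, S0281, base, `s = 1` (helper755): 275's `Rs` value (the resolution of `E g 1 n` on 580's
projectives, maps of KPv1_755) and the finiteness of the terms.
-/

set_option autoImplicit false

noncomputable section

namespace Crest.Agent.R186.B281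

namespace KPv1

open NullV275

variable {K : Type} [Field K] {g : K}

/-- the term `K₁`, `s = 1` -/
abbrev T1 (g : K) (n : ℕ) : Type := (Fin n → Pv g 1 4) × (Fin 2 → Fin (n + 2) → Pv g 1 1)

instance fin0 (n : ℕ) : Module.Finite (A g 1) (Fin (n + 1) → Pv g 1 0) := inferInstance
instance fin2 (n : ℕ) : Module.Finite (A g 1) (Fin 2 → Fin (n + 1) → Pv g 1 3) := inferInstance
instance fin3 (n : ℕ) : Module.Finite (A g 1) (Fin (n + 1) → Pv g 1 2) := inferInstance
instance fin1 (n : ℕ) : Module.Finite (A g 1) (T1 g n) := inferInstance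

/-- **the resolution of `E g 1 n`** -/
def rs1 (hg : Gen g) (n : ℕ) : Rs (A g 1) (E g 1 n) (Fin (n + 1) → Pv g 1 0)
    (T1 g n) (Fin 2 → Fin (n + 1) → Pv g 1 3) (Fin (n + 1) → Pv g 1 2) where
  e := ε hg n
  d1 := d1 hg n
  d2 := d2 hg n
  d3 := d3 hg n
  surj := surj hg n
  ex0 := ex0 hg n
  ex1 := ex1 hg n
  ex2 := ex2 hg n
  inj := inj hg n


end KPv1

end Crest.Agent.R186.B281
end
end

-- ▼ part R186/N1C_538
section

/-!
Row 186 (S0281), helper538, leaf B281.N1 (c1), `A`-level: `ev1` vanishes on coboundaries, `s = 1`.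
-/

set_option autoImplicit false
set_option linter.unusedSectionVars false

namespace Crest.Agent.R186.N1C538

open B281 Matrix EV538 EVA538

section Gen

variable {R : Type} [Ring R] {P Y : Type} [AddCommGroup P] [Module R P] [AddCommGroup Y]
  [Module R Y]

/-- expansion of a map on a finite family -/
theorem hom1_apply {m : ℕ} (c : P → R) (γ : P) (hγ : ∀ x : P, c x • γ = x)
    (φ : (Fin m → P) →ₗ[R] Y) (x : Fin m → P) : φ x = ∑ i, c (x i) • φ (Pi.single i γ) := by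
  have h1 : x = ∑ i, c (x i) • (Pi.single i γ : Fin m → P) := by
    funext j
    rw [Finset.sum_apply, Finset.sum_eq_single j]
    · rw [Pi.smul_apply, Pi.single_eq_same, hγ]
    · intro i _ hij
      rw [Pi.smul_apply, Pi.single_eq_of_ne (Ne.symm hij), smul_zero]
    · intro h
      exact absurd (Finset.mem_univ j) h
  conv_lhs => rw [h1]
  rw [map_sum]
  exact Finset.sum_congr rfl fun i _ => map_smul _ _ _

/-- expansion of a map on a doubly indexed finite family -/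
theorem hom2_apply {k m : ℕ} (c : P → R) (γ : P) (hγ : ∀ x : P, c x • γ = x)
    (φ : (Fin k → Fin m → P) →ₗ[R] Y) (x : Fin k → Fin m → P) :
    φ x = ∑ l, ∑ i, c (x l i) • φ (Pi.single l (Pi.single i γ)) := by
  have h1 : φ x = ∑ l, φ (Pi.single l (x l)) := by
    rw [← map_sum]
    congr 1
    exact (Finset.univ_sum_single x).symm
  rw [h1]
  refine Finset.sum_congr rfl fun l _ => ?_
  exact hom1_apply c γ hγ (φ ∘ₗ LinearMap.single R (fun _ : Fin k => Fin m → P) l) (x l)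

end Gen

variable {K : Type} [Field K] {g : K}

/-- 355's rows of `d₃`, `s = 1` -/
noncomputable def e3v (g : K) (n : ℕ) (u : ℕ → Op K) (l : Fin 2) (i : ℕ) : Fin 2 → Op K :=
  if l = 0 then KN.e3v0 g u i else KN.e3v1 g n u i

/-- the unit sequence -/
noncomputable def un (j : ℕ) (k : ℕ) : Op K := if k = j then 1 else 0

theorem sum_un (n j : ℕ) (hj : j ≤ n) (F : ℕ → Op K) (G : ℕ → Op K) (h : ∀ i, i ≤ n → G i =
    if i = j then F i else 0) : ∑ i ∈ Finset.range (n + 1), G i = F j := by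
  rw [Finset.sum_eq_single j]
  · rw [h j hj, if_pos rfl]
  · intro i hi hij
    rw [h i (by simpa [Nat.lt_succ_iff] using hi), if_neg hij]
  · intro h'
    exact absurd (Finset.mem_range.2 (by omega)) h'

/-- the pairing of the rows of `d₃` (unit at `j`) with the values `m0 m1` -/
theorem pair_e3v (g : K) (n j : ℕ) (hj : j ≤ n) (m0 m1 : Fin 2 → ℕ → Op K)
    (hm0 : ∀ l i, n < i → m0 l i = 0) :
    (∑ i ∈ Finset.range (n + 1), (e3v g n (un j) 0 i 0 * m0 0 i + e3v g n (un j) 0 i 1 * m1 0 i)) +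
      (∑ i ∈ Finset.range (n + 1),
        (e3v g n (un j) 1 i 0 * m0 1 i + e3v g n (un j) 1 i 1 * m1 1 i)) =
      d3t1 g n m0 m1 j := by
  rw [Finset.sum_add_distrib, Finset.sum_add_distrib]
  -- the four sums
  have s1 : ∑ i ∈ Finset.range (n + 1), e3v g n (un j) 0 i 0 * m0 0 i =
      (D g 1 * X 1 - cq g ((j : ℤ) + 1) • 1) * m0 0 j := by
    refine sum_un n j hj (fun i => (D g 1 * X 1 - cq g ((i : ℤ) + 1) • 1) * m0 0 i) _ ?_
    intro i _
    simp only [e3v, if_true, KN.e3v0, un, Matrix.cons_val_zero]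
    by_cases h : i = j
    · subst h; simp
    · simp [h]
  have s2 : ∑ i ∈ Finset.range (n + 1), e3v g n (un j) 0 i 1 * m1 0 i =
      -(D g 1 * X 0 * m1 0 j) + cq g (j : ℤ) • m1 0 (j - 1) := by
    have e : ∀ i ∈ Finset.range (n + 1), e3v g n (un j) 0 i 1 * m1 0 i =
        (if i = j then -(D g 1 * X 0 * m1 0 i) else 0) +
          (if i + 1 = j then cq g ((i : ℤ) + 1) • m1 0 i else 0) := by
      intro i _
      simp only [e3v, if_true, KN.e3v0, un, Matrix.cons_val_one, Matrix.cons_val_fin_one, add_mul]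
      congr 1
      · by_cases h : i = j
        · subst h; simp
        · simp [h]
      · by_cases h : i + 1 = j
        · subst h; simp
        · simp [h]
    rw [Finset.sum_congr rfl e, Finset.sum_add_distrib]
    congr 1
    · exact sum_un n j hj (fun i => -(D g 1 * X 0 * m1 0 i)) _ (fun i _ => rfl)
    · rcases j with _ | j
      · rw [Finset.sum_eq_zero]
        · simp [cq_zero]
        · intro i _
          rw [if_neg (by omega)]
      · rw [Finset.sum_eq_single j]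
        · rw [if_pos rfl, Nat.add_sub_cancel]
          push_cast
          rfl
        · intro i _ hij
          rw [if_neg (by omega)]
        · intro h'
          exact absurd (Finset.mem_range.2 (by omega)) h'
  have s3 : ∑ i ∈ Finset.range (n + 1), e3v g n (un j) 1 i 0 * m0 1 i =
      -(D g 0 * X 1 * m0 1 j) + cq g ((n : ℤ) - j) • m0 1 (j + 1) := by
    have e : ∀ i ∈ Finset.range (n + 1), e3v g n (un j) 1 i 0 * m0 1 i =
        (if i = j then -(D g 0 * X 1 * m0 1 i) else 0) +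
          (if i = j + 1 then cq g ((n : ℤ) - j) • m0 1 i else 0) := by
      intro i hi
      have hi' : i ≤ n := by simpa [Nat.lt_succ_iff] using hi
      simp only [e3v, Fin.isValue, one_ne_zero, if_false, KN.e3v1, un, Matrix.cons_val_zero,
        add_mul]
      congr 1
      · by_cases h : i = j
        · subst h; simp
        · simp [h]
      · rcases i with _ | i
        · simp
        · rw [KN.sh_succ]
          by_cases h : i = j
          · subst h
            have : ((n + 1 - (i + 1) : ℕ) : ℤ) = (n : ℤ) - i := by omega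
            rw [this]
            simp [un]
          · simp [un, h]
    rw [Finset.sum_congr rfl e, Finset.sum_add_distrib]
    congr 1
    · exact sum_un n j hj (fun i => -(D g 0 * X 1 * m0 1 i)) _ (fun i _ => rfl)
    · by_cases hjn : j + 1 ≤ n
      · exact sum_un n (j + 1) hjn (fun i => cq g ((n : ℤ) - j) • m0 1 i) _ (fun i _ => rfl)
      · rw [hm0 1 (j + 1) (by omega), smul_zero]
        refine Finset.sum_eq_zero fun i hi => ?_
        have := Finset.mem_range.1 hi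
        rw [if_neg (by omega)]
  have s4 : ∑ i ∈ Finset.range (n + 1), e3v g n (un j) 1 i 1 * m1 1 i =
      (D g 0 * X 0 - cq g ((n : ℤ) - j + 1) • 1) * m1 1 j := by
    refine sum_un n j hj (fun i => (D g 0 * X 0 - cq g ((n : ℤ) - i + 1) • 1) * m1 1 i) _ ?_
    intro i hi
    simp only [e3v, Fin.isValue, one_ne_zero, if_false, KN.e3v1, un, Matrix.cons_val_one,
      Matrix.cons_val_fin_one]
    by_cases h : i = j
    · subst h
      have : ((n + 1 - i : ℕ) : ℤ) = (n : ℤ) - i + 1 := by omega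
      rw [this]
      simp
    · simp [h]
  rw [s1, s2, s3, s4, d3t1]
  simp only [sub_mul, smul_mul_assoc, one_mul]
  abel

theorem mul34 (M N : Mat K) (r j : Fin 7) (h0 : M r 0 = 0) (h1 : M r 1 = 0) (h2 : M r 2 = 0)
    (h5 : M r 5 = 0) (h6 : M r 6 = 0) : (M * N) r j = M r 3 * N 3 j + M r 4 * N 4 j := by
  rw [Matrix.mul_apply, Fin.sum_univ_seven, h0, h1, h2, h5, h6]
  simp only [zero_mul, zero_add, add_zero]

theorem mul_zero_row (M N : Mat K) (r j : Fin 7) (h : ∀ c, M r c = 0) : (M * N) r j = 0 := by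
  rw [Matrix.mul_apply]
  exact Finset.sum_eq_zero fun c _ => by rw [h, zero_mul]

/-- the entries of one product -/
theorem fst_mul34 {s : ℤ} (x : A g s) (hx : x ∈ Pv g s 3) (y : A g s) (r j : Fin 7) :
    (x * y).1.fst r j = x.1.fst r 3 * y.1.fst 3 j + x.1.fst r 4 * y.1.fst 4 j := by
  have z := fun c hc => (mem_Pv.1 hx r c hc).1
  rw [fst_mulA]
  exact mul34 _ _ r j (z 0 (by decide)) (z 1 (by decide)) (z 2 (by decide)) (z 5 (by decide))
    (z 6 (by decide))

/-- the entries of one product, degree one, if `x` has degree zero at row `r` -/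
theorem snd_mul34 {s : ℤ} (x : A g s) (hx : x ∈ Pv g s 3) (y : A g s) (r j : Fin 7)
    (h : ∀ c, x.1.snd r c = 0) :
    (x * y).1.snd r j = x.1.fst r 3 * y.1.snd 3 j + x.1.fst r 4 * y.1.snd 4 j := by
  have z := fun c hc => (mem_Pv.1 hx r c hc).1
  rw [snd_mulA, Matrix.add_apply, mul_zero_row _ _ r j h, add_zero]
  exact mul34 _ _ r j (z 0 (by decide)) (z 1 (by decide)) (z 2 (by decide)) (z 5 (by decide))
    (z 6 (by decide))

theorem en0_smul {s : ℤ} (x : Pv g s 3) (y : Pv g s 1) (r : Fin 7) :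
    en0 g s 1 r 1 ((x : A g s) • y) =
      (x : A g s).1.fst r 3 * en0 g s 1 3 1 y + (x : A g s).1.fst r 4 * en0 g s 1 4 1 y :=
  fst_mul34 (x : A g s) x.2 (y : A g s) r 1

theorem en1_smul {s : ℤ} (x : Pv g s 3) (y : Pv g s 1) (r : Fin 7)
    (hx : ∀ c, (x : A g s).1.snd r c = 0) :
    en1 g s 1 r 1 ((x : A g s) • y) =
      (x : A g s).1.fst r 3 * en1 g s 1 3 1 y + (x : A g s).1.fst r 4 * en1 g s 1 4 1 y :=
  snd_mul34 (x : A g s) x.2 (y : A g s) r 1 hx

/-- the values at the generators of `(A e_{K₁'})^(2 × (n+1))` -/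
noncomputable def hv (n : ℕ) (h : (Fin 2 → Fin (n + 1) → Pv g 1 3) →ₗ[A g 1] Pv g 1 1) (l : Fin 2)
    (i : Fin (n + 1)) : Pv g 1 1 := h (Pi.single l (Pi.single i (Pgen g 1 3)))

/-- entry `(3, 1)` or `(4, 1)`, degree zero -/
noncomputable def me (r : Fin 7) (n : ℕ)
    (h : (Fin 2 → Fin (n + 1) → Pv g 1 3) →ₗ[A g 1] Pv g 1 1) (l : Fin 2) (i : ℕ) : Op K :=
  KN.ez (fun i => en0 g 1 1 r 1 (hv n h l i)) i

/-- entry `(3, 1)` or `(4, 1)`, degree one -/
noncomputable def me' (r : Fin 7) (n : ℕ)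
    (h : (Fin 2 → Fin (n + 1) → Pv g 1 3) →ₗ[A g 1] Pv g 1 1) (l : Fin 2) (i : ℕ) : Op K :=
  KN.ez (fun i => en1 g 1 1 r 1 (hv n h l i)) i

theorem me_ge (r : Fin 7) (n : ℕ) (h : (Fin 2 → Fin (n + 1) → Pv g 1 3) →ₗ[A g 1] Pv g 1 1)
    (l : Fin 2) (i : ℕ) (hi : n < i) : me r n h l i = 0 := by
  unfold me
  exact KN.ez_of_ge _ hi

theorem me'_ge (r : Fin 7) (n : ℕ) (h : (Fin 2 → Fin (n + 1) → Pv g 1 3) →ₗ[A g 1] Pv g 1 1)
    (l : Fin 2) (i : ℕ) (hi : n < i) : me' r n h l i = 0 := by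
  unfold me'
  exact KN.ez_of_ge _ hi

theorem me_fin (r : Fin 7) (n : ℕ) (h : (Fin 2 → Fin (n + 1) → Pv g 1 3) →ₗ[A g 1] Pv g 1 1)
    (l : Fin 2) (i : Fin (n + 1)) : me r n h l i = en0 g 1 1 r 1 (hv n h l i) := by
  unfold me
  exact KN.ez_fin _ _

theorem me'_fin (r : Fin 7) (n : ℕ) (h : (Fin 2 → Fin (n + 1) → Pv g 1 3) →ₗ[A g 1] Pv g 1 1)
    (l : Fin 2) (i : Fin (n + 1)) : me' r n h l i = en1 g 1 1 r 1 (hv n h l i) := by
  unfold me'
  exact KN.ez_fin _ _

theorem ez_gen (n : ℕ) (j : Fin (n + 1)) :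
    (KN.ez fun k => ((Pi.single j (Pgen g 1 2) : Fin (n + 1) → Pv g 1 2) k : A g 1).1.fst 2 2) =
      un (K := K) (j : ℕ) := by
  funext k
  unfold un
  by_cases hk : k < n + 1
  · rw [KN.ez_of_lt _ hk]
    by_cases h : k = (j : ℕ)
    · subst h
      rw [if_pos rfl, Pi.single_eq_same]
      show idp K 2 2 2 = 1
      rw [idp, Matrix.diagonal_apply_eq]
      exact if_pos (by decide)
    · rw [if_neg h, Pi.single_eq_of_ne (fun h' => h (congrArg Fin.val h'))]
      rfl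
  · rw [KN.ez_of_ge _ (by omega), if_neg (by have := j.2; omega)]

theorem ez_gen' (n : ℕ) (j : Fin (n + 1)) :
    (KN.ez fun k => ((Pi.single j (Pgen g 1 2) : Fin (n + 1) → Pv g 1 2) k : A g 1).1.snd 2 2) =
      fun _ => (0 : Op K) := by
  funext k
  by_cases hk : k < n + 1
  · rw [KN.ez_of_lt _ hk]
    by_cases h : k = (j : ℕ)
    · subst h
      rw [Pi.single_eq_same]
      rfl
    · rw [Pi.single_eq_of_ne (fun h' => h (congrArg Fin.val h'))]
      rfl
  · rw [KN.ez_of_ge _ (by omega)]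

theorem e3v_zero (g : K) (n : ℕ) (l : Fin 2) (i : ℕ) (e : Fin 2) :
    e3v g n (fun _ => (0 : Op K)) l i e = 0 := by
  have hs : KN.sh (fun _ => (0 : Op K)) i = 0 := by cases i <;> rfl
  unfold e3v
  split_ifs
  · fin_cases e <;> simp [KN.e3v0]
  · fin_cases e <;> simp [KN.e3v1, hs]

variable {n : ℕ} (d3 : (Fin (n + 1) → Pv g 1 2) →ₗ[A g 1] (Fin 2 → Fin (n + 1) → Pv g 1 3))
  (h3 : ∀ x l i (e : Fin 2), (d3 x l i : A g 1).1.fst 2 (![3, 4] e) =
    e3v g n (KN.ez fun j => (x j : A g 1).1.fst 2 2) l i e)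
  (h3' : ∀ x l i (e : Fin 2), (d3 x l i : A g 1).1.snd 2 (![3, 4] e) =
    e3v g n (KN.ez fun j => (x j : A g 1).1.snd 2 2) l i e)
  (h : (Fin 2 → Fin (n + 1) → Pv g 1 3) →ₗ[A g 1] Pv g 1 1)

include h3' in
theorem snd_zero (j : Fin (n + 1)) (l : Fin 2) (i : Fin (n + 1)) (c : Fin 7) :
    (d3 (Pi.single j (Pgen g 1 2)) l i : A g 1).1.snd 2 c = 0 := by
  by_cases hc : blk c = 3
  · have : c = 3 ∨ c = 4 := by revert hc; revert c; decide
    have e0 := h3' (Pi.single j (Pgen g 1 2)) l i 0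
    have e1 := h3' (Pi.single j (Pgen g 1 2)) l i 1
    rw [ez_gen', e3v_zero] at e0 e1
    rcases this with rfl | rfl
    · exact e0
    · exact e1
  · exact (mem_Pv.1 (d3 (Pi.single j (Pgen g 1 2)) l i).2 2 c hc).2

set_option maxHeartbeats 1000000 in
include h3 in
theorem val0 (j : Fin (n + 1)) :
    (h (d3 (Pi.single j (Pgen g 1 2))) : A g 1).1.fst 2 1 =
      d3t1 g n (me 3 n h) (me 4 n h) j := by
  have e1 : h (d3 (Pi.single j (Pgen g 1 2))) =
      ∑ l, ∑ i, (d3 (Pi.single j (Pgen g 1 2)) l i : A g 1) • hv n h l i :=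
    hom2_apply (fun x : Pv g 1 3 => (x : A g 1)) (Pgen g 1 3)
      (fun x => Dev580.smul_gen (eps_idem g 1 3) x) h _
  have e2 : (h (d3 (Pi.single j (Pgen g 1 2))) : A g 1).1.fst 2 1 =
      en0 g 1 1 2 1 (h (d3 (Pi.single j (Pgen g 1 2)))) := rfl
  rw [e2, e1, map_sum, Fin.sum_univ_two, map_sum, map_sum]
  have hz : ∀ l i, n < i → me 3 n h l i = 0 := me_ge 3 n h
  have hz2 := pair_e3v g n j (Nat.lt_succ_iff.1 j.2) (me 3 n h) (me 4 n h) hz
  refine Eq.trans ?_ hz2
  rw [Finset.sum_range, Finset.sum_range]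
  congr 1
  · refine Finset.sum_congr rfl fun i _ => ?_
    have a0 : (d3 (Pi.single j (Pgen g 1 2)) 0 i : A g 1).1.fst 2 3 = e3v g n (un j) 0 i 0 := by
      have := h3 (Pi.single j (Pgen g 1 2)) 0 i 0
      rwa [ez_gen] at this
    have a1 : (d3 (Pi.single j (Pgen g 1 2)) 0 i : A g 1).1.fst 2 4 = e3v g n (un j) 0 i 1 := by
      have := h3 (Pi.single j (Pgen g 1 2)) 0 i 1
      rwa [ez_gen] at this
    have m0 := me_fin 3 n h 0 i
    have m1 := me_fin 4 n h 0 i
    rw [en0_smul, a0, a1, m0, m1]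
  · refine Finset.sum_congr rfl fun i _ => ?_
    have a0 : (d3 (Pi.single j (Pgen g 1 2)) 1 i : A g 1).1.fst 2 3 = e3v g n (un j) 1 i 0 := by
      have := h3 (Pi.single j (Pgen g 1 2)) 1 i 0
      rwa [ez_gen] at this
    have a1 : (d3 (Pi.single j (Pgen g 1 2)) 1 i : A g 1).1.fst 2 4 = e3v g n (un j) 1 i 1 := by
      have := h3 (Pi.single j (Pgen g 1 2)) 1 i 1
      rwa [ez_gen] at this
    have m0 := me_fin 3 n h 1 i
    have m1 := me_fin 4 n h 1 i
    rw [en0_smul, a0, a1, m0, m1]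

set_option maxHeartbeats 1000000 in
include h3 h3' in
theorem val1 (j : Fin (n + 1)) :
    (h (d3 (Pi.single j (Pgen g 1 2))) : A g 1).1.snd 2 1 =
      d3t1 g n (me' 3 n h) (me' 4 n h) j := by
  have e1 : h (d3 (Pi.single j (Pgen g 1 2))) =
      ∑ l, ∑ i, (d3 (Pi.single j (Pgen g 1 2)) l i : A g 1) • hv n h l i :=
    hom2_apply (fun x : Pv g 1 3 => (x : A g 1)) (Pgen g 1 3)
      (fun x => Dev580.smul_gen (eps_idem g 1 3) x) h _
  have e2 : (h (d3 (Pi.single j (Pgen g 1 2))) : A g 1).1.snd 2 1 =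
      en1 g 1 1 2 1 (h (d3 (Pi.single j (Pgen g 1 2)))) := rfl
  rw [e2, e1, map_sum, Fin.sum_univ_two, map_sum, map_sum]
  have hz : ∀ l i, n < i → me' 3 n h l i = 0 := me'_ge 3 n h
  have hz2 := pair_e3v g n j (Nat.lt_succ_iff.1 j.2) (me' 3 n h) (me' 4 n h) hz
  refine Eq.trans ?_ hz2
  rw [Finset.sum_range, Finset.sum_range]
  congr 1
  · refine Finset.sum_congr rfl fun i _ => ?_
    have a0 : (d3 (Pi.single j (Pgen g 1 2)) 0 i : A g 1).1.fst 2 3 = e3v g n (un j) 0 i 0 := by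
      have := h3 (Pi.single j (Pgen g 1 2)) 0 i 0
      rwa [ez_gen] at this
    have a1 : (d3 (Pi.single j (Pgen g 1 2)) 0 i : A g 1).1.fst 2 4 = e3v g n (un j) 0 i 1 := by
      have := h3 (Pi.single j (Pgen g 1 2)) 0 i 1
      rwa [ez_gen] at this
    have m0 := me'_fin 3 n h 0 i
    have m1 := me'_fin 4 n h 0 i
    rw [en1_smul _ _ _ (snd_zero d3 h3' j 0 i), a0, a1, m0, m1]
  · refine Finset.sum_congr rfl fun i _ => ?_
    have a0 : (d3 (Pi.single j (Pgen g 1 2)) 1 i : A g 1).1.fst 2 3 = e3v g n (un j) 1 i 0 := by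
      have := h3 (Pi.single j (Pgen g 1 2)) 1 i 0
      rwa [ez_gen] at this
    have a1 : (d3 (Pi.single j (Pgen g 1 2)) 1 i : A g 1).1.fst 2 4 = e3v g n (un j) 1 i 1 := by
      have := h3 (Pi.single j (Pgen g 1 2)) 1 i 1
      rwa [ez_gen] at this
    have m0 := me'_fin 3 n h 1 i
    have m1 := me'_fin 4 n h 1 i
    rw [en1_smul _ _ _ (snd_zero d3 h3' j 1 i), a0, a1, m0, m1]

theorem ent31 {s e : ℤ} {M : Mat K} (hM : Pres g s e M) : ∃ k, M 3 1 ∈ Fil g k e :=
  ⟨_, (N341.row_3 hM).2.1⟩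

theorem ent41 {s e : ℤ} {M : Mat K} (hM : Pres g s e M) : ∃ k, M 4 1 ∈ Fil g k e :=
  ⟨_, (N341.row_4 hM).2.1⟩

include h3 h3' in
/-- **(c1), `s = 1`, `A`-level** -/
theorem c1 : ev1 g 1 n (h ∘ₗ d3) = 0 := by
  refine ev1_zero (h ∘ₗ d3) (d3t1 g n (me 3 n h) (me 4 n h)) (d3t1 g n (me' 3 n h) (me' 4 n h))
    (fun j => val0 d3 h3 h j) (fun j => val1 d3 h3 h3' h j) (fun y hy => ?_) (fun y hy => ?_)
  · refine c1_one g n _ _ y ?_ ?_
    · rw [me, KN.ez_of_lt _ (Nat.lt_succ_self n)]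
      obtain ⟨k, hk⟩ := ent41 (hv n h 0 ⟨n, Nat.lt_succ_self n⟩ : A g 1).2.1
      have := Fil_Pol hk hy
      rwa [add_zero] at this
    · rw [me, KN.ez_of_lt _ (Nat.succ_pos n)]
      obtain ⟨k, hk⟩ := ent31 (hv n h 1 ⟨0, Nat.succ_pos n⟩ : A g 1).2.1
      have := Fil_Pol hk hy
      rwa [add_zero] at this
  · refine c1_one g n _ _ y ?_ ?_
    · rw [me', KN.ez_of_lt _ (Nat.lt_succ_self n)]
      obtain ⟨k, hk⟩ := ent41 (hv n h 0 ⟨n, Nat.lt_succ_self n⟩ : A g 1).2.2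
      have := Fil_Pol hk hy
      rwa [sub_add_cancel] at this
    · rw [me', KN.ez_of_lt _ (Nat.succ_pos n)]
      obtain ⟨k, hk⟩ := ent31 (hv n h 1 ⟨0, Nat.succ_pos n⟩ : A g 1).2.2
      have := Fil_Pol hk hy
      rwa [sub_add_cancel] at this

end Crest.Agent.R186.N1C538
end

-- ▼ part R186/N1D_538
section

/-!
Row 186 (S0281), helper538: (c1) of B281.N1 for 755's literal maps of the resolution of `E g 1 n`.
-/

set_option autoImplicit false
set_option linter.unusedSectionVars false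

namespace Crest.Agent.R186.N1D538

open B281 EVA538

variable {K : Type} [Field K] {g : K}

theorem r3 (hg : Gen g) (n : ℕ) (x : Fin (n + 1) → Pv g 1 2) (l : Fin 2) (i : Fin (n + 1))
    (e : Fin 2) : (KPv1.d3 hg n x l i : A g 1).1.fst 2 (![3, 4] e) =
      N1C538.e3v g n (KN.ez fun j => (x j : A g 1).1.fst 2 2) l i e := by
  have h := congrFun (KPv1.d3_fst hg n x l i 2) e
  revert h
  revert l e
  refine Fin.forall_fin_two.2 ⟨Fin.forall_fin_two.2 ⟨fun h => h, fun h => h⟩,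
    Fin.forall_fin_two.2 ⟨fun h => h, fun h => h⟩⟩

theorem r3' (hg : Gen g) (n : ℕ) (x : Fin (n + 1) → Pv g 1 2) (l : Fin 2) (i : Fin (n + 1))
    (e : Fin 2) : (KPv1.d3 hg n x l i : A g 1).1.snd 2 (![3, 4] e) =
      N1C538.e3v g n (KN.ez fun j => (x j : A g 1).1.snd 2 2) l i e := by
  have h := congrFun (KPv1.d3_snd hg n x l i 2) e
  revert h
  revert l e
  refine Fin.forall_fin_two.2 ⟨Fin.forall_fin_two.2 ⟨fun h => h, fun h => h⟩,
    Fin.forall_fin_two.2 ⟨fun h => h, fun h => h⟩⟩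

/-- **(c1)** for the literal resolution, `s = 1` -/
theorem c1 (hg : Gen g) (n : ℕ) (h : (Fin 2 → Fin (n + 1) → Pv g 1 3) →ₗ[A g 1] Pv g 1 1) :
    ev1 g 1 n (h ∘ₗ KPv1.d3 hg n) = 0 :=
  N1C538.c1 (KPv1.d3 hg n) (r3 hg n) (r3' hg n) h

end Crest.Agent.R186.N1D538
end

-- ▼ part R186/Null1_275

/-!
Row 186 (S0281), helper275, leaf B281.N1: `Ext_A^q (V 0, A) = 0`, `s = 1`: the joint.
`null1_of` : everything except the torsion quotients.
-/

set_option autoImplicit false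
set_option linter.unusedSectionVars false

namespace Crest.Agent.R186.B281

namespace Null275

open NullChain538 ExtRes700 NullV275

variable {K : Type} [Field K] {g : K}

/-- the rows of `d3` -/
theorem row3 (hg : Gen g) (n : ℕ) : N1B113.Row3 (KPv1.d3 hg n) := fun x i l a =>
  KPv1.d3_fst hg n x l a i

/-- the rows of `d2` -/
theorem row2 (hg : Gen g) (n : ℕ) : N1B113.Row2 (KPv1.d2 hg n) := fun x i u =>
  KPv1.d2_fst1 hg n x u i

set_option maxHeartbeats 4000000 in
/-- **the joint, `s = 1`** -/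
theorem null1_of (hg : Gen g) {κ : Type} (Q : κ → Type) [∀ j, AddCommGroup (Q j)]
    [∀ j, Module (A g 1) (Q j)]
    (hQ : ∀ j (n : ℕ) q, E0 (A g 1) (E g 1 n) (Q j) q)
    (dev : ∀ (X : Type) [AddCommGroup X] [Module (A g 1) X] (q : ℕ),
      (∀ j q', E0 (A g 1) X (Q j) q') → E0 (A g 1) X (Pv g 1 2) q → E0 (A g 1) X (A g 1) q)
    (j1 : κ) (π1 : Pv g 1 1 →ₗ[A g 1] Q j1) (ρπ : Function.Exact (EVA538.ρh hg 1) π1)
    (π1s : Function.Surjective π1) (q : ℕ) : E0 (A g 1) (V g 1 0) (A g 1) q :=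
  nullV hg 1 (KPv1.rs1 hg) Q hQ dev
    (fun n f hf => N1B113.H0 (KPv1.d1 hg n) f hf)
    (fun n f hf => N1B113.H1 hg (KPv1.d1 hg n) (row2 hg n) f hf)
    (fun n f hf => N1B113.H2 hg (row2 hg n) (row3 hg n) f hf)
    (fun n f hf => N1B113.k2 hg (row3 hg n) f hf)
    (fun n h => N1D538.c1 hg n h) j1 π1 ρπ π1s q

/-- **nullness, `s = 1`**, from the torsion quotients of 147 -/
theorem null1_lcq (hg : Gen g)
    (hQ : ∀ j (n : ℕ) q, E0 (A g 1) (E g 1 n) (Dev147.QT1 hg j) q) (q : ℕ) :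
    E0 (A g 1) (V g 1 0) (A g 1) q :=
  null1_of hg (Dev147.QT1 hg) hQ (fun X _ _ q h h' => Dev147.dev1 hg X q h h') 0
    (Dev147.π1 hg 1) (Dev147.ρπ hg 1) (Dev147.π1_surj hg 1) q

end Null275

end Crest.Agent.R186.B281
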