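import Crest.Agent.R186.Null0_341
import Crest.Agent.R186.DevW_147
import Crest.Agent.R186.KL_355
import Crest.Agent.R186.LCF1_371
import Crest.Agent.R186.LCE_229
import Crest.Agent.R186.NullChain_538
import Crest.Agent.R186.ExtRes_700
import Mathlib
import Crest.Agent.R186.FilPBW_633
import Crest.Agent.R186.RowPr_461
import Crest.Agent.R186.KRT_823
import Crest.Agent.R186.Null1_275
import Crest.Agent.R186.LCQ_369_Mg

-- ▼ part R186/Null0F_341
section

/-!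
Row 186 (S0281), helper341, leaf B281.N0: `null0` from `Ext (E g 0 n, QT0 j) = 0`.
-/

set_option autoImplicit false
set_option linter.unusedSectionVars false

namespace Crest.Agent.R186.B281

namespace N341

open NullChain538 ExtRes700

variable {K : Type} [Field K] {g : K}

theorem null0_of_hQ (hg : Gen g)
    (hQ : ∀ (j : Fin 4) (n : ℕ) (q : ℕ), E0 (A g 0) (E g 0 n) (Dev147.QT0 hg j) q) (q : ℕ) :
    E0 (A g 0) (V g 0 0) (A g 0) q :=
  null0_of hg (Dev147.QT0 hg) hQ (fun X _ _ q h1 h2 => Dev147.dev0 hg X q h1 h2) 0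
    (Dev147.π1 hg 0) (Dev147.ρπ hg 0) (Dev147.π1_surj hg 0) q

end N341

end Crest.Agent.R186.B281
end

-- ▼ part R186/TrE_442
section

/-!
# Row 186, S0281 base, LCQ `s = 1` (helper442): the transposition of 355's `E1, E2, E3`

`U` a left `Op`-module.  `tO Γ`, `tW Ψ i`, `tQ Ψ l`, `tV χ l i : ℕ → U` = the values of an
`Op`-linear map on the units (zero outside the range); `lx i`, `ld g i : U →ₗ[K] U` = the left
multiplications.
* `T1w0, T1w1, T1q0, T1q1` : the tuple of `Γ ∘ E1` = 371's `y0' y1' w0' w1'` of `tO Γ`;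
* `T200, T201, T210, T211` : the tuple of `Ψ ∘ E2` = 371's `Y00' Y01' Y10' Y11'`;
* `T3` : the tuple of `χ ∘ E3` = 371's `t'`.
-/

set_option autoImplicit false
set_option linter.unusedSectionVars false

namespace Crest.Agent.R186.TrE442

open Crest.Agent.R186.B281 Crest.Agent.R186.B281.KN

/-! ### sequences supported at one index -/

/-- the sequence with the only entry `a` at `j` -/
def dl {A : Type*} [Zero A] (j : ℕ) (a : A) (i : ℕ) : A := if i = j then a else 0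

section
variable {A B : Type*}


theorem dl_ne [Zero A] {i j : ℕ} (h : i ≠ j) (a : A) : dl j a i = 0 := if_neg h

theorem dl_zero [Zero A] (j i : ℕ) : dl j (0 : A) i = 0 := by
  unfold dl
  split_ifs <;> rfl

theorem dl_app [Zero A] [Zero B] (F : ℕ → A → B) (h0 : ∀ i, F i 0 = 0) (j i : ℕ) (a : A) :
    F i (dl j a i) = dl j (F j a) i := by
  unfold dl
  split_ifs with h
  · rw [h]
  · exact h0 _

theorem sh_dl [Zero A] (j : ℕ) (a : A) : sh (dl j a) = dl (j + 1) a := by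
  funext i
  cases i with
  | zero => exact (dl_ne (by omega) a).symm
  | succ i =>
    show dl j a i = dl (j + 1) a (i + 1)
    unfold dl
    simp only [Nat.add_right_cancel_iff]


end

variable {K : Type} [Field K] {g : K}

/-- the restriction of a sequence -/
def rs {A : Type*} (m : ℕ) (f : ℕ → A) : Fin m → A := fun j => f j

theorem rs_dl {A : Type*} [Zero A] {m j : ℕ} (h : j < m) (a : A) :
    rs m (dl j a) = Function.update (0 : Fin m → A) ⟨j, h⟩ a := by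
  funext i
  unfold rs dl
  by_cases h2 : (i : ℕ) = j
  · rw [if_pos h2]
    have : i = ⟨j, h⟩ := Fin.ext h2
    rw [this, Function.update_self]
  · rw [if_neg h2, Function.update_of_ne]
    · rfl
    · intro h3
      exact h2 (congrArg Fin.val h3)

theorem rs_dl_ge {A : Type*} [Zero A] {m j : ℕ} (h : m ≤ j) (a : A) :
    rs m (dl j a) = 0 := by
  funext i
  exact dl_ne (by have := i.2; omega) a

theorem ez_rs {A : Type*} [Zero A] {m j : ℕ} (h : j < m) (a : A) :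
    ez (rs m (dl j a)) = dl j a :=
  ez_restrict fun i hi => dl_ne (by omega) a

/-! ### the maps on sequences supported at one index -/

theorem e1w_dl (n j i : ℕ) (w : Fin 2 → Op K) : e1w g n (dl j w) i =
    dl j ((cq g (n - j : ℕ))⁻¹ • (cc w * D g 0)) i - dl j (w 0) i - dl (j + 1) (w 1) i := by
  unfold e1w
  rw [sh_dl]
  have h1 := dl_app (fun i v => (cq g (n - i : ℕ))⁻¹ • (cc v * D g 0))
    (by intro i; rw [cc_zero, zero_mul, smul_zero]) j i w
  have h2 := dl_app (fun _ (v : Fin 2 → Op K) => v 0) (fun _ => rfl) j i w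
  have h3 := dl_app (fun _ (v : Fin 2 → Op K) => v 1) (fun _ => rfl) (j + 1) i w
  rw [h1, h2, h3]

/-- `c_(i+1) u_(i+1)` for `u` supported at `j` -/
theorem cq_dl {A : Type*} [AddCommGroup A] [Module K A] (j i : ℕ) (a : A) :
    cq g (i + 1 : ℕ) • dl j a (i + 1) = dl (j - 1) (cq g (j : ℕ) • a) i := by
  unfold dl
  by_cases h : i + 1 = j
  · rw [if_pos h, if_pos (by omega), h]
  · rw [if_neg h, smul_zero]
    by_cases h2 : i = j - 1
    · rw [if_pos h2]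
      have : j = 0 := by omega
      rw [this, Nat.cast_zero, cq_zero, zero_smul]
    · rw [if_neg h2]

theorem e1q_dl0 (n j i : ℕ) (T : Op K) : e1q g n ![dl j T, 0] i =
    dl j (T * D g 0 * X 0 - cq g (n + 1 - j : ℕ) • T) i +
      (if j = n + 1 then dl n (T * D g 0 * X 1) i else 0) := by
  have h1 := dl_app (fun i (T : Op K) => T * D g 0 * X 0 - cq g (n + 1 - i : ℕ) • T)
    (by intro i; rw [zero_mul, zero_mul, smul_zero, sub_zero]) j i T
  unfold e1q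
  show dl j T i * D g 0 * X 0 - cq g (n + 1 - i : ℕ) • dl j T i
    + (if i = n then dl j T (n + 1) * D g 0 * X 1 else 0)
    + ((0 : Op K) * D g 1 * X 0 - cq g (i + 1 : ℕ) • (0 : Op K)
      + (if i = n then (0 : Op K) * D g 1 * X 1 else 0)) = _
  rw [h1, zero_mul, zero_mul, smul_zero, zero_mul, ite_self, sub_zero, add_zero, add_zero]
  congr 1
  unfold dl
  by_cases h : n + 1 = j
  · rw [if_pos h, if_pos h.symm]
  · have h' : ¬ j = n + 1 := fun h' => h h'.symm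
    rw [if_neg h, if_neg h', zero_mul, zero_mul, ite_self]

theorem e1q_dl1 (n j i : ℕ) (T : Op K) : e1q g n ![0, dl j T] i =
    dl j (T * D g 1 * X 0) i - dl (j - 1) (cq g (j : ℕ) • T) i +
      (if j = n + 1 then dl n (T * D g 1 * X 1) i else 0) := by
  have h1 := dl_app (fun i (T : Op K) => T * D g 1 * X 0)
    (by intro i; rw [zero_mul, zero_mul]) j i T
  unfold e1q
  show (0 : Op K) * D g 0 * X 0 - cq g (n + 1 - i : ℕ) • (0 : Op K)
    + (if i = n then (0 : Op K) * D g 0 * X 1 else 0)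
    + (dl j T i * D g 1 * X 0 - cq g (i + 1 : ℕ) • dl j T (i + 1)
      + (if i = n then dl j T (n + 1) * D g 1 * X 1 else 0)) = _
  rw [h1, cq_dl, zero_mul, zero_mul, smul_zero, zero_mul, ite_self, sub_zero, add_zero, zero_add]
  congr 1
  unfold dl
  by_cases h : n + 1 = j
  · rw [if_pos h, if_pos h.symm]
  · have h' : ¬ j = n + 1 := fun h' => h h'.symm
    rw [if_neg h, if_neg h', zero_mul, zero_mul, ite_self]

theorem syz_zero : syz (0 : Op K) = 0 := by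
  unfold syz
  funext i
  fin_cases i <;> simp

theorem e2w_dl0 (n j i : ℕ) (w : Fin 2 → Op K) : e2w g n ![dl j w, 0] i =
    dl j (-(cq g (n - j : ℕ) • w) - syz (w 1 * D g 0)) i := by
  have h1 := dl_app (fun i (v : Fin 2 → Op K) => -(cq g (n - i : ℕ) • v) - syz (v 1 * D g 0))
    (by intro i; rw [smul_zero, neg_zero, Pi.zero_apply, zero_mul, syz_zero, sub_zero]) j i w
  unfold e2w
  show -(cq g (n - i : ℕ) • dl j w i) - syz (dl j w i 1 * D g 0)
    + (-(cq g (i + 1 : ℕ) • (0 : Fin 2 → Op K)) - g • syz ((0 : Fin 2 → Op K) 1 * D g 1)) = _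
  rw [h1, smul_zero, neg_zero, Pi.zero_apply, zero_mul, syz_zero, smul_zero, sub_zero, add_zero]

theorem e2w_dl1 (n j i : ℕ) (w : Fin 2 → Op K) : e2w g n ![0, dl j w] i =
    -dl (j - 1) (cq g (j : ℕ) • w) i - dl j (g • syz (w 1 * D g 1)) i := by
  have h1 := dl_app (fun _ (v : Fin 2 → Op K) => g • syz (v 1 * D g 1))
    (by intro i; rw [Pi.zero_apply, zero_mul, syz_zero, smul_zero]) j i w
  unfold e2w
  show -(cq g (n - i : ℕ) • (0 : Fin 2 → Op K)) - syz ((0 : Fin 2 → Op K) 1 * D g 0)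
    + (-(cq g (i + 1 : ℕ) • dl j w (i + 1)) - g • syz (dl j w i 1 * D g 1)) = _
  rw [h1, cq_dl, smul_zero, neg_zero, Pi.zero_apply, zero_mul, syz_zero, sub_zero, zero_add]

theorem e2q0_dl0 (n j i : ℕ) (w : Fin 2 → Op K) : e2q0 g n ![dl j w, 0] i =
    dl j (g • w 0) i + dl (j + 1) (w 1) i
      - (if j = n then dl (n + 1) ((cq g (n + 1 : ℕ))⁻¹ • (cc w * D g 1)) i else 0) := by
  have h1 := dl_app (fun _ (v : Fin 2 → Op K) => g • v 0)
    (by intro i; rw [Pi.zero_apply, smul_zero]) j i w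
  have h3 := dl_app (fun _ (v : Fin 2 → Op K) => v 1) (fun _ => rfl) (j + 1) i w
  unfold e2q0
  show g • dl j w i 0 + sh (dl j w) i 1
    - (if i = n + 1 then (cq g (n + 1 : ℕ))⁻¹ • (cc (dl j w n) * D g 1) else 0)
    + (cq g (n + 1 - i : ℕ))⁻¹ • (cc (0 : Fin 2 → Op K) * D g 1) = _
  rw [h1, sh_dl, h3, cc_zero, zero_mul, smul_zero, add_zero]
  congr 1
  unfold dl
  by_cases h : n = j
  · rw [if_pos h, if_pos h.symm]
  · have h' : ¬ j = n := fun h' => h h'.symm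
    rw [if_neg h, if_neg h', cc_zero, zero_mul, smul_zero, ite_self]

theorem e2q0_dl1 (n j i : ℕ) (w : Fin 2 → Op K) : e2q0 g n ![0, dl j w] i =
    dl j ((cq g (n + 1 - j : ℕ))⁻¹ • (cc w * D g 1)) i := by
  have h1 := dl_app (fun i (v : Fin 2 → Op K) => (cq g (n + 1 - i : ℕ))⁻¹ • (cc v * D g 1))
    (by intro i; rw [cc_zero, zero_mul, smul_zero]) j i w
  unfold e2q0
  show g • (0 : Fin 2 → Op K) 0 + sh (0 : ℕ → Fin 2 → Op K) i 1
    - (if i = n + 1 then (cq g (n + 1 : ℕ))⁻¹ • (cc (0 : Fin 2 → Op K) * D g 1) else 0)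
    + (cq g (n + 1 - i : ℕ))⁻¹ • (cc (dl j w i) * D g 1) = _
  have h2 : sh (0 : ℕ → Fin 2 → Op K) i 1 = 0 := by cases i <;> rfl
  rw [h1, h2, cc_zero, zero_mul, smul_zero, ite_self, Pi.zero_apply, smul_zero, add_zero, sub_zero,
    zero_add]

theorem e2q1_dl0 (n j i : ℕ) (w : Fin 2 → Op K) : e2q1 g n ![dl j w, 0] i =
    (if j = n then dl (n + 1) ((cq g (n + 1 : ℕ))⁻¹ • (cc w * D g 0)) i else 0) := by
  unfold e2q1
  show (if i = n + 1 then (cq g (n + 1 : ℕ))⁻¹ • (cc (dl j w n) * D g 0) else 0)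
    + ((0 : Fin 2 → Op K) 0 + g • sh (0 : ℕ → Fin 2 → Op K) i 1
      - (cq g (n + 1 - i : ℕ))⁻¹ • (cc (0 : Fin 2 → Op K) * D g 0)) = _
  have h2 : sh (0 : ℕ → Fin 2 → Op K) i 1 = 0 := by cases i <;> rfl
  rw [h2, cc_zero, zero_mul, smul_zero, Pi.zero_apply, smul_zero, add_zero, sub_zero, add_zero]
  unfold dl
  by_cases h : n = j
  · rw [if_pos h, if_pos h.symm]
  · have h' : ¬ j = n := fun h' => h h'.symm
    rw [if_neg h, if_neg h', cc_zero, zero_mul, smul_zero, ite_self]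

theorem e2q1_dl1 (n j i : ℕ) (w : Fin 2 → Op K) : e2q1 g n ![0, dl j w] i =
    dl j (w 0 - (cq g (n + 1 - j : ℕ))⁻¹ • (cc w * D g 0)) i + dl (j + 1) (g • w 1) i := by
  have h1 := dl_app (fun i (v : Fin 2 → Op K) => v 0 - (cq g (n + 1 - i : ℕ))⁻¹ • (cc v * D g 0))
    (by intro i; rw [cc_zero, zero_mul, smul_zero, Pi.zero_apply, sub_zero]) j i w
  have h3 := dl_app (fun _ (v : Fin 2 → Op K) => g • v 1)
    (by intro i; rw [Pi.zero_apply, smul_zero]) (j + 1) i w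
  unfold e2q1
  show (if i = n + 1 then (cq g (n + 1 : ℕ))⁻¹ • (cc (0 : Fin 2 → Op K) * D g 0) else 0)
    + (dl j w i 0 + g • sh (dl j w) i 1
      - (cq g (n + 1 - i : ℕ))⁻¹ • (cc (dl j w i) * D g 0)) = _
  rw [sh_dl, h3, cc_zero, zero_mul, smul_zero, ite_self, zero_add, ← h1]
  abel

theorem e3v00_dl (j i : ℕ) (T : Op K) : e3v0 g (dl j T) i 0 =
    dl j (T * D g 1 * X 1 - cq g (j + 1 : ℕ) • T) i := by
  have h1 := dl_app (fun i (T : Op K) => T * D g 1 * X 1 - cq g (i + 1 : ℕ) • T)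
    (by intro i; rw [zero_mul, zero_mul, smul_zero, sub_zero]) j i T
  exact h1

theorem e3v01_dl (j i : ℕ) (T : Op K) : e3v0 g (dl j T) i 1 =
    -dl j (T * D g 1 * X 0) i + dl (j - 1) (cq g (j : ℕ) • T) i := by
  have h1 := dl_app (fun _ (T : Op K) => T * D g 1 * X 0)
    (by intro i; rw [zero_mul, zero_mul]) j i T
  show -(dl j T i * D g 1 * X 0) + cq g (i + 1 : ℕ) • dl j T (i + 1) = _
  rw [h1, cq_dl]

theorem e3v10_dl (n j i : ℕ) (T : Op K) : e3v1 g n (dl j T) i 0 =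
    -dl j (T * D g 0 * X 1) i + dl (j + 1) (cq g (n - j : ℕ) • T) i := by
  have h1 := dl_app (fun _ (T : Op K) => T * D g 0 * X 1)
    (by intro i; rw [zero_mul, zero_mul]) j i T
  have h2 := dl_app (fun i (T : Op K) => cq g (n + 1 - i : ℕ) • T)
    (by intro i; rw [smul_zero]) (j + 1) i T
  show -(dl j T i * D g 0 * X 1) + cq g (n + 1 - i : ℕ) • sh (dl j T) i = _
  rw [h1, sh_dl, h2, Nat.add_sub_add_right]

theorem e3v11_dl (n j i : ℕ) (T : Op K) : e3v1 g n (dl j T) i 1 =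
    dl j (T * D g 0 * X 0 - cq g (n + 1 - j : ℕ) • T) i := by
  have h1 := dl_app (fun i (T : Op K) => T * D g 0 * X 0 - cq g (n + 1 - i : ℕ) • T)
    (by intro i; rw [zero_mul, zero_mul, smul_zero, sub_zero]) j i T
  exact h1

/-! ### the tuples -/

section tuples

variable {U : Type*} [AddCommGroup U] [Module K U] [Module (Op K) U] [IsScalarTower K (Op K) U]

/-- left multiplication by `x_i` -/
noncomputable def lx (i : Fin 2) : U →ₗ[K] U where
  toFun u := (X i : Op K) • u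
  map_add' := smul_add _
  map_smul' _ _ := smul_comm _ _ _

/-- left multiplication by `d_i` -/
noncomputable def ld (g : K) (i : Fin 2) : U →ₗ[K] U where
  toFun u := (D g i : Op K) • u
  map_add' := smul_add _
  map_smul' _ _ := smul_comm _ _ _

theorem lx_apply (i : Fin 2) (u : U) : lx (K := K) i u = (X i : Op K) • u := rfl
theorem ld_apply (i : Fin 2) (u : U) : ld g i u = (D g i : Op K) • u := rfl

/-- the values on the units of `Fin m → Op K` -/
noncomputable def tO {m : ℕ} (Γ : (Fin m → Op K) →ₗ[Op K] U) (j : ℕ) : U := Γ (rs m (dl j 1))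

/-- the values on the units of the `K`-part of `K₁` -/
noncomputable def tW {n m : ℕ}
    (Ψ : ((Fin n → Fin 2 → Op K) × (Fin 2 → Fin m → Op K)) →ₗ[Op K] U) (i : Fin 2) (j : ℕ) : U :=
  Ψ (rs n (dl j (Pi.single i 1)), 0)

/-- the values on the units of the `O`-part of `K₁` -/
noncomputable def tQ {n m : ℕ}
    (Ψ : ((Fin n → Fin 2 → Op K) × (Fin 2 → Fin m → Op K)) →ₗ[Op K] U) (l : Fin 2) (j : ℕ) : U :=
  Ψ (0, Pi.single l (rs m (dl j 1)))

/-- the values on the units of `K₂` -/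
noncomputable def tV {m : ℕ} (χ : (Fin 2 → Fin m → Fin 2 → Op K) →ₗ[Op K] U) (l i : Fin 2)
    (j : ℕ) : U := χ (Pi.single l (rs m (dl j (Pi.single i 1))))

theorem rs_smul1 (m j : ℕ) (T : Op K) : rs m (dl j T) = T • rs m (dl j (1 : Op K)) := by
  funext i
  show dl j T i = T • dl j (1 : Op K) i
  unfold dl
  split_ifs
  · rw [smul_eq_mul, mul_one]
  · rw [smul_zero]

theorem rs_smul2 (m j : ℕ) (v : Fin 2 → Op K) : rs m (dl j v) =
    v 0 • rs m (dl j (Pi.single 0 (1 : Op K))) + v 1 • rs m (dl j (Pi.single 1 (1 : Op K))) := by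
  funext i
  show dl j v i = v 0 • dl j (Pi.single 0 (1 : Op K)) i + v 1 • dl j (Pi.single 1 (1 : Op K)) i
  unfold dl
  split_ifs
  · funext l
    fin_cases l
    · show v 0 = v 0 * 1 + v 1 * 0
      rw [mul_one, mul_zero, add_zero]
    · show v 1 = v 0 * 0 + v 1 * 1
      rw [mul_one, mul_zero, zero_add]
  · rw [smul_zero, smul_zero, add_zero]

theorem tO_dl {m : ℕ} (Γ : (Fin m → Op K) →ₗ[Op K] U) (j : ℕ) (T : Op K) :
    Γ (rs m (dl j T)) = T • tO Γ j := by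
  rw [rs_smul1, map_smul]
  rfl

theorem tW_dl {n m : ℕ} (Ψ : ((Fin n → Fin 2 → Op K) × (Fin 2 → Fin m → Op K)) →ₗ[Op K] U)
    (j : ℕ) (v : Fin 2 → Op K) : Ψ (rs n (dl j v), 0) = v 0 • tW Ψ 0 j + v 1 • tW Ψ 1 j := by
  have h : ((rs n (dl j v), 0) : (Fin n → Fin 2 → Op K) × (Fin 2 → Fin m → Op K)) =
      v 0 • (rs n (dl j (Pi.single 0 (1 : Op K))), 0) +
        v 1 • (rs n (dl j (Pi.single 1 (1 : Op K))), 0) := by
    rw [rs_smul2, Prod.smul_mk, Prod.smul_mk, Prod.mk_add_mk, smul_zero, smul_zero, add_zero]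
  rw [h, map_add, map_smul, map_smul]
  rfl

theorem tQ_dl {n m : ℕ} (Ψ : ((Fin n → Fin 2 → Op K) × (Fin 2 → Fin m → Op K)) →ₗ[Op K] U)
    (l : Fin 2) (j : ℕ) (T : Op K) : Ψ (0, Pi.single l (rs m (dl j T))) = T • tQ Ψ l j := by
  have h : ((0, Pi.single l (rs m (dl j T))) : (Fin n → Fin 2 → Op K) × (Fin 2 → Fin m → Op K)) =
      T • (0, Pi.single l (rs m (dl j (1 : Op K)))) := by
    rw [rs_smul1, Prod.smul_mk, smul_zero, Pi.single_smul]
  rw [h, map_smul]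
  rfl

theorem tV_dl {m : ℕ} (χ : (Fin 2 → Fin m → Fin 2 → Op K) →ₗ[Op K] U) (l : Fin 2) (j : ℕ)
    (v : Fin 2 → Op K) :
    χ (Pi.single l (rs m (dl j v))) = v 0 • tV χ l 0 j + v 1 • tV χ l 1 j := by
  rw [rs_smul2, Pi.single_add, Pi.single_smul, Pi.single_smul, map_add, map_smul, map_smul]
  rfl


theorem tO_ge {m : ℕ} (Γ : (Fin m → Op K) →ₗ[Op K] U) {j : ℕ} (h : m ≤ j) : tO Γ j = 0 := by
  unfold tO
  rw [rs_dl_ge h, map_zero]

theorem tW_ge {n m : ℕ} (Ψ : ((Fin n → Fin 2 → Op K) × (Fin 2 → Fin m → Op K)) →ₗ[Op K] U)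
    (i : Fin 2) {j : ℕ} (h : n ≤ j) : tW Ψ i j = 0 := by
  unfold tW
  rw [rs_dl_ge h]
  exact map_zero Ψ



/-! ### `E1` -/

theorem lin_zero {A B : Type*} [AddCommMonoid A] [Module (Op K) A] [AddCommMonoid B]
    [Module (Op K) B] {f : A → B} (h : Lin (K := K) f) : f 0 = 0 := by
  have := h.smul 0 0
  rwa [zero_smul, zero_smul] at this

theorem ez2_zero' {A : Type*} [Zero A] {m : ℕ} : ez2 (0 : Fin 2 → Fin m → A) = 0 :=
  funext fun _ => ez_zero

theorem ez2_0 {A : Type*} [Zero A] {m j : ℕ} (h : j < m) (a : A) :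
    ez2 (Pi.single 0 (rs m (dl j a))) = ![dl j a, 0] := by
  funext e
  fin_cases e
  · exact ez_rs h a
  · exact ez_zero

theorem ez2_1 {A : Type*} [Zero A] {m j : ℕ} (h : j < m) (a : A) :
    ez2 (Pi.single 1 (rs m (dl j a))) = ![0, dl j a] := by
  funext e
  fin_cases e
  · exact ez_zero
  · exact ez_rs h a

theorem E1_w {n j : ℕ} (h : j < n) (w : Fin 2 → Op K) : E1 g n (rs n (dl j w), 0) =
    rs (n + 1) (dl j ((cq g (n - j : ℕ))⁻¹ • (cc w * D g 0))) - rs (n + 1) (dl j (w 0)) -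
      rs (n + 1) (dl (j + 1) (w 1)) := by
  funext i
  show e1w g n (ez (rs n (dl j w))) i + e1q g n (ez2 0) i = _
  rw [ez_rs h, e1w_dl, ez2_zero', lin_zero (e1q_lin g n i), add_zero]
  rfl

theorem E1_q0 {n j : ℕ} (h : j < n + 2) (T : Op K) :
    E1 g n (0, Pi.single 0 (rs (n + 2) (dl j T))) =
    rs (n + 1) (dl j (T * D g 0 * X 0 - cq g (n + 1 - j : ℕ) • T)) +
      (if j = n + 1 then rs (n + 1) (dl n (T * D g 0 * X 1)) else 0) := by
  funext i
  show e1w g n (ez 0) i + e1q g n (ez2 (Pi.single 0 (rs (n + 2) (dl j T)))) i = _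
  rw [ez_zero, lin_zero (e1w_lin g n i), ez2_0 h, e1q_dl0, zero_add]
  split_ifs <;> rfl

theorem E1_q1 {n j : ℕ} (h : j < n + 2) (T : Op K) :
    E1 g n (0, Pi.single 1 (rs (n + 2) (dl j T))) =
    rs (n + 1) (dl j (T * D g 1 * X 0)) - rs (n + 1) (dl (j - 1) (cq g (j : ℕ) • T)) +
      (if j = n + 1 then rs (n + 1) (dl n (T * D g 1 * X 1)) else 0) := by
  funext i
  show e1w g n (ez 0) i + e1q g n (ez2 (Pi.single 1 (rs (n + 2) (dl j T)))) i = _
  rw [ez_zero, lin_zero (e1w_lin g n i), ez2_1 h, e1q_dl1, zero_add]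
  split_ifs <;> rfl

/-! ### algebra in `U` -/

theorem DX_smul (hg : Gen g) (i : Fin 2) (u : U) :
    (D g i * X i : Op K) • u = g⁻¹ • (lx (K := K) i (ld g i u) - u) := by
  have h : lx (K := K) i (ld g i u) = u + g • ((D g i * X i : Op K) • u) := by
    rw [lx_apply, ld_apply, ← mul_smul, X_D_self hg, add_smul, one_smul, smul_assoc]
  rw [h, add_sub_cancel_left, smul_smul, inv_mul_cancel₀ hg.1, one_smul]

theorem DX_comm {i j : Fin 2} (hij : i ≠ j) (u : U) :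
    (D g j * X i : Op K) • u = lx (K := K) i (ld g j u) := by
  rw [← X_D g hij, mul_smul]
  rfl


theorem cq_succ (hg : Gen g) (m : ℕ) : cq g ((m + 1 : ℕ) : ℤ) = g⁻¹ * (cq g (m : ℤ) - 1) := by
  have h := cq_pred hg ((m + 1 : ℕ) : ℤ)
  have h2 : ((m + 1 : ℕ) : ℤ) - 1 = (m : ℤ) := by push_cast; ring
  rw [h2] at h
  rw [h, add_sub_cancel_left, ← mul_assoc, inv_mul_cancel₀ hg.1, one_mul]

theorem cc_e0 : cc (Pi.single 0 (1 : Op K)) = X 0 := by
  show (1 : Op K) * X 0 + 0 * X 1 = X 0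
  rw [one_mul, zero_mul, add_zero]

theorem cc_e1 : cc (Pi.single 1 (1 : Op K)) = X 1 := by
  show (0 : Op K) * X 0 + 1 * X 1 = X 1
  rw [one_mul, zero_mul, zero_add]

/-! ### (T1) -/

theorem T1w {n j : ℕ} (h : j < n) (w : Fin 2 → Op K) (Γ : (Fin (n + 1) → Op K) →ₗ[Op K] U) :
    (Γ ∘ₗ E1 g n) (rs n (dl j w), 0) =
      (cq g (n - j : ℕ))⁻¹ • ((cc w * D g 0) • tO Γ j) - w 0 • tO Γ j - w 1 • tO Γ (j + 1) := by
  rw [LinearMap.comp_apply, E1_w h, map_sub, map_sub, tO_dl, tO_dl, tO_dl, smul_assoc]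

open LCF1_371 in
theorem T1w0 {n j : ℕ} (h : j < n) (Γ : (Fin (n + 1) → Op K) →ₗ[Op K] U) :
    tW (Γ ∘ₗ E1 g n) 0 j = y0' lx (ld g) (fun m => cq g (m : ℤ)) n (tO Γ) j := by
  show (Γ ∘ₗ E1 g n) (rs n (dl j (Pi.single 0 1)), 0) = _
  rw [T1w h, cc_e0, mul_smul]
  show _ - (1 : Op K) • tO Γ j - (0 : Op K) • tO Γ (j + 1) = _
  rw [one_smul, zero_smul, sub_zero]
  rfl

open LCF1_371 in
theorem T1w1 {n j : ℕ} (h : j < n) (Γ : (Fin (n + 1) → Op K) →ₗ[Op K] U) :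
    tW (Γ ∘ₗ E1 g n) 1 j = y1' lx (ld g) (fun m => cq g (m : ℤ)) n (tO Γ) j := by
  show (Γ ∘ₗ E1 g n) (rs n (dl j (Pi.single 1 1)), 0) = _
  rw [T1w h, cc_e1, mul_smul]
  show _ - (0 : Op K) • tO Γ j - (1 : Op K) • tO Γ (j + 1) = _
  rw [one_smul, zero_smul, sub_zero]
  rfl

open LCF1_371 in
theorem T1q0 (hg : Gen g) {n j : ℕ} (h : j ≤ n + 1) (Γ : (Fin (n + 1) → Op K) →ₗ[Op K] U) :
    tQ (Γ ∘ₗ E1 g n) 0 j = w0' g lx (ld g) (fun m => cq g (m : ℤ)) n (tO Γ) j := by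
  show Γ (E1 g n (0, Pi.single 0 (rs (n + 2) (dl j 1)))) = _
  rw [E1_q0 (by omega), map_add, tO_dl, one_mul, sub_smul, smul_assoc, one_smul]
  unfold w0'
  by_cases hj : j = n + 1
  · subst hj
    rw [if_pos rfl, if_pos rfl, tO_dl, tO_ge Γ (le_refl _), smul_zero, smul_zero, sub_zero,
      zero_add]
    exact DX_comm (by decide) _
  · have h2 : n + 1 - j = (n - j) + 1 := by omega
    rw [if_neg hj, if_neg hj, map_zero, add_zero, DX_smul hg, h2, cq_succ hg, mul_smul,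
      ← smul_sub]
    congr 1
    simp only [sub_smul, one_smul]
    abel

open LCF1_371 in
theorem T1q1 (hg : Gen g) {n j : ℕ} (h : j ≤ n + 1) (Γ : (Fin (n + 1) → Op K) →ₗ[Op K] U) :
    tQ (Γ ∘ₗ E1 g n) 1 j = w1' g lx (ld g) (fun m => cq g (m : ℤ)) n (tO Γ) j := by
  show Γ (E1 g n (0, Pi.single 1 (rs (n + 2) (dl j 1)))) = _
  rw [E1_q1 (by omega), map_add, map_sub, tO_dl, tO_dl, one_mul, smul_assoc, one_smul]
  unfold w1'
  by_cases hj : j = n + 1
  · subst hj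
    rw [if_pos rfl, if_pos rfl, tO_dl, tO_ge Γ (le_refl _), smul_zero, zero_sub,
      show n + 1 - 1 = n by omega, DX_smul hg, cq_succ hg, mul_smul, ← smul_neg, ← smul_add]
    congr 1
    simp only [sub_smul, one_smul]
    abel
  · rw [if_neg hj, if_neg hj, map_zero, add_zero]
    congr 1
    exact DX_comm (by decide) _

/-! ### (T2) -/

theorem split1 {n m : ℕ} (Ψ : ((Fin n → Fin 2 → Op K) × (Fin 2 → Fin m → Op K)) →ₗ[Op K] U)
    (x : Fin n → Fin 2 → Op K) (y0 y1 : Fin m → Op K) :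
    Ψ (x, ![y0, y1]) = Ψ (x, 0) + Ψ (0, Pi.single 0 y0) + Ψ (0, Pi.single 1 y1) := by
  rw [← map_add, ← map_add, Prod.mk_add_mk, Prod.mk_add_mk]
  congr 1
  refine Prod.ext ?_ ?_
  · simp only [add_zero]
  · funext e
    fin_cases e
    · show y0 = 0 + y0 + 0
      rw [zero_add, add_zero]
    · show y1 = 0 + 0 + y1
      rw [zero_add, zero_add]

theorem split2 {m : ℕ} (χ : (Fin 2 → Fin m → Fin 2 → Op K) →ₗ[Op K] U)
    (y0 y1 : Fin m → Fin 2 → Op K) :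
    χ ![y0, y1] = χ (Pi.single 0 y0) + χ (Pi.single 1 y1) := by
  rw [← map_add]
  congr 1
  funext e
  fin_cases e
  · show y0 = y0 + 0
    rw [add_zero]
  · show y1 = 0 + y1
    rw [zero_add]

theorem qadd {n m : ℕ} (Ψ : ((Fin n → Fin 2 → Op K) × (Fin 2 → Fin m → Op K)) →ₗ[Op K] U)
    (l : Fin 2) (y z : Fin m → Op K) :
    Ψ (0, Pi.single l (y + z)) = Ψ (0, Pi.single l y) + Ψ (0, Pi.single l z) := by
  rw [← map_add, Prod.mk_add_mk, ← Pi.single_add, add_zero]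

theorem qsub {n m : ℕ} (Ψ : ((Fin n → Fin 2 → Op K) × (Fin 2 → Fin m → Op K)) →ₗ[Op K] U)
    (l : Fin 2) (y z : Fin m → Op K) :
    Ψ (0, Pi.single l (y - z)) = Ψ (0, Pi.single l y) - Ψ (0, Pi.single l z) := by
  rw [← map_sub, Prod.mk_sub_mk, ← Pi.single_sub, sub_zero]

theorem qzero {n m : ℕ} (Ψ : ((Fin n → Fin 2 → Op K) × (Fin 2 → Fin m → Op K)) →ₗ[Op K] U)
    (l : Fin 2) : Ψ (0, Pi.single l 0) = 0 := by
  rw [Pi.single_zero]
  exact map_zero Ψ


theorem wsub {n m : ℕ} (Ψ : ((Fin n → Fin 2 → Op K) × (Fin 2 → Fin m → Op K)) →ₗ[Op K] U)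
    (y z : Fin n → Fin 2 → Op K) : Ψ (y - z, 0) = Ψ (y, 0) - Ψ (z, 0) := by
  rw [← map_sub, Prod.mk_sub_mk, sub_zero]

theorem wneg {n m : ℕ} (Ψ : ((Fin n → Fin 2 → Op K) × (Fin 2 → Fin m → Op K)) →ₗ[Op K] U)
    (y : Fin n → Fin 2 → Op K) : Ψ (-y, 0) = -Ψ (y, 0) := by
  rw [← map_neg, Prod.neg_mk, neg_zero]

theorem E2_0 {n j : ℕ} (h : j < n + 1) (w : Fin 2 → Op K) :
    E2 g n (Pi.single 0 (rs (n + 1) (dl j w))) =
      (rs n (dl j (-(cq g (n - j : ℕ) • w) - syz (w 1 * D g 0))),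
        ![rs (n + 2) (dl j (g • w 0)) + rs (n + 2) (dl (j + 1) (w 1)) -
          (if j = n then rs (n + 2) (dl (n + 1) ((cq g (n + 1 : ℕ))⁻¹ • (cc w * D g 1))) else 0),
        (if j = n then rs (n + 2) (dl (n + 1) ((cq g (n + 1 : ℕ))⁻¹ • (cc w * D g 0)))
          else 0)]) := by
  refine Prod.ext ?_ ?_
  · funext i
    show e2w g n (ez2 (Pi.single 0 (rs (n + 1) (dl j w)))) i = _
    rw [ez2_0 h, e2w_dl0]
    rfl
  · funext e
    fin_cases e
    · funext i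
      show e2q0 g n (ez2 (Pi.single 0 (rs (n + 1) (dl j w)))) i = _
      rw [ez2_0 h, e2q0_dl0]
      split_ifs with h1 <;> rfl
    · funext i
      show e2q1 g n (ez2 (Pi.single 0 (rs (n + 1) (dl j w)))) i = _
      rw [ez2_0 h, e2q1_dl0]
      split_ifs with h1 <;> rfl

theorem E2_1 {n j : ℕ} (h : j < n + 1) (w : Fin 2 → Op K) :
    E2 g n (Pi.single 1 (rs (n + 1) (dl j w))) =
      (-rs n (dl (j - 1) (cq g (j : ℕ) • w)) - rs n (dl j (g • syz (w 1 * D g 1))),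
        ![rs (n + 2) (dl j ((cq g (n + 1 - j : ℕ))⁻¹ • (cc w * D g 1))),
        rs (n + 2) (dl j (w 0 - (cq g (n + 1 - j : ℕ))⁻¹ • (cc w * D g 0))) +
          rs (n + 2) (dl (j + 1) (g • w 1))]) := by
  refine Prod.ext ?_ ?_
  · funext i
    show e2w g n (ez2 (Pi.single 1 (rs (n + 1) (dl j w)))) i = _
    rw [ez2_1 h, e2w_dl1]
    rfl
  · funext e
    fin_cases e
    · funext i
      show e2q0 g n (ez2 (Pi.single 1 (rs (n + 1) (dl j w)))) i = _
      rw [ez2_1 h, e2q0_dl1]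
      rfl
    · funext i
      show e2q1 g n (ez2 (Pi.single 1 (rs (n + 1) (dl j w)))) i = _
      rw [ez2_1 h, e2q1_dl1]
      rfl

theorem T2_0 {n j : ℕ} (h : j < n + 1) (w : Fin 2 → Op K)
    (Ψ : ((Fin n → Fin 2 → Op K) × (Fin 2 → Fin (n + 2) → Op K)) →ₗ[Op K] U) :
    (Ψ ∘ₗ E2 g n) (Pi.single 0 (rs (n + 1) (dl j w))) =
      (-(cq g (n - j : ℕ) • w 0) - w 1 * D g 0 * X 1) • tW Ψ 0 j +
        (-(cq g (n - j : ℕ) • w 1) + w 1 * D g 0 * X 0) • tW Ψ 1 j +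
      (g • w 0) • tQ Ψ 0 j + w 1 • tQ Ψ 0 (j + 1) -
      (if j = n then ((cq g (n + 1 : ℕ))⁻¹ • (cc w * D g 1)) • tQ Ψ 0 (n + 1) else 0) +
      (if j = n then ((cq g (n + 1 : ℕ))⁻¹ • (cc w * D g 0)) • tQ Ψ 1 (n + 1) else 0) := by
  rw [LinearMap.comp_apply, E2_0 h, split1, tW_dl, qsub, qadd, tQ_dl, tQ_dl]
  have e0 : (-(cq g (n - j : ℕ) • w) - syz (w 1 * D g 0)) 0 =
      -(cq g (n - j : ℕ) • w 0) - w 1 * D g 0 * X 1 := rfl
  have e1 : (-(cq g (n - j : ℕ) • w) - syz (w 1 * D g 0)) 1 =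
      -(cq g (n - j : ℕ) • w 1) + w 1 * D g 0 * X 0 := by
    show -(cq g (n - j : ℕ) • w 1) - -(w 1 * D g 0 * X 0) = _
    rw [sub_neg_eq_add]
  rw [e0, e1]
  split_ifs with h1
  · rw [tQ_dl, tQ_dl]
    abel
  · rw [qzero, qzero]
    abel

theorem T2_1 {n j : ℕ} (h : j < n + 1) (w : Fin 2 → Op K)
    (Ψ : ((Fin n → Fin 2 → Op K) × (Fin 2 → Fin (n + 2) → Op K)) →ₗ[Op K] U) :
    (Ψ ∘ₗ E2 g n) (Pi.single 1 (rs (n + 1) (dl j w))) =
      -((cq g (j : ℕ) • w 0) • tW Ψ 0 (j - 1) + (cq g (j : ℕ) • w 1) • tW Ψ 1 (j - 1)) -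
      ((g • (w 1 * D g 1 * X 1)) • tW Ψ 0 j - (g • (w 1 * D g 1 * X 0)) • tW Ψ 1 j) +
      ((cq g (n + 1 - j : ℕ))⁻¹ • (cc w * D g 1)) • tQ Ψ 0 j +
      (w 0 - (cq g (n + 1 - j : ℕ))⁻¹ • (cc w * D g 0)) • tQ Ψ 1 j +
      (g • w 1) • tQ Ψ 1 (j + 1) := by
  rw [LinearMap.comp_apply, E2_1 h, split1, wsub, wneg, tW_dl, tW_dl, tQ_dl, qadd, tQ_dl, tQ_dl]
  have e0 : (g • syz (w 1 * D g 1)) 0 = g • (w 1 * D g 1 * X 1) := rfl
  have e1 : (g • syz (w 1 * D g 1)) 1 = -(g • (w 1 * D g 1 * X 0)) := by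
    show g • -(w 1 * D g 1 * X 0) = _
    rw [smul_neg]
  rw [e0, e1, neg_smul, Pi.smul_apply, Pi.smul_apply]
  abel

open LCF1_371 in
theorem T200 {n j : ℕ} (h : j ≤ n)
    (Ψ : ((Fin n → Fin 2 → Op K) × (Fin 2 → Fin (n + 2) → Op K)) →ₗ[Op K] U) :
    tV (Ψ ∘ₗ E2 g n) 0 0 j =
      Y00' g lx (ld g) (fun m => cq g (m : ℤ)) n (tW Ψ 0) (tQ Ψ 0) (tQ Ψ 1) j := by
  show (Ψ ∘ₗ E2 g n) (Pi.single 0 (rs (n + 1) (dl j (Pi.single 0 1)))) = _
  rw [T2_0 (by omega), cc_e0]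
  unfold Y00'
  show (-(cq g (n - j : ℕ) • (1 : Op K)) - (0 : Op K) * D g 0 * X 1) • tW Ψ 0 j +
        (-(cq g (n - j : ℕ) • (0 : Op K)) + (0 : Op K) * D g 0 * X 0) • tW Ψ 1 j +
      (g • (1 : Op K)) • tQ Ψ 0 j + (0 : Op K) • tQ Ψ 0 (j + 1) - _ + _ = _
  simp only [zero_mul, smul_zero, neg_zero, add_zero, sub_zero, zero_smul, neg_smul, smul_assoc,
    one_smul, mul_smul]
  split_ifs with h1
  · simp only [lx_apply, ld_apply, smul_sub, map_sub]
    abel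
  · abel

open LCF1_371 in
theorem T201 {n j : ℕ} (h : j ≤ n)
    (Ψ : ((Fin n → Fin 2 → Op K) × (Fin 2 → Fin (n + 2) → Op K)) →ₗ[Op K] U) :
    tV (Ψ ∘ₗ E2 g n) 0 1 j =
      Y01' lx (ld g) (fun m => cq g (m : ℤ)) n (tW Ψ 0) (tW Ψ 1) (tQ Ψ 0) (tQ Ψ 1) j := by
  show (Ψ ∘ₗ E2 g n) (Pi.single 0 (rs (n + 1) (dl j (Pi.single 1 1)))) = _
  rw [T2_0 (by omega), cc_e1]
  unfold Y01'
  show (-(cq g (n - j : ℕ) • (0 : Op K)) - (1 : Op K) * D g 0 * X 1) • tW Ψ 0 j +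
        (-(cq g (n - j : ℕ) • (1 : Op K)) + (1 : Op K) * D g 0 * X 0) • tW Ψ 1 j +
      (g • (0 : Op K)) • tQ Ψ 0 j + (1 : Op K) • tQ Ψ 0 (j + 1) - _ + _ = _
  simp only [one_mul, smul_zero, neg_zero, zero_sub, add_zero, zero_smul, add_smul, neg_smul,
    smul_assoc, one_smul, mul_smul]
  split_ifs with h1
  · simp only [lx_apply, ld_apply, smul_sub, map_sub]
    abel
  · simp only [lx_apply, ld_apply, smul_sub, map_sub]
    abel

open LCF1_371 in
theorem T210 {n j : ℕ} (h : j ≤ n)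
    (Ψ : ((Fin n → Fin 2 → Op K) × (Fin 2 → Fin (n + 2) → Op K)) →ₗ[Op K] U) :
    tV (Ψ ∘ₗ E2 g n) 1 0 j =
      Y10' lx (ld g) (fun m => cq g (m : ℤ)) n (tW Ψ 0) (tQ Ψ 0) (tQ Ψ 1) j := by
  show (Ψ ∘ₗ E2 g n) (Pi.single 1 (rs (n + 1) (dl j (Pi.single 0 1)))) = _
  rw [T2_1 (by omega), cc_e0]
  unfold Y10'
  show -((cq g (j : ℕ) • (1 : Op K)) • tW Ψ 0 (j - 1) + (cq g (j : ℕ) • (0 : Op K)) • tW Ψ 1 (j - 1)) -
      ((g • ((0 : Op K) * D g 1 * X 1)) • tW Ψ 0 j - (g • ((0 : Op K) * D g 1 * X 0)) • tW Ψ 1 j) +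
      _ + ((1 : Op K) - (cq g (n + 1 - j : ℕ))⁻¹ • (X 0 * D g 0)) • tQ Ψ 1 j +
      (g • (0 : Op K)) • tQ Ψ 1 (j + 1) = _
  simp only [zero_mul, smul_zero, sub_zero, add_zero, zero_smul, sub_smul,
    smul_assoc, one_smul, mul_smul, lx_apply, ld_apply, smul_sub, map_sub]
  abel

open LCF1_371 in
theorem T211 {n j : ℕ} (h : j ≤ n)
    (Ψ : ((Fin n → Fin 2 → Op K) × (Fin 2 → Fin (n + 2) → Op K)) →ₗ[Op K] U) :
    tV (Ψ ∘ₗ E2 g n) 1 1 j =
      Y11' g lx (ld g) (fun m => cq g (m : ℤ)) n (tW Ψ 0) (tW Ψ 1) (tQ Ψ 0) (tQ Ψ 1) j := by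
  show (Ψ ∘ₗ E2 g n) (Pi.single 1 (rs (n + 1) (dl j (Pi.single 1 1)))) = _
  rw [T2_1 (by omega), cc_e1]
  unfold Y11'
  show -((cq g (j : ℕ) • (0 : Op K)) • tW Ψ 0 (j - 1) + (cq g (j : ℕ) • (1 : Op K)) • tW Ψ 1 (j - 1)) -
      ((g • ((1 : Op K) * D g 1 * X 1)) • tW Ψ 0 j - (g • ((1 : Op K) * D g 1 * X 0)) • tW Ψ 1 j) +
      _ + ((0 : Op K) - (cq g (n + 1 - j : ℕ))⁻¹ • (X 1 * D g 0)) • tQ Ψ 1 j +
      (g • (1 : Op K)) • tQ Ψ 1 (j + 1) = _
  simp only [one_mul, smul_zero, zero_sub, zero_add, zero_smul, neg_smul,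
    smul_assoc, one_smul, mul_smul, lx_apply, ld_apply, smul_sub, map_sub]
  abel

/-! ### (T3) -/

theorem dl_apply2 (j i : ℕ) (v : Fin 2 → Op K) (l : Fin 2) : dl j v i l = dl j (v l) i := by
  unfold dl
  split_ifs <;> rfl

theorem E3_dl {n j : ℕ} (h : j < n + 1) (T : Op K) : E3 g n (rs (n + 1) (dl j T)) =
    ![rs (n + 1) (dl j ![T * D g 1 * X 1 - cq g (j + 1 : ℕ) • T, -(T * D g 1 * X 0)]) +
        rs (n + 1) (dl (j - 1) ![0, cq g (j : ℕ) • T]),
      rs (n + 1) (dl j ![-(T * D g 0 * X 1), T * D g 0 * X 0 - cq g (n + 1 - j : ℕ) • T]) +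
        rs (n + 1) (dl (j + 1) ![cq g (n - j : ℕ) • T, 0])] := by
  have hz : ∀ a i : ℕ, dl a (0 : Op K) i = 0 := fun a i => dl_zero a i
  have hn : ∀ (a i : ℕ) (S : Op K), dl a (-S) i = -dl a S i := by
    intro a i S
    unfold dl
    split_ifs
    · rfl
    · rw [neg_zero]
  funext e
  fin_cases e
  · funext i l
    show e3v0 g (ez (rs (n + 1) (dl j T))) i l =
      dl j ![T * D g 1 * X 1 - cq g (j + 1 : ℕ) • T, -(T * D g 1 * X 0)] i l +
        dl (j - 1) ![0, cq g (j : ℕ) • T] i l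
    rw [ez_rs h, dl_apply2, dl_apply2]
    fin_cases l
    · show e3v0 g (dl j T) i 0 = dl j (T * D g 1 * X 1 - cq g (j + 1 : ℕ) • T) i +
        dl (j - 1) (0 : Op K) i
      rw [e3v00_dl, hz, add_zero]
    · show e3v0 g (dl j T) i 1 = dl j (-(T * D g 1 * X 0)) i + dl (j - 1) (cq g (j : ℕ) • T) i
      rw [e3v01_dl, hn]
  · funext i l
    show e3v1 g n (ez (rs (n + 1) (dl j T))) i l =
      dl j ![-(T * D g 0 * X 1), T * D g 0 * X 0 - cq g (n + 1 - j : ℕ) • T] i l +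
        dl (j + 1) ![cq g (n - j : ℕ) • T, 0] i l
    rw [ez_rs h, dl_apply2, dl_apply2]
    fin_cases l
    · show e3v1 g n (dl j T) i 0 = dl j (-(T * D g 0 * X 1)) i + dl (j + 1) (cq g (n - j : ℕ) • T) i
      rw [e3v10_dl, hn]
    · show e3v1 g n (dl j T) i 1 = dl j (T * D g 0 * X 0 - cq g (n + 1 - j : ℕ) • T) i +
        dl (j + 1) (0 : Op K) i
      rw [e3v11_dl, hz, add_zero]

open LCF1_371 in
theorem T3 {n j : ℕ} (h : j ≤ n) (χ : (Fin 2 → Fin (n + 1) → Fin 2 → Op K) →ₗ[Op K] U) :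
    tO (χ ∘ₗ E3 g n) j = t' lx (ld g) (fun m => cq g (m : ℤ)) n (tV χ 0 0) (tV χ 0 1) (tV χ 1 0)
      (tV χ 1 1) j := by
  show χ (E3 g n (rs (n + 1) (dl j 1))) = _
  rw [E3_dl (by omega), split2, Pi.single_add, Pi.single_add, map_add, map_add, tV_dl, tV_dl,
    tV_dl, tV_dl]
  unfold t'
  show ((1 : Op K) * D g 1 * X 1 - cq g (j + 1 : ℕ) • (1 : Op K)) • tV χ 0 0 j +
      (-((1 : Op K) * D g 1 * X 0)) • tV χ 0 1 j +
      ((0 : Op K) • tV χ 0 0 (j - 1) + (cq g (j : ℕ) • (1 : Op K)) • tV χ 0 1 (j - 1)) +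
      ((-((1 : Op K) * D g 0 * X 1)) • tV χ 1 0 j +
      ((1 : Op K) * D g 0 * X 0 - cq g (n + 1 - j : ℕ) • (1 : Op K)) • tV χ 1 1 j +
      ((cq g (n - j : ℕ) • (1 : Op K)) • tV χ 1 0 (j + 1) + (0 : Op K) • tV χ 1 1 (j + 1))) = _
  simp only [one_mul, zero_add, add_zero, zero_smul, neg_smul, sub_smul,
    smul_assoc, one_smul, mul_smul, lx_apply, ld_apply, smul_sub, map_sub]
  abel

end tuples

end Crest.Agent.R186.TrE442
end

-- ▼ part R186/LCJ_229
section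

/-!
Row 186, S0281 base (helper229): LCQ1, the join: the filtered Hom complex of `K'(n)` into a pair
`L' ≤ L` is exact (371's `F0 .. F3`), hence `Ext (E g 1 n, W(L)/W(L')) = 0`.
-/

set_option autoImplicit false
set_option linter.unusedSectionVars false

noncomputable section

namespace Crest.Agent.R186.B281

open FamX823 LCF1_371

variable {K : Type} [Field K] {g : K}

/-! ### `HF` of products -/

section prodHF

variable {N : Type} [AddCommGroup N] [Module K N] [Module (Op K) N]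

theorem HF_prod {e : ℤ} {F G : Fam g} {L : ℤ → ℤ → Submodule K N}
    (Ψ : (prod F G).N →ₗ[Op K] N) (Ψ1 : F.N →ₗ[Op K] N) (Ψ2 : G.N →ₗ[Op K] N)
    (h : ∀ (a : F.N) (b : G.N), Ψ ((a, b) : F.N × G.N) = Ψ1 a + Ψ2 b) :
    HF e (prod F G) L Ψ ↔ HF e F L Ψ1 ∧ HF e G L Ψ2 := by
  constructor
  · intro h'
    refine ⟨fun k P n hn => ?_, fun k P n hn => ?_⟩
    · have h1 : Ψ ((n, 0) : F.N × G.N) ∈ L k (P + e) := h' (mem_prod.2 ⟨hn, zero_mem _⟩)
      rwa [h, map_zero, add_zero] at h1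
    · have h1 : Ψ ((0, n) : F.N × G.N) ∈ L k (P + e) := h' (mem_prod.2 ⟨zero_mem _, hn⟩)
      rwa [h, map_zero, zero_add] at h1
  · rintro ⟨h1, h2⟩ k P ⟨a, b⟩ hn
    have h3 : Ψ ((a, b) : F.N × G.N) ∈ L k (P + e) := by
      rw [h]
      exact add_mem (h1 (mem_prod.1 hn).1) (h2 (mem_prod.1 hn).2)
    exact h3

theorem HF_pi2 {e : ℤ} {F : Fam g} {L : ℤ → ℤ → Submodule K N}
    (Ψ : (pi F (Fin 2)).N →ₗ[Op K] N) (Ψ0 Ψ1 : F.N →ₗ[Op K] N)
    (h : ∀ x : Fin 2 → F.N, Ψ x = Ψ0 (x 0) + Ψ1 (x 1)) :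
    HF e (pi F (Fin 2)) L Ψ ↔ HF e F L Ψ0 ∧ HF e F L Ψ1 := by
  constructor
  · intro h'
    have hs : ∀ (i : Fin 2) (k P : ℤ) (n : F.N), n ∈ F.L k P →
        (Pi.single i n : Fin 2 → F.N) ∈ (pi F (Fin 2)).L k P := by
      intro i k P n hn
      refine mem_pi.2 fun j => ?_
      by_cases hj : j = i
      · subst hj
        rw [Pi.single_eq_same]
        exact hn
      · rw [Pi.single_eq_of_ne hj]
        exact zero_mem _
    refine ⟨fun k P n hn => ?_, fun k P n hn => ?_⟩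
    · have h1 : Ψ (Pi.single 0 n : Fin 2 → F.N) ∈ L k (P + e) := h' (hs 0 k P n hn)
      rwa [h, Pi.single_eq_same, Pi.single_eq_of_ne (by decide), map_zero, add_zero] at h1
    · have h1 : Ψ (Pi.single 1 n : Fin 2 → F.N) ∈ L k (P + e) := h' (hs 1 k P n hn)
      rwa [h, Pi.single_eq_same, Pi.single_eq_of_ne (by decide), map_zero, zero_add] at h1
  · rintro ⟨h1, h2⟩ k P x hn
    change Fin 2 → F.N at x
    have h3 : Ψ x ∈ L k (P + e) := by
      rw [h]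
      exact add_mem (h1 (mem_pi.1 hn 0)) (h2 (mem_pi.1 hn 1))
    exact h3

end prodHF

theorem HF_tK' {N : Type} [AddCommGroup N] [Module K N] [Module (Op K) N]
    (hg : Gen g) (c d e : ℤ) (i0 : ℕ) (hd : d = c + i0) {L : ℤ → ℤ → Submodule K N}
    (hL : SM g L) (m : ℕ) (y0 y1 : ℕ → N) :
    HF e (pi (TK hg c d) (Fin m)) L (tK m y0 y1) ↔
      ∀ j < m, y0 j ∈ L d e ∧ y1 j ∈ L d e ∧
        (X 1 : Op K) • y0 j - (X 0 : Op K) • y1 j ∈ L c (e + 1) := by
  subst hd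
  exact HF_tK hg c e i0 hL m y0 y1

/-! ### the terms of `K'(n)` -/

abbrev S0 (hg : Gen g) (n : ℕ) : Fam g := pi (TV hg 1 0) (Fin (n + 1))
abbrev S1 (hg : Gen g) (n : ℕ) : Fam g :=
  prod (pi (TV hg 1 4) (Fin n)) (pi (pi (TV hg 1 1) (Fin (n + 2))) (Fin 2))
abbrev S2 (hg : Gen g) (n : ℕ) : Fam g := pi (pi (TV hg 1 3) (Fin (n + 1))) (Fin 2)
abbrev S3 (hg : Gen g) (n : ℕ) : Fam g := pi (TV hg 1 2) (Fin (n + 1))

section HFS

variable {N : Type} [AddCommGroup N] [Module K N] [Module (Op K) N]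
  (hg : Gen g) (n : ℕ) (e : ℤ) {L : ℤ → ℤ → Submodule K N} (hL : SM g L)

include hL

theorem HF_S0 (φ : ℕ → N) : HF e (S0 hg n) L (tO (n + 1) φ) ↔ ∀ j ≤ n, φ j ∈ L 0 e := by
  have h := HF_tO hg ((0 : ℕ) : ℤ) e hL (n + 1) φ
  refine h.trans ?_
  rw [Nat.cast_zero]
  exact ⟨fun h j hj => h j (by omega), fun h j hj => h j (by omega)⟩

theorem HF_S3 (φ : ℕ → N) : HF e (S3 hg n) L (tO (n + 1) φ) ↔ ∀ j ≤ n, φ j ∈ L 2 e := by
  have h := HF_tO hg ((2 : ℕ) : ℤ) e hL (n + 1) φ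
  refine h.trans ?_
  rw [Nat.cast_ofNat]
  exact ⟨fun h j hj => h j (by omega), fun h j hj => h j (by omega)⟩

theorem HF_S1 (y0 y1 w0 w1 : ℕ → N) : HF e (S1 hg n) L (tP1 n y0 y1 w0 w1) ↔
    (∀ j < n, y0 j ∈ L 2 e ∧ y1 j ∈ L 2 e ∧
      (X 1 : Op K) • y0 j - (X 0 : Op K) • y1 j ∈ L 0 (e + 1)) ∧
    (∀ j ≤ n + 1, w0 j ∈ L 1 e ∧ w1 j ∈ L 1 e) := by
  have hK := HF_tK hg 0 e 2 hL n y0 y1
  have hw0 := HF_tO hg ((1 : ℕ) : ℤ) e hL (n + 2) w0
  have hw1 := HF_tO hg ((1 : ℕ) : ℤ) e hL (n + 2) w1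
  have e1 : (0 : ℤ) + ((2 : ℕ) : ℤ) = 2 := by norm_num
  rw [e1] at hK
  rw [Nat.cast_one] at hw0 hw1
  have h2 := HF_pi2 (F := pi (TV hg 1 1) (Fin (n + 2))) (e := e) (L := L)
    (tO (n + 2) w0 ∘ₗ LinearMap.proj 0 + tO (n + 2) w1 ∘ₗ LinearMap.proj 1)
    (tO (n + 2) w0) (tO (n + 2) w1) (fun x => rfl)
  have h1 := HF_prod (F := pi (TV hg 1 4) (Fin n)) (e := e) (L := L)
    (G := pi (pi (TV hg 1 1) (Fin (n + 2))) (Fin 2)) (tP1 n y0 y1 w0 w1) (tK n y0 y1)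
    (tO (n + 2) w0 ∘ₗ LinearMap.proj 0 + tO (n + 2) w1 ∘ₗ LinearMap.proj 1) (fun a b => rfl)
  refine h1.trans (and_congr hK (h2.trans ?_))
  refine (and_congr hw0 hw1).trans ?_
  exact ⟨fun h j hj => ⟨h.1 j (by omega), h.2 j (by omega)⟩,
    fun h => ⟨fun j hj => (h j (by omega)).1, fun j hj => (h j (by omega)).2⟩⟩

theorem HF_S2 (Y00 Y01 Y10 Y11 : ℕ → N) : HF e (S2 hg n) L (tP2 n Y00 Y01 Y10 Y11) ↔
    (∀ j ≤ n, Y00 j ∈ L 2 e ∧ Y01 j ∈ L 2 e ∧
      (X 1 : Op K) • Y00 j - (X 0 : Op K) • Y01 j ∈ L 1 (e + 1)) ∧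
    (∀ j ≤ n, Y10 j ∈ L 2 e ∧ Y11 j ∈ L 2 e ∧
      (X 1 : Op K) • Y10 j - (X 0 : Op K) • Y11 j ∈ L 1 (e + 1)) := by
  have hK0 := HF_tK' hg 1 2 e 1 (by norm_num) hL (n + 1) Y00 Y01
  have hK1 := HF_tK' hg 1 2 e 1 (by norm_num) hL (n + 1) Y10 Y11
  have h2 := HF_pi2 (F := pi (TV hg 1 3) (Fin (n + 1))) (e := e) (L := L)
    (tP2 n Y00 Y01 Y10 Y11) (tK (n + 1) Y00 Y01) (tK (n + 1) Y10 Y11) (fun x => rfl)
  refine h2.trans ((and_congr hK0 hK1).trans ?_)
  exact ⟨fun h => ⟨fun j hj => h.1 j (by omega), fun j hj => h.2 j (by omega)⟩,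
    fun h => ⟨fun j hj => h.1 j (by omega), fun j hj => h.2 j (by omega)⟩⟩

end HFS

/-! ### linear combinations of tuples -/

section sub

variable {N : Type} [AddCommGroup N] [Module (Op K) N]





end sub


theorem Fam.sm (F : Fam g) : SM g F.L := fun _ _ _ _ _ _ a b => F.smul a b

theorem Fam.Sub.sm {F : Fam g} (F' : F.Sub) : SM g F'.L := fun _ _ _ _ _ _ a b => F'.smul a b

/-! ### the condition `HF` on the tuple of a map -/

section tup

variable {N : Type} [AddCommGroup N] [Module K N] [Module (Op K) N] [IsScalarTower K (Op K) N]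

theorem rs_eq {A : Type} [Zero A] {m j : ℕ} (h : j < m) (a : A) :
    TrE442.rs m (TrE442.dl j a) = Pi.single (⟨j, h⟩ : Fin m) a := TrE442.rs_dl h a

variable (K) in
theorem tup_tO {m : ℕ} (φ : ℕ → N) {j : ℕ} (h : j < m) : TrE442.tO (tO m φ : (Fin m → Op K) →ₗ[Op K] N) j = φ j := by
  unfold TrE442.tO
  rw [rs_eq h, tO_single, one_smul]

variable (K) in
theorem tup_W {n : ℕ} (y0 y1 w0 w1 : ℕ → N) {j : ℕ} (h : j < n) :
    TrE442.tW (tP1 n y0 y1 w0 w1 : ((Fin n → Fin 2 → Op K) × (Fin 2 → Fin (n + 2) → Op K)) →ₗ[Op K] N) 0 j = y0 j ∧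
      TrE442.tW (tP1 n y0 y1 w0 w1 : ((Fin n → Fin 2 → Op K) × (Fin 2 → Fin (n + 2) → Op K)) →ₗ[Op K] N) 1 j = y1 j := by
  unfold TrE442.tW
  rw [rs_eq h, rs_eq h, tP1_apply, tP1_apply]
  constructor
  · show tK n y0 y1 (Pi.single ⟨j, h⟩ (Pi.single 0 1)) + (tO (n + 2) w0 0 + tO (n + 2) w1 0) = y0 j
    rw [tK_single, map_zero, map_zero, add_zero, add_zero]
    show (1 : Op K) • y0 j + (0 : Op K) • y1 j = y0 j
    rw [one_smul, zero_smul, add_zero]
  · show tK n y0 y1 (Pi.single ⟨j, h⟩ (Pi.single 1 1)) + (tO (n + 2) w0 0 + tO (n + 2) w1 0) = y1 j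
    rw [tK_single, map_zero, map_zero, add_zero, add_zero]
    show (0 : Op K) • y0 j + (1 : Op K) • y1 j = y1 j
    rw [one_smul, zero_smul, zero_add]

variable (K) in
theorem tup_Q {n : ℕ} (y0 y1 w0 w1 : ℕ → N) {j : ℕ} (h : j < n + 2) :
    TrE442.tQ (tP1 n y0 y1 w0 w1 : ((Fin n → Fin 2 → Op K) × (Fin 2 → Fin (n + 2) → Op K)) →ₗ[Op K] N) 0 j = w0 j ∧
      TrE442.tQ (tP1 n y0 y1 w0 w1 : ((Fin n → Fin 2 → Op K) × (Fin 2 → Fin (n + 2) → Op K)) →ₗ[Op K] N) 1 j = w1 j := by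
  unfold TrE442.tQ
  rw [rs_eq h, tP1_apply, tP1_apply]
  constructor
  · show tK n y0 y1 0 + (tO (n + 2) w0 (Pi.single ⟨j, h⟩ 1) + tO (n + 2) w1 0) = w0 j
    rw [tO_single, map_zero, map_zero, add_zero, zero_add, one_smul]
  · show tK n y0 y1 0 + (tO (n + 2) w0 0 + tO (n + 2) w1 (Pi.single ⟨j, h⟩ 1)) = w1 j
    rw [tO_single, map_zero, map_zero, zero_add, zero_add, one_smul]

variable (K) in
theorem tup_V0 {n : ℕ} (Y00 Y01 Y10 Y11 : ℕ → N) {j : ℕ} (h : j < n + 1) :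
    TrE442.tV (tP2 n Y00 Y01 Y10 Y11 : (Fin 2 → Fin (n + 1) → Fin 2 → Op K) →ₗ[Op K] N) 0 0 j = Y00 j ∧
      TrE442.tV (tP2 n Y00 Y01 Y10 Y11 : (Fin 2 → Fin (n + 1) → Fin 2 → Op K) →ₗ[Op K] N) 0 1 j = Y01 j := by
  unfold TrE442.tV
  rw [rs_eq h, rs_eq h, tP2_apply, tP2_apply]
  constructor
  · show tK (n + 1) Y00 Y01 (Pi.single ⟨j, h⟩ (Pi.single 0 1)) + tK (n + 1) Y10 Y11 0 = Y00 j
    rw [tK_single, map_zero, add_zero]
    show (1 : Op K) • Y00 j + (0 : Op K) • Y01 j = Y00 j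
    rw [one_smul, zero_smul, add_zero]
  · show tK (n + 1) Y00 Y01 (Pi.single ⟨j, h⟩ (Pi.single 1 1)) + tK (n + 1) Y10 Y11 0 = Y01 j
    rw [tK_single, map_zero, add_zero]
    show (0 : Op K) • Y00 j + (1 : Op K) • Y01 j = Y01 j
    rw [one_smul, zero_smul, zero_add]

variable (K) in
theorem tup_V1 {n : ℕ} (Y00 Y01 Y10 Y11 : ℕ → N) {j : ℕ} (h : j < n + 1) :
    TrE442.tV (tP2 n Y00 Y01 Y10 Y11 : (Fin 2 → Fin (n + 1) → Fin 2 → Op K) →ₗ[Op K] N) 1 0 j = Y10 j ∧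
      TrE442.tV (tP2 n Y00 Y01 Y10 Y11 : (Fin 2 → Fin (n + 1) → Fin 2 → Op K) →ₗ[Op K] N) 1 1 j = Y11 j := by
  unfold TrE442.tV
  rw [rs_eq h, rs_eq h, tP2_apply, tP2_apply]
  constructor
  · show tK (n + 1) Y00 Y01 0 + tK (n + 1) Y10 Y11 (Pi.single ⟨j, h⟩ (Pi.single 0 1)) = Y10 j
    rw [tK_single, map_zero, zero_add]
    show (1 : Op K) • Y10 j + (0 : Op K) • Y11 j = Y10 j
    rw [one_smul, zero_smul, add_zero]
  · show tK (n + 1) Y00 Y01 0 + tK (n + 1) Y10 Y11 (Pi.single ⟨j, h⟩ (Pi.single 1 1)) = Y11 j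
    rw [tK_single, map_zero, zero_add]
    show (0 : Op K) • Y10 j + (1 : Op K) • Y11 j = Y11 j
    rw [one_smul, zero_smul, zero_add]

variable (hg : Gen g) (n : ℕ) (e : ℤ) {L : ℤ → ℤ → Submodule K N} (hL : SM g L)

include hL

theorem HFt_S0 (Φ : (Fin (n + 1) → Op K) →ₗ[Op K] N) :
    HF e (S0 hg n) L Φ ↔ ∀ j ≤ n, TrE442.tO Φ j ∈ L 0 e := by
  obtain ⟨φ, rfl, -⟩ := exists_tO Φ
  refine (HF_S0 hg n e hL φ).trans ?_
  refine forall_congr' fun j => forall_congr' fun hj => ?_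
  rw [tup_tO K φ (by omega)]

theorem HFt_S3 (Φ : (Fin (n + 1) → Op K) →ₗ[Op K] N) :
    HF e (S3 hg n) L Φ ↔ ∀ j ≤ n, TrE442.tO Φ j ∈ L 2 e := by
  obtain ⟨φ, rfl, -⟩ := exists_tO Φ
  refine (HF_S3 hg n e hL φ).trans ?_
  refine forall_congr' fun j => forall_congr' fun hj => ?_
  rw [tup_tO K φ (by omega)]

theorem HFt_S1 (Φ : ((Fin n → Fin 2 → Op K) × (Fin 2 → Fin (n + 2) → Op K)) →ₗ[Op K] N) :
    HF e (S1 hg n) L Φ ↔
    (∀ j < n, TrE442.tW Φ 0 j ∈ L 2 e ∧ TrE442.tW Φ 1 j ∈ L 2 e ∧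
      (X 1 : Op K) • TrE442.tW Φ 0 j - (X 0 : Op K) • TrE442.tW Φ 1 j ∈ L 0 (e + 1)) ∧
    (∀ j ≤ n + 1, TrE442.tQ Φ 0 j ∈ L 1 e ∧ TrE442.tQ Φ 1 j ∈ L 1 e) := by
  obtain ⟨y0, y1, w0, w1, rfl, -⟩ := exists_tP1 Φ
  refine (HF_S1 hg n e hL y0 y1 w0 w1).trans (and_congr ?_ ?_)
  · refine forall_congr' fun j => forall_congr' fun hj => ?_
    rw [(tup_W K y0 y1 w0 w1 hj).1, (tup_W K y0 y1 w0 w1 hj).2]
  · refine forall_congr' fun j => forall_congr' fun hj => ?_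
    rw [(tup_Q K y0 y1 w0 w1 (show j < n + 2 by omega)).1,
      (tup_Q K y0 y1 w0 w1 (show j < n + 2 by omega)).2]

theorem HFt_S2 (Φ : (Fin 2 → Fin (n + 1) → Fin 2 → Op K) →ₗ[Op K] N) : HF e (S2 hg n) L Φ ↔
    (∀ j ≤ n, TrE442.tV Φ 0 0 j ∈ L 2 e ∧ TrE442.tV Φ 0 1 j ∈ L 2 e ∧
      (X 1 : Op K) • TrE442.tV Φ 0 0 j - (X 0 : Op K) • TrE442.tV Φ 0 1 j ∈ L 1 (e + 1)) ∧
    (∀ j ≤ n, TrE442.tV Φ 1 0 j ∈ L 2 e ∧ TrE442.tV Φ 1 1 j ∈ L 2 e ∧
      (X 1 : Op K) • TrE442.tV Φ 1 0 j - (X 0 : Op K) • TrE442.tV Φ 1 1 j ∈ L 1 (e + 1)) := by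
  obtain ⟨Y00, Y01, Y10, Y11, rfl⟩ := exists_tP2 Φ
  refine (HF_S2 hg n e hL Y00 Y01 Y10 Y11).trans (and_congr ?_ ?_)
  · refine forall_congr' fun j => forall_congr' fun hj => ?_
    rw [(tup_V0 K Y00 Y01 Y10 Y11 (show j < n + 1 by omega)).1,
      (tup_V0 K Y00 Y01 Y10 Y11 (show j < n + 1 by omega)).2]
  · refine forall_congr' fun j => forall_congr' fun hj => ?_
    rw [(tup_V1 K Y00 Y01 Y10 Y11 (show j < n + 1 by omega)).1,
      (tup_V1 K Y00 Y01 Y10 Y11 (show j < n + 1 by omega)).2]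

end tup

theorem good_S0 (hg : Gen g) (n : ℕ) : Good 1 (S0 hg n) := good_pi (good_TV hg 1 0) _
theorem good_S1 (hg : Gen g) (n : ℕ) : Good 1 (S1 hg n) :=
  good_prod (good_pi (good_TV hg 1 4) _) (good_pi (good_pi (good_TV hg 1 1) _) _)
theorem good_S2 (hg : Gen g) (n : ℕ) : Good 1 (S2 hg n) :=
  good_pi (good_pi (good_TV hg 1 3) _) _
theorem good_S3 (hg : Gen g) (n : ℕ) : Good 1 (S3 hg n) := good_pi (good_TV hg 1 2) _

/-! ### filtered exactness -/

section ex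

open TrE442 (lx ld)

variable (hg : Gen g) {n : ℕ} {F : Fam g} {F' : F.Sub} {e : ℤ}
  (hP : Pair (U := F.N) g lx (ld g) F.L F'.L)

theorem cq0 (g : K) : cq g ((0 : ℕ) : ℤ) = 0 := by
  rw [Nat.cast_zero]
  exact cq_zero g

theorem cqs (hg : Gen g) (a : ℕ) : cq g ((a + 1 : ℕ) : ℤ) ≠ 0 :=
  cq_ne hg (by omega)

include hP

theorem ex0 (Φ : (Fin (n + 1) → Op K) →ₗ[Op K] F.N) (h1 : HF e (S0 hg n) F.L Φ)
    (h2 : HF e (S1 hg n) F'.L (Φ ∘ₗ KN.E1 g n)) : HF e (S0 hg n) F'.L Φ := by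
  have h1' := (HFt_S0 hg n e F.sm Φ).1 h1
  have h2' := (HFt_S1 hg n e F'.sm _).1 h2
  refine (HFt_S0 hg n e F'.sm Φ).2 ?_
  refine F0 hP (c := fun m => cq g (m : ℤ)) _ h1' (fun j hj => ?_)
  rw [← TrE442.T1q0 hg (by omega)]
  exact (h2'.2 j (by omega)).1

theorem ex1 (Φ : ((Fin n → Fin 2 → Op K) × (Fin 2 → Fin (n + 2) → Op K)) →ₗ[Op K] F.N)
    (h1 : HF e (S1 hg n) F.L Φ) (h2 : HF e (S2 hg n) F'.L (Φ ∘ₗ KN.E2 g n)) :
    ∃ Γ : (Fin (n + 1) → Op K) →ₗ[Op K] F.N, HF e (S0 hg n) F.L Γ ∧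
      HF e (S1 hg n) F'.L (Φ - Γ ∘ₗ KN.E1 g n) := by
  have h1' := (HFt_S1 hg n e F.sm _).1 h1
  have h2' := (HFt_S2 hg n e F'.sm _).1 h2
  obtain ⟨φ, hφ, hy, hw⟩ := F1 (e := e) (c := fun m => cq g (m : ℤ)) (n := n) hP (cq0 g)
    (fun a _ => cqs hg a) (TrE442.tW Φ 0) (TrE442.tW Φ 1) (TrE442.tQ Φ 0) (TrE442.tQ Φ 1)
    (fun j hj => ⟨TrE442.tW_ge Φ 0 hj, TrE442.tW_ge Φ 1 hj⟩)
    (fun j => by
      rcases Nat.lt_or_ge j n with hj | hj
      · exact h1'.1 j hj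
      · rw [TrE442.tW_ge Φ 0 hj, TrE442.tW_ge Φ 1 hj, map_zero, map_zero, sub_zero]
        exact ⟨zero_mem _, zero_mem _, zero_mem _⟩)
    h1'.2
    (fun j hj => by rw [← TrE442.T200 hj]; exact (h2'.1 j hj).1)
    (fun j hj => by rw [← TrE442.T200 hj, ← TrE442.T201 hj]; exact (h2'.1 j hj).2.2)
    (fun j hj => by rw [← TrE442.T210 hj]; exact (h2'.2 j hj).1)
  have hφ' : ∀ j ≤ n, TrE442.tO (tO (n + 1) φ : (Fin (n + 1) → Op K) →ₗ[Op K] F.N) j = φ j :=
    fun j hj => tup_tO K φ (by omega)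
  refine ⟨tO (n + 1) φ, (HF_S0 hg n e F.sm φ).2 hφ, ?_⟩
  refine (HFt_S1 hg n e F'.sm _).2 ⟨fun j hj => ?_, fun j hj => ?_⟩
  · have a0 : TrE442.tW (tO (n + 1) φ ∘ₗ KN.E1 g n) 0 j =
        y0' lx (ld g) (fun m => cq g (m : ℤ)) n φ j := by
      rw [TrE442.T1w0 hj]
      simp only [y0', hφ' j (by omega)]
    have a1 : TrE442.tW (tO (n + 1) φ ∘ₗ KN.E1 g n) 1 j =
        y1' lx (ld g) (fun m => cq g (m : ℤ)) n φ j := by
      rw [TrE442.T1w1 hj]
      simp only [y1', hφ' j (by omega), hφ' (j + 1) (by omega)]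
    obtain ⟨a, b, c⟩ := hy j hj
    have b0 : TrE442.tW (Φ - tO (n + 1) φ ∘ₗ KN.E1 g n) 0 j =
        TrE442.tW Φ 0 j - y0' lx (ld g) (fun m => cq g (m : ℤ)) n φ j := by
      rw [← a0]
      rfl
    have b1 : TrE442.tW (Φ - tO (n + 1) φ ∘ₗ KN.E1 g n) 1 j =
        TrE442.tW Φ 1 j - y1' lx (ld g) (fun m => cq g (m : ℤ)) n φ j := by
      rw [← a1]
      rfl
    rw [b0, b1]
    refine ⟨a, b, ?_⟩
    rw [smul_sub, smul_sub, sub_sub_sub_comm]
    exact c
  · have a0 : TrE442.tQ (tO (n + 1) φ ∘ₗ KN.E1 g n) 0 j =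
        w0' g lx (ld g) (fun m => cq g (m : ℤ)) n φ j := by
      rw [TrE442.T1q0 hg hj]
      unfold w0'
      split_ifs with h
      · rw [hφ' n le_rfl]
      · rw [hφ' j (by omega)]
    have a1 : TrE442.tQ (tO (n + 1) φ ∘ₗ KN.E1 g n) 1 j =
        w1' g lx (ld g) (fun m => cq g (m : ℤ)) n φ j := by
      rw [TrE442.T1q1 hg hj]
      unfold w1'
      split_ifs with h
      · rw [hφ' n le_rfl]
      · rw [hφ' j (by omega), hφ' (j - 1) (by omega)]
    obtain ⟨a, b⟩ := hw j hj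
    have b0 : TrE442.tQ (Φ - tO (n + 1) φ ∘ₗ KN.E1 g n) 0 j =
        TrE442.tQ Φ 0 j - w0' g lx (ld g) (fun m => cq g (m : ℤ)) n φ j := by
      rw [← a0]
      rfl
    have b1 : TrE442.tQ (Φ - tO (n + 1) φ ∘ₗ KN.E1 g n) 1 j =
        TrE442.tQ Φ 1 j - w1' g lx (ld g) (fun m => cq g (m : ℤ)) n φ j := by
      rw [← a1]
      rfl
    rw [b0, b1]
    exact ⟨a, b⟩

theorem ex2 (hO : Onto (U := F.N) lx (ld g) F.L F'.L e)
    (Φ : (Fin 2 → Fin (n + 1) → Fin 2 → Op K) →ₗ[Op K] F.N)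
    (h1 : HF e (S2 hg n) F.L Φ) (h2 : HF e (S3 hg n) F'.L (Φ ∘ₗ KN.E3 g n)) :
    ∃ Γ : ((Fin n → Fin 2 → Op K) × (Fin 2 → Fin (n + 2) → Op K)) →ₗ[Op K] F.N,
      HF e (S1 hg n) F.L Γ ∧ HF e (S2 hg n) F'.L (Φ - Γ ∘ₗ KN.E2 g n) := by
  have h1' := (HFt_S2 hg n e F.sm _).1 h1
  have h2' := (HFt_S3 hg n e F'.sm _).1 h2
  obtain ⟨y0, y1, w0, w1, hz, hy, hw, hY0, hY1⟩ := F2 (e := e) (c := fun m => cq g (m : ℤ))
    (n := n) hP hO (cq0 g) (fun a _ => cqs hg a) (TrE442.tV Φ 0 0) (TrE442.tV Φ 0 1)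
    (TrE442.tV Φ 1 0) (TrE442.tV Φ 1 1) h1'.1 h1'.2
    (fun j hj => by rw [← TrE442.T3 hj]; exact h2' j hj)
  have k0 : ∀ j, TrE442.tW (tP1 n y0 y1 w0 w1 :
      ((Fin n → Fin 2 → Op K) × (Fin 2 → Fin (n + 2) → Op K)) →ₗ[Op K] F.N) 0 j = y0 j := by
    intro j
    rcases Nat.lt_or_ge j n with hj | hj
    · exact (tup_W K y0 y1 w0 w1 hj).1
    · rw [TrE442.tW_ge _ _ hj, (hz j hj).1]
  have k1 : ∀ j, TrE442.tW (tP1 n y0 y1 w0 w1 :
      ((Fin n → Fin 2 → Op K) × (Fin 2 → Fin (n + 2) → Op K)) →ₗ[Op K] F.N) 1 j = y1 j := by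
    intro j
    rcases Nat.lt_or_ge j n with hj | hj
    · exact (tup_W K y0 y1 w0 w1 hj).2
    · rw [TrE442.tW_ge _ _ hj, (hz j hj).2]
  have k2 : ∀ j ≤ n + 1, TrE442.tQ (tP1 n y0 y1 w0 w1 :
      ((Fin n → Fin 2 → Op K) × (Fin 2 → Fin (n + 2) → Op K)) →ₗ[Op K] F.N) 0 j = w0 j :=
    fun j hj => (tup_Q K y0 y1 w0 w1 (by omega)).1
  have k3 : ∀ j ≤ n + 1, TrE442.tQ (tP1 n y0 y1 w0 w1 :
      ((Fin n → Fin 2 → Op K) × (Fin 2 → Fin (n + 2) → Op K)) →ₗ[Op K] F.N) 1 j = w1 j :=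
    fun j hj => (tup_Q K y0 y1 w0 w1 (by omega)).2
  refine ⟨tP1 n y0 y1 w0 w1, (HF_S1 hg n e F.sm _ _ _ _).2 ⟨fun j _ => hy j, hw⟩, ?_⟩
  refine (HFt_S2 hg n e F'.sm _).2 ⟨fun j hj => ?_, fun j hj => ?_⟩
  · have b0 : TrE442.tV (Φ - tP1 n y0 y1 w0 w1 ∘ₗ KN.E2 g n) 0 0 j = TrE442.tV Φ 0 0 j -
        Y00' g lx (ld g) (fun m => cq g (m : ℤ)) n y0 w0 w1 j := by
      have : TrE442.tV (tP1 n y0 y1 w0 w1 ∘ₗ KN.E2 g n) 0 0 j =
          Y00' g lx (ld g) (fun m => cq g (m : ℤ)) n y0 w0 w1 j := by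
        rw [TrE442.T200 hj]
        simp only [Y00', k0, k2 j (by omega), k2 (n + 1) le_rfl, k3 (n + 1) le_rfl]
      rw [← this]
      rfl
    have b1 : TrE442.tV (Φ - tP1 n y0 y1 w0 w1 ∘ₗ KN.E2 g n) 0 1 j = TrE442.tV Φ 0 1 j -
        Y01' lx (ld g) (fun m => cq g (m : ℤ)) n y0 y1 w0 w1 j := by
      have : TrE442.tV (tP1 n y0 y1 w0 w1 ∘ₗ KN.E2 g n) 0 1 j =
          Y01' lx (ld g) (fun m => cq g (m : ℤ)) n y0 y1 w0 w1 j := by
        rw [TrE442.T201 hj]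
        simp only [Y01', k0, k1, k2 (j + 1) (by omega), k2 (n + 1) le_rfl, k3 (n + 1) le_rfl]
      rw [← this]
      rfl
    rw [b0, b1]
    exact hY0 j hj
  · have b0 : TrE442.tV (Φ - tP1 n y0 y1 w0 w1 ∘ₗ KN.E2 g n) 1 0 j = TrE442.tV Φ 1 0 j -
        Y10' lx (ld g) (fun m => cq g (m : ℤ)) n y0 w0 w1 j := by
      have : TrE442.tV (tP1 n y0 y1 w0 w1 ∘ₗ KN.E2 g n) 1 0 j =
          Y10' lx (ld g) (fun m => cq g (m : ℤ)) n y0 w0 w1 j := by
        rw [TrE442.T210 hj]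
        simp only [Y10', k0, k2 j (by omega), k3 j (by omega)]
      rw [← this]
      rfl
    have b1 : TrE442.tV (Φ - tP1 n y0 y1 w0 w1 ∘ₗ KN.E2 g n) 1 1 j = TrE442.tV Φ 1 1 j -
        Y11' g lx (ld g) (fun m => cq g (m : ℤ)) n y0 y1 w0 w1 j := by
      have : TrE442.tV (tP1 n y0 y1 w0 w1 ∘ₗ KN.E2 g n) 1 1 j =
          Y11' g lx (ld g) (fun m => cq g (m : ℤ)) n y0 y1 w0 w1 j := by
        rw [TrE442.T211 hj]
        simp only [Y11', k0, k1, k2 j (by omega), k3 j (by omega), k3 (j + 1) (by omega)]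
      rw [← this]
      rfl
    rw [b0, b1]
    exact hY1 j hj

theorem ex3 (hO : Onto (U := F.N) lx (ld g) F.L F'.L e)
    (Φ : (Fin (n + 1) → Op K) →ₗ[Op K] F.N) (h1 : HF e (S3 hg n) F.L Φ) :
    ∃ Γ : (Fin 2 → Fin (n + 1) → Fin 2 → Op K) →ₗ[Op K] F.N,
      HF e (S2 hg n) F.L Γ ∧ HF e (S3 hg n) F'.L (Φ - Γ ∘ₗ KN.E3 g n) := by
  have h1' := (HFt_S3 hg n e F.sm _).1 h1
  obtain ⟨Y00, Y01, Y10, Y11, hY0, hY1, ht⟩ := F3 (e := e) (c := fun m => cq g (m : ℤ)) (n := n)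
    hP hO (TrE442.tO Φ) (fun j => by
      rcases Nat.lt_or_ge n j with hj | hj
      · rw [TrE442.tO_ge Φ (show n + 1 ≤ j by omega)]
        exact zero_mem _
      · exact h1' j hj)
  refine ⟨tP2 n Y00 Y01 Y10 Y11,
    (HF_S2 hg n e F.sm _ _ _ _).2 ⟨fun j _ => hY0 j, fun j _ => hY1 j⟩, ?_⟩
  refine (HFt_S3 hg n e F'.sm _).2 (fun j hj => ?_)
  have k : TrE442.tO ((tP2 n Y00 Y01 Y10 Y11 : (Fin 2 → Fin (n + 1) → Fin 2 → Op K) →ₗ[Op K] F.N)
      ∘ₗ KN.E3 g n) j = t' lx (ld g) (fun m => cq g (m : ℤ)) n Y00 Y01 Y10 Y11 j := by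
    rw [TrE442.T3 hj]
    have a0 := tup_V0 K Y00 Y01 Y10 Y11 (show j < n + 1 by omega)
    have a1 := tup_V1 K Y00 Y01 Y10 Y11 (show j < n + 1 by omega)
    have a2 := tup_V0 K Y00 Y01 Y10 Y11 (show j - 1 < n + 1 by omega)
    have a3 : cq g ((n - j : ℕ) : ℤ) • TrE442.tV (tP2 n Y00 Y01 Y10 Y11 :
        (Fin 2 → Fin (n + 1) → Fin 2 → Op K) →ₗ[Op K] F.N) 1 0 (j + 1) =
          cq g ((n - j : ℕ) : ℤ) • Y10 (j + 1) := by
      rcases Nat.lt_or_ge j n with hj' | hj'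
      · rw [(tup_V1 K Y00 Y01 Y10 Y11 (show j + 1 < n + 1 by omega)).1]
      · rw [show n - j = 0 by omega, cq0, zero_smul, zero_smul]
    simp only [t', a0.1, a0.2, a1.1, a1.2, a2.2, a3]
  have b : TrE442.tO (Φ - tP2 n Y00 Y01 Y10 Y11 ∘ₗ KN.E3 g n) j = TrE442.tO Φ j -
      t' lx (ld g) (fun m => cq g (m : ℤ)) n Y00 Y01 Y10 Y11 j := by
    rw [← k]
    rfl
  rw [b]
  exact ht j

end ex

end Crest.Agent.R186.B281
end
namespace Crest.Agent.R186.B281.HF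
end Crest.Agent.R186.B281.HF
end

-- ▼ part R186/LCF1_442
section

/-!
# Row 186, S0281 base, block LC, `s = 1`, FILTERED (operator) form (helper442)

`Fl K M`: a filtered left module `M` over the `q`-Weyl algebra (`x_i d_i = 1 + g d_i x_i`), pieces
`F k P` (order `≤ k`, degree `P`, same order of the arguments as `B281.Fil`), the Koszul facts only
modulo lower order.  The maps are the full transposes of 525's `s = 1` maps (#31909); functions on
`[m] = K[x]_m` are indexed by `a` = exponent of `x0`.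
For every `n`, `k ≥ -1`, `P + k ≥ 0` or `k < 0`:
`f ∈ C^i(k)`, `δ f ∈ C^(i+1)(k-1)` ⟹ `∃ g ∈ C^(i-1)(k)`, `f - δ g ∈ C^i(k-1)`.
-/

set_option autoImplicit false

namespace Crest.Agent.R186.LCF442

/-- filtered left module over the `q`-Weyl algebra, Koszul facts modulo lower order -/
structure Fl (K M : Type*) [Field K] [AddCommGroup M] [Module K M] where
  g : K
  g0 : g ≠ 0
  /-- left multiplication by `x_i` -/
  X : Fin 2 → M →ₗ[K] M
  /-- left multiplication by `d_i` -/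
  D : Fin 2 → M →ₗ[K] M
  /-- order `≤ k`, degree `P` -/
  F : ℤ → ℤ → Submodule K M
  r0 : ∀ m, X 0 (D 0 m) = m + g • D 0 (X 0 m)
  r1 : ∀ m, X 1 (D 1 m) = m + g • D 1 (X 1 m)
  r01 : ∀ m, X 0 (D 1 m) = D 1 (X 0 m)
  r10 : ∀ m, X 1 (D 0 m) = D 0 (X 1 m)
  rx : ∀ m, X 0 (X 1 m) = X 1 (X 0 m)
  rd : ∀ m, D 0 (D 1 m) = D 1 (D 0 m)
  mono : ∀ {k l P : ℤ}, k ≤ l → F k P ≤ F l P
  Xm : ∀ (i : Fin 2) {k P Q : ℤ} {m : M}, Q = P + 1 → m ∈ F k P → X i m ∈ F k Q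
  Dm : ∀ (i : Fin 2) {k l P Q : ℤ} {m : M}, l = k + 1 → Q = P - 1 → m ∈ F k P → D i m ∈ F l Q
  xinj : ∀ {k l P Q : ℤ} {m : M}, l = k - 1 → Q = P + 1 → m ∈ F k P → X 0 m ∈ F l Q → m ∈ F l P
  dinj : ∀ {k l P Q : ℤ} {m : M}, l = k - 1 → Q = P - 1 → m ∈ F k P → D 0 m ∈ F k Q → m ∈ F l P
  kx : ∀ {k l P Q R : ℤ} {u v : M}, l = k - 1 → Q = P + 1 → R = P - 1 → u ∈ F k P → v ∈ F k P →
    X 0 u - X 1 v ∈ F l Q → ∃ w ∈ F k R, u - X 1 w ∈ F l P ∧ v - X 0 w ∈ F l P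
  kd : ∀ {k l P Q R : ℤ} {u v : M}, l = k - 1 → Q = P - 1 → R = P + 1 → u ∈ F k P → v ∈ F k P →
    D 0 u - D 1 v ∈ F k Q → ∃ w ∈ F l R, u - D 1 w ∈ F l P ∧ v - D 0 w ∈ F l P
  sx : ∀ {k l P R : ℤ} {m : M}, l = k - 1 → R = P - 1 → (P + k ≠ 0 ∨ k < 0) → m ∈ F k P →
    ∃ u ∈ F k R, ∃ v ∈ F k R, m - X 0 u - X 1 v ∈ F l P
  sd : ∀ {k l P R : ℤ} {m : M}, l = k - 1 → R = P + 1 → k ≠ 0 → m ∈ F k P →
    ∃ u ∈ F l R, ∃ v ∈ F l R, m - D 0 u - D 1 v ∈ F l P

variable {K M : Type*} [Field K] [AddCommGroup M] [Module K M] (S : Fl K M) (c : ℕ → K)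

/-! ## the differentials -/

/-- `K2`-column of `δ φ` (`a < n`) -/
def dn (φ : ℕ → M) (i : Fin 2) (a : ℕ) : M :=
  if i = 0 then S.X 0 (S.D 0 ((c (a + 1))⁻¹ • φ (a + 1))) - φ (a + 1)
  else S.X 1 (S.D 0 ((c (a + 1))⁻¹ • φ (a + 1))) - φ a

/-- `O(-1)`-part of `δ φ` (`a ≤ n+1`) -/
def dps (n : ℕ) (φ : ℕ → M) (e : Fin 2) : ℕ → M
  | 0 => if e = 0 then S.X 1 (S.D 0 (φ 0)) else S.g⁻¹ • (S.X 1 (S.D 1 (φ 0)) - c n • φ 0)
  | b + 1 => if e = 0 then S.g⁻¹ • (S.X 0 (S.D 0 (φ b)) - c b • φ b)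
      else S.X 0 (S.D 1 (φ b)) - c (n - b) • φ (b + 1)

/-- `x1 n_0 - x0 n_1` -/
def nu (m : Fin 2 → ℕ → M) (a : ℕ) : M := S.X 1 (m 0 a) - S.X 0 (m 1 a)

/-- `d0 ψ_1 - d1 ψ_0` -/
def Om (ψ : Fin 2 → ℕ → M) (a : ℕ) : M := S.D 0 (ψ 1 a) - S.D 1 (ψ 0 a)

/-- `K1'`-columns of `δ (m, ψ)`, slot `e`, entry `i` (`a ≤ n`) -/
def dk (n : ℕ) (m ψ : Fin 2 → ℕ → M) (e i : Fin 2) (a : ℕ) : M :=
  if e = 0 then
    if i = 0 then -(c a • m 0 (a - 1)) + S.g • ψ 0 (a + 1)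
        + S.X 0 (if a = 0 then (c (n + 1))⁻¹ • Om S ψ 0 else 0)
    else -(c a • m 1 (a - 1)) - (if a = 0 then 0 else S.D 0 (nu S m (a - 1))) + ψ 0 a
        + S.X 1 (if a = 0 then (c (n + 1))⁻¹ • Om S ψ 0 else 0)
  else
    if i = 0 then -(c (n - a) • m 0 a) + ψ 1 (a + 1) - S.X 0 ((c (a + 1))⁻¹ • Om S ψ (a + 1))
    else -(c (n - a) • m 1 a) - (if a = 0 then 0 else S.g • S.D 1 (nu S m (a - 1))) + S.g • ψ 1 a
        - S.X 1 ((c (a + 1))⁻¹ • Om S ψ (a + 1))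

/-- the last differential (`a ≤ n`); `m e i` = entry `i` of slot `e` -/
def tau (n : ℕ) (m : Fin 2 → Fin 2 → ℕ → M) (a : ℕ) : M :=
  S.D 1 (S.X 1 (m 0 0 a)) - c (n + 1 - a) • m 0 0 a - S.D 1 (S.X 0 (m 0 1 a)) + c (n - a) • m 0 1 (a + 1)
    - S.D 0 (S.X 1 (m 1 0 a)) + c a • m 1 0 (a - 1) + S.D 0 (S.X 0 (m 1 1 a)) - c (a + 1) • m 1 1 a

variable {S c}

theorem smem {N : Submodule K M} {r : K} {m : M} (hr : r ≠ 0) (h : r • m ∈ N) : m ∈ N :=
  (Submodule.smul_mem_iff N hr).1 h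

theorem mem_of {N : Submodule K M} {x y : M} (h : y ∈ N) (e : x = y) : x ∈ N := e ▸ h

/-- exactness at degree `0` -/
theorem H0 {k P : ℤ} (n : ℕ) (φ : ℕ → M) (hφ : ∀ a ≤ n, φ a ∈ S.F k P)
    (h : ∀ a ≤ n + 1, dps S c n φ 0 a ∈ S.F k P) : ∀ a ≤ n, φ a ∈ S.F (k - 1) P := by
  intro a ha
  have h1 := smem (inv_ne_zero S.g0) (h (a + 1) (by omega))
  have h2 : S.D 0 (S.X 0 (φ a)) ∈ S.F k P := by
    refine smem S.g0 (mem_of (Submodule.sub_mem _ (Submodule.add_mem _ h1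
      (Submodule.smul_mem _ (c a) (hφ a ha))) (hφ a ha)) ?_)
    rw [S.r0]
    abel
  exact S.xinj rfl rfl (hφ a ha) (S.dinj rfl (by ring) (S.Xm 0 rfl (hφ a ha)) h2)

/-- exactness at degree `1` -/
theorem H1 {k P : ℤ} (n : ℕ) (hc : ∀ m, 0 < m → m ≤ n + 1 → c m ≠ 0) (h0 : c 0 = 0)
    (m ψ : Fin 2 → ℕ → M)
    (_hm : ∀ i, ∀ a < n, m i a ∈ S.F (k + 2) P) (hν : ∀ a < n, nu S m a ∈ S.F k (P + 1))
    (hψ : ∀ e, ∀ a ≤ n + 1, ψ e a ∈ S.F (k + 1) P)
    (hd : ∀ e i, ∀ a ≤ n, dk S c n m ψ e i a ∈ S.F (k + 1) P)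
    (hdν : ∀ e, ∀ a ≤ n, nu S (dk S c n m ψ e) a ∈ S.F k (P + 1)) :
    ∃ φ : ℕ → M, (∀ a ≤ n, φ a ∈ S.F k P) ∧ (∀ i, ∀ a < n, m i a - dn S c φ i a ∈ S.F (k + 1) P) ∧
      (∀ a < n, nu S (fun i a => m i a - dn S c φ i a) a ∈ S.F (k - 1) (P + 1)) ∧
      ∀ e, ∀ a ≤ n + 1, ψ e a - dps S c n φ e a ∈ S.F k P := by
  -- (1)
  have m1 : ∀ i, ∀ a < n, m i a ∈ S.F (k + 1) P := by
    intro i a ha
    have hl : c (a + 1) ≠ 0 := hc _ (by omega) (by omega)
    have h1 := hd 0 i (a + 1) (by omega)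
    have h2 := hψ 0 (a + 1 + 1) (by omega)
    have h3 := hψ 0 (a + 1) (by omega)
    have h4 : S.D 0 (nu S m a) ∈ S.F (k + 1) P := S.Dm 0 rfl (by ring) (hν a ha)
    fin_cases i
    · simp only [dk, Fin.zero_eta, if_true, Fin.isValue, Nat.add_sub_cancel,
        if_neg (Nat.succ_ne_zero a), map_zero, add_zero] at h1
      refine smem hl (mem_of (Submodule.sub_mem _ (Submodule.smul_mem _ S.g h2) h1) ?_)
      show c (a + 1) • m 0 a = _
      abel
    · simp only [dk, Fin.mk_one, one_ne_zero, if_false, if_true, Fin.isValue, Nat.add_sub_cancel,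
        if_neg (Nat.succ_ne_zero a), map_zero, add_zero] at h1
      refine smem hl (mem_of (Submodule.sub_mem _ (Submodule.sub_mem _ h3 h4) h1) ?_)
      abel
  -- (2)
  have om : ∀ a ≤ n + 1, Om S ψ a ∈ S.F (k + 1) (P - 1) := by
    intro a ha
    have hOm : Om S ψ a ∈ S.F (k + 2) (P - 1) :=
      Submodule.sub_mem _ (S.Dm 0 (by ring) rfl (hψ 1 a ha)) (S.Dm 1 (by ring) rfl (hψ 0 a ha))
    refine S.xinj (k := k + 2) (by ring) (Q := P) (by ring) hOm ?_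
    rcases a with _ | a
    · have h1 := hd 0 0 0 (by omega)
      have h2 := hψ 0 1 (by omega)
      simp only [dk, if_true, h0, zero_smul, neg_zero, zero_add, map_smul] at h1
      refine smem (inv_ne_zero (hc (n + 1) (by omega) le_rfl))
        (mem_of (Submodule.sub_mem _ h1 (Submodule.smul_mem _ S.g h2)) ?_)
      abel
    · have h1 := hd 1 0 a (by omega)
      have h2 := hψ 1 (a + 1) (by omega)
      have h3 : c (n - a) • m 0 a ∈ S.F (k + 1) P := by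
        by_cases hn : a < n
        · exact Submodule.smul_mem _ _ (m1 0 a hn)
        · rw [show n - a = 0 by omega, h0, zero_smul]
          exact Submodule.zero_mem _
      simp only [dk, one_ne_zero, if_false, if_true, Fin.isValue, map_smul] at h1
      refine smem (inv_ne_zero (hc (a + 1) (by omega) (by omega)))
        (mem_of (Submodule.sub_mem _ (Submodule.sub_mem _ h2 h3) h1) ?_)
      abel
  -- (3)
  have key : ∀ a, ∃ w, a ≤ n + 1 → (w ∈ S.F k (P + 1) ∧ ψ 1 a - S.D 1 w ∈ S.F k P ∧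
      ψ 0 a - S.D 0 w ∈ S.F k P) := by
    intro a
    by_cases ha : a ≤ n + 1
    · obtain ⟨w, hw, hw1, hw2⟩ := S.kd (k := k + 1) (l := k) (by ring) rfl rfl (hψ 1 a ha) (hψ 0 a ha)
        (om a ha)
      exact ⟨w, fun _ => ⟨hw, hw1, hw2⟩⟩
    · exact ⟨0, fun h => absurd h ha⟩
  choose Φ hΦ using key
  -- (4)
  have key2 : ∀ a, ∃ w, a ≤ n → (w ∈ S.F k P ∧
      Φ a - (if a = 0 then 0 else nu S m (a - 1)) - S.X 1 w ∈ S.F (k - 1) (P + 1) ∧
      Φ (a + 1) - S.X 0 w ∈ S.F (k - 1) (P + 1)) := by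
    intro a
    by_cases ha : a ≤ n
    · let N : M := if a = 0 then 0 else nu S m (a - 1)
      have hN : N ∈ S.F k (P + 1) := by
        simp only [N]
        split_ifs with h
        · exact Submodule.zero_mem _
        · exact hν _ (by omega)
      obtain ⟨a1, a2, a3⟩ := hΦ a (by omega)
      obtain ⟨b1, b2, b3⟩ := hΦ (a + 1) (by omega)
      have h1 := hdν 0 a ha
      have hca : c a • nu S m (a - 1) ∈ S.F k (P + 1) := by
        by_cases h : a = 0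
        · rw [h, h0, zero_smul]
          exact Submodule.zero_mem _
        · exact Submodule.smul_mem _ _ (hν _ (by omega))
      have e1 : nu S (dk S c n m ψ 0) a = -(c a • nu S m (a - 1)) + S.g • S.X 1 (ψ 0 (a + 1))
          - S.X 0 (ψ 0 a) + S.X 0 (S.D 0 N) := by
        have e2 : (if a = 0 then (0 : M) else S.D 0 (S.X 1 (m 0 (a - 1))) - S.D 0 (S.X 0 (m 1 (a - 1)))) =
            S.D 0 N := by
          simp only [N, nu]
          split_ifs <;> simp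
        simp only [nu, dk, if_true, one_ne_zero, if_false, Fin.isValue, map_add, map_sub, map_neg,
          map_smul, S.rx]
        rw [e2]
        simp only [smul_sub]
        abel
      have hD0N : S.D 0 N ∈ S.F (k + 1) P := S.Dm 0 rfl (by ring) hN
      have h2 : S.D 0 (S.X 1 (Φ (a + 1)) - S.X 0 (Φ a) + S.X 0 N) ∈ S.F k (P + 1) := by
        refine smem S.g0 ?_
        have t1 : S.g • S.X 1 (ψ 0 (a + 1) - S.D 0 (Φ (a + 1))) ∈ S.F k (P + 1) :=
          Submodule.smul_mem _ _ (S.Xm 1 rfl b3)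
        have t2 : S.X 0 (ψ 0 a - S.D 0 (Φ a)) ∈ S.F k (P + 1) := S.Xm 0 rfl a3
        have t3 := Submodule.add_mem _ (Submodule.sub_mem _ (Submodule.add_mem _ (Submodule.sub_mem _
          (Submodule.add_mem _ h1 hca) t1) t2) hN) a1
        refine mem_of t3 ?_
        rw [e1]
        simp only [map_sub, map_add, smul_sub, smul_add, S.r10, S.r0]
        abel
      have h3 := S.dinj (k := k) (l := k - 1) (P := P + 2) (Q := P + 1) rfl (by ring)
        (Submodule.add_mem _ (Submodule.sub_mem _ (S.Xm 1 (by ring) b1) (S.Xm 0 (by ring) a1))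
          (S.Xm 0 (by ring) hN)) h2
      obtain ⟨w, hw, hw1, hw2⟩ := S.kx (k := k) (l := k - 1) (P := P + 1) (Q := P + 2) (R := P)
        (u := Φ a - N) (v := Φ (a + 1)) rfl (by ring) (by ring) (Submodule.sub_mem _ a1 hN) b1
        (mem_of (Submodule.neg_mem _ h3) (by rw [map_sub]; abel))
      exact ⟨w, fun _ => ⟨hw, hw1, hw2⟩⟩
    · exact ⟨0, fun h => absurd h ha⟩
  choose φ hφ using key2
  have hDφ : ∀ b ≤ n, S.D 0 (φ b) ∈ S.F (k + 1) (P - 1) := fun b hb => S.Dm 0 rfl rfl (hφ b hb).1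
  refine ⟨φ, fun a ha => (hφ a ha).1, ?_, ?_, ?_⟩
  · intro i a ha
    have t1 := hDφ (a + 1) (by omega)
    have t2 : ∀ l ≤ n, φ l ∈ S.F (k + 1) P := fun l hl => S.mono (by omega) (hφ l hl).1
    fin_cases i
    · simp only [dn, Fin.zero_eta, if_true, Fin.isValue]
      refine Submodule.sub_mem _ (m1 0 a ha) (Submodule.sub_mem _ ?_ (t2 _ (by omega)))
      rw [map_smul, map_smul]
      exact Submodule.smul_mem _ _ (S.Xm 0 (by ring) t1)
    · simp only [dn, Fin.mk_one, one_ne_zero, if_false, Fin.isValue]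
      refine Submodule.sub_mem _ (m1 1 a ha) (Submodule.sub_mem _ ?_ (t2 _ (by omega)))
      rw [map_smul, map_smul]
      exact Submodule.smul_mem _ _ (S.Xm 1 (by ring) t1)
  · intro a ha
    have t1 := (hφ (a + 1) (by omega)).2.1
    have t2 := (hφ a (by omega)).2.2
    rw [if_neg (Nat.succ_ne_zero a), Nat.add_sub_cancel] at t1
    refine mem_of (Submodule.sub_mem _ t2 t1) ?_
    simp only [nu, dn, if_true, one_ne_zero, if_false, Fin.isValue, map_sub, map_smul, S.rx]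
    abel
  · intro e a ha
    rcases a with _ | b
    · obtain ⟨a1, a2, a3⟩ := hΦ 0 (by omega)
      obtain ⟨w1, w2, w3⟩ := hφ 0 (by omega)
      rw [if_pos rfl, sub_zero] at w2
      have w4 : S.D e (Φ 0) - S.D e (S.X 1 (φ 0)) ∈ S.F k P := by
        rw [← map_sub]
        exact S.Dm e (by ring) (by ring) w2
      fin_cases e
      · simp only [dps, Fin.zero_eta, if_true, Fin.isValue] at w4 ⊢
        refine mem_of (Submodule.add_mem _ a3 w4) ?_
        rw [S.r10]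
        abel
      · simp only [dps, Fin.mk_one, one_ne_zero, if_false, Fin.isValue] at w4 ⊢
        refine mem_of (Submodule.add_mem _ (Submodule.sub_mem _ (Submodule.add_mem _ a2 w4)
          (Submodule.smul_mem _ S.g⁻¹ w1)) (Submodule.smul_mem _ (S.g⁻¹ * c n) w1)) ?_
        rw [S.r1, smul_sub, smul_add, smul_smul, smul_smul, inv_mul_cancel₀ S.g0, one_smul]
        abel
    · obtain ⟨a1, a2, a3⟩ := hΦ (b + 1) (by omega)
      obtain ⟨w1, w2, w3⟩ := hφ b (by omega)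
      have w4 : S.D e (Φ (b + 1)) - S.D e (S.X 0 (φ b)) ∈ S.F k P := by
        rw [← map_sub]
        exact S.Dm e (by ring) (by ring) w3
      fin_cases e
      · simp only [dps, Fin.zero_eta, if_true, Fin.isValue] at w4 ⊢
        refine mem_of (Submodule.add_mem _ (Submodule.sub_mem _ (Submodule.add_mem _ a3 w4)
          (Submodule.smul_mem _ S.g⁻¹ w1)) (Submodule.smul_mem _ (S.g⁻¹ * c b) w1)) ?_
        rw [S.r0, smul_sub, smul_add, smul_smul, smul_smul, inv_mul_cancel₀ S.g0, one_smul]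
        abel
      · have w5 : c (n - b) • φ (b + 1) ∈ S.F k P := by
          by_cases h : b < n
          · exact Submodule.smul_mem _ _ (hφ (b + 1) (by omega)).1
          · rw [show n - b = 0 by omega, h0, zero_smul]
            exact Submodule.zero_mem _
        simp only [dps, Fin.mk_one, one_ne_zero, if_false, Fin.isValue] at w4 ⊢
        refine mem_of (Submodule.add_mem _ (Submodule.add_mem _ a2 w4) w5) ?_
        rw [S.r01]
        abel

/-- exactness at degree `2` -/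
theorem H2 {k P : ℤ} (hk : -1 ≤ k) (hP : 0 ≤ P + k ∨ k < 0) (n : ℕ)
    (hc : ∀ m, 0 < m → m ≤ n + 1 → c m ≠ 0) (h0 : c 0 = 0) (m : Fin 2 → Fin 2 → ℕ → M)
    (hm : ∀ e i, ∀ a ≤ n, m e i a ∈ S.F (k + 2) P)
    (hν : ∀ e, ∀ a ≤ n, nu S (m e) a ∈ S.F (k + 1) (P + 1))
    (hτ : ∀ a ≤ n, tau S c n m a ∈ S.F (k + 1) P) :
    ∃ (l ψ : Fin 2 → ℕ → M), (∀ i, ∀ a < n, l i a ∈ S.F (k + 2) P) ∧
      (∀ a < n, nu S l a ∈ S.F k (P + 1)) ∧ (∀ e, ∀ a ≤ n + 1, ψ e a ∈ S.F (k + 1) P) ∧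
      (∀ e i, ∀ a ≤ n, m e i a - dk S c n l ψ e i a ∈ S.F (k + 1) P) ∧
      ∀ e, ∀ a ≤ n, nu S (fun i a => m e i a - dk S c n l ψ e i a) a ∈ S.F k (P + 1) := by
  -- symbols of the columns
  have key : ∀ e a, ∃ w, a ≤ n → (w ∈ S.F (k + 2) (P - 1) ∧ m e 1 a - S.X 1 w ∈ S.F (k + 1) P ∧
      m e 0 a - S.X 0 w ∈ S.F (k + 1) P) := by
    intro e a
    by_cases ha : a ≤ n
    · obtain ⟨w, hw, hw1, hw2⟩ := S.kx (k := k + 2) (l := k + 1) (P := P) (Q := P + 1) (R := P - 1)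
        (u := m e 1 a) (v := m e 0 a) (by ring) rfl rfl (hm e 1 a ha) (hm e 0 a ha)
        (mem_of (Submodule.neg_mem _ (hν e a ha)) (by simp only [nu]; abel))
      exact ⟨w, fun _ => ⟨hw, hw1, hw2⟩⟩
    · exact ⟨0, fun h => absurd h ha⟩
  choose Z hZ using key
  let Ω : ℕ → M := fun a => c (n + 1 - a) • Z 0 a - c a • Z 1 (a - 1)
  have hΩ : ∀ a ≤ n + 1, Ω a ∈ S.F (k + 2) (P - 1) := by
    intro a ha
    refine Submodule.sub_mem _ ?_ ?_
    · by_cases h : a ≤ n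
      · exact Submodule.smul_mem _ _ (hZ 0 a h).1
      · rw [show n + 1 - a = 0 by omega, h0, zero_smul]
        exact Submodule.zero_mem _
    · by_cases h : a = 0
      · rw [h, h0, zero_smul]
        exact Submodule.zero_mem _
      · exact Submodule.smul_mem _ _ (hZ 1 (a - 1) (by omega)).1
  have key1 : ∀ a, ∃ u v, a ≤ n + 1 → (u ∈ S.F (k + 1) P ∧ v ∈ S.F (k + 1) P ∧
      Ω a - S.D 0 u + S.D 1 v ∈ S.F (k + 1) (P - 1)) := by
    intro a
    by_cases ha : a ≤ n + 1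
    · obtain ⟨u, hu, v, hv, h⟩ := S.sd (k := k + 2) (l := k + 1) (P := P - 1) (R := P) (by ring)
        (by ring) (by omega) (hΩ a ha)
      refine ⟨u, -v, fun _ => ⟨hu, Submodule.neg_mem _ hv, mem_of h ?_⟩⟩
      rw [map_neg]
      abel
    · exact ⟨0, 0, fun h => absurd h ha⟩
  choose p q hpq using key1
  have hE : ∀ a ≤ n + 1, Ω a - (S.D 0 (p a) - S.D 1 (q a)) ∈ S.F (k + 1) (P - 1) := by
    intro a ha
    exact mem_of (hpq a ha).2.2 (by abel)
  -- `ν''`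
  let ν0 : ℕ → M := fun a => nu S (m 0) a - (S.g • S.X 1 (q (a + 1)) - S.X 0 (q a))
  let ν1 : ℕ → M := fun a => nu S (m 1) a - (S.X 1 (p (a + 1)) - S.g • S.X 0 (p a))
  have hν0 : ∀ a ≤ n, ν0 a ∈ S.F (k + 1) (P + 1) := fun a ha =>
    Submodule.sub_mem _ (hν 0 a ha) (Submodule.sub_mem _
      (Submodule.smul_mem _ _ (S.Xm 1 rfl (hpq (a + 1) (by omega)).2.1)) (S.Xm 0 rfl (hpq a (by omega)).2.1))
  have hν1 : ∀ a ≤ n, ν1 a ∈ S.F (k + 1) (P + 1) := fun a ha =>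
    Submodule.sub_mem _ (hν 1 a ha) (Submodule.sub_mem _ (S.Xm 1 rfl (hpq (a + 1) (by omega)).1)
      (Submodule.smul_mem _ _ (S.Xm 0 rfl (hpq a (by omega)).1)))
  have key2 : ∀ a, ∃ w, a ≤ n → (w ∈ S.F k (P + 2) ∧ ν1 a - S.D 1 w ∈ S.F k (P + 1) ∧
      ν0 a - S.D 0 w ∈ S.F k (P + 1)) := by
    intro a
    by_cases ha : a ≤ n
    · have h1 := hτ a ha
      -- lower order terms of `τ`
      have z00 := (hZ 0 a ha).2.2
      have z11 := (hZ 1 a ha).2.1
      have z01 : c (n - a) • (m 0 1 (a + 1) - S.X 1 (Z 0 (a + 1))) ∈ S.F (k + 1) P := by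
        by_cases h : a < n
        · exact Submodule.smul_mem _ _ (hZ 0 (a + 1) (by omega)).2.1
        · rw [show n - a = 0 by omega, h0, zero_smul]
          exact Submodule.zero_mem _
      have z10 : c a • (m 1 0 (a - 1) - S.X 0 (Z 1 (a - 1))) ∈ S.F (k + 1) P := by
        by_cases h : a = 0
        · rw [h, h0, zero_smul]
          exact Submodule.zero_mem _
        · exact Submodule.smul_mem _ _ (hZ 1 (a - 1) (by omega)).2.2
      have h2 : S.D 1 (nu S (m 0) a) - S.D 0 (nu S (m 1) a) - (S.X 0 (Ω a) - S.X 1 (Ω (a + 1))) ∈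
          S.F (k + 1) P := by
        have t := Submodule.add_mem _ (Submodule.sub_mem _ (Submodule.sub_mem _ (Submodule.add_mem _ h1
          (Submodule.smul_mem _ (c (n + 1 - a)) z00)) z01) z10) (Submodule.smul_mem _ (c (a + 1)) z11)
        refine mem_of t ?_
        simp only [tau, nu, Ω, Nat.add_sub_cancel, show n + 1 - (a + 1) = n - a by omega, map_sub,
          map_smul, smul_sub]
        abel
      have h3 := S.Xm 0 (Q := P) (by ring) (hE a (by omega))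
      have h4 := S.Xm 1 (Q := P) (by ring) (hE (a + 1) (by omega))
      have q1 := (hpq a (by omega)).1
      have q2 := (hpq a (by omega)).2.1
      have q3 := (hpq (a + 1) (by omega)).1
      have q4 := (hpq (a + 1) (by omega)).2.1
      have h5 : S.D 0 (ν1 a) - S.D 1 (ν0 a) ∈ S.F (k + 1) P := by
        have t := Submodule.sub_mem _ (Submodule.sub_mem _ (Submodule.add_mem _ (Submodule.neg_mem _
          (Submodule.add_mem _ h2 h3)) h4) q1) q4
        refine mem_of t ?_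
        have r1 : S.D 1 (S.X 1 (q (a + 1))) = S.g⁻¹ • (S.X 1 (S.D 1 (q (a + 1))) - q (a + 1)) := by
          rw [S.r1, add_sub_cancel_left, smul_smul, inv_mul_cancel₀ S.g0, one_smul]
        have r2 : S.D 0 (S.X 0 (p a)) = S.g⁻¹ • (S.X 0 (S.D 0 (p a)) - p a) := by
          rw [S.r0, add_sub_cancel_left, smul_smul, inv_mul_cancel₀ S.g0, one_smul]
        simp only [ν0, ν1, map_sub, map_smul]
        rw [r1, r2, ← S.r01, ← S.r10]
        simp only [smul_smul, mul_inv_cancel₀ S.g0, one_smul]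
        abel
      obtain ⟨w, hw, hw1, hw2⟩ := S.kd (k := k + 1) (l := k) (P := P + 1) (Q := P) (R := P + 2)
        (u := ν1 a) (v := ν0 a) (by ring) (by ring) (by ring) (hν1 a ha) (hν0 a ha) h5
      exact ⟨w, fun _ => ⟨hw, hw1, hw2⟩⟩
    · exact ⟨0, fun h => absurd h ha⟩
  choose L hL using key2
  have key3 : ∀ a, ∃ u v, a ≤ n → (u ∈ S.F k (P + 1) ∧ v ∈ S.F k (P + 1) ∧
      S.g⁻¹ • L a - (S.X 1 u - S.X 0 v) ∈ S.F (k - 1) (P + 2)) := by
    intro a
    by_cases ha : a ≤ n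
    · obtain ⟨u, hu, v, hv, h⟩ := S.sx (k := k) (l := k - 1) (P := P + 2) (R := P + 1)
        (m := S.g⁻¹ • L a) rfl (by ring) (by omega) (Submodule.smul_mem _ _ (hL a ha).1)
      refine ⟨v, -u, fun _ => ⟨hv, Submodule.neg_mem _ hu, mem_of h ?_⟩⟩
      rw [map_neg]
      abel
    · exact ⟨0, 0, fun h => absurd h ha⟩
  choose A B hAB using key3
  -- `Φ`, `ν`
  let Φ : ℕ → M := fun a => if a = 0 then B 0 else A (a - 1)
  have hΦ : ∀ a ≤ n + 1, Φ a ∈ S.F k (P + 1) := by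
    intro a ha
    simp only [Φ]
    split_ifs with h
    · exact (hAB 0 (by omega)).2.1
    · exact (hAB (a - 1) (by omega)).1
  have key4 : ∀ a, ∃ u v, a < n → (u ∈ S.F k P ∧ v ∈ S.F k P ∧
      A a - B (a + 1) - (S.X 1 u - S.X 0 v) ∈ S.F (k - 1) (P + 1)) := by
    intro a
    by_cases ha : a < n
    · obtain ⟨u, hu, v, hv, h⟩ := S.sx (k := k) (l := k - 1) (P := P + 1) (R := P)
        (m := A a - B (a + 1)) rfl (by ring) (by omega)
        (Submodule.sub_mem _ (hAB a (by omega)).1 (hAB (a + 1) (by omega)).2.1)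
      refine ⟨v, -u, fun _ => ⟨hv, Submodule.neg_mem _ hu, mem_of h ?_⟩⟩
      rw [map_neg]
      abel
    · exact ⟨0, 0, fun h => absurd h ha⟩
  choose G0 G1 hG using key4
  let z : ℕ → M := fun a => -((c (a + 1))⁻¹ • Z 0 (a + 1))
  let l : Fin 2 → ℕ → M := fun i a => S.X i (z a) + (if i = 0 then G0 a else G1 a)
  let ψ : Fin 2 → ℕ → M := fun e a => if e = 0 then q a + S.D 0 (Φ a) else p a + S.D 1 (Φ a)
  have hz : ∀ a < n, z a ∈ S.F (k + 2) (P - 1) := fun a ha =>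
    Submodule.neg_mem _ (Submodule.smul_mem _ _ (hZ 0 (a + 1) (by omega)).1)
  have hνl : ∀ a, nu S l a = S.X 1 (G0 a) - S.X 0 (G1 a) := by
    intro a
    simp only [nu, l, if_true, one_ne_zero, if_false, Fin.isValue, map_add, S.rx]
    abel
  have hνl' : ∀ a < n, nu S l a ∈ S.F k (P + 1) := by
    intro a ha
    rw [hνl]
    exact Submodule.sub_mem _ (S.Xm 1 rfl (hG a ha).1) (S.Xm 0 rfl (hG a ha).2.1)
  have hOm : ∀ a, Om S ψ a = S.D 0 (p a) - S.D 1 (q a) := by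
    intro a
    simp only [Om, ψ, if_true, one_ne_zero, if_false, Fin.isValue, map_add, S.rd]
    abel
  have hψ : ∀ e, ∀ a ≤ n + 1, ψ e a ∈ S.F (k + 1) P := by
    intro e a ha
    fin_cases e
    · exact Submodule.add_mem _ (hpq a ha).2.1 (S.Dm 0 rfl (by ring) (hΦ a ha))
    · exact Submodule.add_mem _ (hpq a ha).1 (S.Dm 1 rfl (by ring) (hΦ a ha))
  have hGm : ∀ i : Fin 2, ∀ a < n, (if i = 0 then G0 a else G1 a) ∈ S.F (k + 1) P := by
    intro i a ha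
    split_ifs
    · exact S.mono (by omega) (hG a ha).1
    · exact S.mono (by omega) (hG a ha).2.1
  have hcG : ∀ i : Fin 2, ∀ a ≤ n, c a • (if i = 0 then G0 (a - 1) else G1 (a - 1)) ∈ S.F (k + 1) P := by
    intro i a ha
    by_cases h : a = 0
    · rw [h, h0, zero_smul]
      exact Submodule.zero_mem _
    · exact Submodule.smul_mem _ _ (hGm i (a - 1) (by omega))
  have hcG' : ∀ i : Fin 2, ∀ a ≤ n, c (n - a) • (if i = 0 then G0 a else G1 a) ∈ S.F (k + 1) P := by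
    intro i a ha
    by_cases h : a < n
    · exact Submodule.smul_mem _ _ (hGm i a h)
    · rw [show n - a = 0 by omega, h0, zero_smul]
      exact Submodule.zero_mem _
  -- the symbols agree
  have C0 : ∀ a ≤ n, Z 0 a + c a • z (a - 1) - (if a = 0 then (c (n + 1))⁻¹ • Om S ψ 0 else 0) ∈
      S.F (k + 1) (P - 1) := by
    intro a ha
    rcases a with _ | a
    · have hl := hc (n + 1) (by omega) le_rfl
      have t := Submodule.smul_mem _ (c (n + 1))⁻¹ (hE 0 (by omega))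
      refine mem_of t ?_
      rw [hOm]
      simp only [Ω, h0, zero_smul, sub_zero, add_zero, if_true, Nat.sub_zero, smul_sub, smul_smul,
        inv_mul_cancel₀ hl, one_smul]
    · have hl := hc (a + 1) (by omega) (by omega)
      refine mem_of (Submodule.zero_mem _) ?_
      simp only [if_neg (Nat.succ_ne_zero a), sub_zero, z, Nat.add_sub_cancel, smul_neg, smul_smul,
        mul_inv_cancel₀ hl, one_smul, add_neg_cancel]
  have C1 : ∀ a ≤ n, Z 1 a + c (n - a) • z a + (c (a + 1))⁻¹ • Om S ψ (a + 1) ∈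
      S.F (k + 1) (P - 1) := by
    intro a ha
    have hl := hc (a + 1) (by omega) (by omega)
    have t := Submodule.neg_mem _ (Submodule.smul_mem _ (c (a + 1))⁻¹ (hE (a + 1) (by omega)))
    refine mem_of t ?_
    rw [hOm]
    simp only [Ω, Nat.add_sub_cancel, show n + 1 - (a + 1) = n - a by omega, smul_sub, smul_smul, z,
      smul_neg, inv_mul_cancel₀ hl, one_smul, mul_comm (c (n - a))]
    abel
  let N : ℕ → M := fun a => if a = 0 then 0 else nu S l (a - 1)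
  have hN : ∀ a ≤ n, N a ∈ S.F k (P + 1) := by
    intro a ha
    simp only [N]
    split_ifs with h
    · exact Submodule.zero_mem _
    · exact hνl' _ (by omega)
  have C2 : ∀ a ≤ n, L a - S.g • (S.X 1 (Φ (a + 1)) - S.X 0 (Φ a) + S.X 0 (N a)) ∈
      S.F (k - 1) (P + 2) := by
    intro a ha
    have t1 := Submodule.smul_mem _ S.g (hAB a ha).2.2
    rcases a with _ | a
    · refine mem_of t1 ?_
      simp only [Φ, N, if_true, zero_add, if_neg one_ne_zero, Nat.sub_self, map_zero, add_zero,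
        smul_sub, smul_smul, mul_inv_cancel₀ S.g0, one_smul]
    · have t2 := Submodule.smul_mem _ S.g (S.Xm 0 (Q := P + 2) (by ring) (hG a (by omega)).2.2)
      refine mem_of (Submodule.add_mem _ t1 t2) ?_
      simp only [Φ, N, if_neg (Nat.succ_ne_zero _), Nat.add_sub_cancel, hνl, map_sub, smul_sub,
        smul_add, smul_smul, mul_inv_cancel₀ S.g0, one_smul]
      abel
  have hcN : ∀ a ≤ n, c a • nu S l (a - 1) ∈ S.F k (P + 1) := by
    intro a ha
    by_cases h : a = 0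
    · rw [h, h0, zero_smul]
      exact Submodule.zero_mem _
    · exact Submodule.smul_mem _ _ (hνl' _ (by omega))
  have hcN' : ∀ a ≤ n, c (n - a) • nu S l a ∈ S.F k (P + 1) := by
    intro a ha
    by_cases h : a < n
    · exact Submodule.smul_mem _ _ (hνl' _ h)
    · rw [show n - a = 0 by omega, h0, zero_smul]
      exact Submodule.zero_mem _
  have eN : ∀ a, (if a = 0 then (0 : M) else S.D 0 (nu S l (a - 1))) = S.D 0 (N a) := by
    intro a
    simp only [N]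
    split_ifs <;> simp
  have eN' : ∀ a, (if a = 0 then (0 : M) else S.g • S.D 1 (nu S l (a - 1))) = S.g • S.D 1 (N a) := by
    intro a
    simp only [N]
    split_ifs <;> simp
  refine ⟨l, ψ, ?_, hνl', hψ, ?_, ?_⟩
  · intro i a ha
    exact Submodule.add_mem _ (S.Xm i (by ring) (hz a ha)) (S.mono (by omega) (hGm i a ha))
  · intro e i a ha
    have t0 := S.Xm i (Q := P) (by ring) (C0 a ha)
    have t1 := S.Xm i (Q := P) (by ring) (C1 a ha)
    have t2 := hcG i a ha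
    have t3 := hcG' i a ha
    have t4 := hψ 0 (a + 1) (by omega)
    have t5 := hψ 0 a (by omega)
    have t6 := hψ 1 (a + 1) (by omega)
    have t7 := hψ 1 a (by omega)
    have t8 : S.D 0 (N a) ∈ S.F (k + 1) P := S.Dm 0 rfl (by ring) (hN a ha)
    have t9 : S.D 1 (N a) ∈ S.F (k + 1) P := S.Dm 1 rfl (by ring) (hN a ha)
    have s0 := (hZ e a ha).2.2
    have s1 := (hZ e a ha).2.1
    fin_cases e
    · fin_cases i
      · refine mem_of (Submodule.sub_mem _ (Submodule.add_mem _ (Submodule.add_mem _ s0 t0) t2)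
          (Submodule.smul_mem _ S.g t4)) ?_
        simp only [dk, l, Fin.zero_eta, Fin.isValue, if_true, map_add, map_sub, map_smul, smul_add]
        abel
      · refine mem_of (Submodule.sub_mem _ (Submodule.add_mem _ (Submodule.add_mem _
          (Submodule.add_mem _ s1 t0) t2) t8) t5) ?_
        simp only [dk, Fin.zero_eta, Fin.mk_one, Fin.isValue, if_true, one_ne_zero, if_false, eN]
        simp only [l, one_ne_zero, if_false, Fin.isValue, map_add, map_sub, map_smul, smul_add]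
        abel
    · fin_cases i
      · refine mem_of (Submodule.sub_mem _ (Submodule.add_mem _ (Submodule.add_mem _ s0 t1) t3) t6) ?_
        simp only [dk, l, Fin.zero_eta, Fin.mk_one, Fin.isValue, if_true, one_ne_zero, if_false,
          map_add, map_sub, map_smul, smul_add]
        abel
      · refine mem_of (Submodule.sub_mem _ (Submodule.add_mem _ (Submodule.add_mem _
          (Submodule.add_mem _ s1 t1) t3) (Submodule.smul_mem _ S.g t9))
          (Submodule.smul_mem _ S.g t7)) ?_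
        simp only [dk, Fin.zero_eta, Fin.mk_one, Fin.isValue, one_ne_zero, if_false, eN']
        simp only [l, one_ne_zero, if_false, Fin.isValue, map_add, map_sub, map_smul, smul_add]
        abel
  · intro e a ha
    obtain ⟨l1, l2, l3⟩ := hL a ha
    have u0 := hΦ a (by omega)
    have u1 := hΦ (a + 1) (by omega)
    fin_cases e
    · have t := S.Dm 0 (l := k) (Q := P + 1) (by ring) (by ring) (C2 a ha)
      refine mem_of (Submodule.add_mem _ (Submodule.sub_mem _ (Submodule.add_mem _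
        (Submodule.add_mem _ l3 (hcN a ha)) u0) (hN a ha)) t) ?_
      have e1 : nu S (dk S c n l ψ 0) a = -(c a • nu S l (a - 1)) + S.g • S.X 1 (ψ 0 (a + 1))
          - S.X 0 (ψ 0 a) + S.X 0 (S.D 0 (N a)) := by
        rw [← eN]
        simp only [nu, dk, if_true, one_ne_zero, if_false, Fin.isValue, map_add, map_sub, map_neg,
          map_smul, S.rx, smul_sub]
        abel
      have e2 : nu S (fun i a => m 0 i a - dk S c n l ψ 0 i a) a =
          nu S (m 0) a - nu S (dk S c n l ψ 0) a := by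
        simp only [nu, map_sub]
        abel
      show nu S (fun i a => m 0 i a - dk S c n l ψ 0 i a) a = _
      rw [e2, e1]
      simp only [ν0, ψ, if_true, map_add, map_sub, map_smul, S.r0, S.r10, smul_add, smul_sub]
      abel
    · have t := S.Dm 1 (l := k) (Q := P + 1) (by ring) (by ring) (C2 a ha)
      refine mem_of (Submodule.add_mem _ (Submodule.sub_mem _ (Submodule.add_mem _ l2 (hcN' a ha)) u1)
        t) ?_
      have e1 : nu S (dk S c n l ψ 1) a = -(c (n - a) • nu S l a) + S.X 1 (ψ 1 (a + 1))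
          - S.g • S.X 0 (ψ 1 a) + S.g • S.X 0 (S.D 1 (N a)) := by
        rw [← map_smul (S.X 0) S.g (S.D 1 (N a)), ← eN']
        simp only [nu, dk, if_true, one_ne_zero, if_false, Fin.isValue, map_add, map_sub, map_neg,
          map_smul, S.rx, smul_sub]
        abel
      have e2 : nu S (fun i a => m 1 i a - dk S c n l ψ 1 i a) a =
          nu S (m 1) a - nu S (dk S c n l ψ 1) a := by
        simp only [nu, map_sub]
        abel
      show nu S (fun i a => m 1 i a - dk S c n l ψ 1 i a) a = _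
      rw [e2, e1]
      simp only [ν1, ψ, one_ne_zero, if_false, Fin.isValue, map_add, map_sub, map_smul, S.r1, S.r01,
        smul_add, smul_sub]
      abel

/-- exactness at degree `3` -/
theorem H3 {k P : ℤ} (hk : -1 ≤ k) (hP : -1 ≤ P + k) (n : ℕ) (h0 : c 0 = 0) (t : ℕ → M)
    (ht : ∀ a ≤ n, t a ∈ S.F (k + 2) P) :
    ∃ m : Fin 2 → Fin 2 → ℕ → M, (∀ e i, ∀ a ≤ n, m e i a ∈ S.F (k + 2) P) ∧
      (∀ e, ∀ a ≤ n, nu S (m e) a ∈ S.F (k + 1) (P + 1)) ∧
      ∀ a ≤ n, t a - tau S c n m a ∈ S.F (k + 1) P := by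
  have key : ∀ a, ∃ u v : M, ∃ m : Fin 2 → Fin 2 → M, a ≤ n →
      (t a - S.D 0 u - S.D 1 v ∈ S.F (k + 1) P ∧ (∀ e i, m e i ∈ S.F (k + 1) P) ∧
        u + (S.X 1 (m 1 0) - S.X 0 (m 1 1)) ∈ S.F k (P + 1) ∧
        v - (S.X 1 (m 0 0) - S.X 0 (m 0 1)) ∈ S.F k (P + 1)) := by
    intro a
    by_cases ha : a ≤ n
    · obtain ⟨u, hu, v, hv, h⟩ := S.sd (k := k + 2) (l := k + 1) (P := P) (R := P + 1) (by ring) rfl
        (by omega) (ht a ha)
      obtain ⟨u1, hu1, u2, hu2, h2⟩ := S.sx (k := k + 1) (l := k) (P := P + 1) (R := P) (by ring)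
        (by ring) (by omega) hu
      obtain ⟨v1, hv1, v2, hv2, h3⟩ := S.sx (k := k + 1) (l := k) (P := P + 1) (R := P) (by ring)
        (by ring) (by omega) hv
      refine ⟨u, v, fun e i => if e = 0 then (if i = 0 then v2 else -v1) else (if i = 0 then -u2 else u1),
        fun _ => ⟨h, ?_, ?_, ?_⟩⟩
      · intro e i
        fin_cases e <;> fin_cases i
        · exact hv2
        · exact Submodule.neg_mem _ hv1
        · exact Submodule.neg_mem _ hu2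
        · exact hu1
      · refine mem_of h2 ?_
        simp only [one_ne_zero, if_false, if_true, Fin.isValue, map_neg]
        abel
      · refine mem_of h3 ?_
        simp only [one_ne_zero, if_false, if_true, Fin.isValue, map_neg]
        abel
    · exact ⟨0, 0, fun _ _ => 0, fun h => absurd h ha⟩
  choose u v m hm using key
  have hm1 : ∀ e i, ∀ a ≤ n, m a e i ∈ S.F (k + 1) P := fun e i a ha => (hm a ha).2.1 e i
  refine ⟨fun e i a => m a e i, fun e i a ha => S.mono (by omega) (hm1 e i a ha), ?_, ?_⟩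
  · intro e a ha
    exact Submodule.sub_mem _ (S.Xm 1 rfl (hm1 e 0 a ha)) (S.Xm 0 rfl (hm1 e 1 a ha))
  · intro a ha
    obtain ⟨h1, h2, h3, h4⟩ := hm a ha
    have t1 := S.Dm 0 (l := k + 1) (Q := P) rfl (by ring) h3
    have t2 := S.Dm 1 (l := k + 1) (Q := P) rfl (by ring) h4
    have z01 : c (n - a) • m (a + 1) 0 1 ∈ S.F (k + 1) P := by
      by_cases h : a < n
      · exact Submodule.smul_mem _ _ (hm1 0 1 (a + 1) (by omega))
      · rw [show n - a = 0 by omega, h0, zero_smul]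
        exact Submodule.zero_mem _
    have z10 : c a • m (a - 1) 1 0 ∈ S.F (k + 1) P := by
      by_cases h : a = 0
      · rw [h, h0, zero_smul]
        exact Submodule.zero_mem _
      · exact Submodule.smul_mem _ _ (hm1 1 0 (a - 1) (by omega))
    refine mem_of (Submodule.add_mem _ (Submodule.sub_mem _ (Submodule.sub_mem _ (Submodule.add_mem _
      (Submodule.add_mem _ (Submodule.add_mem _ h1 t1) t2)
      (Submodule.smul_mem _ (c (n + 1 - a)) (h2 0 0))) z01) z10)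
      (Submodule.smul_mem _ (c (a + 1)) (h2 1 1))) ?_
    simp only [tau, map_add, map_sub]
    abel

end Crest.Agent.R186.LCF442
private theorem rz_406d49e6c2 : type_of% @_root_.Crest.Agent.R186.LCF442.dps.eq_1 := @_root_.Crest.Agent.R186.LCF442.dps.eq_1 -- L58
end

-- ▼ part R186/FlI_442
section

/-!
# Row 186, S0281 base, block LC, `s = 1` (helper442): the literal instance of `LCF442.Fl`

`flW` : any ring with 633's `QW` and PBW; `fl hg : Fl K (Op K)`, `F = Fil g`, `X i`, `D i` = LEFT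
multiplication by 128's operators.
-/

set_option autoImplicit false

namespace Crest.Agent.R186.LCF442

open Crest.Agent.R186.PBWD633 Crest.Agent.R186.PBWD633.QW

section generic

variable {K : Type*} [Field K] {g : K} {R : Type*} [Ring R] [Algebra K R] {W : QW g R}

/-- leading terms: a positive `x`-exponent can be pulled out on the left -/
theorem sxW {k P : ℤ} (hP : P + k ≠ 0 ∨ k < 0) {m : R} (hm : m ∈ W.F k P) :
    ∃ u ∈ W.F k (P - 1), ∃ v ∈ W.F k (P - 1), m - W.x0 * u - W.x1 * v ∈ W.F (k - 1) P := by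
  rw [QW.mem_F] at hm
  obtain ⟨a, ha, b, hb, e, he, h1⟩ := shift_surj (φ := _) (ψ := _) lx0 lx1 (B := S k (P - 1))
    (C := S k (P - 1)) (E := S (k - 1) P) (A := S k P) (by
      rintro ⟨a0, a1, b0, b1⟩ ⟨h1, h2⟩
      simp only [od, dg] at h1 h2
      rcases le_or_gt ((b0 : ℤ) + b1) (k - 1) with h5 | h5
      · exact Or.inr (Or.inr ⟨h5, h2⟩)
      rcases Nat.eq_zero_or_pos a0 with h3 | h3
      · refine Or.inr (Or.inl ⟨(a0, a1 - 1, b0, b1), ⟨?_, ?_⟩, ?_⟩)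
        · simp only [od]; omega
        · simp only [dg]; omega
        · show (a0, a1 - 1 + 1, b0, b1) = (a0, a1, b0, b1)
          rw [Nat.sub_add_cancel (by omega)]
      · refine Or.inl ⟨(a0 - 1, a1, b0, b1), ⟨?_, ?_⟩, ?_⟩
        · simp only [od]; omega
        · simp only [dg]; omega
        · show (a0 - 1 + 1, a1, b0, b1) = (a0, a1, b0, b1)
          rw [Nat.sub_add_cancel (by omega)]) hm
  rw [← QW.mem_F] at ha hb he
  refine ⟨a, ha, b, hb, ?_⟩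
  have h2 : m - W.x0 * a - W.x1 * b = e := by
    rw [h1]
    simp only [LinearMap.mulLeft_apply]
    abel
  rw [h2]
  exact he

/-- a ring with PBW as a filtered left module over itself -/
noncomputable def flW (W : QW g R) (h : W.PBW) (hg : g ≠ 0) : Fl K R where
  g := g
  g0 := hg
  X i := LinearMap.mulLeft K (if i = 0 then W.x0 else W.x1)
  D i := LinearMap.mulLeft K (if i = 0 then W.d0 else W.d1)
  F := W.F
  r0 m := by
    simp only [LinearMap.mulLeft_apply, if_true]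
    rw [← mul_assoc, W.h00, add_mul, one_mul, smul_mul_assoc, mul_assoc]
  r1 m := by
    simp only [LinearMap.mulLeft_apply, one_ne_zero, if_false]
    rw [← mul_assoc, W.h11, add_mul, one_mul, smul_mul_assoc, mul_assoc]
  r01 m := by
    simp only [LinearMap.mulLeft_apply, one_ne_zero, if_false, if_true]
    rw [← mul_assoc, W.h01, mul_assoc]
  r10 m := by
    simp only [LinearMap.mulLeft_apply, one_ne_zero, if_false, if_true]
    rw [← mul_assoc, W.h10, mul_assoc]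
  rx m := by
    simp only [LinearMap.mulLeft_apply, one_ne_zero, if_false, if_true]
    rw [← mul_assoc, W.hx, mul_assoc]
  rd m := by
    simp only [LinearMap.mulLeft_apply, one_ne_zero, if_false, if_true]
    rw [← mul_assoc, W.hd, mul_assoc]
  mono {k l P} hkl := W.F_mono hkl P
  Xm i k P Q m hQ hm := by
    subst hQ
    have h1 : (if i = 0 then W.x0 else W.x1) ∈ W.F 0 1 := by
      split_ifs
      · exact W.x0_mem
      · exact W.x1_mem
    have := W.F_mul hg h1 hm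
    rwa [zero_add, add_comm] at this
  Dm i k l P Q m hl hQ hm := by
    subst hl hQ
    have h1 : (if i = 0 then W.d0 else W.d1) ∈ W.F 1 (-1) := by
      split_ifs
      · exact W.d0_mem
      · exact W.d1_mem
    have := W.F_mul hg h1 hm
    rwa [show 1 + k = k + 1 by ring, show -1 + P = P - 1 by ring] at this
  xinj {k l P Q m} hl hQ hm h1 := by
    subst hQ
    have := QW.strict_x0L h hg hm h1
    rwa [add_sub_cancel_right] at this
  dinj {k l P Q m} hl hQ hm h1 := by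
    subst hQ hl
    have := QW.strict_d0L h hg hm h1
    rwa [sub_add_cancel] at this
  kx {k l P Q R' u v} hl hQ hR hu hv h0 := by
    subst hQ hR
    simp only [LinearMap.mulLeft_apply, one_ne_zero, if_false, if_true] at h0 ⊢
    rw [sub_eq_add_neg, ← mul_neg] at h0
    obtain ⟨a, ha, b, hb, h1⟩ := QW.X3L h hg hu (Submodule.neg_mem _ hv) h0
    rw [add_sub_cancel_right] at ha hb
    have hlk : W.F l P ≤ W.F k P := W.F_mono (by omega) P
    have h2 : W.x0 * (u - a) + W.x1 * (-v - b) = 0 := by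
      rw [mul_sub, mul_sub, sub_add_sub_comm, h1, sub_self]
    obtain ⟨e, he, h3, h4⟩ := QW.X2L h hg (Submodule.sub_mem _ hu (hlk ha))
      (Submodule.sub_mem _ (Submodule.neg_mem _ hv) (hlk hb)) h2
    refine ⟨e, he, ?_, ?_⟩
    · rw [← h3, sub_sub_cancel]
      exact ha
    · have h5 : v - W.x0 * e = -b := by
        rw [sub_eq_add_neg, ← h4]
        abel
      rw [h5]
      exact Submodule.neg_mem _ hb
  kd {k l P Q R' u v} hl hQ hR hu hv h0 := by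
    subst hQ hR hl
    simp only [LinearMap.mulLeft_apply, one_ne_zero, if_false, if_true] at h0 ⊢
    rw [sub_eq_add_neg (W.d0 * u), ← mul_neg] at h0
    obtain ⟨a, ha, b, hb, h1⟩ := QW.D3L h hg hu (Submodule.neg_mem _ hv) h0
    rw [sub_add_cancel] at ha hb
    have hlk : W.F (k - 1) P ≤ W.F k P := W.F_mono (by omega) P
    have h2 : W.d0 * (u - a) + W.d1 * (-v - b) = 0 := by
      rw [mul_sub, mul_sub, sub_add_sub_comm, h1, sub_self]
    obtain ⟨e, he, h3, h4⟩ := QW.D2L h hg (Submodule.sub_mem _ hu (hlk ha))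
      (Submodule.sub_mem _ (Submodule.neg_mem _ hv) (hlk hb)) h2
    refine ⟨e, he, ?_, ?_⟩
    · rw [← h3, sub_sub_cancel]
      exact ha
    · have h5 : v - W.d0 * e = -b := by
        rw [sub_eq_add_neg, ← h4]
        abel
      rw [h5]
      exact Submodule.neg_mem _ hb
  sx {k l P R' m} hl hR hP hm := by
    subst hl hR
    simp only [LinearMap.mulLeft_apply, one_ne_zero, if_false, if_true]
    exact sxW hP hm
  sd {k l P R' m} hl hR hk hm := by
    subst hl hR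
    simp only [LinearMap.mulLeft_apply, one_ne_zero, if_false, if_true]
    rcases lt_or_ge k 0 with h0 | h0
    · refine ⟨0, Submodule.zero_mem _, 0, Submodule.zero_mem _, ?_⟩
      rw [W.F_neg h0] at hm
      rw [(Submodule.mem_bot K).1 hm, mul_zero, mul_zero, sub_zero, sub_zero]
      exact Submodule.zero_mem _
    · obtain ⟨a, ha, b, hb, p, hp, h1⟩ := QW.D1L hg hm
      refine ⟨a, ha, b, hb, ?_⟩
      have h2 : m - W.d0 * a - W.d1 * b = p := by
        rw [h1]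
        abel
      rw [h2]
      exact W.F_mono (by omega) P hp

end generic

open Crest.Agent.R186.B281 Crest.Agent.R186.FilPBW633

variable {K : Type} [Field K] {g : K}

/-- THE INSTANCE: 128's operators as a filtered left module -/
noncomputable def fl (hg : Gen g) : Fl K (Op K) := flW (W0 hg) (PBW0 hg) hg.1

theorem fl_F (hg : Gen g) (k P : ℤ) : (fl hg).F k P = Fil g k P := (Fil_eq_F hg k P).symm
theorem fl_g (hg : Gen g) : (fl hg).g = g := rfl

end Crest.Agent.R186.LCF442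
end

-- ▼ part R186/LCI1_442
section

/-!
# Row 186, S0281 base, LCQ `s = 1` (helper442): instances of 371's `Pair` and `Onto`

For every `b`: `L k P = F (k - b) P`, `L' k P = F (k - b - 1) P`; literal on 128's `Fil`:
`pairQ1 ontoQ1` (`Fil g (k-1) P`, `Fil g (k-2) P`), `pairQ2 ontoQ2` (`Fil g k P`, `Fil g (k-1) P`).
-/

set_option autoImplicit false

namespace Crest.Agent.R186.LCI1_442

open Crest.Agent.R186.LCF442 Crest.Agent.R186.LCF1_371

section generic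

variable {K M : Type*} [Field K] [AddCommGroup M] [Module K M]

theorem pairOf (S : Fl K M) (b : ℤ) (s s' : ℤ → ℤ) (hs : ∀ k, s k = k - b)
    (hs' : ∀ k, s' k = k - b - 1) :
    Pair S.g S.X S.D (fun k P => S.F (s k) P) (fun k P => S.F (s' k) P) where
  g0 := S.g0
  xx := S.rx
  dd := S.rd
  x0d1 := S.r01
  x1d0 := S.r10
  xd i u := by
    fin_cases i
    · exact S.r0 u
    · exact S.r1 u
  le k P := S.mono (by rw [hs, hs']; omega)
  up k k' P h := S.mono (by rw [hs, hs', h]; omega)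
  mx i k P P' h u hu := S.Xm i h hu
  mx' i k P P' h u hu := S.Xm i h hu
  md i k P k' P' hk hP u hu := S.Dm i (by rw [hs, hs, hk]; ring) hP hu
  md' i k P k' P' hk hP u hu := S.Dm i (by rw [hs', hs', hk]; ring) hP hu
  xi k P P' h u hu hx := S.xinj (l := s' k) (by rw [hs, hs']) h hu hx
  xk k P P' P'' h h'' u hu v hv hx := by
    have h1 : S.X 0 v - S.X 1 u ∈ S.F (s' k) P' := by
      rw [← neg_sub]
      exact Submodule.neg_mem _ hx
    obtain ⟨w, hw, h2, h3⟩ := S.kx (l := s' k) (by rw [hs, hs']) h h'' hv hu h1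
    exact ⟨w, hw, h3, h2⟩
  di k P k' P' hk hP u hu hx := by
    have h1 : s' k' = s k := by rw [hs, hs', hk]; ring
    have h2 : S.D 0 u ∈ S.F (s k) P' := by rw [← h1]; exact hx
    exact S.dinj (by rw [hs, hs']) hP hu h2
  dk k P k' P' k'' P'' hk hP hk'' hP'' u hu v hv hx := by
    have h1 : s' k' = s k := by rw [hs, hs', hk]; ring
    have h2 : S.D 0 u - S.D 1 v ∈ S.F (s k) P' := by rw [← h1]; exact hx
    have h3 : s k'' = s' k := by rw [hs, hs', hk'']; ring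
    obtain ⟨w, hw, h4, h5⟩ := S.kd (l := s' k) (by rw [hs, hs']) hP hP'' hu hv h2
    refine ⟨w, ?_, h4, h5⟩
    show w ∈ S.F (s k'') P''
    rw [h3]
    exact hw

theorem ontoOf (S : Fl K M) (b : ℤ) (s s' : ℤ → ℤ) (hs : ∀ k, s k = k - b)
    (hs' : ∀ k, s' k = k - b - 1) (hb0 : 0 ≤ b) (hb1 : b ≤ 1) {e : ℤ} (he : 0 ≤ e) :
    Onto S.X S.D (fun k P => S.F (s k) P) (fun k P => S.F (s' k) P) e where
  ds P P' _ hP' u hu := by
    have h1 : s 1 = s' 2 := by rw [hs, hs']; ring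
    obtain ⟨v, hv, w, hw, h2⟩ := S.sd (l := s' 2) (by rw [hs, hs']) hP' (by rw [hs]; omega) hu
    refine ⟨v, ?_, w, ?_, ?_⟩
    · show v ∈ S.F (s 1) P'
      rw [h1]; exact hv
    · show w ∈ S.F (s 1) P'
      rw [h1]; exact hw
    · rw [← sub_sub]; exact h2
  xs u hu := by
    obtain ⟨v, hv, w, hw, h2⟩ := S.sx (l := s' 0) (R := e + 1) (by rw [hs, hs']) (by ring)
      (by rw [hs]; omega) hu
    refine ⟨v, hv, w, hw, ?_⟩
    rw [← sub_sub]; exact h2
  lx0 u hu := by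
    obtain ⟨v, hv, w, hw, h2⟩ := S.sx (l := s' 0) (R := e) (by rw [hs, hs']) (by ring)
      (by rw [hs]; omega) hu
    have h3 : S.F (s 0) e ≤ S.F (s' 2) e := S.mono (by rw [hs, hs']; omega)
    refine ⟨w, h3 hw, -v, Submodule.neg_mem _ (h3 hv), ?_⟩
    have h4 : u - (S.X 1 w - S.X 0 (-v)) = u - S.X 0 v - S.X 1 w := by
      rw [map_neg]; abel
    rw [h4]
    exact h2
  lx1 u hu := by
    obtain ⟨v, hv, w, hw, h2⟩ := S.sx (l := s' 1) (R := e) (by rw [hs, hs']) (by ring)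
      (by rw [hs]; omega) hu
    have h3 : S.F (s 1) e ≤ S.F (s' 2) e := S.mono (by rw [hs, hs']; omega)
    refine ⟨w, h3 hw, -v, Submodule.neg_mem _ (h3 hv), ?_⟩
    have h4 : u - (S.X 1 w - S.X 0 (-v)) = u - S.X 0 v - S.X 1 w := by
      rw [map_neg]; abel
    rw [h4]
    exact h2

end generic

open Crest.Agent.R186.B281

variable {K : Type} [Field K] {g : K}

theorem fl_X (hg : Gen g) : (fl hg).X = fun i => LinearMap.mulLeft K (X i) := by
  funext i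
  fin_cases i <;> rfl

theorem fl_D (hg : Gen g) : (fl hg).D = fun i => LinearMap.mulLeft K (D g i) := by
  funext i
  fin_cases i <;> rfl

/-- `Q1` at `s = 1`: `L k P = Fil g (k-1) P`, `L' k P = Fil g (k-2) P` -/
theorem pairQ1 (hg : Gen g) : Pair (U := Op K) g (fun i => LinearMap.mulLeft K (X i))
    (fun i => LinearMap.mulLeft K (D g i)) (fun k P => Fil g (k - 1) P)
    (fun k P => Fil g (k - 2) P) := by
  have h := pairOf (fl hg) 1 (fun k => k - 1) (fun k => k - 2) (fun k => rfl) (fun k => by ring)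
  simp only [fl_F, fl_X, fl_D, fl_g] at h
  exact h

theorem ontoQ1 (hg : Gen g) {e : ℤ} (he : 0 ≤ e) :
    Onto (U := Op K) (fun i => LinearMap.mulLeft K (X i))
    (fun i => LinearMap.mulLeft K (D g i)) (fun k P => Fil g (k - 1) P)
    (fun k P => Fil g (k - 2) P) e := by
  have h := ontoOf (fl hg) 1 (fun k => k - 1) (fun k => k - 2) (fun k => rfl) (fun k => by ring)
    (by norm_num) (by norm_num) he
  simp only [fl_F, fl_X, fl_D] at h
  exact h

/-- `Q2` at `s = 1`: `L k P = Fil g k P`, `L' k P = Fil g (k-1) P` -/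
theorem pairQ2 (hg : Gen g) : Pair (U := Op K) g (fun i => LinearMap.mulLeft K (X i))
    (fun i => LinearMap.mulLeft K (D g i)) (fun k P => Fil g k P)
    (fun k P => Fil g (k - 1) P) := by
  have h := pairOf (fl hg) 0 (fun k => k) (fun k => k - 1) (fun k => by ring) (fun k => by ring)
  simp only [fl_F, fl_X, fl_D, fl_g] at h
  exact h

theorem ontoQ2 (hg : Gen g) {e : ℤ} (he : 0 ≤ e) :
    Onto (U := Op K) (fun i => LinearMap.mulLeft K (X i))
    (fun i => LinearMap.mulLeft K (D g i)) (fun k P => Fil g k P)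
    (fun k P => Fil g (k - 1) P) e := by
  have h := ontoOf (fl hg) 0 (fun k => k) (fun k => k - 1) (fun k => by ring) (fun k => by ring)
    le_rfl (by norm_num) he
  simp only [fl_F, fl_X, fl_D] at h
  exact h

end Crest.Agent.R186.LCI1_442
end

-- ▼ part R186/LCI1_633
section

/-!
# Row 186, S0281 base, LCQ `s = 1` (helper633): the ROW pairs `Q3`, `Q4` on `Fin 2 → Op K`

* `Q3` : `L k P = {v | v i ∈ Fil (k-1) P, v 0 X 0 + v 1 X 1 ∈ Fil (k-2) (P+1)}` (the `K₁(-1)`-rows),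
  `L' k P = (Fil (k-2) P)²`;
* `Q4` : `L k P = {v | v i ∈ Fil k P, v 0 X 0 + v 1 X 1 ∈ Fil (k-2) (P+1)}` (the `K₂`-rows),
  `L' k P =` the `K₁(-1)`-rows.

`pairQ3, ontoQ3, pairQ4, ontoQ4` = 371's `Pair`, `Onto` for every literal form of the maps and of
the families.
-/

set_option autoImplicit false

namespace Crest.Agent.R186.LCI1_633

open B281 B281.Sym461 LCF1_371

variable {K : Type} [Field K] {g : K}

/-! ### casts -/

theorem cF {k k' P P' : ℤ} (h : k = k') (h' : P = P') {u : Op K} (hu : u ∈ Fil g k P) :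
    u ∈ Fil g k' P' := by subst h h'; exact hu

theorem cR {k k' P P' : ℤ} (h : k = k') (h' : P = P') {u : Fin 2 → Op K} (hu : u ∈ Rw g k P) :
    u ∈ Rw g k' P' := by subst h h'; exact hu

theorem cP {k k' P P' : ℤ} (h : k = k') (h' : P = P') {u : Fin 2 → Op K} (hu : u ∈ Fp g k P) :
    u ∈ Fp g k' P' := by subst h h'; exact hu

/-! ### `Q3` -/

/-- the `K₁(-1)`-rows -/
noncomputable def L3 (g : K) (k P : ℤ) : Submodule K (Fin 2 → Op K) := Rw g (k - 1) P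

/-- `(Fil (k-2))²` -/
noncomputable def M3 (g : K) (k P : ℤ) : Submodule K (Fin 2 → Op K) := Fp g (k - 1 - 1) P

theorem mem_L3 {k P : ℤ} {v : Fin 2 → Op K} : v ∈ L3 g k P ↔ v 0 ∈ Fil g (k - 1) P ∧
    v 1 ∈ Fil g (k - 1) P ∧ v 0 * X 0 + v 1 * X 1 ∈ Fil g (k - 2) (P + 1) := by
  rw [L3, mem_Rw, show k - 1 - 1 = k - 2 by ring]

theorem mem_M3 {k P : ℤ} {v : Fin 2 → Op K} : v ∈ M3 g k P ↔ v 0 ∈ Fil g (k - 2) P ∧
    v 1 ∈ Fil g (k - 2) P := by
  rw [M3, mem_Fp, show k - 1 - 1 = k - 2 by ring]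

theorem pair3 (hg : Gen g) : Pair (U := Fin 2 → Op K) g (fun i => lp (X i)) (fun i => lp (D g i))
    (L3 g) (M3 g) where
  g0 := hg.1
  xx u := (rowPr hg).xx u
  dd u := funext fun j => by
    show D g 0 * (D g 1 * u j) = D g 1 * (D g 0 * u j)
    rw [← mul_assoc, ← mul_assoc, D_comm g 0 1]
  x0d1 u := (rowPr hg).xd1 0 1 u (by decide)
  x1d0 u := (rowPr hg).xd1 1 0 u (by decide)
  xd i u := (rowPr hg).xd0 i u
  le k P u hu := (rowPr hg).le (k - 1) P u hu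
  up := by
    rintro k _ P rfl u hu
    exact cP (by ring) rfl ((rowPr hg).h (k - 1) P u hu)
  mx := by
    rintro i k P _ rfl u hu
    exact (rowPr hg).xL i (k - 1) P u hu
  mx' := by
    rintro i k P _ rfl u hu
    exact (rowPr hg).xL' i (k - 1) P u hu
  md := by
    rintro i k P _ _ rfl rfl u hu
    exact cR (by ring) rfl ((rowPr hg).dL i (k - 1) P u hu)
  md' := by
    rintro i k P _ _ rfl rfl u hu
    exact cP (by ring) rfl ((rowPr hg).dL' i (k - 1) P u hu)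
  xi := by
    rintro k P _ rfl u hu h
    exact mem_Fp.2 ⟨XI hg 0 hu.1 (mem_Fp.1 h).1, XI hg 0 hu.2.1 (mem_Fp.1 h).2⟩
  xk := by
    rintro k P _ _ rfl rfl u hu v hv h
    exact (rowPr hg).XK (k - 1) P u v hu hv h
  di := by
    rintro k P _ _ rfl rfl u hu h
    exact (rowPr hg).DI (k - 1) P u hu (cP (by ring) rfl h)
  dk := by
    rintro k P _ _ _ _ rfl rfl rfl rfl u hu v hv h
    obtain ⟨w, hw, h1, h2⟩ := (rowPr hg).DK (k - 1) P u v hu hv (cP (by ring) rfl h)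
    exact ⟨w, hw, h1, h2⟩

theorem onto3 (hg : Gen g) {e : ℤ} (he : 0 ≤ e) : Onto (U := Fin 2 → Op K) (fun i => lp (X i))
    (fun i => lp (D g i)) (L3 g) (M3 g) e where
  ds := by
    rintro P _ _ rfl u hu
    obtain ⟨v, hv, w, hw, h⟩ := rowPr_DS hg (k := 1) (by norm_num) P u (cR (by norm_num) rfl hu)
    refine ⟨v, cR (by norm_num) rfl hv, -w, Submodule.neg_mem _ (cR (by norm_num) rfl hw), ?_⟩
    have h2 := cP (k' := 2 - 1 - 1) (by norm_num) (rfl : P = P) h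
    rw [map_neg, ← sub_eq_add_neg]
    exact h2
  xs := by
    intro u hu
    have hu' : u = 0 := by
      funext j
      fin_cases j
      · exact Fil_neg hg (by norm_num) hu.1
      · exact Fil_neg hg (by norm_num) hu.2.1
    subst hu'
    exact ⟨0, Submodule.zero_mem _, 0, Submodule.zero_mem _, by
      rw [map_zero, map_zero, add_zero, sub_zero]; exact Submodule.zero_mem _⟩
  lx0 := by
    intro u hu
    have hu' : u = 0 := by
      funext j
      fin_cases j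
      · exact Fil_neg hg (by norm_num) hu.1
      · exact Fil_neg hg (by norm_num) hu.2.1
    subst hu'
    exact ⟨0, Submodule.zero_mem _, 0, Submodule.zero_mem _, by
      rw [map_zero, map_zero, sub_zero, sub_zero]; exact Submodule.zero_mem _⟩
  lx1 := by
    intro u hu
    obtain ⟨v, hv, w, hw, h⟩ := rowPr_LX hg (b := 0) (k := 1) (P := e) (by norm_num)
      (Or.inl (by omega)) u (cR (by norm_num) rfl hu)
    exact ⟨v, cP (by norm_num) rfl hv, w, cP (by norm_num) rfl hw, cP (by norm_num) rfl h⟩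

/-! ### `Q4` -/

/-- the `K₂`-rows -/
noncomputable def L4 (g : K) (k P : ℤ) : Submodule K (Fin 2 → Op K) where
  carrier := {v | v 0 ∈ Fil g k P ∧ v 1 ∈ Fil g k P ∧ v 0 * X 0 + v 1 * X 1 ∈ Fil g (k - 2) (P + 1)}
  zero_mem' := ⟨zero_mem _, zero_mem _, by
    show (0 : Op K) * X 0 + 0 * X 1 ∈ _
    rw [zero_mul, zero_mul, add_zero]
    exact zero_mem _⟩
  add_mem' := fun {v w} hv hw => ⟨add_mem hv.1 hw.1, add_mem hv.2.1 hw.2.1, by
    have := add_mem hv.2.2 hw.2.2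
    show (v 0 + w 0) * X 0 + (v 1 + w 1) * X 1 ∈ _
    convert this using 1
    rw [add_mul, add_mul]
    abel⟩
  smul_mem' := fun t v hv => ⟨Submodule.smul_mem _ t hv.1, Submodule.smul_mem _ t hv.2.1, by
    have := Submodule.smul_mem _ t hv.2.2
    show (t • v 0) * X 0 + (t • v 1) * X 1 ∈ _
    convert this using 1
    rw [smul_mul_assoc, smul_mul_assoc, smul_add]⟩

theorem mem_L4 {k P : ℤ} {v : Fin 2 → Op K} : v ∈ L4 g k P ↔ v 0 ∈ Fil g k P ∧
    v 1 ∈ Fil g k P ∧ v 0 * X 0 + v 1 * X 1 ∈ Fil g (k - 2) (P + 1) := Iff.rfl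

/-- membership in `L'` for elements of `L` only concerns the entries -/
theorem L3_of_L4 {k P : ℤ} {v : Fin 2 → Op K} (h : v ∈ L4 g k P) (h0 : v 0 ∈ Fil g (k - 1) P)
    (h1 : v 1 ∈ Fil g (k - 1) P) : v ∈ L3 g k P := mem_L3.2 ⟨h0, h1, h.2.2⟩

theorem kap_mem4 (hg : Gen g) {k P : ℤ} {e : Op K} (he : e ∈ Fil g k (P - 1)) :
    kap e ∈ L4 g k P := by
  have h0 := mulX_mem hg 0 he
  have h1 := mulX_mem hg 1 he
  rw [sub_add_cancel] at h0 h1
  refine ⟨h1, neg_mem h0, ?_⟩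
  rw [kap_zero', kap_one', kap_c e (X 0) (X 1) (X_comm 0 1)]
  exact zero_mem _

theorem kap_gen4 (hg : Gen g) {k P : ℤ} {u : Fin 2 → Op K} (hu : u ∈ L4 g k P) :
    ∃ e ∈ Fil g k (P - 1), u - kap e ∈ Fp g (k - 2) P := by
  obtain ⟨a, ha, b, hb, e, he, h1, h2⟩ := kgen hg 2 k P (u 0) (u 1) hu.1 hu.2.1 (by
    have := hu.2.2
    push_cast
    exact this)
  push_cast at ha hb
  refine ⟨e, he, ?_⟩
  rw [mem_Fp, Pi.sub_apply, Pi.sub_apply, kap_zero', kap_one', h1, h2]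
  constructor
  · have h3 : a + e * X 1 - e * X 1 = a := by abel
    rw [h3]; exact ha
  · have h3 : b - e * X 0 - -(e * X 0) = b := by abel
    rw [h3]; exact hb

theorem X4 (hg : Gen g) (i : Fin 2) {k P : ℤ} {u : Fin 2 → Op K} (hu : u ∈ L4 g k P) :
    lp (X i) u ∈ L4 g k (P + 1) := by
  rw [mem_L4] at hu ⊢
  refine ⟨X_mem hg i hu.1, X_mem hg i hu.2.1, ?_⟩
  rw [lp_apply, lp_apply, c_left]
  exact X_mem hg i hu.2.2

theorem D4 (hg : Gen g) (i : Fin 2) {k P : ℤ} {u : Fin 2 → Op K} (hu : u ∈ L4 g k P) :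
    lp (D g i) u ∈ L4 g (k + 1) (P - 1) := by
  rw [mem_L4] at hu ⊢
  refine ⟨D_mem hg i hu.1, D_mem hg i hu.2.1, ?_⟩
  rw [lp_apply, lp_apply, c_left]
  exact cF (by ring) (by ring) (D_mem hg i hu.2.2)

theorem L3_le (hg : Gen g) {k P : ℤ} {u : Fin 2 → Op K} (hu : u ∈ L3 g k P) : u ∈ L4 g k P := by
  rw [mem_L3] at hu
  exact ⟨Fil_mono hg (by omega) P hu.1, Fil_mono hg (by omega) P hu.2.1, hu.2.2⟩

/-- right multiplication by `x_i` is strict -/
theorem XRs (hg : Gen g) (i : Fin 2) {k P l Q : ℤ} {e : Op K} (he : e ∈ Fil g l Q)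
    (h : e * X i ∈ Fil g k (P + 1)) : e ∈ Fil g k P :=
  cF rfl (by ring) (FilPBW633.strict_XR hg i he h)

theorem Fp_mono (hg : Gen g) {k l : ℤ} (h : k ≤ l) {P : ℤ} {u : Fin 2 → Op K}
    (hu : u ∈ Fp g k P) : u ∈ Fp g l P :=
  mem_Fp.2 ⟨Fil_mono hg h P (mem_Fp.1 hu).1, Fil_mono hg h P (mem_Fp.1 hu).2⟩

section ring

variable {R : Type*} [Ring R]

theorem r1 (s t e f y : R) : s * (e * y) - t * (f * y) = (s * e - t * f) * y := by noncomm_ring

end ring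


theorem kap_sub1 (e s a : Op K) : kap e - lp s (kap a) = kap (e - s * a) := by
  have h := kap_lin e s 0 a 0
  have h0 : lp (0 : Op K) (kap (0 : Op K)) = 0 := by
    funext j
    show (0 : Op K) * _ = 0
    rw [zero_mul]
  rw [h0, sub_zero, mul_zero, sub_zero] at h
  exact h.symm

theorem pair4 (hg : Gen g) : Pair (U := Fin 2 → Op K) g (fun i => lp (X i)) (fun i => lp (D g i))
    (L4 g) (L3 g) where
  g0 := hg.1
  xx u := (rowPr hg).xx u
  dd u := (pair3 hg).dd u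
  x0d1 u := (rowPr hg).xd1 0 1 u (by decide)
  x1d0 u := (rowPr hg).xd1 1 0 u (by decide)
  xd i u := (rowPr hg).xd0 i u
  le k P u hu := L3_le hg hu
  up := by
    rintro k _ P rfl u hu
    refine mem_L3.2 ⟨cF (by ring) rfl hu.1, cF (by ring) rfl hu.2.1, ?_⟩
    exact Fil_mono hg (by omega) _ hu.2.2
  mx := by
    rintro i k P _ rfl u hu
    exact X4 hg i hu
  mx' := (pair3 hg).mx
  md := by
    rintro i k P _ _ rfl rfl u hu
    exact D4 hg i hu
  md' := (pair3 hg).md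
  xi := by
    rintro k P _ rfl u hu h
    rw [mem_L3] at h
    exact L3_of_L4 hu (XI hg 0 hu.1 h.1) (XI hg 0 hu.2.1 h.2.1)
  xk := by
    rintro k P _ _ rfl rfl u hu v hv h
    obtain ⟨e, he, he'⟩ := kap_gen4 hg hu
    obtain ⟨f, hf, hf'⟩ := kap_gen4 hg hv
    rw [mem_L3] at h
    -- the symbol
    have h1 : X 1 * e - X 0 * f ∈ Fil g (k - 1) P := by
      have he0 := X_mem hg 1 (mem_Fp.1 he').1
      have hf0 := X_mem hg 0 (mem_Fp.1 hf').1
      have h2 : X 1 * (u - kap e) 0 - X 0 * (v - kap f) 0 ∈ Fil g (k - 1) (P + 1) :=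
        Fil_mono hg (by omega) _ (sub_mem he0 hf0)
      have h3 := sub_mem h.1 h2
      have h4 : lp (X 1) u 0 - lp (X 0) v 0 - (X 1 * (u - kap e) 0 - X 0 * (v - kap f) 0) =
          (X 1 * e - X 0 * f) * X 1 := by
        rw [← r1]
        show X 1 * u 0 - X 0 * v 0 - (X 1 * (u 0 - e * X 1) - X 0 * (v 0 - f * X 1)) = _
        rw [mul_sub, mul_sub]
        abel
      have h5 : (X 1 * e - X 0 * f) * X 1 ∈ Fil g (k - 1) (P + 1) := by
        rw [← h4]; exact h3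
      exact XRs hg 1 (l := k) (Q := P) (sub_mem (cF rfl (by ring) (X_mem hg 1 he))
        (cF rfl (by ring) (X_mem hg 0 hf))) h5
    obtain ⟨w, hw, hw1, hw2⟩ := XK hg he hf (cF rfl (by ring) h1)
    have hk : kap w ∈ L4 g k (P - 1) := kap_mem4 hg hw
    have aux : ∀ (u : Fin 2 → Op K) (e : Op K) (i : Fin 2), u ∈ L4 g k P →
        u - kap e ∈ Fp g (k - 2) P → e - X i * w ∈ Fil g (k - 1) (P - 1) →
        u - lp (X i) (kap w) ∈ L3 g k P := by
      intro u e i hu he' hw1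
      have h6 : u - lp (X i) (kap w) ∈ L4 g k P :=
        Submodule.sub_mem _ hu (by
          have := X4 hg i hk
          rwa [sub_add_cancel] at this)
      have h7 : u - lp (X i) (kap w) = (u - kap e) + kap (e - X i * w) := by
        rw [← kap_sub1]; abel
      have h8 : (u - kap e) + kap (e - X i * w) ∈ Fp g (k - 1) P :=
        Submodule.add_mem _ (Fp_mono hg (by omega) he') (cP rfl (by ring) (kap_Fp hg hw1))
      rw [← h7, mem_Fp] at h8
      exact L3_of_L4 h6 h8.1 h8.2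
    exact ⟨kap w, hk, aux u e 0 hu he' hw1, aux v f 1 hv hf' hw2⟩
  di := by
    rintro k P _ _ rfl rfl u hu h
    rw [mem_L3, add_sub_cancel_right] at h
    have h0 : D g 0 * u 0 ∈ Fil g (k - 1 + 1) (P - 1) := cF (by ring) rfl h.1
    have h1 : D g 0 * u 1 ∈ Fil g (k - 1 + 1) (P - 1) := cF (by ring) rfl h.2.1
    exact L3_of_L4 hu (DI hg 0 hu.1 h0) (DI hg 0 hu.2.1 h1)
  dk := by
    rintro k P _ _ _ _ rfl rfl rfl rfl u hu v hv h
    obtain ⟨e, he, he'⟩ := kap_gen4 hg hu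
    obtain ⟨f, hf, hf'⟩ := kap_gen4 hg hv
    rw [mem_L3, add_sub_cancel_right] at h
    have h1 : D g 0 * e - D g 1 * f ∈ Fil g k (P - 1 - 1) := by
      have he0 := D_mem hg 0 (mem_Fp.1 he').1
      have hf0 := D_mem hg 1 (mem_Fp.1 hf').1
      have h2 : D g 0 * (u - kap e) 0 - D g 1 * (v - kap f) 0 ∈ Fil g k (P - 1) :=
        Fil_mono hg (by omega) _ (sub_mem he0 hf0)
      have h3 := sub_mem h.1 h2
      have h4 : lp (D g 0) u 0 - lp (D g 1) v 0 -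
          (D g 0 * (u - kap e) 0 - D g 1 * (v - kap f) 0) = (D g 0 * e - D g 1 * f) * X 1 := by
        rw [← r1]
        show D g 0 * u 0 - D g 1 * v 0 - (D g 0 * (u 0 - e * X 1) - D g 1 * (v 0 - f * X 1)) = _
        rw [mul_sub, mul_sub]
        abel
      have h5 : (D g 0 * e - D g 1 * f) * X 1 ∈ Fil g k (P - 1 - 1 + 1) := by
        rw [← h4]; exact cF rfl (by ring) h3
      exact XRs hg 1 (l := k + 1) (Q := P - 1 - 1) (sub_mem (D_mem hg 0 he) (D_mem hg 1 hf)) h5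
    obtain ⟨w, hw, hw1, hw2⟩ := DK hg he hf h1
    have hw' : w ∈ Fil g (k - 1) (P + 1 - 1) := cF rfl (by ring) hw
    have hk : kap w ∈ L4 g (k - 1) (P + 1) := kap_mem4 hg hw'
    have aux : ∀ (u : Fin 2 → Op K) (e : Op K) (i : Fin 2), u ∈ L4 g k P →
        u - kap e ∈ Fp g (k - 2) P → e - D g i * w ∈ Fil g (k - 1) (P - 1) →
        u - lp (D g i) (kap w) ∈ L3 g k P := by
      intro u e i hu he' hw1
      have h6 : u - lp (D g i) (kap w) ∈ L4 g k P :=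
        Submodule.sub_mem _ hu (by
          have := D4 hg i hk
          rwa [sub_add_cancel, add_sub_cancel_right] at this)
      have h7 : u - lp (D g i) (kap w) = (u - kap e) + kap (e - D g i * w) := by
        rw [← kap_sub1]; abel
      have h8 : (u - kap e) + kap (e - D g i * w) ∈ Fp g (k - 1) P :=
        Submodule.add_mem _ (Fp_mono hg (by omega) he') (cP rfl (by ring) (kap_Fp hg hw1))
      rw [← h7, mem_Fp] at h8
      exact L3_of_L4 h6 h8.1 h8.2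
    exact ⟨kap w, hk, aux u e 1 hu he' hw1, aux v f 0 hv hf' hw2⟩

/-! ### the onto facts for `Q4` -/

/-- polynomials commute with `x_i` -/
theorem comm0 {P : ℤ} {T : Op K} (hT : T ∈ Fil g 0 P) (i : Fin 2) : T * X i = X i * T := by
  induction hT using Submodule.span_induction with
  | mem x hx =>
    obtain ⟨a, b, h1, _, rfl⟩ := hx
    have hb : b = (0, 0) := by
      ext
      · show b.1 = 0
        omega
      · show b.2 = 0
        omega
    subst hb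
    have h0 : Commute (X 0 : Op K) (X i) := X_comm 0 i
    have h2 : Commute (X 1 : Op K) (X i) := X_comm 1 i
    show X 0 ^ a.1 * X 1 ^ a.2 * D g 0 ^ 0 * D g 1 ^ 0 * X i = _
    rw [pow_zero, pow_zero, mul_one, mul_one]
    exact ((h0.pow_left a.1).mul_left (h2.pow_left a.2)).eq
  | zero => rw [zero_mul, mul_zero]
  | add x y _ _ hx hy => rw [add_mul, mul_add, hx, hy]
  | smul a x _ hx => rw [smul_mul_assoc, mul_smul_comm, hx]

/-- `(e, 0)` -/
noncomputable def ia (e : Op K) : Fin 2 → Op K := ![e, 0]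
/-- `(0, e)` -/
noncomputable def ib (e : Op K) : Fin 2 → Op K := ![0, e]

theorem ia_mem (hg : Gen g) {P : ℤ} {e : Op K} (he : e ∈ Fil g 0 P) : ia e ∈ L3 g 2 P := by
  refine mem_L3.2 ⟨Fil_mono hg (by norm_num) P he, zero_mem _, ?_⟩
  show e * X 0 + 0 * X 1 ∈ _
  rw [zero_mul, add_zero]
  exact cF (by norm_num) rfl (mulX_mem hg 0 he)

theorem ib_mem (hg : Gen g) {P : ℤ} {e : Op K} (he : e ∈ Fil g 0 P) : ib e ∈ L3 g 2 P := by
  refine mem_L3.2 ⟨zero_mem _, Fil_mono hg (by norm_num) P he, ?_⟩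
  show 0 * X 0 + e * X 1 ∈ _
  rw [zero_mul, zero_add]
  exact cF (by norm_num) rfl (mulX_mem hg 1 he)

theorem kap_ab {P : ℤ} {e : Op K} (he : e ∈ Fil g 0 P) :
    kap e = lp (X 1) (ia e) - lp (X 0) (ib e) := by
  funext j
  fin_cases j
  · show e * X 1 = X 1 * e - X 0 * 0
    rw [mul_zero, sub_zero, comm0 he]
  · show -(e * X 0) = X 1 * 0 - X 0 * e
    rw [mul_zero, zero_sub, comm0 he]

theorem kap_add (a b : Op K) : kap (a + b) = kap a + kap b := by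
  funext j
  fin_cases j
  · show (a + b) * X 1 = a * X 1 + b * X 1
    rw [add_mul]
  · show -((a + b) * X 0) = -(a * X 0) + -(b * X 0)
    rw [add_mul, neg_add]

theorem kap_mul (s a : Op K) : kap (s * a) = lp s (kap a) := by
  funext j
  fin_cases j
  · show s * a * X 1 = s * (a * X 1)
    rw [mul_assoc]
  · show -(s * a * X 0) = s * -(a * X 0)
    rw [mul_neg, mul_assoc]

theorem Fp_neg (hg : Gen g) {k P : ℤ} (hk : k < 0) {u : Fin 2 → Op K} (hu : u ∈ Fp g k P) :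
    u = 0 := by
  funext j
  fin_cases j
  · exact Fil_neg hg hk (mem_Fp.1 hu).1
  · exact Fil_neg hg hk (mem_Fp.1 hu).2

theorem onto4 (hg : Gen g) {e : ℤ} (he : 0 ≤ e) : Onto (U := Fin 2 → Op K) (fun i => lp (X i))
    (fun i => lp (D g i)) (L4 g) (L3 g) e where
  ds := by
    rintro P _ _ rfl u hu
    obtain ⟨f, hf, hf'⟩ := kap_gen4 hg hu
    obtain ⟨a, ha, b, hb, h⟩ := DSn hg (k := 2) (by norm_num) hf
    have ha' : kap a ∈ L4 g 1 (P + 1) := kap_mem4 hg (cF (by norm_num) (by ring) ha)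
    have hb' : kap b ∈ L4 g 1 (P + 1) := kap_mem4 hg (cF (by norm_num) (by ring) hb)
    refine ⟨kap a, ha', kap b, hb', ?_⟩
    have e1 : u - (lp (D g 0) (kap a) + lp (D g 1) (kap b)) =
        (u - kap f) + kap (f - (D g 0 * a + D g 1 * b)) := by
      have e2 : kap f = kap (f - (D g 0 * a + D g 1 * b)) + (kap (D g 0 * a) + kap (D g 1 * b)) := by
        rw [← kap_add, ← kap_add, sub_add_cancel]
      rw [kap_mul, kap_mul] at e2
      rw [e2]; abel
    have h6 : u - (lp (D g 0) (kap a) + lp (D g 1) (kap b)) ∈ L4 g 2 P := by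
      refine Submodule.sub_mem _ hu (Submodule.add_mem _ ?_ ?_)
      · have := D4 hg 0 ha'
        rwa [add_sub_cancel_right] at this
      · have := D4 hg 1 hb'
        rwa [add_sub_cancel_right] at this
    have h8 : (u - kap f) + kap (f - (D g 0 * a + D g 1 * b)) ∈ Fp g (2 - 1) P :=
      Submodule.add_mem _ (Fp_mono hg (by norm_num) hf') (cP rfl (by ring) (kap_Fp hg h))
    show u - (lp (D g 0) (kap a) + lp (D g 1) (kap b)) ∈ L3 g 2 P
    rw [← e1, mem_Fp] at h8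
    exact L3_of_L4 h6 h8.1 h8.2
  xs := by
    intro u hu
    obtain ⟨f, hf, hf'⟩ := kap_gen4 hg hu
    have h0 : u = kap f := by
      have := Fp_neg hg (by norm_num) hf'
      rwa [sub_eq_zero] at this
    obtain ⟨a, ha, b, hb, h⟩ := FilPBW633.X1L hg (by omega) hf
    refine ⟨kap a, kap_mem4 hg (cF rfl (by ring) ha), kap b, kap_mem4 hg (cF rfl (by ring) hb), ?_⟩
    show u - (lp (X 0) (kap a) + lp (X 1) (kap b)) ∈ _
    rw [h0, h, kap_add, kap_mul, kap_mul, sub_self]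
    exact Submodule.zero_mem _
  lx0 := by
    intro u hu
    obtain ⟨f, hf, hf'⟩ := kap_gen4 hg hu
    have h0 : u = kap f := by
      have := Fp_neg hg (by norm_num) hf'
      rwa [sub_eq_zero] at this
    rw [add_sub_cancel_right] at hf
    refine ⟨ia f, ia_mem hg hf, ib f, ib_mem hg hf, ?_⟩
    show u - (lp (X 1) (ia f) - lp (X 0) (ib f)) ∈ _
    rw [h0, kap_ab hf, sub_self]
    exact Submodule.zero_mem _
  lx1 := by
    intro u hu
    obtain ⟨f, hf, hf'⟩ := kap_gen4 hg hu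
    have h0 : u = kap f := by
      have := Fp_neg hg (by norm_num) hf'
      rwa [sub_eq_zero] at this
    rw [add_sub_cancel_right] at hf
    obtain ⟨a, ha, b, hb, h⟩ := XSn hg (k := 1) (P := e) (Or.inl (by omega)) hf
    have hr : f - (X 0 * a + X 1 * b) ∈ Fil g 0 e := cF (by norm_num) rfl h
    set r := f - (X 0 * a + X 1 * b) with hrd
    have ka : kap a ∈ L3 g 2 e := cR (by norm_num) rfl (kap_mem hg (k := 1) ha)
    have kb : kap b ∈ L3 g 2 e := cR (by norm_num) rfl (kap_mem hg (k := 1) hb)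
    refine ⟨kap b + ia r, Submodule.add_mem _ kb (ia_mem hg hr), -(kap a) + ib r,
      Submodule.add_mem _ (Submodule.neg_mem _ ka) (ib_mem hg hr), ?_⟩
    show u - (lp (X 1) (kap b + ia r) - lp (X 0) (-(kap a) + ib r)) ∈ _
    have e1 : kap f = (kap (X 0 * a) + kap (X 1 * b)) + kap r := by
      rw [← kap_add, ← kap_add, hrd, add_comm, sub_add_cancel]
    rw [kap_mul, kap_mul, kap_ab hr] at e1
    have e2 : u - (lp (X 1) (kap b + ia r) - lp (X 0) (-(kap a) + ib r)) = 0 := by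
      rw [h0, e1, map_add, map_add, map_neg]; abel
    rw [e2]
    exact Submodule.zero_mem _

/-! ### every literal form -/

variable {x d : Fin 2 → (Fin 2 → Op K) →ₗ[K] (Fin 2 → Op K)}
  {L L' : ℤ → ℤ → Submodule K (Fin 2 → Op K)}

theorem x_eq (hx : ∀ i u j, x i u j = X i * u j) : x = fun i => Sym461.lp (X i : Op K) := by
  funext i
  refine LinearMap.ext fun u => funext fun j => ?_
  rw [hx, lp_apply]

theorem d_eq (hd : ∀ i u j, d i u j = D g i * u j) : d = fun i => Sym461.lp (D g i : Op K) := by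
  funext i
  refine LinearMap.ext fun u => funext fun j => ?_
  rw [hd, lp_apply]

theorem L3_eq (hL : ∀ k P v, v ∈ L k P ↔ v 0 ∈ Fil g (k - 1) P ∧ v 1 ∈ Fil g (k - 1) P ∧
    v 0 * X 0 + v 1 * X 1 ∈ Fil g (k - 2) (P + 1)) : L = L3 g := by
  funext k P
  ext v
  rw [hL, mem_L3]

theorem M3_eq (hL : ∀ k P v, v ∈ L' k P ↔ v 0 ∈ Fil g (k - 2) P ∧ v 1 ∈ Fil g (k - 2) P) :
    L' = M3 g := by
  funext k P
  ext v
  rw [hL, mem_M3]

theorem L4_eq (hL : ∀ k P v, v ∈ L k P ↔ v 0 ∈ Fil g k P ∧ v 1 ∈ Fil g k P ∧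
    v 0 * X 0 + v 1 * X 1 ∈ Fil g (k - 2) (P + 1)) : L = L4 g := by
  funext k P
  ext v
  rw [hL, mem_L4]

/-- `Q3` (`s = 1`) -/
theorem pairQ3 (hg : Gen g) (hx : ∀ i u j, x i u j = X i * u j)
    (hd : ∀ i u j, d i u j = D g i * u j)
    (hL : ∀ k P v, v ∈ L k P ↔ v 0 ∈ Fil g (k - 1) P ∧ v 1 ∈ Fil g (k - 1) P ∧
      v 0 * X 0 + v 1 * X 1 ∈ Fil g (k - 2) (P + 1))
    (hL' : ∀ k P v, v ∈ L' k P ↔ v 0 ∈ Fil g (k - 2) P ∧ v 1 ∈ Fil g (k - 2) P) :
    Pair (U := Fin 2 → Op K) g x d L L' := by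
  rw [x_eq hx, d_eq hd, L3_eq hL, M3_eq hL']
  exact pair3 hg

theorem ontoQ3 (hg : Gen g) (hx : ∀ i u j, x i u j = X i * u j)
    (hd : ∀ i u j, d i u j = D g i * u j)
    (hL : ∀ k P v, v ∈ L k P ↔ v 0 ∈ Fil g (k - 1) P ∧ v 1 ∈ Fil g (k - 1) P ∧
      v 0 * X 0 + v 1 * X 1 ∈ Fil g (k - 2) (P + 1))
    (hL' : ∀ k P v, v ∈ L' k P ↔ v 0 ∈ Fil g (k - 2) P ∧ v 1 ∈ Fil g (k - 2) P)
    {e : ℤ} (he : 0 ≤ e) : Onto (U := Fin 2 → Op K) x d L L' e := by
  rw [x_eq hx, d_eq hd, L3_eq hL, M3_eq hL']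
  exact onto3 hg he

/-- `Q4` (`s = 1`) -/
theorem pairQ4 (hg : Gen g) (hx : ∀ i u j, x i u j = X i * u j)
    (hd : ∀ i u j, d i u j = D g i * u j)
    (hL : ∀ k P v, v ∈ L k P ↔ v 0 ∈ Fil g k P ∧ v 1 ∈ Fil g k P ∧
      v 0 * X 0 + v 1 * X 1 ∈ Fil g (k - 2) (P + 1))
    (hL' : ∀ k P v, v ∈ L' k P ↔ v 0 ∈ Fil g (k - 1) P ∧ v 1 ∈ Fil g (k - 1) P ∧
      v 0 * X 0 + v 1 * X 1 ∈ Fil g (k - 2) (P + 1)) :
    Pair (U := Fin 2 → Op K) g x d L L' := by
  rw [x_eq hx, d_eq hd, L4_eq hL, L3_eq hL']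
  exact pair4 hg

theorem ontoQ4 (hg : Gen g) (hx : ∀ i u j, x i u j = X i * u j)
    (hd : ∀ i u j, d i u j = D g i * u j)
    (hL : ∀ k P v, v ∈ L k P ↔ v 0 ∈ Fil g k P ∧ v 1 ∈ Fil g k P ∧
      v 0 * X 0 + v 1 * X 1 ∈ Fil g (k - 2) (P + 1))
    (hL' : ∀ k P v, v ∈ L' k P ↔ v 0 ∈ Fil g (k - 1) P ∧ v 1 ∈ Fil g (k - 1) P ∧
      v 0 * X 0 + v 1 * X 1 ∈ Fil g (k - 2) (P + 1))
    {e : ℤ} (he : 0 ≤ e) : Onto (U := Fin 2 → Op K) x d L L' e := by
  rw [x_eq hx, d_eq hd, L4_eq hL, L3_eq hL']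
  exact onto4 hg he

end Crest.Agent.R186.LCI1_633
end

-- ▼ part R186/LCQ1_229
section

/-!
Row 186, S0281 base (helper229): **LCQ1**: `Ext (E g 1 n, Q) = 0` in all degrees for the four
torsion quotients `Q = QT1 hg j` of `DevW_147`.
-/

set_option autoImplicit false
set_option linter.unusedSectionVars false

noncomputable section

namespace Crest.Agent.R186.B281

open FamX823 LCF1_371 ExtRes700
open TrE442 (lx ld)

variable {K : Type} [Field K] {g : K}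

/-- all `Ext` of `E g 1 n` into `W(L)/W(L')` vanish -/
theorem lcq1 (hg : Gen g) {F : Fam g} {F' : F.Sub} (hP : Pair (U := F.N) g lx (ld g) F.L F'.L)
    (hO : ∀ e : ℤ, e = 0 ∨ e = 1 → Onto (U := F.N) lx (ld g) F.L F'.L e)
    {Y : Type} [AddCommGroup Y] [Module (A g 1) Y] {π : F.W 1 →ₗ[A g 1] Y} (hπ : IsQuo F F' 1 π)
    (n : ℕ) (q : ℕ) : E0 (A g 1) (E g 1 n) Y q := by
  have g0 : Good 1 (KR.H0 hg n) := good_S0 hg n
  have g1 : Good 1 (KR.H1 hg n) := good_S1 hg n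
  have g2 : Good 1 (KR.H2 hg n) := good_S2 hg n
  have g3 : Good 1 (KR.H3 hg n) := good_S3 hg n
  refine (KRT823.mresW1 hg n).ext_all ?_ ?_ ?_ ?_ q
  · intro f hf
    exact H0_of hπ g0 g1 (KR.h1 hg n) (fun e he Φ k1 k2 => ex0 hg hP Φ k1 k2) f hf
  · intro f hf
    exact H1_of hπ g1 g2 (KR.h1 hg n) (KR.h2 hg n)
      (fun e he Φ k1 k2 => ex1 hg hP Φ k1 k2) f hf
  · intro f hf
    exact H1_of hπ g2 g3 (KR.h2 hg n) (KR.h3 hg n)
      (fun e he Φ k1 k2 => ex2 hg hP (hO e he) Φ k1 k2) f hf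
  · intro f
    exact H3_of hπ g3 (KR.h3 hg n) (fun e he Φ k1 => ex3 hg hP (hO e he) Φ k1) f

/-! ### the four pairs -/

theorem lx_mul : (lx : Fin 2 → Op K →ₗ[K] Op K) = fun i => LinearMap.mulLeft K (X i) := by
  funext i
  apply LinearMap.ext
  intro u
  rfl

theorem ld_mul : (ld g : Fin 2 → Op K →ₗ[K] Op K) = fun i => LinearMap.mulLeft K (D g i) := by
  funext i
  apply LinearMap.ext
  intro u
  rfl

theorem castFil (g : K) (a : ℤ) (b : ℕ) (h : a = b) :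
    (fun k P : ℤ => Fil g (k - (b : ℤ)) P) = fun k P => Fil g (k - a) P := by
  rw [h]

theorem pairF1_0 (hg : Gen g) : Pair (U := Op K) g lx (ld g)
    (fun k P => Fil g (k - ((1 : ℕ) : ℤ)) P) (fun k P => Fil g (k - ((2 : ℕ) : ℤ)) P) := by
  rw [lx_mul, ld_mul, castFil g 1 1 (by norm_num), castFil g 2 2 (by norm_num)]
  exact LCI1_442.pairQ1 hg

theorem ontoF1_0 (hg : Gen g) {e : ℤ} (he : 0 ≤ e) : Onto (U := Op K) lx (ld g)
    (fun k P => Fil g (k - ((1 : ℕ) : ℤ)) P) (fun k P => Fil g (k - ((2 : ℕ) : ℤ)) P) e := by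
  rw [lx_mul, ld_mul, castFil g 1 1 (by norm_num), castFil g 2 2 (by norm_num)]
  exact LCI1_442.ontoQ1 hg he

theorem pairF1_1 (hg : Gen g) : Pair (U := Op K) g lx (ld g)
    (fun k P => Fil g (k - ((0 : ℕ) : ℤ)) P) (fun k P => Fil g (k - ((1 : ℕ) : ℤ)) P) := by
  rw [lx_mul, ld_mul, castFil g 0 0 (by norm_num), castFil g 1 1 (by norm_num)]
  have h := LCI1_442.pairQ2 hg
  have e : (fun k P : ℤ => Fil g (k - 0) P) = fun k P => Fil g k P := by
    funext k P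
    rw [sub_zero]
  rw [e]
  exact h

theorem ontoF1_1 (hg : Gen g) {e : ℤ} (he : 0 ≤ e) : Onto (U := Op K) lx (ld g)
    (fun k P => Fil g (k - ((0 : ℕ) : ℤ)) P) (fun k P => Fil g (k - ((1 : ℕ) : ℤ)) P) e := by
  rw [lx_mul, ld_mul, castFil g 0 0 (by norm_num), castFil g 1 1 (by norm_num)]
  have h := LCI1_442.ontoQ2 hg he
  have e : (fun k P : ℤ => Fil g (k - 0) P) = fun k P => Fil g k P := by
    funext k P
    rw [sub_zero]
  rw [e]
  exact h

theorem nn {e : ℤ} (he : e = 0 ∨ e = 1) : 0 ≤ e := by omega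

/-- **LCQ1** -/
theorem hQ1 (hg : Gen g) (j : Fin 4) (n : ℕ) (q : ℕ) :
    E0 (A g 1) (E g 1 n) (Dev147.QT1 hg j) q := by
  match j with
  | 0 =>
    exact lcq1 hg (F := TO hg (1 : ℕ))
      (F' := Dev147.subO hg (1 : ℕ) (2 : ℕ) (by norm_num)) (pairF1_0 hg)
      (fun e he => ontoF1_0 hg (nn he))
      (Dev147.isQuo1 hg 0) n q
  | 1 =>
    exact lcq1 hg (F := TO hg (0 : ℕ))
      (F' := Dev147.subO hg (0 : ℕ) (1 : ℕ) (by norm_num)) (pairF1_1 hg)
      (fun e he => ontoF1_1 hg (nn he))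
      (Dev147.isQuo1 hg 1) n q
  | 2 =>
    refine lcq1 hg (F := TK hg 1 (1 + 1)) (F' := Dev147.subP hg 1 (1 + 1) (by norm_num)) ?_ ?_
      (Dev147.isQuo1 hg 2) n q
    · refine LCI1_633.pairQ3 hg (fun _ _ _ => rfl) (fun _ _ _ => rfl) (fun k P v => ?_)
        (fun k P v => ?_)
      · exact Iff.rfl
      · exact Iff.rfl
    · intro e he
      refine LCI1_633.ontoQ3 hg (fun _ _ _ => rfl) (fun _ _ _ => rfl) (fun k P v => ?_)
        (fun k P v => ?_) (nn he)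
      · exact Iff.rfl
      · exact Iff.rfl
  | 3 =>
    refine lcq1 hg (F := TK hg 0 2)
      (F' := Dev147.subK hg 0 2 1 (1 + 1) (by norm_num) (by norm_num)) ?_ ?_
      (Dev147.isQuo1 hg 3) n q
    · refine LCI1_633.pairQ4 hg (fun _ _ _ => rfl) (fun _ _ _ => rfl) (fun k P v => ?_)
        (fun k P v => ?_)
      · show v 0 ∈ Fil g (k - 0) P ∧ v 1 ∈ Fil g (k - 0) P ∧ _ ↔ _
        rw [sub_zero]
      · exact Iff.rfl
    · intro e he
      refine LCI1_633.ontoQ4 hg (fun _ _ _ => rfl) (fun _ _ _ => rfl) (fun k P v => ?_)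
        (fun k P v => ?_) (nn he)
      · show v 0 ∈ Fil g (k - 0) P ∧ v 1 ∈ Fil g (k - 0) P ∧ _ ↔ _
        rw [sub_zero]
      · exact Iff.rfl

end Crest.Agent.R186.B281
end
end

-- ▼ part R186/Null1F_275
section

/-!
Row 186 (S0281), helper275, leaf B281.N1: **nullness, `s = 1`**.
-/

set_option autoImplicit false

namespace Crest.Agent.R186.B281

/-- **`Ext_A^q (V 0, A) = 0`, `s = 1`** -/
theorem null1 {K : Type} [Field K] {g : K} (hg : Gen g) :
    ∀ j, ExtRes700.E0 (A g 1) (V g 1 0) (A g 1) j := fun j =>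
  Null275.null1_lcq hg (hQ1 hg) j

end Crest.Agent.R186.B281
end

-- ▼ part R186/Fin281b_713

/-!
Row 186, S0281 (helper713): the end.
-/

set_option autoImplicit false

namespace Crest.Agent.R186.Fin713

open B281 ExtRes700

universe w

/-- nullness, `s = 0` (341, 369, 147) -/
theorem nul0 {K : Type} [Field K] {g : K} (hg : Gen g) :
    ∀ j, E0 (A g 0) (V g 0 0) (A g 0) j :=
  B281.N341.null0_of_hQ hg (LC369.hQ0 hg)

/-- **the base of S0281 over any field with a generic parameter** -/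
theorem c0281_gen {K : Type} [Field K] {g : K} (hg : Gen g) : Spine700.C0281.{w} K :=
  c0281_of hg (nul0 hg) (B281.null1 hg.inv)

/-- **S0281** -/
theorem c0281 : Spine700.C0281.{w} Spine700.k0 := c0281_gen Par667.gen0

end Crest.Agent.R186.Fin713
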