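import Crest.Agent.R186.HB_362
import Crest.Agent.R186.Zig_498

/-!
Row 186 (A), (H) (helper362): `H ⊗ X` as a twisted family over the cells of `KK` (498's `TF`).
-/

set_option autoImplicit false
set_option linter.style.haveILetI false
set_option linter.unusedSectionVars false
set_option linter.unusedSimpArgs false

namespace Crest.Agent.R186.HB362

open Hat827 Win810 KHev302 Frame515 MulOpposite Adapt186 Zig498

variable {K : Type} [Field K] {w : WD K} {E : CE w} {X : LCells w.dga}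

theorem LU_ext {p a p' a' : ℤ} {b b' : E.B} (hb : b ∈ E.EB (p' - p) (a' - a))
    (hb' : b' ∈ E.EB (p' - p) (a' - a)) (h : b = b') (u : X.ι →₀ Row E p a) :
    LU E b hb u = LU E b' hb' u := by
  subst h
  rfl

theorem LU_zero {p a p' a' : ℤ} {b : E.B} (hb : b ∈ E.EB (p' - p) (a' - a)) (h : b = 0)
    (u : X.ι →₀ Row E p a) : LU E b hb u = 0 := by
  subst h
  ext σ : 1
  exact row_ext fun j => zero_mul _

theorem LU_add {p a p' a' : ℤ} {b b' : E.B} (hb : b ∈ E.EB (p' - p) (a' - a))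
    (hb' : b' ∈ E.EB (p' - p) (a' - a)) (u : X.ι →₀ Row E p a) :
    LU E b hb u + LU E b' hb' u = LU E (b + b') (Submodule.add_mem _ hb hb') u := by
  ext σ : 1
  exact row_ext fun j => (add_mul b b' _).symm

theorem LU_sum {ι' : Type} (s : Finset ι') {p a p' a' : ℤ} (b : ι' → E.B)
    (hb : ∀ i, b i ∈ E.EB (p' - p) (a' - a)) (u : X.ι →₀ Row E p a) :
    ∑ i ∈ s, LU E (b i) (hb i) u =
      LU E (∑ i ∈ s, b i) (Submodule.sum_mem _ fun i _ => hb i) u := by
  ext σ : 1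
  rw [Finset.sum_apply']
  refine row_ext fun j => ?_
  rw [AddSubmonoidClass.coe_finsetSum, Finset.sum_apply]
  exact (Finset.sum_mul s b _).symm

theorem LU_LU {p a p' a' p'' a'' : ℤ} {b b' : E.B} (hb : b ∈ E.EB (p' - p) (a' - a))
    (hb' : b' ∈ E.EB (p'' - p') (a'' - a')) (hbb : b' * b ∈ E.EB (p'' - p) (a'' - a))
    (u : X.ι →₀ Row E p a) :
    LU E b' hb' (LU E b hb u) = LU E (b' * b) hbb u := by
  ext σ : 1
  exact row_ext fun j => (mul_assoc b' b _).symm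

theorem U_two {p a : ℤ} (u : X.ι →₀ Row E p a) : u + u = 0 := by
  ext σ : 1
  exact row_two _

theorem mul_EB {p a p' a' p'' a'' : ℤ} {b b' : E.B} (hb : b ∈ E.EB (p' - p) (a' - a))
    (hb' : b' ∈ E.EB (p'' - p') (a'' - a')) : b' * b ∈ E.EB (p'' - p) (a'' - a) := by
  have h := CE.EB_mul hb' hb
  rwa [show p'' - p' + (p' - p) = p'' - p by ring, show a'' - a' + (a' - a) = a'' - a by ring] at h

theorem cc_zero' {c c' : E.ka} (h : E.cd c ≤ E.cd c') : E.cc c c' = 0 := by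
  have h1 := E.cc_mem c c'
  rw [E.pb_neg _ _ _ (by omega)] at h1
  exact (Submodule.mem_bot K).1 h1

theorem mcU (c c' : E.ka) (x : X.ι →₀ Row E (w.P (E.oc c') + 1) (w.A (E.oc c'))) :
    dU E _ _ (LU E (E.cc c c') (cc_EB E c c') x) + LU E (E.cc c c') (cc_EB E c c')
      (dU E _ _ x) + ∑ c'', LU E (E.cc c c'') (cc_EB E c c'')
        (LU E (E.cc c'' c') (cc_EB E c'' c') x) = 0 := by
  have h1 : ∀ c'', LU E (E.cc c c'') (cc_EB E c c'') (LU E (E.cc c'' c') (cc_EB E c'' c') x) =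
      LU E (E.cc c c'' * E.cc c'' c') (mul_EB (cc_EB E c'' c') (cc_EB E c c'')) x :=
    fun c'' => LU_LU _ _ _ x
  rw [LU_d, add_assoc (LU E (E.DB (E.cc c c')) _ x), U_two, add_zero, Finset.sum_congr rfl
    fun c'' _ => h1 c'', LU_sum, LU_add]
  exact LU_zero _ (E.mc c c') x

variable (E X)

/-- **`H ⊗ X` as a twisted family over the cells of `KK`** -/
noncomputable def TFH : TF K where
  Cl := E.ka
  s c := (E.cd c : ℤ)
  U c := U E X (w.P (E.oc c) + 1) (w.A (E.oc c))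
  c c c' := LU E (E.cc c c') (cc_EB E c c')
  c_zero c c' h := LinearMap.ext fun u => LU_zero _ (cc_zero' (by exact_mod_cast h)) u
  c_mem c c' k x hx := by
    have h := LU_mem (X := X) (cc_EB E c c') (cc_pb E c c') hx
    rwa [show k + ((E.cd c : ℤ) - E.cd c' - 1) = k + E.cd c - E.cd c' - 1 by ring] at h
  mc c c' x := mcU c c' x

variable {E X}

theorem HX_ac_aux (k : ℤ) (u : X.ι →₀ E.H)
    (hu : ∀ c, PH E X c u ∈ (U E X (w.P (E.oc c) + 1) (w.A (E.oc c))).gr (k - E.s0 + E.cd c))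
    (hd : dHX E X u = 0) (h : Ac (TFH E X).cx) :
    ∃ y : X.ι →₀ E.H, (∀ c, PH E X c y ∈ (U E X (w.P (E.oc c) + 1) (w.A (E.oc c))).gr
      (k + 1 - E.s0 + E.cd c)) ∧ dHX E X y = u := by
  have h1 : ∀ c, dU E _ _ (PH E X c u) +
      ∑ c', LU E (E.cc c c') (cc_EB E c c') (PH E X c' u) = 0 := fun c => by
    rw [← PH_d, hd, map_zero]
  obtain ⟨v, hv, hdv⟩ := h (k - E.s0) (fun c => PH E X c u) hu (funext h1)
  have hv' : ∀ c, v c ∈ (U E X (w.P (E.oc c) + 1) (w.A (E.oc c))).gr (k - E.s0 + 1 + E.cd c) := hv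
  obtain ⟨y, hy⟩ := PH_surj (E := E) (X := X) v
  refine ⟨y, fun c => ?_, PH_ext fun c => ?_⟩
  · rw [hy c, show k + 1 - E.s0 + (E.cd c : ℤ) = k - E.s0 + 1 + E.cd c by ring]
    exact hv' c
  · rw [PH_d]
    simp only [hy]
    exact congrFun hdv c

/-- **(H) from the acyclicity of the family** -/
theorem HX_ac (h : Ac (TFH E X).cx) : Ac (tG (HM E) X) := by
  intro k u hu hd
  obtain ⟨y, hy, hdy⟩ := HX_ac_aux k u (mem_HX_iff.1 hu) hd h
  exact ⟨y, mem_HX_iff.2 hy, hdy⟩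


end Crest.Agent.R186.HB362
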