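import Crest.Agent.R186.Zig_498

/-!
Row 186 (helper498), half (A), short road #34919: homology spaces of a graded complex and the
adapter "exactness of the cell complex with values in homology ⇒ `TF.Ex`".
-/

set_option autoImplicit false
set_option linter.style.haveILetI false
set_option linter.unusedSectionVars false

namespace Crest.Agent.R186.Zig498

open Frame515

variable {K : Type} [Field K]

/-- cycles of degree `n` -/
def Zc (X : GC K) (n : ℤ) : Submodule K X.X := X.gr n ⊓ LinearMap.ker X.d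

/-- boundaries of degree `n` -/
def Bd (X : GC K) (n : ℤ) : Submodule K X.X := (X.gr (n + 1)).map X.d

theorem mem_Zc {X : GC K} {n : ℤ} {x : X.X} : x ∈ Zc X n ↔ x ∈ X.gr n ∧ X.d x = 0 := by
  rw [Zc, Submodule.mem_inf, LinearMap.mem_ker]

theorem mem_Bd {X : GC K} {n : ℤ} {x : X.X} : x ∈ Bd X n ↔ ∃ y ∈ X.gr (n + 1), X.d y = x :=
  Submodule.mem_map


/-- homology space of degree `n` -/
abbrev HH (X : GC K) (n : ℤ) : Type := (Zc X n) ⧸ (Bd X n).comap (Zc X n).subtype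

/-- class of a cycle -/
def cls (X : GC K) (n : ℤ) (x : X.X) (hx : x ∈ X.gr n) (hd : X.d x = 0) : HH X n :=
  Submodule.Quotient.mk ⟨x, mem_Zc.2 ⟨hx, hd⟩⟩

theorem cls_eq_zero {X : GC K} {n : ℤ} {x : X.X} {hx : x ∈ X.gr n} {hd : X.d x = 0} :
    cls X n x hx hd = 0 ↔ ∃ y ∈ X.gr (n + 1), X.d y = x := by
  rw [cls, Submodule.Quotient.mk_eq_zero, Submodule.mem_comap]
  exact mem_Bd

theorem exists_rep {X : GC K} {n : ℤ} (ζ : HH X n) :
    ∃ (x : X.X) (hx : x ∈ X.gr n) (hd : X.d x = 0), cls X n x hx hd = ζ := by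
  obtain ⟨⟨x, hx⟩, rfl⟩ := Submodule.Quotient.mk_surjective _ ζ
  exact ⟨x, (mem_Zc.1 hx).1, (mem_Zc.1 hx).2, rfl⟩

theorem cls_eq {X : GC K} {n : ℤ} {x y : X.X} {hx : x ∈ X.gr n} {hdx : X.d x = 0}
    {hy : y ∈ X.gr n} {hdy : X.d y = 0} :
    cls X n x hx hdx = cls X n y hy hdy ↔ ∃ z ∈ X.gr (n + 1), x = y + X.d z := by
  have h : cls X n x hx hdx - cls X n y hy hdy =
      cls X n (x - y) (Submodule.sub_mem _ hx hy) (by rw [map_sub, hdx, hdy, sub_zero]) := rfl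
  rw [← sub_eq_zero, h, cls_eq_zero]
  constructor
  · rintro ⟨z, hz, h⟩
    exact ⟨z, hz, by rw [h]; abel⟩
  · rintro ⟨z, hz, h⟩
    exact ⟨z, hz, by rw [h]; abel⟩

theorem cls_add {X : GC K} {n : ℤ} {x y : X.X} (hx : x ∈ X.gr n) (hdx : X.d x = 0)
    (hy : y ∈ X.gr n) (hdy : X.d y = 0) :
    cls X n (x + y) (Submodule.add_mem _ hx hy) (by rw [map_add, hdx, hdy, add_zero]) =
      cls X n x hx hdx + cls X n y hy hdy := rfl

theorem cls_sum {X : GC K} {n : ℤ} {κ : Type} (S : Finset κ) (x : κ → X.X)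
    (hx : ∀ i, x i ∈ X.gr n) (hd : ∀ i, X.d (x i) = 0) :
    cls X n (∑ i ∈ S, x i) (Submodule.sum_mem _ fun i _ => hx i)
      (by rw [map_sum]; exact Finset.sum_eq_zero fun i _ => hd i) =
      ∑ i ∈ S, cls X n (x i) (hx i) (hd i) := by
  classical
  have h : ∀ (S : Finset κ) (t : X.X) (_ : t = ∑ i ∈ S, x i) (h1 : t ∈ X.gr n) (h2 : X.d t = 0),
      cls X n t h1 h2 = ∑ i ∈ S, cls X n (x i) (hx i) (hd i) := by
    intro S
    induction S using Finset.induction_on with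
    | empty =>
      intro t ht h1 h2
      rw [Finset.sum_empty]
      exact cls_eq_zero.2 ⟨0, Submodule.zero_mem _, by rw [map_zero, ht, Finset.sum_empty]⟩
    | insert a S ha ih =>
      intro t ht h1 h2
      have h3 : ∑ i ∈ S, x i ∈ X.gr n := Submodule.sum_mem _ fun i _ => hx i
      have h4 : X.d (∑ i ∈ S, x i) = 0 := by
        rw [map_sum]; exact Finset.sum_eq_zero fun i _ => hd i
      rw [Finset.sum_insert ha, ← ih _ rfl h3 h4, ← cls_add (hx a) (hd a) h3 h4]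
      subst ht
      refine cls_eq.2 ⟨0, Submodule.zero_mem _, ?_⟩
      rw [map_zero, add_zero, Finset.sum_insert ha]
  exact h S _ rfl _ _

/-- a linear map between complexes which induces a map in homology of degree `n` -/
structure HOK {X Y : GC K} (n : ℤ) (f : X.X →ₗ[K] Y.X) : Prop where
  z : ∀ x, x ∈ X.gr n → X.d x = 0 → f x ∈ Y.gr n ∧ Y.d (f x) = 0
  b : ∀ y, y ∈ X.gr (n + 1) → ∃ w ∈ Y.gr (n + 1), Y.d w = f (X.d y)

theorem HOK.of_anti {X Y : GC K} {n : ℤ} {f : X.X →ₗ[K] Y.X}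
    (hm : ∀ {k : ℤ} {x : X.X}, x ∈ X.gr k → f x ∈ Y.gr k)
    (hd : ∀ x, Y.d (f x) = - f (X.d x)) : HOK n f where
  z x hx hdx := ⟨hm hx, by rw [hd, hdx, map_zero, neg_zero]⟩
  b y hy := ⟨-f y, Submodule.neg_mem _ (hm hy), by rw [map_neg, hd, neg_neg]⟩

theorem HOK.of_hom {X Y : GC K} (n : ℤ) (φ : GCHom X Y) : HOK n φ.f where
  z x hx hdx := ⟨φ.f_mem hx, by rw [← φ.f_d, hdx, map_zero]⟩
  b y hy := ⟨φ.f y, φ.f_mem hy, (φ.f_d y).symm⟩

/-- induced map in homology -/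
def Hm {X Y : GC K} {n : ℤ} (f : X.X →ₗ[K] Y.X) (hf : HOK n f) : HH X n →ₗ[K] HH Y n :=
  Submodule.mapQ _ _ ((f.domRestrict (Zc X n)).codRestrict (Zc Y n) fun x =>
    mem_Zc.2 (hf.z x.1 (mem_Zc.1 x.2).1 (mem_Zc.1 x.2).2)) (by
    rintro ⟨x, hx⟩ h
    rw [Submodule.mem_comap] at h
    obtain ⟨y, hy, h2⟩ := mem_Bd.1 h
    obtain ⟨w, hw, h3⟩ := hf.b y hy
    rw [Submodule.mem_comap, Submodule.mem_comap]
    refine mem_Bd.2 ⟨w, hw, ?_⟩
    rw [h3, h2]
    rfl)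

theorem Hm_cls {X Y : GC K} {n : ℤ} (f : X.X →ₗ[K] Y.X) (hf : HOK n f) (x : X.X)
    (hx : x ∈ X.gr n) (hd : X.d x = 0) :
    Hm f hf (cls X n x hx hd) = cls Y n (f x) (hf.z x hx hd).1 (hf.z x hx hd).2 := rfl






theorem bijective_of_QI {X Y : GC K} {φ : GCHom X Y} (h : QI φ) (n : ℤ) :
    Function.Bijective (Hm φ.f (HOK.of_hom n φ)) := by
  constructor
  · rw [← LinearMap.ker_eq_bot, LinearMap.ker_eq_bot']
    intro ζ hζ
    obtain ⟨x, hx, hd, rfl⟩ := exists_rep ζ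
    rw [Hm_cls, cls_eq_zero] at hζ
    obtain ⟨y, hy, hy2⟩ := hζ
    obtain ⟨w, hw, hw2⟩ := h.inj n x hx hd ⟨y, hy, hy2.symm⟩
    exact cls_eq_zero.2 ⟨w, hw, hw2.symm⟩
  · intro ζ
    obtain ⟨y, hy, hd, rfl⟩ := exists_rep ζ
    obtain ⟨x, hx, hdx, z, hz, h2⟩ := h.surj n y hy hd
    refine ⟨cls X n x hx hdx, ?_⟩
    rw [Hm_cls]
    exact (cls_eq.2 ⟨z, hz, h2⟩).symm




namespace TF

variable (T : TF K)

/-- adjacent coefficients commute with `d` up to sign -/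
theorem c_anti {l l' : T.Cl} (h : T.s l = T.s l' + 1) (x : (T.U l').X) :
    (T.U l).d (T.c l l' x) = - T.c l l' ((T.U l').d x) := by
  have h1 := T.mc l l' x
  rw [Finset.sum_eq_zero, add_zero] at h1
  · exact eq_neg_of_add_eq_zero_left h1
  · intro l'' _
    rcases le_or_gt (T.s l'') (T.s l') with h2 | h2
    · rw [T.c_zero l'' l' h2, LinearMap.zero_apply, map_zero]
    · rw [T.c_zero l l'' (by omega), LinearMap.zero_apply]

theorem c_ok {l l' : T.Cl} (h : T.s l = T.s l' + 1) (n : ℤ) :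
    HOK (X := T.U l') (Y := T.U l) n (T.c l l') :=
  HOK.of_anti (fun {k x} hx => by
    have := T.c_mem l l' hx
    rwa [show k + T.s l - T.s l' - 1 = k by omega] at this) (T.c_anti h)

open Classical in
/-- the induced maps on homology (zero unless the levels are adjacent) -/
noncomputable def hc (n : ℤ) (l l' : T.Cl) : HH (T.U l') n →ₗ[K] HH (T.U l) n :=
  if h : T.s l = T.s l' + 1 then Hm (T.c l l') (T.c_ok h n) else 0

theorem hc_of {l l' : T.Cl} (h : T.s l = T.s l' + 1) (n : ℤ) :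
    T.hc n l l' = Hm (T.c l l') (T.c_ok h n) := dif_pos h

theorem hc_not {l l' : T.Cl} (h : T.s l ≠ T.s l' + 1) (n : ℤ) : T.hc n l l' = 0 := dif_neg h

/-- exactness of the cell complex with values in homology ⇒ `Ex` -/
theorem ex_of_H (m n : ℤ)
    (hH : ∀ ζ : ∀ l, HH (T.U l) n, (∀ l, T.s l ≠ m → ζ l = 0) →
      (∀ l, T.s l = m + 1 → ∑ l', T.hc n l l' (ζ l') = 0) →
      ∃ ω : ∀ l, HH (T.U l) n, (∀ l, T.s l + 1 ≠ m → ω l = 0) ∧
        ∀ l, T.s l = m → ζ l = ∑ l', T.hc n l l' (ω l')) : T.Ex m n := by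
  classical
  intro z hz hdz hz0 hzc
  obtain ⟨ω, hω0, hω⟩ := hH (fun l => cls (T.U l) n (z l) (hz l) (hdz l))
    (fun l hl => cls_eq_zero.2 ⟨0, Submodule.zero_mem _, by rw [map_zero, hz0 l hl]⟩)
    (fun l hl => by
      have h1 : ∀ l', T.c l l' (z l') ∈ (T.U l).gr n ∧ (T.U l).d (T.c l l' (z l')) = 0 := by
        intro l'
        by_cases h : T.s l' = m
        · exact (T.c_ok (by omega) n).z (z l') (hz l') (hdz l')
        · rw [hz0 l' h, map_zero]; exact ⟨Submodule.zero_mem _, map_zero _⟩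
      have h2 : ∀ l', T.hc n l l' (cls (T.U l') n (z l') (hz l') (hdz l')) =
          cls (T.U l) n (T.c l l' (z l')) (h1 l').1 (h1 l').2 := by
        intro l'
        by_cases h : T.s l' = m
        · rw [T.hc_of (by omega), Hm_cls]
        · have h3 : cls (T.U l') n (z l') (hz l') (hdz l') = 0 :=
            cls_eq_zero.2 ⟨0, Submodule.zero_mem _, by rw [map_zero, hz0 l' h]⟩
          rw [h3, map_zero]
          exact (cls_eq_zero.2 ⟨0, Submodule.zero_mem _, by rw [hz0 l' h, map_zero, map_zero]⟩).symm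
      rw [Finset.sum_congr rfl fun l' _ => h2 l', ← cls_sum]
      obtain ⟨y, hy, h4⟩ := hzc l hl
      exact cls_eq_zero.2 ⟨y, hy, h4.symm⟩)
  have hrep : ∀ l, ∃ w : (T.U l).X, w ∈ (T.U l).gr n ∧ (T.U l).d w = 0 ∧
      (T.s l + 1 ≠ m → w = 0) ∧ ∀ (hx : w ∈ (T.U l).gr n) (hd : (T.U l).d w = 0),
        cls (T.U l) n w hx hd = ω l := by
    intro l
    by_cases h : T.s l + 1 = m
    · obtain ⟨w, h1, h2, h3⟩ := exists_rep (ω l)
      exact ⟨w, h1, h2, fun h4 => absurd h h4, fun _ _ => h3⟩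
    · refine ⟨0, Submodule.zero_mem _, map_zero _, fun _ => rfl, fun hx hd => ?_⟩
      rw [hω0 l h]
      exact cls_eq_zero.2 ⟨0, Submodule.zero_mem _, map_zero _⟩
  choose w hw1 hw2 hw3 hw4 using hrep
  have hy : ∀ l, ∃ y : (T.U l).X, y ∈ (T.U l).gr (n + 1) ∧ (T.s l ≠ m → y = 0) ∧
      (T.s l = m → z l = ∑ l', T.c l l' (w l') + (T.U l).d y) := by
    intro l
    by_cases hl : T.s l = m
    · have h1 : ∀ l', T.c l l' (w l') ∈ (T.U l).gr n ∧ (T.U l).d (T.c l l' (w l')) = 0 := by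
        intro l'
        by_cases h : T.s l' + 1 = m
        · exact (T.c_ok (by omega) n).z (w l') (hw1 l') (hw2 l')
        · rw [hw3 l' h, map_zero]; exact ⟨Submodule.zero_mem _, map_zero _⟩
      have h2 : ∀ l', T.hc n l l' (ω l') =
          cls (T.U l) n (T.c l l' (w l')) (h1 l').1 (h1 l').2 := by
        intro l'
        by_cases h : T.s l' + 1 = m
        · rw [T.hc_of (by omega), ← hw4 l' (hw1 l') (hw2 l'), Hm_cls]
        · rw [hω0 l' h, map_zero]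
          exact (cls_eq_zero.2 ⟨0, Submodule.zero_mem _, by rw [hw3 l' h, map_zero, map_zero]⟩).symm
      have h3 := hω l hl
      rw [Finset.sum_congr rfl fun l' _ => h2 l', ← cls_sum] at h3
      obtain ⟨y, hy1, hy2⟩ := cls_eq.1 h3
      exact ⟨y, hy1, fun h4 => absurd hl h4, fun _ => hy2⟩
    · exact ⟨0, Submodule.zero_mem _, fun _ => rfl, fun h => absurd h hl⟩
  choose y hy1 hy2 hy3 using hy
  exact ⟨w, y, fun l => ⟨hw1 l, hw2 l, hw3 l⟩, fun l => ⟨hy1 l, hy2 l⟩, hy3⟩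

/-- the form used by the short road -/
theorem ac_of_H (hH : ∀ (m n : ℤ) (ζ : ∀ l, HH (T.U l) n), (∀ l, T.s l ≠ m → ζ l = 0) →
      (∀ l, T.s l = m + 1 → ∑ l', T.hc n l l' (ζ l') = 0) →
      ∃ ω : ∀ l, HH (T.U l) n, (∀ l, T.s l + 1 ≠ m → ω l = 0) ∧
        ∀ l, T.s l = m → ζ l = ∑ l', T.hc n l l' (ω l')) : Ac T.cx :=
  T.ac_of_ex fun m n => T.ex_of_H m n (hH m n)

end TF

end Crest.Agent.R186.Zig498
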