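import Crest.Agent.R186.B281P_128
import Crest.Agent.R186.VFam_671
import Crest.Agent.R186.NullChain_538
import Crest.Agent.R186.FamX2_823
import Crest.Agent.R186.KR_355
import Crest.Agent.R186.FilPBW_633
import Crest.Agent.R186.FDord_757
import Crest.Agent.R186.Cov_853
import Crest.Agent.R186.KL_355
import Crest.Agent.R186.Defs281_128
import Crest.Agent.R186.Cov1_605

-- ▼ part R186/B281R_128
section

/-!
Row 186, S0281 (helper128): from a resolution of families to `NullChain538.MRes`, for both `s`.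
-/

set_option autoImplicit false
set_option linter.unusedSectionVars false
set_option linter.unusedVariables false

open Matrix

noncomputable section

namespace Crest.Agent.R186.B281

variable {K : Type} [Field K] {g : K}

/-- a resolution `0 → F3 → F2 → F1 → F0 → V → 0` of families, at the levels of the five vertices -/
structure FRes (s : ℤ) (V F0 F1 F2 F3 : Fam g) where
  ε : F0.Hom V
  φ1 : F1.Hom F0
  φ2 : F2.Hom F1
  φ3 : F3.Hom F2
  z0 : ∀ x, ε.f (φ1.f x) = 0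
  z1 : ∀ x, φ1.f (φ2.f x) = 0
  z2 : ∀ x, φ2.f (φ3.f x) = 0
  sur : ∀ k P, Lev s k P → SurAt ε k P
  x0 : ∀ k P, Lev s k P → ExAt φ1 ε k P
  x1 : ∀ k P, Lev s k P → ExAt φ2 φ1 k P
  x2 : ∀ k P, Lev s k P → ExAt φ3 φ2 k P
  x3 : ∀ k P, Lev s k P → InjAt φ3 k P
  S1 : ∀ e : ℤ, (e = 0 ∨ e = 1) → F1.Sur (s + 1) s e ∧ F1.Sur 2 0 e
  S2 : ∀ e : ℤ, (e = 0 ∨ e = 1) → F2.Sur (s + 1) s e ∧ F2.Sur 2 0 e
  S3 : ∀ e : ℤ, (e = 0 ∨ e = 1) → F3.Sur (s + 1) s e ∧ F3.Sur 2 0 e

namespace FRes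

variable {s : ℤ} {V F0 F1 F2 F3 : Fam g} (R : FRes s V F0 F1 F2 F3)

theorem surj (hg : Gen g) : Function.Surjective (R.ε.W s) :=
  W_surj (kgen hg) R.φ1 R.ε R.z0 (fun e he => (R.S1 e he).1) (fun e he => (R.S1 e he).2)
    R.sur R.x0

theorem ex0 (hg : Gen g) : Function.Exact (R.φ1.W s) (R.ε.W s) :=
  W_exact (kgen hg) R.φ2 R.φ1 R.ε R.z1 R.z0 (fun e he => (R.S2 e he).1)
    (fun e he => (R.S2 e he).2) R.x0 R.x1

theorem ex1 (hg : Gen g) : Function.Exact (R.φ2.W s) (R.φ1.W s) :=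
  W_exact (kgen hg) R.φ3 R.φ2 R.φ1 R.z2 R.z1 (fun e he => (R.S3 e he).1)
    (fun e he => (R.S3 e he).2) R.x1 R.x2

theorem ex2 (hg : Gen g) : Function.Exact (R.φ3.W s) (R.φ2.W s) :=
  W_exact0 (kgen hg) R.φ3 R.φ2 R.z2 R.x2 R.x3

theorem inj (hg : Gen g) : Function.Injective (R.φ3.W s) :=
  W_inj (kgen hg) R.φ3 R.x3

/-- the resolution over `A g s` with the literal terms `W F_i` -/
def mres (hg : Gen g) (p0 : Module.Projective (A g s) (F0.W s))
    (p1 : Module.Projective (A g s) (F1.W s)) (p2 : Module.Projective (A g s) (F2.W s))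
    (p3 : Module.Projective (A g s) (F3.W s)) : NullChain538.MRes (A g s) (V.W s) where
  K0 := F0.W s
  K1 := F1.W s
  K2 := F2.W s
  K3 := F3.W s
  e := R.ε.W s
  d1 := R.φ1.W s
  d2 := R.φ2.W s
  d3 := R.φ3.W s
  surj := R.surj hg
  ex0 := R.ex0 hg
  ex1 := R.ex1 hg
  ex2 := R.ex2 hg
  inj := R.inj hg
  p0 := p0
  p1 := p1
  p2 := p2
  p3 := p3

end FRes

/-- transport of exactness along linear equivalences -/
theorem exact_transport {R : Type} [Ring R] {X Y Z X' Y' Z' : Type}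
    [AddCommGroup X] [Module R X] [AddCommGroup Y] [Module R Y] [AddCommGroup Z] [Module R Z]
    [AddCommGroup X'] [Module R X'] [AddCommGroup Y'] [Module R Y'] [AddCommGroup Z'] [Module R Z']
    {f : X →ₗ[R] Y} {h : Y →ₗ[R] Z} (f' : X' →ₗ[R] Y') (h' : Y' →ₗ[R] Z')
    (eX : X ≃ₗ[R] X') (eY : Y ≃ₗ[R] Y') (eZ : Z ≃ₗ[R] Z')
    (cf : ∀ x, f' (eX x) = eY (f x)) (ch : ∀ y, h' (eY y) = eZ (h y))
    (hx : Function.Exact f h) : Function.Exact f' h' := by
  intro y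
  obtain ⟨y, rfl⟩ := eY.surjective y
  rw [ch, eZ.map_eq_zero_iff, hx y]
  constructor
  · rintro ⟨x, rfl⟩
    exact ⟨eX x, cf x⟩
  · rintro ⟨x, hx'⟩
    obtain ⟨x, rfl⟩ := eX.surjective x
    rw [cf] at hx'
    exact ⟨x, eY.injective hx'⟩

theorem surj_transport {R : Type} [Ring R] {Y Z Y' Z' : Type}
    [AddCommGroup Y] [Module R Y] [AddCommGroup Z] [Module R Z]
    [AddCommGroup Y'] [Module R Y'] [AddCommGroup Z'] [Module R Z']
    {h : Y →ₗ[R] Z} (h' : Y' →ₗ[R] Z') (eY : Y ≃ₗ[R] Y') (eZ : Z ≃ₗ[R] Z')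
    (ch : ∀ y, h' (eY y) = eZ (h y)) (hs : Function.Surjective h) : Function.Surjective h' := by
  intro z
  obtain ⟨z, rfl⟩ := eZ.surjective z
  obtain ⟨y, rfl⟩ := hs z
  exact ⟨eY y, ch y⟩

theorem inj_transport {R : Type} [Ring R] {Y Z Y' Z' : Type}
    [AddCommGroup Y] [Module R Y] [AddCommGroup Z] [Module R Z]
    [AddCommGroup Y'] [Module R Y'] [AddCommGroup Z'] [Module R Z']
    {h : Y →ₗ[R] Z} (h' : Y' →ₗ[R] Z') (eY : Y ≃ₗ[R] Y') (eZ : Z ≃ₗ[R] Z')
    (ch : ∀ y, h' (eY y) = eZ (h y)) (hi : Function.Injective h) : Function.Injective h' := by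
  intro x y hxy
  obtain ⟨x, rfl⟩ := eY.surjective x
  obtain ⟨y, rfl⟩ := eY.surjective y
  rw [ch, ch] at hxy
  rw [hi (eZ.injective hxy)]

/-- **the resolution with given terms and given maps** -/
def FRes.mresOf {s : ℤ} {V F0 F1 F2 F3 : Fam g} (R : FRes s V F0 F1 F2 F3) (hg : Gen g)
    {E' P0 P1 P2 P3 : Type} [AddCommGroup E'] [Module (A g s) E']
    [AddCommGroup P0] [Module (A g s) P0] [AddCommGroup P1] [Module (A g s) P1]
    [AddCommGroup P2] [Module (A g s) P2] [AddCommGroup P3] [Module (A g s) P3]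
    [Module.Projective (A g s) P0] [Module.Projective (A g s) P1]
    [Module.Projective (A g s) P2] [Module.Projective (A g s) P3]
    (eE : V.W s ≃ₗ[A g s] E') (e0 : F0.W s ≃ₗ[A g s] P0) (e1 : F1.W s ≃ₗ[A g s] P1)
    (e2 : F2.W s ≃ₗ[A g s] P2) (e3 : F3.W s ≃ₗ[A g s] P3)
    (ε : P0 →ₗ[A g s] E') (d1 : P1 →ₗ[A g s] P0) (d2 : P2 →ₗ[A g s] P1) (d3 : P3 →ₗ[A g s] P2)
    (cε : ∀ x, ε (e0 x) = eE (R.ε.W s x)) (c1 : ∀ x, d1 (e1 x) = e0 (R.φ1.W s x))
    (c2 : ∀ x, d2 (e2 x) = e1 (R.φ2.W s x)) (c3 : ∀ x, d3 (e3 x) = e2 (R.φ3.W s x)) :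
    NullChain538.MRes (A g s) E' where
  K0 := P0
  K1 := P1
  K2 := P2
  K3 := P3
  e := ε
  d1 := d1
  d2 := d2
  d3 := d3
  surj := surj_transport ε e0 eE cε (R.surj hg)
  ex0 := exact_transport d1 ε e1 e0 eE c1 cε (R.ex0 hg)
  ex1 := exact_transport d2 d1 e2 e1 e0 c2 c1 (R.ex1 hg)
  ex2 := exact_transport d3 d2 e3 e2 e1 c3 c2 (R.ex2 hg)
  inj := inj_transport d3 e3 e2 c3 (R.inj hg)
  p0 := inferInstance
  p1 := inferInstance
  p2 := inferInstance
  p3 := inferInstance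

end Crest.Agent.R186.B281
end
end

-- ▼ part R186/SurV_823
section

/-!
Row 186, S0281, leaf B281.F1 (helper823): (S') = `Fam.Sur` at both `K`-vertices for all five
families `TV hg s v`, for their powers and products.
-/

set_option autoImplicit false

namespace Crest.Agent.R186.FamX823

open Crest.Agent.R186.B281

variable {K : Type} [Field K] {g : K}

/-- (S') at both `K`-vertices -/
def Sur2 (F : Fam g) (s : ℤ) : Prop :=
  ∀ e : ℤ, 0 ≤ e → F.Sur (s + 1) s e ∧ F.Sur 2 0 e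

theorem Sur2.pi {F : Fam g} {s : ℤ} (h : Sur2 F s) (ι : Type) : Sur2 (pi F ι) s :=
  fun e he => ⟨sur_pi (h e he).1 ι, sur_pi (h e he).2 ι⟩

theorem Sur2.prod {F G : Fam g} {s : ℤ} (h : Sur2 F s) (h' : Sur2 G s) : Sur2 (prod F G) s :=
  fun e he => ⟨sur_prod (h e he).1 (h' e he).1, sur_prod (h e he).2 (h' e he).2⟩

theorem sur2_TO (hg : Gen g) (c s : ℤ) : Sur2 (TO hg c) s := fun e he =>
  ⟨sur_O (F := TO hg c) (LinearEquiv.refl (Op K) (Op K)) (c := c) he fun _ _ => Iff.rfl,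
    sur_O (F := TO hg c) (LinearEquiv.refl (Op K) (Op K)) (c := c) he fun _ _ => Iff.rfl⟩

theorem sur_TK (hg : Gen g) {c d j i e : ℤ} (he : 0 ≤ e) (hcd : c ≤ d) (hbc : c ≤ i ∨ d ≤ j) :
    (TK hg c d).Sur j i e :=
  sur_K (F := TK hg c d) hg (LinearEquiv.refl (Op K) (Fin 2 → Op K)) he hcd hbc
    (fun _ _ => Iff.rfl) fun _ _ => Iff.rfl

/-- **(S')** for the five families -/
theorem sur2_TV (hg : Gen g) {s : ℤ} (hs : s = 0 ∨ s = 1) (v : Fin 5) : Sur2 (TV hg s v) s := by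
  fin_cases v
  · exact sur2_TO hg _ s
  · exact sur2_TO hg _ s
  · exact sur2_TO hg _ s
  · exact fun e he => ⟨sur_TK hg he (by omega) (by omega), sur_TK hg he (by omega) (by omega)⟩
  · exact fun e he => ⟨sur_TK hg he (by omega) (by omega), sur_TK hg he (by omega) (by omega)⟩



end Crest.Agent.R186.FamX823
end

-- ▼ part R186/KRS_823
section

/-!
Row 186, S0281, leaf B281.K0/K1 (helper823): (S') for the terms of the resolutions `K(n)` of both
`s`, and the resolutions of families `FRes` from the elementwise exactness statements.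
-/

set_option autoImplicit false

noncomputable section

namespace Crest.Agent.R186.KRS823

open Crest.Agent.R186.B281 Crest.Agent.R186.B281.KN Crest.Agent.R186.B281.KR
  Crest.Agent.R186.FamX823

variable {K : Type} [Field K] {g : K}

section Sur
variable (hg : Gen g) (n : ℕ)

theorem sG1 : Sur2 (G1 hg n) 0 := ((sur2_TV hg (Or.inl rfl) 3).pi _).pi _
theorem sG2 : Sur2 (G2 hg n) 0 :=
  ((sur2_TV hg (Or.inl rfl) 4).pi _).prod (((sur2_TV hg (Or.inl rfl) 1).pi _).pi _)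
theorem sG3 : Sur2 (G3 hg n) 0 := (sur2_TV hg (Or.inl rfl) 2).pi _
theorem sH1 : Sur2 (H1 hg n) 1 :=
  ((sur2_TV hg (Or.inr rfl) 4).pi _).prod (((sur2_TV hg (Or.inr rfl) 1).pi _).pi _)
theorem sH2 : Sur2 (H2 hg n) 1 := ((sur2_TV hg (Or.inr rfl) 3).pi _).pi _
theorem sH3 : Sur2 (H3 hg n) 1 := (sur2_TV hg (Or.inr rfl) 2).pi _

/-- the form of the fields `S1 S2 S3` of `FRes` -/
theorem _root_.Crest.Agent.R186.FamX823.Sur2.two {F : Fam g} {s : ℤ} (h : Sur2 F s) :
    ∀ e : ℤ, (e = 0 ∨ e = 1) → F.Sur (s + 1) s e ∧ F.Sur 2 0 e :=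
  fun e he => h e (by omega)

end Sur

/-! ### the resolutions of families -/

theorem lev_nn {s k P : ℤ} (hs : 0 ≤ s) (h : Lev s k P) : 0 ≤ k ∧ 0 ≤ P := by
  obtain ⟨h1, h2⟩ := h.nonneg hs
  exact ⟨h1, by omega⟩

/-- the resolution of families, `s = 0`, from the elementwise statements -/
def fres0 (hg : Gen g) (n : ℕ)
    (z0 : ∀ v : Fin 2 → Fin (n + 1) → Fin 2 → Op K, EP K n (D1 g n v) = 0)
    (z1 : ∀ p : (Fin (n + 2) → Fin 2 → Op K) × (Fin 2 → Fin n → Op K), D1 g n (D2 g n p) = 0)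
    (z2 : ∀ u : Fin (n + 1) → Op K, D2 g n (D3 g n u) = 0)
    (x0 : ∀ k P : ℤ, 0 ≤ P → ∀ u : Fin (n + 1) → Op K, (∀ j, u j ∈ Fil g k P) → EP K n u = 0 →
      ∃ v : Fin 2 → Fin (n + 1) → Fin 2 → Op K, (∀ e j, RK g 0 1 k P (v e j)) ∧ D1 g n v = u)
    (x1 : ∀ k P : ℤ, 0 ≤ P → ∀ v : Fin 2 → Fin (n + 1) → Fin 2 → Op K,
      (∀ e j, RK g 0 1 k P (v e j)) → D1 g n v = 0 →
      ∃ p : (Fin (n + 2) → Fin 2 → Op K) × (Fin 2 → Fin n → Op K),
        (∀ j, RK g 0 2 k P (p.1 j)) ∧ (∀ e j, p.2 e j ∈ Fil g (k - 1) P) ∧ D2 g n p = v)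
    (x2 : ∀ k P : ℤ, 0 ≤ P → ∀ p : (Fin (n + 2) → Fin 2 → Op K) × (Fin 2 → Fin n → Op K),
      (∀ j, RK g 0 2 k P (p.1 j)) → (∀ e j, p.2 e j ∈ Fil g (k - 1) P) → D2 g n p = 0 →
      ∃ u : Fin (n + 1) → Op K, (∀ j, u j ∈ Fil g (k - 2) P) ∧ D3 g n u = p)
    (x3 : ∀ k P : ℤ, 0 ≤ P → ∀ u : Fin (n + 1) → Op K, (∀ j, u j ∈ Fil g (k - 2) P) →
      D3 g n u = 0 → u = 0) :
    FRes 0 (Vf g n) (G0 hg n) (G1 hg n) (G2 hg n) (G3 hg n) where
  ε := ge hg n
  φ1 := g1 hg n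
  φ2 := g2 hg n
  φ3 := g3 hg n
  z0 := z0
  z1 := z1
  z2 := z2
  sur k P h := by
    obtain ⟨hk, hP⟩ := lev_nn le_rfl h
    intro f hf
    obtain ⟨u, hu, he⟩ := EP_surj (g := g) hk hP ((mem_Vf_L (g := g) n hk P f).1 hf)
    exact ⟨u, (mem_G0 hg n u).2 hu, he⟩
  x0 k P h u hu he := by
    obtain ⟨v, hv, e⟩ := x0 k P (lev_nn le_rfl h).2 u ((mem_G0 hg n u).1 hu) he
    exact ⟨v, (mem_G1 hg n v).2 hv, e⟩
  x1 k P h v hv he := by
    obtain ⟨p, h1, h2, e⟩ := x1 k P (lev_nn le_rfl h).2 v ((mem_G1 hg n v).1 hv) he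
    exact ⟨p, (mem_G2 hg n p).2 ⟨h1, h2⟩, e⟩
  x2 k P h p hp he := by
    obtain ⟨h1, h2⟩ := (mem_G2 hg n p).1 hp
    obtain ⟨u, hu, e⟩ := x2 k P (lev_nn le_rfl h).2 p h1 h2 he
    exact ⟨u, (mem_G3 hg n u).2 hu, e⟩
  x3 k P h u hu he := x3 k P (lev_nn le_rfl h).2 u ((mem_G3 hg n u).1 hu) he
  S1 := (sG1 hg n).two
  S2 := (sG2 hg n).two
  S3 := (sG3 hg n).two

/-- the resolution of families, `s = 1`, from the elementwise statements -/
def fres1 (hg : Gen g) (n : ℕ)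
    (z0 : ∀ p : (Fin n → Fin 2 → Op K) × (Fin 2 → Fin (n + 2) → Op K), EP K n (E1 g n p) = 0)
    (z1 : ∀ v : Fin 2 → Fin (n + 1) → Fin 2 → Op K, E1 g n (E2 g n v) = 0)
    (z2 : ∀ u : Fin (n + 1) → Op K, E2 g n (E3 g n u) = 0)
    (x0 : ∀ k P : ℤ, 0 ≤ P → ∀ u : Fin (n + 1) → Op K, (∀ j, u j ∈ Fil g k P) → EP K n u = 0 →
      ∃ p : (Fin n → Fin 2 → Op K) × (Fin 2 → Fin (n + 2) → Op K),
        (∀ j, RK g 0 2 k P (p.1 j)) ∧ (∀ e j, p.2 e j ∈ Fil g (k - 1) P) ∧ E1 g n p = u)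
    (x1 : ∀ k P : ℤ, 0 ≤ P → ∀ p : (Fin n → Fin 2 → Op K) × (Fin 2 → Fin (n + 2) → Op K),
      (∀ j, RK g 0 2 k P (p.1 j)) → (∀ e j, p.2 e j ∈ Fil g (k - 1) P) → E1 g n p = 0 →
      ∃ v : Fin 2 → Fin (n + 1) → Fin 2 → Op K, (∀ e j, RK g 1 2 k P (v e j)) ∧ E2 g n v = p)
    (x2 : ∀ k P : ℤ, 0 ≤ P → ∀ v : Fin 2 → Fin (n + 1) → Fin 2 → Op K,
      (∀ e j, RK g 1 2 k P (v e j)) → E2 g n v = 0 →
      ∃ u : Fin (n + 1) → Op K, (∀ j, u j ∈ Fil g (k - 2) P) ∧ E3 g n u = v)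
    (x3 : ∀ k P : ℤ, 0 ≤ P → ∀ u : Fin (n + 1) → Op K, (∀ j, u j ∈ Fil g (k - 2) P) →
      E3 g n u = 0 → u = 0) :
    FRes 1 (Vf g n) (H0 hg n) (H1 hg n) (H2 hg n) (H3 hg n) where
  ε := he hg n
  φ1 := h1 hg n
  φ2 := h2 hg n
  φ3 := h3 hg n
  z0 := z0
  z1 := z1
  z2 := z2
  sur k P h := by
    obtain ⟨hk, hP⟩ := lev_nn zero_le_one h
    intro f hf
    obtain ⟨u, hu, he⟩ := EP_surj (g := g) hk hP ((mem_Vf_L (g := g) n hk P f).1 hf)
    exact ⟨u, (mem_H0 hg n u).2 hu, he⟩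
  x0 k P h u hu he := by
    obtain ⟨p, h1, h2, e⟩ := x0 k P (lev_nn zero_le_one h).2 u ((mem_H0 hg n u).1 hu) he
    exact ⟨p, (mem_H1 hg n p).2 ⟨h1, h2⟩, e⟩
  x1 k P h p hp he := by
    obtain ⟨h1, h2⟩ := (mem_H1 hg n p).1 hp
    obtain ⟨v, hv, e⟩ := x1 k P (lev_nn zero_le_one h).2 p h1 h2 he
    exact ⟨v, (mem_H2 hg n v).2 hv, e⟩
  x2 k P h v hv he := by
    obtain ⟨u, hu, e⟩ := x2 k P (lev_nn zero_le_one h).2 v ((mem_H2 hg n v).1 hv) he
    exact ⟨u, (mem_H3 hg n u).2 hu, e⟩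
  x3 k P h u hu he := x3 k P (lev_nn zero_le_one h).2 u ((mem_H3 hg n u).1 hu) he
  S1 := (sH1 hg n).two
  S2 := (sH2 hg n).two
  S3 := (sH3 hg n).two

end Crest.Agent.R186.KRS823
end
end

-- ▼ part R186/Val_831
section

/-!
Row 186, S0281, base (helper831): evaluation at `1`. An operator in `Fil g k P` with value `0` on
`1` lies in `Fil g (k-1) (P+1) d_0 + Fil g (k-1) (P+1) d_1` (`val_zero`, the last line of B281.D3);
operators of order `0` are determined by their value on `1`; right multiplications `rm`.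
-/

set_option autoImplicit false

namespace Crest.Agent.R186.B281.Val831

open FilPBW633

variable {K : Type} [Field K] {g : K}

/-- right multiplication -/
noncomputable def rm (T : Op K) : Module.End K (Op K) := LinearMap.mulRight K T

@[simp] theorem rm_apply (T m : Op K) : rm T m = m * T := rfl


/-- an operator of order `0` is determined by its value on `1` -/
theorem ord0_single {P : ℤ} {T : Op K} (hT : T ∈ Fil g 0 P) (m : ℤ × ℤ) :
    T (Finsupp.single m 1) =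
      Finsupp.lmapDomain K K (fun r => r + m) (T (Finsupp.single (0, 0) 1)) := by
  induction hT using Submodule.span_induction with
  | mem x hx =>
    obtain ⟨a, b, h1, h2, rfl⟩ := hx
    have hb1 : b.1 = 0 := by omega
    have hb2 : b.2 = 0 := by omega
    rw [FD757.mon_single, FD757.mon_single, hb1, hb2]
    simp only [FD757.fac_zero, mul_one, Finsupp.lmapDomain_apply, Finsupp.mapDomain_single]
    congr 1
    ext <;> simp <;> ring
  | zero => simp
  | add x y _ _ hx hy => rw [LinearMap.add_apply, LinearMap.add_apply, map_add, hx, hy]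
  | smul a x _ hx => rw [LinearMap.smul_apply, LinearMap.smul_apply, map_smul, hx]

theorem ord0_zero {P : ℤ} {T : Op K} (hT : T ∈ Fil g 0 P)
    (h : T (Finsupp.single (0, 0) 1) = 0) : T = 0 := by
  apply op_ext
  intro m
  rw [ord0_single hT, h, map_zero, LinearMap.zero_apply]

theorem D_one (i : Fin 2) : (D g i : Op K) (Finsupp.single (0, 0) 1) = 0 := by
  rw [D_single]
  have : co i (0, 0) = 0 := by fin_cases i <;> simp [co]
  rw [this, cq_zero, zero_mul, Finsupp.single_zero]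

/-- operators killing `1` are in the left ideal of `d_0, d_1`, with the right orders -/
theorem val_zero (hg : Gen g) {k P : ℤ} {T : Op K} (hT : T ∈ Fil g k P)
    (h : T (Finsupp.single (0, 0) 1) = 0) :
    ∃ a ∈ Fil g (k - 1) (P + 1), ∃ b ∈ Fil g (k - 1) (P + 1), T = a * D g 0 + b * D g 1 := by
  obtain ⟨a, ha, b, hb, p, hp, rfl⟩ := D1R hg hT
  refine ⟨a, ha, b, hb, ?_⟩
  simp only [LinearMap.add_apply, Module.End.mul_apply, D_one, map_zero, zero_add] at h
  rw [ord0_zero hp h, add_zero]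



end Crest.Agent.R186.B281.Val831
end

-- ▼ part R186/CovOp_831
section

/-!
Row 186, S0281, base (helper831): the instance of 853's abstract data `Cov853.Dat` for the operators
`Op K` with right multiplications by `X i`, `D g i` and the pieces `Fil g A P`.
-/

set_option autoImplicit false

namespace Crest.Agent.R186.B281.Val831

open FilPBW633

variable {K : Type} [Field K] {g : K}

theorem mul_X_zero (i : Fin 2) {T : Op K} (h : T * X i = 0) : T = 0 := by
  apply op_ext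
  intro m
  have h1 := congrArg (fun S : Op K => S (Finsupp.single (m - ev i) 1)) h
  simpa only [Module.End.mul_apply, X_single, sub_add_cancel, LinearMap.zero_apply] using h1

/-- the adapter: `F P A = Fil g A P`, `x_i`, `d_i` = right multiplications -/
noncomputable def fdat (hg : Gen g) : Cov853.Dat K (Op K) where
  g := g
  g0 := hg.1
  c a := cq g (a : ℤ)
  c0 := cq_zero g
  cs a := by
    have := cq_pred hg ((a : ℤ) + 1)
    rw [add_sub_cancel_right] at this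
    rw [this]
    push_cast
    rfl
  cne a := cq_ne hg (by positivity)
  x0 := rm (X 0)
  x1 := rm (X 1)
  d0 := rm (D g 0)
  d1 := rm (D g 1)
  xx m := by simp only [rm_apply, mul_assoc, X_comm]
  dd m := by simp only [rm_apply, mul_assoc, D_comm]
  d0x1 m := by simp only [rm_apply, mul_assoc, X_D g (show (1 : Fin 2) ≠ 0 by decide)]
  d1x0 m := by simp only [rm_apply, mul_assoc, X_D g (show (0 : Fin 2) ≠ 1 by decide)]
  d0x0 m := by
    simp only [rm_apply, mul_assoc, X_D_self hg, mul_add, mul_one, mul_smul_comm]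
  d1x1 m := by
    simp only [rm_apply, mul_assoc, X_D_self hg, mul_add, mul_one, mul_smul_comm]
  F P A := Fil g A P
  mono P A := Fil_mono g (by omega)
  mx0 P A m hm := FD757.mul_X_mem hg 0 hm
  mx1 P A m hm := FD757.mul_X_mem hg 1 hm
  md0 P A m hm := FD757.mul_D_mem 0 hm
  md1 P A m hm := FD757.mul_D_mem 1 hm
  ix0 m h := mul_X_zero 0 h
  ix1 m h := mul_X_zero 1 h
  id0 P A m hm h := inj_DR hg (i := 0) hm h
  id1 P A m hm h := inj_DR hg (i := 1) hm h
  sX P A m hP hm := X1R hg hP hm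
  eX P A a b _ ha hb h := X2R hg ha hb h
  eD P A a b _ ha hb h := D2R hg ha hb h

section simps
variable (hg : Gen g)
@[simp] theorem fdat_g : (fdat hg).g = g := rfl
@[simp] theorem fdat_c (a : ℕ) : (fdat hg).c a = cq g (a : ℤ) := rfl
@[simp] theorem fdat_x0 (T : Op K) : (fdat hg).x0 T = T * X 0 := rfl
@[simp] theorem fdat_x1 (T : Op K) : (fdat hg).x1 T = T * X 1 := rfl
@[simp] theorem fdat_d0 (T : Op K) : (fdat hg).d0 T = T * D g 0 := rfl
@[simp] theorem fdat_d1 (T : Op K) : (fdat hg).d1 T = T * D g 1 := rfl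
@[simp] theorem fdat_F (P A : ℤ) : (fdat hg).F P A = Fil g A P := rfl
end simps

end Crest.Agent.R186.B281.Val831
end

-- ▼ part R186/KE0_853
section

/-!
Row 186, S0281, base (helper853): exactness of 355's literal maps (`KL_355`, `s = 0`) from the
abstract theorem `Cov_853` at 831's instance `fdat`, degree by degree (families supported on a
diagonal `a + b = n`; index `j` = exponent of `x₁`).
-/

set_option autoImplicit false
set_option linter.unusedVariables false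
set_option linter.unusedSimpArgs false
set_option linter.unusedSectionVars false
set_option linter.unnecessarySeqFocus false

namespace Crest.Agent.R186.B281.KE0_853

open FilPBW633 KN Val831
open Cov853 (Fn In ap ap_apply)
open Cov853.Dat (R4)

variable {K : Type} [Field K] {g : K}

/-- the sequence on the diagonal `a + b = m` -/
def sq {M : Type*} [Zero M] (m : ℕ) (u : ℕ → ℕ → M) (j : ℕ) : M := if j ≤ m then u (m - j) j else 0

theorem sq_of {M : Type*} [Zero M] {m a b : ℕ} (u : ℕ → ℕ → M) (h : a + b = m) :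
    sq m u b = u a b := by
  unfold sq
  rw [if_pos (by omega), show m - b = a by omega]

theorem sq_gt {M : Type*} [Zero M] {m b : ℕ} (u : ℕ → ℕ → M) (h : m < b) : sq m u b = 0 :=
  if_neg (not_le.2 h)

/-- the sequence on the diagonal `a + b + 1 = n` -/
def sh' {M : Type*} [Zero M] (n : ℕ) (u : ℕ → ℕ → M) (j : ℕ) : M :=
  if j + 1 ≤ n then u (n - 1 - j) j else 0

theorem sh'_of {M : Type*} [Zero M] {n a b : ℕ} (u : ℕ → ℕ → M) (h : a + b + 1 = n) :
    sh' n u b = u a b := by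
  unfold sh'
  rw [if_pos (by omega), show n - 1 - b = a by omega]

theorem sh'_ge {M : Type*} [Zero M] {n b : ℕ} (u : ℕ → ℕ → M) (h : n ≤ b) : sh' n u b = 0 :=
  if_neg (by omega)

/-- family on the diagonal `m` -/
def dg {M : Type*} [Zero M] (m : ℕ) (x : ℕ → M) : ℕ → ℕ → M := fun a b => if a + b = m then x b else 0

theorem dg_of {M : Type*} [Zero M] {m a b : ℕ} (x : ℕ → M) (h : a + b = m) : dg m x a b = x b :=
  if_pos h

theorem dg_ne {M : Type*} [Zero M] {m a b : ℕ} (x : ℕ → M) (h : a + b ≠ m) : dg m x a b = 0 :=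
  if_neg h

/-- family on the diagonal `n - 1` -/
def dh {M : Type*} [Zero M] (n : ℕ) (x : ℕ → M) : ℕ → ℕ → M :=
  fun a b => if a + b + 1 = n then x b else 0

theorem dh_of {M : Type*} [Zero M] {n a b : ℕ} (x : ℕ → M) (h : a + b + 1 = n) :
    dh n x a b = x b := if_pos h

theorem dh_ne {M : Type*} [Zero M] {n a b : ℕ} (x : ℕ → M) (h : a + b + 1 ≠ n) :
    dh n x a b = 0 := if_neg h

theorem sq_dg {M : Type*} [Zero M] {m : ℕ} (x : ℕ → M) (h : ∀ j, m < j → x j = 0) :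
    sq m (dg m x) = x := by
  funext j
  by_cases hj : j ≤ m
  · rw [sq_of (a := m - j) _ (by omega), dg_of _ (by omega)]
  · rw [sq_gt _ (by omega), h j (by omega)]

theorem sh'_dh {M : Type*} [Zero M] {n : ℕ} (x : ℕ → M) (h : ∀ j, n ≤ j → x j = 0) :
    sh' n (dh n x) = x := by
  funext j
  by_cases hj : j + 1 ≤ n
  · rw [sh'_of (a := n - 1 - j) _ (by omega), dh_of _ (by omega)]
  · rw [sh'_ge _ (by omega), h j (by omega)]

/-- the rows of `K₁` on the diagonal `n` -/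
noncomputable def vz (n : ℕ) (z : R4 (Op K)) : Fin 2 → ℕ → Fin 2 → Op K :=
  ![fun j => ![sq n z.1 j, sq n z.2.1 j], fun j => ![sq n z.2.2.1 j, sq n z.2.2.2 j]]

@[simp] theorem vz00 (n : ℕ) (z : R4 (Op K)) (j : ℕ) : vz n z 0 j 0 = sq n z.1 j := rfl
@[simp] theorem vz01 (n : ℕ) (z : R4 (Op K)) (j : ℕ) : vz n z 0 j 1 = sq n z.2.1 j := rfl
@[simp] theorem vz10 (n : ℕ) (z : R4 (Op K)) (j : ℕ) : vz n z 1 j 0 = sq n z.2.2.1 j := rfl
@[simp] theorem vz11 (n : ℕ) (z : R4 (Op K)) (j : ℕ) : vz n z 1 j 1 = sq n z.2.2.2 j := rfl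

section lemmas
variable (hg : Gen g)

/-- (A) `δ₁` -/
theorem del1_eq (n : ℕ) (z : R4 (Op K)) (a b : ℕ) (h : a + b = n) :
    (fdat hg).del1 z a b = d1f g n (vz n z) b := by
  obtain ⟨z1, z2, z3, z4⟩ := z
  have e1 : n - b = a := by omega
  have e2 : n + 1 - b = a + 1 := by omega
  unfold Cov853.Dat.del1 d1f
  simp only [Pi.sub_apply, Pi.add_apply, ap_apply, Cov853.Dat.cv_apply, fdat_x0, fdat_x1, fdat_d0,
    fdat_d1, cc, vz00, vz01, vz10, vz11, sq_of _ h, e1, e2]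
  rcases a with _ | a <;> rcases b with _ | b
  · simp only [Cov853.X0_zero, Cov853.X1_zero, Nat.cast_zero, cq_zero, zero_smul, sub_zero,
      sh_zero, Pi.zero_apply, smul_zero]
    rw [sq_gt _ (show n < 0 + 1 by omega), smul_zero, sub_zero]
  · simp only [Cov853.X0_zero, Cov853.X1_succ, Nat.cast_zero, cq_zero, zero_smul, sub_zero,
      sh_succ, vz01]
    rw [sq_gt _ (show n < b + 1 + 1 by omega), sq_of (a := 0 + 1) (b := b) _ (by omega)]
    simp only [Pi.add_apply, Cov853.D0_apply, Cov853.D1_apply, fdat_c, smul_zero, sub_zero]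
    abel
  · simp only [Cov853.X0_succ, Cov853.X1_zero, Nat.cast_zero, cq_zero, zero_smul, sub_zero,
      sh_zero, Pi.zero_apply, smul_zero]
    rw [sq_of (a := a) (b := 0 + 1) _ (by omega)]
    simp only [Pi.add_apply, Cov853.D0_apply, Cov853.D1_apply, fdat_c, smul_zero, sub_zero]
    abel
  · simp only [Cov853.X0_succ, Cov853.X1_succ, sh_succ, vz01]
    rw [sq_of (a := a) (b := b + 1 + 1) _ (by omega), sq_of (a := a + 1 + 1) (b := b) _ (by omega)]
    simp only [Pi.add_apply, Cov853.D0_apply, Cov853.D1_apply, fdat_c, smul_zero, sub_zero]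
    abel

end lemmas

/-! ### values -/

section ep
variable (hg : Gen g)

theorem X0_pow_apply (a : ℕ) (m : Op K) : ((fdat hg).x0 ^ a) m = m * X 0 ^ a := by
  induction a with
  | zero => simp
  | succ a ih => rw [pow_succ', Module.End.mul_apply, ih, fdat_x0, mul_assoc, ← pow_succ]

theorem X1_pow_apply (a : ℕ) (m : Op K) : ((fdat hg).x1 ^ a) m = m * X 1 ^ a := by
  induction a with
  | zero => simp
  | succ a ih => rw [pow_succ', Module.End.mul_apply, ih, fdat_x1, mul_assoc, ← pow_succ]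

theorem X_pow_single (i : Fin 2) (a : ℕ) (m : ℤ × ℤ) :
    ((X i : Op K) ^ a) (Finsupp.single m 1) = Finsupp.single (m + a • ev i) 1 := by
  induction a with
  | zero => simp
  | succ a ih =>
    rw [pow_succ', Module.End.mul_apply, ih, X_single, succ_nsmul, add_assoc]

theorem mu_one (m : ℕ) (u : Fn (Op K)) : (fdat hg).mu m u (Finsupp.single (0, 0) 1) =
    ∑ p ∈ Finset.HasAntidiagonal.antidiagonal m, u p.1 p.2 (Finsupp.single ((p.1 : ℤ), (p.2 : ℤ)) 1) := by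
  unfold Cov853.Dat.mu
  rw [LinearMap.sum_apply]
  refine Finset.sum_congr rfl fun p _ => ?_
  rw [X0_pow_apply, X1_pow_apply, Module.End.mul_apply, Module.End.mul_apply, X_pow_single,
    X_pow_single]
  congr 2
  ext <;> simp [ev]

theorem EP_eq (n : ℕ) (u : Fin (n + 1) → Op K) :
    EP K n u = (fdat hg).mu n (dg n (ez u)) (Finsupp.single (0, 0) 1) := by
  rw [mu_one, Finset.Nat.sum_antidiagonal_eq_sum_range_succ_mk, ← Finset.sum_flip]
  show ∑ j, u j (mo K n j) = _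
  rw [Finset.sum_range]
  refine Finset.sum_congr rfl fun j _ => ?_
  have hj : (j : ℕ) ≤ n := by omega
  have e : n - (n - (j : ℕ)) = j := by omega
  simp only [e]
  rw [dg_of _ (by omega), ez_fin, mo]
  congr 2
  ext <;> simp
  omega

theorem mu_dg_ne {m n : ℕ} (h : m ≠ n) (x : ℕ → Op K) : (fdat hg).mu m (dg n x) = 0 := by
  unfold Cov853.Dat.mu
  refine Finset.sum_eq_zero fun p hp => ?_
  rw [dg_ne _ (by rw [Finset.HasAntidiagonal.mem_antidiagonal.1 hp]; exact h), map_zero, map_zero]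

end ep

theorem ez2_eq_vz {n : ℕ} (v : Fin 2 → Fin (n + 1) → Fin 2 → Op K) :
    vz n (dg n (fun j => ez (v 0) j 0), dg n (fun j => ez (v 0) j 1), dg n (fun j => ez (v 1) j 0),
      dg n (fun j => ez (v 1) j 1)) = ez2 v := by
  have h : ∀ e i j, n < j → ez (v e) j i = 0 := fun e i j hj => by
    rw [ez_of_ge _ (by omega)]; rfl
  unfold vz
  simp only [sq_dg _ (h _ _)]
  funext e j i
  fin_cases e <;> fin_cases i <;> rfl

theorem vz_fin {n : ℕ} (z : R4 (Op K)) : ez2 (fun e (j : Fin (n + 1)) => vz n z e j) = vz n z := by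
  funext e
  unfold ez2
  refine ez_restrict (u := vz n z e) fun j hj => ?_
  funext i
  fin_cases e <;> fin_cases i <;> exact sq_gt _ (by omega)

section D1
variable (hg : Gen g)

/-- (A) on tuples -/
theorem D1_vz (n : ℕ) (z : R4 (Op K)) :
    D1 g n (fun e (j : Fin (n + 1)) => vz n z e j) =
      fun j : Fin (n + 1) => (fdat hg).del1 z (n - (j : ℕ)) j := by
  funext j
  show d1f g n (ez2 (fun e (j : Fin (n + 1)) => vz n z e j)) j = _
  rw [vz_fin, del1_eq hg n z (n - j) j (by omega)]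

/-- the four families of a tuple -/
noncomputable def zv {n : ℕ} (v : Fin 2 → Fin (n + 1) → Fin 2 → Op K) : R4 (Op K) :=
  (dg n (fun j => ez (v 0) j 0), dg n (fun j => ez (v 0) j 1), dg n (fun j => ez (v 1) j 0),
      dg n (fun j => ez (v 1) j 1))

theorem del1_zv {n : ℕ} (v : Fin 2 → Fin (n + 1) → Fin 2 → Op K) :
    (fdat hg).del1 (zv v) = dg n (ez (D1 g n v)) := by
  funext a b
  by_cases h : a + b = n
  · rw [del1_eq hg n _ a b h, dg_of _ h, ez_of_lt _ (show b < n + 1 by omega)]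
    unfold zv
    rw [ez2_eq_vz]
    rfl
  · rw [dg_ne _ h]
    unfold Cov853.Dat.del1 zv
    simp only [Pi.sub_apply, Pi.add_apply, ap_apply, Cov853.Dat.cv_apply]
    rw [dg_ne _ h, dg_ne _ h, dg_ne _ h, dg_ne _ h]
    simp only [map_zero, add_zero, zero_sub]
    rcases a with _ | a <;> rcases b with _ | b
    · simp
    · simp only [Cov853.X0_zero, Cov853.X1_succ, Pi.add_apply, Cov853.D0_apply, Cov853.D1_apply]
      rw [dg_ne _ (by omega), dg_ne _ (by omega)]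
      simp
    · simp only [Cov853.X0_succ, Cov853.X1_zero, Pi.add_apply, Cov853.D0_apply, Cov853.D1_apply]
      rw [dg_ne _ (by omega), dg_ne _ (by omega)]
      simp
    · simp only [Cov853.X0_succ, Cov853.X1_succ, Pi.add_apply, Cov853.D0_apply, Cov853.D1_apply]
      rw [dg_ne _ (by omega), dg_ne _ (by omega), dg_ne _ (by omega), dg_ne _ (by omega)]
      simp

include hg

/-- (z0) -/
theorem z0 (n : ℕ) (v : Fin 2 → Fin (n + 1) → Fin 2 → Op K) : EP K n (D1 g n v) = 0 := by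
  rw [EP_eq hg, ← del1_zv hg, Cov853.Dat.mu_del1]
  simp only [fdat_d0, fdat_d1, LinearMap.add_apply, Module.End.mul_apply, D_one, map_zero,
    add_zero]

/-- (x0) -/
theorem x0 {n : ℕ} {k P : ℤ} (hP : 0 ≤ P) (u : Fin (n + 1) → Op K) (hu : ∀ j, u j ∈ Fil g k P)
    (h : EP K n u = 0) :
    ∃ v : Fin 2 → Fin (n + 1) → Fin 2 → Op K, (∀ e j, RK g 0 1 k P (v e j)) ∧ D1 g n v = u := by
  have hU : In ((fdat hg).F P k) (dg n (ez u)) := fun a b => by
    show _ ∈ Fil g k P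
    unfold dg
    split_ifs
    · exact ez_all (p := fun T => T ∈ Fil g k P) (zero_mem _) hu b
    · exact zero_mem _
  obtain ⟨z, hz, hz'⟩ := (fdat hg).exact0 hP (dg n (ez u)) hU (fun m => by
    by_cases hm : m = n
    · subst hm
      have h1 := (fdat hg).mu_mem hU m
      rw [fdat_F] at h1
      rw [EP_eq hg] at h
      obtain ⟨a, ha, b, hb, hab⟩ := val_zero hg h1 h
      exact ⟨a, ha, b, hb, hab⟩
    · rw [mu_dg_ne hg hm]
      exact ⟨0, zero_mem _, 0, zero_mem _, by simp⟩)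
  refine ⟨fun e j => vz n z e j, fun e j => ?_, ?_⟩
  · obtain ⟨⟨h1, h2, h3⟩, ⟨h4, h5, h6⟩⟩ := hz
    have hj : n - (j : ℕ) + j = n := by omega
    fin_cases e
    · refine ⟨?_, ?_, ?_⟩
      · show sq n z.1 j ∈ Fil g (k - 0) P
        rw [sq_of _ hj, sub_zero]
        exact h1 _ _
      · show sq n z.2.1 j ∈ Fil g (k - 0) P
        rw [sq_of _ hj, sub_zero]
        exact h2 _ _
      · show sq n z.1 j * X 0 + sq n z.2.1 j * X 1 ∈ Fil g (k - 1) (P + 1)
        rw [sq_of _ hj, sq_of _ hj]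
        exact h3 _ _
    · refine ⟨?_, ?_, ?_⟩
      · show sq n z.2.2.1 j ∈ Fil g (k - 0) P
        rw [sq_of _ hj, sub_zero]
        exact h4 _ _
      · show sq n z.2.2.2 j ∈ Fil g (k - 0) P
        rw [sq_of _ hj, sub_zero]
        exact h5 _ _
      · show sq n z.2.2.1 j * X 0 + sq n z.2.2.2 j * X 1 ∈ Fil g (k - 1) (P + 1)
        rw [sq_of _ hj, sq_of _ hj]
        exact h6 _ _
  · rw [D1_vz hg, hz']
    funext j
    rw [dg_of _ (by omega), ez_fin]

end D1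

/-! ### `δ₂` -/

/-- the rows of `K₂` on the diagonal `n + 1` -/
noncomputable def wz (n : ℕ) (α β : ℕ → ℕ → Op K) : ℕ → Fin 2 → Op K :=
  fun j => ![sq (n + 1) α j, sq (n + 1) β j]

@[simp] theorem wz0 (n : ℕ) (α β : ℕ → ℕ → Op K) (j : ℕ) : wz n α β j 0 = sq (n + 1) α j := rfl
@[simp] theorem wz1 (n : ℕ) (α β : ℕ → ℕ → Op K) (j : ℕ) : wz n α β j 1 = sq (n + 1) β j := rfl

/-- the two sequences on the diagonal `n - 1` -/
noncomputable def hz (n : ℕ) (H0 H1 : ℕ → ℕ → Op K) : Fin 2 → ℕ → Op K := ![sh' n H0, sh' n H1]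

@[simp] theorem hz0 (n : ℕ) (H0 H1 : ℕ → ℕ → Op K) : hz n H0 H1 0 = sh' n H0 := rfl
@[simp] theorem hz1 (n : ℕ) (H0 H1 : ℕ → ℕ → Op K) : hz n H0 H1 1 = sh' n H1 := rfl

theorem wz_fin {n : ℕ} (α β : ℕ → ℕ → Op K) :
    ez (fun j : Fin (n + 2) => wz n α β j) = wz n α β := by
  refine ez_restrict (u := wz n α β) fun j hj => ?_
  funext i
  fin_cases i <;> exact sq_gt _ (by omega)

theorem hz_fin {n : ℕ} (H0 H1 : ℕ → ℕ → Op K) :
    ez2 (fun e (j : Fin n) => hz n H0 H1 e j) = hz n H0 H1 := by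
  funext e
  unfold ez2
  refine ez_restrict (u := hz n H0 H1 e) fun j hj => ?_
  fin_cases e <;> exact sh'_ge _ hj

section D2
variable (hg : Gen g)

/-- (B) -/
theorem al_eq (n : ℕ) (α β : Fn (Op K)) (a b : ℕ) (h : a + b = n) :
    ((fdat hg).al α β).1 a b = d2w0 g (wz n α β) b 0 ∧
    ((fdat hg).al α β).2.1 a b = d2w0 g (wz n α β) b 1 ∧
    ((fdat hg).al α β).2.2.1 a b = d2w1 g n (wz n α β) b 0 ∧
    ((fdat hg).al α β).2.2.2 a b = d2w1 g n (wz n α β) b 1 := by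
  have e2 : n + 1 - b = a + 1 := by omega
  have hb : sq (n + 1) α (b + 1) = α a (b + 1) := sq_of _ (by omega)
  have hb' : sq (n + 1) β (b + 1) = β a (b + 1) := sq_of _ (by omega)
  have hc : sq (n + 1) α b = α (a + 1) b := sq_of _ (by omega)
  have hc' : sq (n + 1) β b = β (a + 1) b := sq_of _ (by omega)
  unfold Cov853.Dat.al d2w0 d2w1
  simp only [Pi.sub_apply, Pi.add_apply, Pi.neg_apply, Pi.smul_apply, ap_apply,
    Cov853.Dat.cv_apply, fdat_x0, fdat_x1, fdat_d0, fdat_d1, fdat_g, fdat_c, cc, wz0, wz1, hb, hb',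
    hc, hc', e2, Cov853.D0_apply, Cov853.D1_apply, Cov853.Dat.q1_apply]
  rcases b with _ | b
  · rw [if_pos rfl, if_pos rfl]
    simp [Cov853.Dat.q0_zero, Cov853.Dat.cv_apply, hc, hc']
  · rw [if_neg (by omega), if_neg (by omega)]
    simp [Cov853.Dat.q0_succ]

/-- (C) -/
theorem be_eq (n : ℕ) (H0 H1 : Fn (Op K)) (a b : ℕ) (h : a + b = n) :
    ((fdat hg).be H0 H1).1 a b = d2h0 g n (hz n H0 H1) b 0 ∧
    ((fdat hg).be H0 H1).2.1 a b = d2h0 g n (hz n H0 H1) b 1 ∧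
    ((fdat hg).be H0 H1).2.2.1 a b = d2h1 g (hz n H0 H1) b 0 ∧
    ((fdat hg).be H0 H1).2.2.2 a b = d2h1 g (hz n H0 H1) b 1 := by
  have e1 : n - b = a := by omega
  have hX1 : ∀ H : Fn (Op K), Cov853.X1 H a b = sh (sh' n H) b := by
    intro H
    rcases b with _ | b
    · rw [Cov853.X1_zero, sh_zero]
    · rw [Cov853.X1_succ, sh_succ, sh'_of _ (by omega)]
  have hX0 : ∀ H : Fn (Op K), Cov853.X0 H a b = sh' n H b := by
    intro H
    rcases a with _ | a
    · rw [Cov853.X0_zero, sh'_ge _ (by omega)]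
    · rw [Cov853.X0_succ, sh'_of (a := a) _ (by omega)]
  have hI : ∀ H : Fn (Op K), (fdat hg).I0 H a b = (cq g (a : ℕ))⁻¹ • sh' n H b := by
    intro H
    rcases a with _ | a
    · rw [Cov853.Dat.I0_zero, sh'_ge _ (by omega), smul_zero]
    · rw [Cov853.Dat.I0_succ, sh'_of (a := a) _ (by omega), fdat_c]
  unfold Cov853.Dat.be d2h0 d2h1
  simp only [Pi.sub_apply, Pi.add_apply, Pi.neg_apply, Pi.smul_apply, ap_apply, fdat_x0, fdat_x1,
    fdat_d0, fdat_d1, fdat_g, hX0, hX1, hI, hz0, hz1, e1]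
  simp [syz, sub_eq_add_neg, mul_add, add_mul]

theorem D2_wz (n : ℕ) (α β H0 H1 : Fn (Op K)) :
    D2 g n (fun j : Fin (n + 2) => wz n α β j, fun e (j : Fin n) => hz n H0 H1 e j) =
      fun e (j : Fin (n + 1)) => vz n ((fdat hg).al α β + (fdat hg).be H0 H1) e j := by
  have key : ∀ j : Fin (n + 1), (n - (j : ℕ)) + j = n := fun j => by omega
  funext e j i
  obtain ⟨a1, a2, a3, a4⟩ := al_eq hg n α β _ _ (key j)
  obtain ⟨b1, b2, b3, b4⟩ := be_eq hg n H0 H1 _ _ (key j)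
  fin_cases e
  · show (d2w0 g (ez (fun j : Fin (n + 2) => wz n α β j)) j +
      d2h0 g n (ez2 (fun e (j : Fin n) => hz n H0 H1 e j)) j) i = _
    rw [wz_fin, hz_fin]
    fin_cases i
    · show _ = sq n _ j
      rw [sq_of _ (key j)]
      show _ = ((fdat hg).al α β).1 (n - (j : ℕ)) j + ((fdat hg).be H0 H1).1 (n - (j : ℕ)) j
      rw [a1, b1]; rfl
    · show _ = sq n _ j
      rw [sq_of _ (key j)]
      show _ = ((fdat hg).al α β).2.1 (n - (j : ℕ)) j + ((fdat hg).be H0 H1).2.1 (n - (j : ℕ)) j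
      rw [a2, b2]; rfl
  · show (d2w1 g n (ez (fun j : Fin (n + 2) => wz n α β j)) j +
      d2h1 g (ez2 (fun e (j : Fin n) => hz n H0 H1 e j)) j) i = _
    rw [wz_fin, hz_fin]
    fin_cases i
    · show _ = sq n _ j
      rw [sq_of _ (key j)]
      show _ = ((fdat hg).al α β).2.2.1 (n - (j : ℕ)) j + ((fdat hg).be H0 H1).2.2.1 (n - (j : ℕ)) j
      rw [a3, b3]; rfl
    · show _ = sq n _ j
      rw [sq_of _ (key j)]
      show _ = ((fdat hg).al α β).2.2.2 (n - (j : ℕ)) j + ((fdat hg).be H0 H1).2.2.2 (n - (j : ℕ)) j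
      rw [a4, b4]; rfl

include hg

/-- (x1) -/
theorem x1 {n : ℕ} {k P : ℤ} (hP : 0 ≤ P) (v : Fin 2 → Fin (n + 1) → Fin 2 → Op K)
    (hv : ∀ e j, RK g 0 1 k P (v e j)) (h : D1 g n v = 0) :
    ∃ p : (Fin (n + 2) → Fin 2 → Op K) × (Fin 2 → Fin n → Op K),
      (∀ j, RK g 0 2 k P (p.1 j)) ∧ (∀ e j, p.2 e j ∈ Fil g (k - 1) P) ∧ D2 g n p = v := by
  have hzv : (fdat hg).K1m P k (zv v) := by
    have hv' : ∀ e j, RK g 0 1 k P (ez (v e) j) := fun e j =>
      ez_all (p := fun r => RK g 0 1 k P r) RK.zero (hv e) j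
    have key : ∀ e, (fdat hg).KL 1 P k (dg n (fun j => ez (v e) j 0))
        (dg n (fun j => ez (v e) j 1)) := by
      intro e
      refine ⟨fun a b => ?_, fun a b => ?_, fun a b => ?_⟩
      · show _ ∈ Fil g k P
        unfold dg
        split_ifs
        · have := (hv' e b).1
          rwa [sub_zero] at this
        · exact zero_mem _
      · show _ ∈ Fil g k P
        unfold dg
        split_ifs
        · have := (hv' e b).2.1
          rwa [sub_zero] at this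
        · exact zero_mem _
      · show dg n (fun j => ez (v e) j 0) a b * X 0 + dg n (fun j => ez (v e) j 1) a b * X 1 ∈
          Fil g (k - 1) (P + 1)
        unfold dg
        split_ifs
        · exact (hv' e b).2.2
        · simp
    exact ⟨key 0, key 1⟩
  have hd : (fdat hg).del1 (zv v) = 0 := by
    rw [del1_zv, h, ez_zero]
    funext a b
    unfold dg
    split_ifs <;> rfl
  obtain ⟨α, β, H0, H1, hK, ha, hb, m0, m1, hE⟩ := (fdat hg).exact1 hP _ hzv hd
  refine ⟨(fun j : Fin (n + 2) => wz n α β j, fun e (j : Fin n) => hz n H0 H1 e j),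
    fun j => ?_, fun e j => ?_, ?_⟩
  · have hj : n + 1 - (j : ℕ) + j = n + 1 := by omega
    refine ⟨?_, ?_, ?_⟩
    · show sq (n + 1) α j ∈ Fil g (k - 0) P
      rw [sq_of _ hj, sub_zero]
      exact hK.1 _ _
    · show sq (n + 1) β j ∈ Fil g (k - 0) P
      rw [sq_of _ hj, sub_zero]
      exact hK.2.1 _ _
    · show sq (n + 1) α j * X 0 + sq (n + 1) β j * X 1 ∈ Fil g (k - 2) (P + 1)
      rw [sq_of _ hj, sq_of _ hj]
      exact hK.2.2 _ _
  · have hj : n - 1 - (j : ℕ) + j + 1 = n := by omega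
    fin_cases e
    · show sh' n H0 j ∈ Fil g (k - 1) P
      rw [sh'_of _ hj]
      exact m0 _ _
    · show sh' n H1 j ∈ Fil g (k - 1) P
      rw [sh'_of _ hj]
      exact m1 _ _
  · rw [D2_wz hg, ← hE]
    funext e j
    rw [show vz n (zv v) = ez2 v from ez2_eq_vz v]
    exact ez_fin _ _

omit hg in
/-- the families of an element of `K₂` -/
theorem wz_dg {n : ℕ} (w : Fin (n + 2) → Fin 2 → Op K) :
    wz n (dg (n + 1) (fun j => ez w j 0)) (dg (n + 1) (fun j => ez w j 1)) = ez w := by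
  have h : ∀ i j, n + 1 < j → ez w j i = 0 := fun i j hj => by
    rw [ez_of_ge _ (by omega)]; rfl
  unfold wz
  simp only [sq_dg _ (h _)]
  funext j i
  fin_cases i <;> rfl

omit hg in
theorem hz_dh {n : ℕ} (x : Fin 2 → Fin n → Op K) :
    hz n (dh n (ez (x 0))) (dh n (ez (x 1))) = ez2 x := by
  unfold hz
  rw [sh'_dh _ fun j hj => ez_of_ge _ hj, sh'_dh _ fun j hj => ez_of_ge _ hj]
  funext e
  fin_cases e <;> rfl

/-- all families of `δ₂` of a tuple -/
theorem D2_zv {n : ℕ} (p : (Fin (n + 2) → Fin 2 → Op K) × (Fin 2 → Fin n → Op K)) :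
    (fdat hg).al (dg (n + 1) (fun j => ez p.1 j 0)) (dg (n + 1) (fun j => ez p.1 j 1)) +
      (fdat hg).be (dh n (ez (p.2 0))) (dh n (ez (p.2 1))) = zv (D2 g n p) := by
  have hD := D2_wz hg n (dg (n + 1) (fun j => ez p.1 j 0)) (dg (n + 1) (fun j => ez p.1 j 1))
    (dh n (ez (p.2 0))) (dh n (ez (p.2 1)))
  rw [wz_dg, hz_dh] at hD
  have hp : ((fun j : Fin (n + 2) => ez p.1 j), (fun e (j : Fin n) => ez2 p.2 e j)) = p := by
    refine Prod.ext ?_ ?_
    · funext j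
      exact ez_fin _ _
    · funext e j
      exact ez_fin _ _
  rw [hp] at hD
  rw [hD]
  set Z : R4 (Op K) := (fdat hg).al (dg (n + 1) (fun j => ez p.1 j 0))
    (dg (n + 1) (fun j => ez p.1 j 1)) + (fdat hg).be (dh n (ez (p.2 0))) (dh n (ez (p.2 1)))
    with hZ
  -- off the diagonal
  have off : ∀ a b, a + b ≠ n → Z.1 a b = 0 ∧ Z.2.1 a b = 0 ∧ Z.2.2.1 a b = 0 ∧
      Z.2.2.2 a b = 0 := by
    intro a b hab
    have hX1 : ∀ x : ℕ → Op K, Cov853.X1 (dh n x) a b = 0 := by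
      intro x
      rcases b with _ | b
      · rw [Cov853.X1_zero]
      · rw [Cov853.X1_succ, dh_ne _ (by omega)]
    have hX0 : ∀ x : ℕ → Op K, Cov853.X0 (dh n x) a b = 0 := by
      intro x
      rcases a with _ | a
      · rw [Cov853.X0_zero]
      · rw [Cov853.X0_succ, dh_ne _ (by omega)]
    have hI : ∀ x : ℕ → Op K, (fdat hg).I0 (dh n x) a b = 0 := by
      intro x
      rcases a with _ | a
      · rw [Cov853.Dat.I0_zero]
      · rw [Cov853.Dat.I0_succ, dh_ne _ (by omega), smul_zero]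
    have hq0 : ∀ x y : ℕ → Op K, Cov853.Dat.q0 ((fdat hg).cv (dg (n + 1) x) (dg (n + 1) y)) a b =
        0 := by
      intro x y
      rcases b with _ | b
      · rw [Cov853.Dat.q0_zero, Cov853.Dat.cv_apply, dg_ne _ (by omega), dg_ne _ (by omega)]
        simp
      · rw [Cov853.Dat.q0_succ]
    have hq1 : ∀ x y : ℕ → Op K, Cov853.Dat.q1 ((fdat hg).cv (dg (n + 1) x) (dg (n + 1) y)) a b =
        0 := by
      intro x y
      rw [Cov853.Dat.q1_apply, Cov853.Dat.cv_apply, dg_ne _ (by omega), dg_ne _ (by omega)]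
      simp
    have hD0 : ∀ x : ℕ → Op K, Cov853.D0 (fdat hg).c (dg (n + 1) x) a b = 0 := by
      intro x
      rw [Cov853.D0_apply, dg_ne _ (by omega), smul_zero]
    have hD1 : ∀ x : ℕ → Op K, Cov853.D1 (fdat hg).c (dg (n + 1) x) a b = 0 := by
      intro x
      rw [Cov853.D1_apply, dg_ne _ (by omega), smul_zero]
    rw [hZ]
    unfold Cov853.Dat.al Cov853.Dat.be
    simp only [Prod.mk_add_mk, Pi.sub_apply, Pi.add_apply, Pi.neg_apply, Pi.smul_apply, ap_apply,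
      hX0, hX1, hI, hq0, hq1, hD0, hD1, map_zero, smul_zero, add_zero, sub_zero, neg_zero,
      and_self]
  have on : ∀ (u : ℕ → ℕ → Op K), (∀ a b, a + b ≠ n → u a b = 0) → dg n (sq n u) = u := by
    intro u hu
    funext a b
    by_cases hab : a + b = n
    · rw [dg_of _ hab, sq_of _ hab]
    · rw [dg_ne _ hab, hu a b hab]
  unfold zv
  rw [show (ez ((fun e (j : Fin (n + 1)) => vz n Z e j) 0) : ℕ → Fin 2 → Op K) = vz n Z 0 from
      congrFun (vz_fin Z) 0,
    show (ez ((fun e (j : Fin (n + 1)) => vz n Z e j) 1) : ℕ → Fin 2 → Op K) = vz n Z 1 from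
      congrFun (vz_fin Z) 1]
  refine Prod.ext ?_ (Prod.ext ?_ (Prod.ext ?_ ?_))
  · exact (on _ fun a b h => (off a b h).1).symm
  · exact (on _ fun a b h => (off a b h).2.1).symm
  · exact (on _ fun a b h => (off a b h).2.2.1).symm
  · exact (on _ fun a b h => (off a b h).2.2.2).symm

/-- (z1) -/
theorem z1 (n : ℕ) (p : (Fin (n + 2) → Fin 2 → Op K) × (Fin 2 → Fin n → Op K)) :
    D1 g n (D2 g n p) = 0 := by
  have h := del1_zv hg (D2 g n p)
  rw [← D2_zv hg, Cov853.Dat.del1_add, Cov853.Dat.del1_al, Cov853.Dat.del1_be, add_zero] at h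
  funext j
  have := congrFun (congrFun h (n - (j : ℕ))) j
  rw [dg_of _ (by omega), ez_fin] at this
  exact this.symm

end D2

/-! ### `δ₃` -/

section D3
variable (hg : Gen g)

/-- (D), the component in `K₂ ⊗ [n+1]` -/
theorem d3w_eq (n : ℕ) (v : Fn (Op K)) (a b : ℕ) (h : a + b = n + 1) :
    (fdat hg).d3α v a b = d3w g n (sq n v) b 0 ∧ (fdat hg).d3β v a b = d3w g n (sq n v) b 1 := by
  have e2 : n + 1 - b = a := by omega
  have hX1 : Cov853.X1 v a b = sh (sq n v) b := by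
    rcases b with _ | b
    · rw [Cov853.X1_zero, sh_zero]
    · rw [Cov853.X1_succ, sh_succ, sq_of (a := a) _ (by omega)]
  have hX0 : Cov853.X0 v a b = sq n v b := by
    rcases a with _ | a
    · rw [Cov853.X0_zero, sq_gt _ (by omega)]
    · rw [Cov853.X0_succ, sq_of (a := a) _ (by omega)]
  have hI : (fdat hg).I0 v a b = (cq g (a : ℕ))⁻¹ • sq n v b := by
    rcases a with _ | a
    · rw [Cov853.Dat.I0_zero, sq_gt _ (by omega), smul_zero]
    · rw [Cov853.Dat.I0_succ, sq_of (a := a) _ (by omega), fdat_c]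
  have hpsi : (fdat hg).psi v a b =
      if b = n + 1 then -((cq g (n + 1 : ℕ))⁻¹ • sq n v n) else 0 := by
    rcases a with _ | a
    · obtain rfl : b = n + 1 := by omega
      rw [Cov853.Dat.psi_zero_succ, if_pos rfl, sq_of (a := 0) _ (by omega), fdat_c]
    · rw [Cov853.Dat.psi_succ, if_neg (by omega)]
  unfold Cov853.Dat.d3α Cov853.Dat.d3β d3w
  simp only [Pi.sub_apply, Pi.add_apply, Pi.neg_apply, ap_apply, hX0, hX1, hI, hpsi, fdat_x0,
    fdat_x1, fdat_d0, fdat_d1, e2]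
  split_ifs with hb
  · simp [syz, sub_eq_add_neg]
  · simp [syz, sub_eq_add_neg]

/-- (D), the components in `O(-1) ⊗ [n-1]` -/
theorem d3h_eq (n : ℕ) (v : Fn (Op K)) (a b : ℕ) (h : a + b + 1 = n) :
    (fdat hg).d3H0 v a b = d3h0 g (sq n v) b ∧ (fdat hg).d3H1 v a b = d3h1 g n (sq n v) b := by
  have e1 : n - b = a + 1 := by omega
  have h1 : sq n v (b + 1) = v a (b + 1) := sq_of _ (by omega)
  have h2 : sq n v b = v (a + 1) b := sq_of _ (by omega)
  unfold Cov853.Dat.d3H0 Cov853.Dat.d3H1 d3h0 d3h1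
  simp only [Pi.sub_apply, Pi.add_apply, Pi.neg_apply, Pi.smul_apply, ap_apply,
    Cov853.D0_apply, Cov853.D1_apply, Cov853.Dat.q1_apply, fdat_x1, fdat_d0, fdat_d1, fdat_g,
    fdat_c, h1, h2, e1, sub_smul, one_smul]
  constructor
  · trivial
  · abel

theorem sq_fin {n : ℕ} (v : Fn (Op K)) : ez (fun j : Fin (n + 1) => sq n v j) = sq n v :=
  ez_restrict fun j hj => sq_gt _ (by omega)

theorem D3_sq (n : ℕ) (v : Fn (Op K)) :
    D3 g n (fun j : Fin (n + 1) => sq n v j) =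
      (fun j : Fin (n + 2) => wz n ((fdat hg).d3α v) ((fdat hg).d3β v) j,
        fun e (j : Fin n) => hz n ((fdat hg).d3H0 v) ((fdat hg).d3H1 v) e j) := by
  refine Prod.ext ?_ ?_
  · funext j i
    show d3w g n (ez (fun j : Fin (n + 1) => sq n v j)) j i = _
    have hj : n + 1 - (j : ℕ) + j = n + 1 := by omega
    obtain ⟨h1, h2⟩ := d3w_eq hg n v _ _ hj
    rw [sq_fin]
    fin_cases i
    · show _ = sq (n + 1) _ j
      rw [sq_of _ hj, h1]; rfl
    · show _ = sq (n + 1) _ j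
      rw [sq_of _ hj, h2]; rfl
  · funext e j
    have hj : n - 1 - (j : ℕ) + j + 1 = n := by omega
    obtain ⟨h1, h2⟩ := d3h_eq hg n v _ _ hj
    fin_cases e
    · show d3h0 g (ez (fun j : Fin (n + 1) => sq n v j)) j = sh' n _ j
      rw [sq_fin, sh'_of _ hj, h1]
    · show d3h1 g n (ez (fun j : Fin (n + 1) => sq n v j)) j = sh' n _ j
      rw [sq_fin, sh'_of _ hj, h2]

theorem sq_dg_fin {n : ℕ} (u : Fin (n + 1) → Op K) :
    (fun j : Fin (n + 1) => sq n (dg n (ez u)) j) = u := by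
  funext j
  rw [sq_dg _ fun j hj => ez_of_ge _ (by omega)]
  exact ez_fin u j

include hg

/-- (z2) -/
theorem z2 (n : ℕ) (u : Fin (n + 1) → Op K) : D2 g n (D3 g n u) = 0 := by
  rw [← sq_dg_fin u, D3_sq hg, D2_wz hg, Cov853.Dat.del2_del3]
  funext e j i
  have : sq n (0 : Fn (Op K)) j = 0 := by
    unfold sq
    split_ifs <;> rfl
  fin_cases e <;> fin_cases i <;> exact this

/-- (x2) -/
theorem x2 {n : ℕ} {k P : ℤ} (hP : 0 ≤ P)
    (p : (Fin (n + 2) → Fin 2 → Op K) × (Fin 2 → Fin n → Op K))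
    (hp1 : ∀ j, RK g 0 2 k P (p.1 j)) (hp2 : ∀ e j, p.2 e j ∈ Fil g (k - 1) P)
    (h : D2 g n p = 0) :
    ∃ u : Fin (n + 1) → Op K, (∀ j, u j ∈ Fil g (k - 2) P) ∧ D3 g n u = p := by
  have hzv : zv (0 : Fin 2 → Fin (n + 1) → Fin 2 → Op K) = 0 := by
    have : ∀ i, dg n (fun j => ez (0 : Fin (n + 1) → Fin 2 → Op K) j i) = 0 := by
      intro i
      funext a b
      rw [ez_zero]
      unfold dg
      split_ifs <;> rfl
    exact Prod.ext (this 0) (Prod.ext (this 1) (Prod.ext (this 0) (this 1)))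
  have hE := D2_zv hg p
  rw [h, hzv] at hE
  have hv' : ∀ j, RK g 0 2 k P (ez p.1 j) := fun j =>
    ez_all (p := fun r => RK g 0 2 k P r) RK.zero hp1 j
  have hK : (fdat hg).KL 2 P k (dg (n + 1) (fun j => ez p.1 j 0))
      (dg (n + 1) (fun j => ez p.1 j 1)) := by
    refine ⟨fun a b => ?_, fun a b => ?_, fun a b => ?_⟩
    · show _ ∈ Fil g k P
      unfold dg
      split_ifs
      · have := (hv' b).1
        rwa [sub_zero] at this
      · exact zero_mem _
    · show _ ∈ Fil g k P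
      unfold dg
      split_ifs
      · have := (hv' b).2.1
        rwa [sub_zero] at this
      · exact zero_mem _
    · show dg (n + 1) (fun j => ez p.1 j 0) a b * X 0 + dg (n + 1) (fun j => ez p.1 j 1) a b * X 1 ∈
        Fil g (k - 2) (P + 1)
      unfold dg
      split_ifs
      · exact (hv' b).2.2
      · simp
  obtain ⟨v, mv, e1, e2, e3, e4⟩ := (fdat hg).exact2 hP _ _ _ _ hK (dg_ne _ (by omega))
    (dg_ne _ (by omega)) hE
  refine ⟨fun j => sq n v j, fun j => ?_, ?_⟩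
  · show sq n v j ∈ Fil g (k - 2) P
    rw [sq_of (a := n - (j : ℕ)) _ (by omega)]
    exact mv _ _
  · rw [D3_sq hg, ← e1, ← e2, ← e3, ← e4, wz_dg, hz_dh]
    refine Prod.ext ?_ ?_
    · funext j
      exact ez_fin _ _
    · funext e j
      exact ez_fin _ _

omit hg in
/-- (x3) -/
theorem x3 (n : ℕ) (u : Fin (n + 1) → Op K) (h : D3 g n u = 0) : u = 0 := by
  have h1 : ∀ j : Fin (n + 2), sh (ez u) j * X 0 = ez u j * X 1 := by
    intro j
    have h2 : d3w g n (ez u) j = 0 := congrFun (congrArg Prod.fst h) j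
    have h3 : cc (d3w g n (ez u) j) = sh (ez u) j * X 0 - ez u j * X 1 := by
      unfold d3w
      have hsub : ∀ x y : Fin 2 → Op K, cc (x - y) = cc x - cc y := fun x y => by
        rw [sub_eq_add_neg, cc_add, cc_neg, sub_eq_add_neg]
      rw [hsub, hsub, cc_csmul, cc_syz, smul_zero, sub_zero]
      have : cc (if (j : ℕ) = n + 1 then (cq g (n + 1 : ℕ))⁻¹ • syz (ez u n * D g 1) else 0) =
          0 := by
        split_ifs
        · rw [cc_csmul, cc_syz, smul_zero]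
        · exact cc_zero
      rw [this, sub_zero]
      simp [cc, sub_eq_add_neg]
    rw [h2, cc_zero] at h3
    exact sub_eq_zero.1 h3.symm
  have h2 : ∀ j, j < n + 1 → ez u j = 0 := by
    intro j
    induction j with
    | zero =>
      intro _
      have := h1 ⟨0, by omega⟩
      rw [sh_zero, zero_mul] at this
      exact mul_X_zero 1 this.symm
    | succ j ih =>
      intro hj
      have := h1 ⟨j + 1, by omega⟩
      rw [sh_succ, ih (by omega), zero_mul] at this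
      exact mul_X_zero 1 this.symm
  funext j
  rw [← ez_fin u j]
  exact h2 j j.2

end D3

end Crest.Agent.R186.B281.KE0_853
end

-- ▼ part R186/FDd_808
section

/-!
Row 186, S0281, leaf B281.D3 (helper808): Koszul-`d` facts, strictness, and the two
normal orderings of the filtered pieces `Fil g k P` of `Defs281_128`.

* `mon_indep`, `nom_indep`: the monomials `x^a d^b` and `d^b x^a` are linearly independent;
* `Fil_eq_nom`: `Fil g k P` is also the span of the `d^b x^a`;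
* multiplications by `X i`, `D g i` on both sides: membership, injectivity, strictness;
* `D1r, D1l, D2r, D2l` (and `X1r, X1l, X2r, X2l`, the same lemma for the `x_i`).
-/

set_option autoImplicit false

namespace Crest.Agent.R186.B281.D3

open Crest.Agent.R186.B281

/-! ### division with remainder -/

section div

variable {K ι M : Type*} [Field K] [AddCommMonoid M] [Module K M]

/-- triangular functionals -/
theorem tri_indep {m : ι → M} (φ : ι → M →ₗ[K] K) (w : ι → ℕ) (h1 : ∀ i, φ i (m i) ≠ 0)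
    (h2 : ∀ i j, φ i (m j) ≠ 0 → j = i ∨ w j < w i) : LinearIndependent K m := by
  let _ : AddCommGroup M := Module.addCommMonoidToAddCommGroup K
  rw [linearIndependent_iff]
  intro l hl
  have key : ∀ n : ℕ, ∀ i, w i = n → l i = 0 := by
    intro n
    induction n using Nat.strong_induction_on with
    | _ n ih =>
      intro i hi
      have h3 : φ i (Finsupp.linearCombination K m l) = 0 := by rw [hl, map_zero]
      rw [Finsupp.linearCombination_apply, Finsupp.sum, map_sum, Finset.sum_eq_single i] at h3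
      · rw [map_smul, smul_eq_mul] at h3
        exact (mul_eq_zero.1 h3).resolve_right (h1 i)
      · intro j _ hj
        rw [map_smul, smul_eq_mul]
        by_cases h4 : φ i (m j) = 0
        · rw [h4, mul_zero]
        · rcases h2 i j h4 with h5 | h5
          · exact absurd h5 hj
          · rw [ih (w j) (hi ▸ h5) j rfl, zero_mul]
      · intro h4
        rw [Finsupp.notMem_support_iff.1 h4, zero_smul, map_zero]
  ext i
  exact key (w i) i rfl

theorem div_exists {m : ι → M} {s : ι → ι} {R : M →ₗ[K] M} (hR : ∀ i, R (m i) = m (s i))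
    {S : Set ι} {T : M} (hT : T ∈ Submodule.span K (m '' S)) :
    ∃ q ∈ Submodule.span K (m '' (s ⁻¹' S)), ∃ r ∈ Submodule.span K (m '' (S \ Set.range s)),
      T = R q + r := by
  induction hT using Submodule.span_induction with
  | mem x hx =>
    obtain ⟨i, hi, rfl⟩ := hx
    by_cases h : i ∈ Set.range s
    · obtain ⟨j, rfl⟩ := h
      exact ⟨m j, Submodule.subset_span ⟨j, hi, rfl⟩, 0, zero_mem _, by rw [hR, add_zero]⟩
    · exact ⟨0, zero_mem _, m i, Submodule.subset_span ⟨i, ⟨hi, h⟩, rfl⟩, by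
        rw [map_zero, zero_add]⟩
  | zero => exact ⟨0, zero_mem _, 0, zero_mem _, by rw [map_zero, zero_add]⟩
  | add x y _ _ hx hy =>
    obtain ⟨q, hq, r, hr, rfl⟩ := hx
    obtain ⟨q', hq', r', hr', rfl⟩ := hy
    exact ⟨q + q', add_mem hq hq', r + r', add_mem hr hr', by rw [map_add]; abel⟩
  | smul c x _ hx =>
    obtain ⟨q, hq, r, hr, rfl⟩ := hx
    exact ⟨c • q, Submodule.smul_mem _ _ hq, c • r, Submodule.smul_mem _ _ hr, by
      rw [map_smul, smul_add]⟩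

theorem map_span {m : ι → M} {s : ι → ι} {R : M →ₗ[K] M} (hR : ∀ i, R (m i) = m (s i))
    {S S' : Set ι} (h : ∀ i ∈ S, s i ∈ S') {q : M} (hq : q ∈ Submodule.span K (m '' S)) :
    R q ∈ Submodule.span K (m '' S') := by
  induction hq using Submodule.span_induction with
  | mem x hx =>
    obtain ⟨i, hi, rfl⟩ := hx
    rw [hR]
    exact Submodule.subset_span ⟨s i, h i hi, rfl⟩
  | zero => rw [map_zero]; exact zero_mem _
  | add x y _ _ hx hy => rw [map_add]; exact add_mem hx hy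
  | smul c x _ hx => rw [map_smul]; exact Submodule.smul_mem _ _ hx

theorem span_le_range {m : ι → M} {S : Set ι} {q : M} (hq : q ∈ Submodule.span K (m '' S)) :
    q ∈ Submodule.span K (Set.range m) :=
  Submodule.span_mono (Set.image_subset_range _ _) hq

theorem disj {m : ι → M} (hm : LinearIndependent K m) {S S' : Set ι} (h : Disjoint S S') {q : M}
    (hq : q ∈ Submodule.span K (m '' S)) (hq' : q ∈ Submodule.span K (m '' S')) : q = 0 := by
  let _ : AddCommGroup M := Module.addCommMonoidToAddCommGroup K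
  exact Submodule.disjoint_def.1 (hm.disjoint_span_image h) q hq hq'

theorem div_inj {m : ι → M} (hm : LinearIndependent K m) {s : ι → ι}
    (hs : Function.Injective s) {R : M →ₗ[K] M} (hR : ∀ i, R (m i) = m (s i)) {q : M}
    (hq : q ∈ Submodule.span K (Set.range m)) (h : R q = 0) : q = 0 := by
  let _ : AddCommGroup M := Module.addCommMonoidToAddCommGroup K
  obtain ⟨c, rfl⟩ := (Finsupp.mem_span_range_iff_exists_finsupp).1 hq
  have h1 : Finsupp.linearCombination K (m ∘ s) c = 0 := by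
    rw [Finsupp.linearCombination_apply, ← h, Finsupp.sum, Finsupp.sum, map_sum]
    exact Finset.sum_congr rfl fun i _ => by rw [map_smul, hR]; rfl
  have h2 := linearIndependent_iff.1 (hm.comp s hs) c h1
  rw [h2, Finsupp.sum_zero_index]

/-- uniqueness of division -/
theorem div_uniq {m : ι → M} (hm : LinearIndependent K m) {s : ι → ι}
    (hs : Function.Injective s) {R : M →ₗ[K] M} (hR : ∀ i, R (m i) = m (s i)) {q r : M}
    (hq : q ∈ Submodule.span K (Set.range m))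
    (hr : r ∈ Submodule.span K (m '' (Set.range s)ᶜ)) (h : R q + r = 0) : q = 0 ∧ r = 0 := by
  let _ : AddCommGroup M := Module.addCommMonoidToAddCommGroup K
  have h1 : R q ∈ Submodule.span K (m '' Set.range s) := by
    rw [← Set.image_univ] at hq
    exact map_span (S' := Set.range s) hR (fun i _ => ⟨i, rfl⟩) hq
  have h2 : r = -R q := by rw [eq_neg_iff_add_eq_zero, add_comm, h]
  have h3 : r = 0 := disj hm disjoint_compl_left hr (h2 ▸ neg_mem h1)
  rw [h3, add_zero] at h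
  exact ⟨div_inj hm hs hR hq h, h3⟩


/-- Koszul exactness in the middle -/
theorem kos {m : ι → M} (hm : LinearIndependent K m) {s0 s1 : ι → ι}
    (h0 : Function.Injective s0) (h1 : Function.Injective s1) {R0 R1 : M →ₗ[K] M}
    (hR0 : ∀ i, R0 (m i) = m (s0 i)) (hR1 : ∀ i, R1 (m i) = m (s1 i))
    (hc : ∀ x, R0 (R1 x) = R1 (R0 x)) (hs : ∀ i, s1 i ∈ Set.range s0 → i ∈ Set.range s0)
    {S : Set ι} {a b : M} (ha : a ∈ Submodule.span K (Set.range m))
    (hb : b ∈ Submodule.span K (m '' S)) (h : R0 a + R1 b = 0) :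
    ∃ e ∈ Submodule.span K (m '' (s0 ⁻¹' S)), a = R1 e ∧ b + R0 e = 0 := by
  let _ : AddCommGroup M := Module.addCommMonoidToAddCommGroup K
  obtain ⟨q, hq, r, hr, rfl⟩ := div_exists hR0 hb
  have h2 : R1 q ∈ Submodule.span K (Set.range m) := by
    rw [← Set.image_univ]
    exact map_span hR1 (fun _ _ => Set.mem_univ _) hq
  have h3 : R1 r ∈ Submodule.span K (m '' (Set.range s0)ᶜ) := by
    refine map_span hR1 (S := S \ Set.range s0) ?_ hr
    intro i hi h4
    exact hi.2 (hs i h4)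
  have h4 : R0 (a + R1 q) + R1 r = 0 := by
    rw [map_add, hc, ← h, map_add]; abel
  obtain ⟨h5, h6⟩ := div_uniq hm h0 hR0 (add_mem ha h2) h3 h4
  have h7 : r = 0 := div_inj hm h1 hR1 (span_le_range hr) h6
  refine ⟨-q, neg_mem hq, ?_, ?_⟩
  · rw [map_neg, eq_neg_iff_add_eq_zero, h5]
  · rw [h7, map_neg, add_zero, add_neg_cancel]

/-- Koszul decomposition at the end -/
theorem dec {m : ι → M} {s0 s1 : ι → ι} {R0 R1 : M →ₗ[K] M}
    (hR0 : ∀ i, R0 (m i) = m (s0 i)) (hR1 : ∀ i, R1 (m i) = m (s1 i)) {S : Set ι} {T : M}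
    (hT : T ∈ Submodule.span K (m '' S)) :
    ∃ q ∈ Submodule.span K (m '' (s0 ⁻¹' S)), ∃ q' ∈ Submodule.span K (m '' (s1 ⁻¹' S)),
      ∃ r ∈ Submodule.span K (m '' {i | i ∈ S ∧ i ∉ Set.range s0 ∧ i ∉ Set.range s1}),
        T = R0 q + R1 q' + r := by
  obtain ⟨q, hq, r, hr, rfl⟩ := div_exists hR0 hT
  obtain ⟨q', hq', r', hr', rfl⟩ := div_exists hR1 hr
  have h1 : s1 ⁻¹' (S \ Set.range s0) ⊆ s1 ⁻¹' S := fun i hi => hi.1
  have h2 : (S \ Set.range s0) \ Set.range s1 ⊆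
      {i | i ∈ S ∧ i ∉ Set.range s0 ∧ i ∉ Set.range s1} :=
    fun i hi => ⟨hi.1.1, hi.1.2, hi.2⟩
  refine ⟨q, hq, q', Submodule.span_mono (Set.image_mono h1) hq', r',
    Submodule.span_mono (Set.image_mono h2) hr', ?_⟩
  rw [add_assoc]


end div

/-! ### one variable: normal ordering -/

section one

variable {K R : Type*} [Field K] [Ring R] [Algebra K R]

theorem comm_pow {d x : R} {α β : K} (h : d * x = α • (1 : R) + β • (x * d)) (k : ℕ) :
    ∃ c : K, d * x ^ (k + 1) = β ^ (k + 1) • (x ^ (k + 1) * d) + c • x ^ k := by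
  induction k with
  | zero =>
    refine ⟨α, ?_⟩
    rw [zero_add, pow_one, pow_one, pow_zero, h, add_comm]
  | succ k ih =>
    obtain ⟨c, hc⟩ := ih
    refine ⟨β ^ (k + 1) * α + c, ?_⟩
    have h1 : x ^ (k + 1) * d * x = α • x ^ (k + 1) + β • (x ^ (k + 1 + 1) * d) := by
      rw [mul_assoc, h, mul_add, mul_smul_comm, mul_one, mul_smul_comm, ← mul_assoc, ← pow_succ]
    rw [pow_succ x (k + 1), ← mul_assoc, hc, add_mul, smul_mul_assoc, h1, smul_mul_assoc,
      ← pow_succ, ← pow_succ, smul_add, smul_smul, smul_smul, ← pow_succ, add_smul]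
    abel

theorem norm_one {d x : R} {α β : K} (h : d * x = α • (1 : R) + β • (x * d)) (m n : ℕ) :
    d ^ m * x ^ n ∈ Submodule.span K
      {T | ∃ r, r ≤ m ∧ r ≤ n ∧ T = x ^ (n - r) * d ^ (m - r)} := by
  induction m with
  | zero =>
    refine Submodule.subset_span ⟨0, le_rfl, Nat.zero_le _, ?_⟩
    simp
  | succ m ih =>
    rw [pow_succ', mul_assoc]
    generalize d ^ m * x ^ n = y at ih
    induction ih using Submodule.span_induction with
    | mem y hy =>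
      obtain ⟨r, h1, h2, rfl⟩ := hy
      rw [← mul_assoc]
      rcases Nat.eq_zero_or_pos (n - r) with h3 | h3
      · rw [h3, pow_zero, mul_one, ← pow_succ']
        refine Submodule.subset_span ⟨r, by omega, h2, ?_⟩
        rw [h3, pow_zero, one_mul]
        congr 1
        omega
      · obtain ⟨k, hk⟩ : ∃ k, n - r = k + 1 := ⟨n - r - 1, by omega⟩
        obtain ⟨c, hc⟩ := comm_pow h k
        rw [hk, hc, add_mul, smul_mul_assoc, mul_assoc, ← pow_succ', smul_mul_assoc]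
        refine add_mem (Submodule.smul_mem _ _ (Submodule.subset_span ⟨r, by omega, h2, ?_⟩))
          (Submodule.smul_mem _ _ (Submodule.subset_span ⟨r + 1, by omega, by omega, ?_⟩))
        · rw [hk, show m + 1 - r = m - r + 1 by omega]
        · rw [show n - (r + 1) = k by omega, show m + 1 - (r + 1) = m - r by omega]
    | zero => rw [mul_zero]; exact zero_mem _
    | add y z _ _ hy hz => rw [mul_add]; exact add_mem hy hz
    | smul c y _ hy => rw [mul_smul_comm]; exact Submodule.smul_mem _ _ hy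

end one

/-! ### the two monomial bases -/

variable {K : Type} [Field K]

/-- exponents `(a, b)` of `x^a d^b` and of `d^b x^a` -/
abbrev Ix : Type := (ℕ × ℕ) × (ℕ × ℕ)

/-- `x^a d^b` -/
noncomputable def m1 (g : K) (p : Ix) : Op K := mon g p.1 p.2

/-- `d^b x^a` -/
noncomputable def m2 (g : K) (p : Ix) : Op K :=
  D g 0 ^ p.2.1 * D g 1 ^ p.2.2 * X 0 ^ p.1.1 * X 1 ^ p.1.2

/-- falling product of `q`-numbers -/
noncomputable def cf (g : K) (n : ℕ) (m : ℤ) : K := ∏ j ∈ Finset.range n, cq g (m - j)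

theorem cf_succ (g : K) (n : ℕ) (m : ℤ) : cf g (n + 1) m = cq g (m - n) * cf g n m := by
  rw [cf, Finset.prod_range_succ, mul_comm]
  rfl

theorem cf_ne {g : K} (hg : Gen g) {n : ℕ} {m : ℤ} (h : ∀ j : ℕ, j < n → m ≠ j) :
    cf g n m ≠ 0 := by
  rw [cf, Finset.prod_ne_zero_iff]
  intro j hj
  exact cq_ne hg (sub_ne_zero.2 (h j (Finset.mem_range.1 hj)))

theorem cf_eq {g : K} {n : ℕ} {m : ℤ} (j : ℕ) (hj : j < n) (h : m = j) : cf g n m = 0 := by
  rw [cf, Finset.prod_eq_zero_iff]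
  exact ⟨j, Finset.mem_range.2 hj, by rw [h, sub_self, cq_zero]⟩

theorem X_pow_single (i : Fin 2) (n : ℕ) (m : ℤ × ℤ) (a : K) :
    ((X i : Op K) ^ n) (Finsupp.single m a) = Finsupp.single (m + n • ev i) a := by
  induction n with
  | zero => simp
  | succ n ih =>
    rw [pow_succ', Module.End.mul_apply, ih, X_single, add_assoc, succ_nsmul]

theorem co_sub (i : Fin 2) (n : ℕ) (m : ℤ × ℤ) : co i (m - n • ev i) = co i m - n := by
  fin_cases i <;> simp [co, ev]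

theorem D_pow_single (g : K) (i : Fin 2) (n : ℕ) (m : ℤ × ℤ) (a : K) :
    ((D g i : Op K) ^ n) (Finsupp.single m a) =
      Finsupp.single (m - n • ev i) (cf g n (co i m) * a) := by
  induction n with
  | zero => simp [cf]
  | succ n ih =>
    rw [pow_succ', Module.End.mul_apply, ih, D_single, co_sub, cf_succ, mul_assoc, sub_sub,
      succ_nsmul]

theorem m1_single (g : K) (p : Ix) (m : ℤ × ℤ) (c : K) :
    m1 g p (Finsupp.single m c) = Finsupp.single (m.1 + p.1.1 - p.2.1, m.2 + p.1.2 - p.2.2)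
      (cf g p.2.1 m.1 * (cf g p.2.2 m.2 * c)) := by
  simp only [m1, mon, Module.End.mul_apply, D_pow_single, X_pow_single]
  have h1 : co 0 (m - p.2.2 • ev 1) = m.1 := by simp [co, ev]
  have h2 : co 1 m = m.2 := by simp [co]
  rw [h1, h2]
  congr 1
  refine Prod.ext ?_ ?_ <;> simp [ev] <;> ring

theorem m2_single (g : K) (p : Ix) (m : ℤ × ℤ) (c : K) :
    m2 g p (Finsupp.single m c) = Finsupp.single (m.1 + p.1.1 - p.2.1, m.2 + p.1.2 - p.2.2)
      (cf g p.2.1 (m.1 + p.1.1) * (cf g p.2.2 (m.2 + p.1.2) * c)) := by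
  simp only [m2, Module.End.mul_apply, D_pow_single, X_pow_single]
  have h1 : co 0 (m + p.1.2 • ev 1 + p.1.1 • ev 0 - p.2.2 • ev 1) = m.1 + p.1.1 := by
    simp [co, ev]
  have h2 : co 1 (m + p.1.2 • ev 1 + p.1.1 • ev 0) = m.2 + p.1.2 := by simp [co, ev]
  rw [h1, h2]
  congr 1
  refine Prod.ext ?_ ?_ <;> simp [ev]

/-- the matrix coefficient of an operator -/
noncomputable def ent (s t : ℤ × ℤ) : Op K →ₗ[K] K where
  toFun T := T (Finsupp.single s 1) t
  map_add' S T := by rw [LinearMap.add_apply, Finsupp.add_apply]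
  map_smul' c T := by rw [LinearMap.smul_apply, Finsupp.smul_apply]; rfl

theorem ent_m1 (g : K) (s t : ℤ × ℤ) (p : Ix) : ent s t (m1 g p) =
    if (s.1 + p.1.1 - p.2.1, s.2 + p.1.2 - p.2.2) = t then cf g p.2.1 s.1 * cf g p.2.2 s.2
      else 0 := by
  have h : ent s t (m1 g p) = (m1 g p (Finsupp.single s 1)) t := rfl
  rw [h, m1_single, Finsupp.single_apply, mul_one]

theorem ent_m2 (g : K) (s t : ℤ × ℤ) (p : Ix) : ent s t (m2 g p) =
    if (s.1 + p.1.1 - p.2.1, s.2 + p.1.2 - p.2.2) = t then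
      cf g p.2.1 (s.1 + p.1.1) * cf g p.2.2 (s.2 + p.1.2) else 0 := by
  have h : ent s t (m2 g p) = (m2 g p (Finsupp.single s 1)) t := rfl
  rw [h, m2_single, Finsupp.single_apply, mul_one]

theorem m1_indep {g : K} (hg : Gen g) : LinearIndependent K (m1 g) := by
  refine tri_indep (m := m1 g)
    (fun p : Ix => ent ((p.2.1 : ℤ), (p.2.2 : ℤ)) ((p.1.1 : ℤ), (p.1.2 : ℤ)))
    (fun p => p.2.1 + p.2.2) ?_ ?_
  · rintro ⟨⟨a1, a2⟩, b1, b2⟩
    rw [ent_m1, if_pos (by ext <;> simp)]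
    exact mul_ne_zero (cf_ne hg fun j hj => by dsimp only at hj ⊢; omega)
      (cf_ne hg fun j hj => by dsimp only at hj ⊢; omega)
  · rintro ⟨⟨a1, a2⟩, b1, b2⟩ ⟨⟨a1', a2'⟩, b1', b2'⟩ h
    rw [ent_m1] at h
    dsimp only at h
    split_ifs at h with h1
    · have h2 : b1' ≤ b1 := by
        by_contra h3
        exact h (by rw [cf_eq b1 (by omega) rfl, zero_mul])
      have h3 : b2' ≤ b2 := by
        by_contra h3
        exact h (by rw [cf_eq (n := b2') b2 (by omega) rfl, mul_zero])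
      obtain ⟨h4, h5⟩ := Prod.ext_iff.1 h1
      dsimp only at h4 h5
      by_cases h6 : b1' + b2' < b1 + b2
      · exact Or.inr h6
      · refine Or.inl (Prod.ext (Prod.ext ?_ ?_) (Prod.ext ?_ ?_)) <;> dsimp only <;> omega
    · exact absurd rfl h

theorem m2_indep {g : K} (hg : Gen g) : LinearIndependent K (m2 g) := by
  refine tri_indep (m := m2 g)
    (fun p : Ix => ent (-1 - (p.1.1 : ℤ), -1 - (p.1.2 : ℤ))
    (-1 - (p.2.1 : ℤ), -1 - (p.2.2 : ℤ))) (fun p => p.2.1 + p.2.2) ?_ ?_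
  · rintro ⟨⟨a1, a2⟩, b1, b2⟩
    rw [ent_m2, if_pos (by ext <;> simp)]
    exact mul_ne_zero (cf_ne hg fun j hj => by dsimp only at hj ⊢; omega)
      (cf_ne hg fun j hj => by dsimp only at hj ⊢; omega)
  · rintro ⟨⟨a1, a2⟩, b1, b2⟩ ⟨⟨a1', a2'⟩, b1', b2'⟩ h
    rw [ent_m2] at h
    dsimp only at h
    split_ifs at h with h1
    · obtain ⟨h4, h5⟩ := Prod.ext_iff.1 h1
      dsimp only at h4 h5
      have h2 : b1' ≤ b1 := by
        by_contra h3
        exact h (by rw [cf_eq (b1' - b1 - 1) (by omega) (by omega), zero_mul])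
      have h3 : b2' ≤ b2 := by
        by_contra h3
        exact h (by rw [cf_eq (n := b2') (b2' - b2 - 1) (by omega) (by omega), mul_zero])
      by_cases h6 : b1' + b2' < b1 + b2
      · exact Or.inr h6
      · refine Or.inl (Prod.ext (Prod.ext ?_ ?_) (Prod.ext ?_ ?_)) <;> dsimp only <;> omega
    · exact absurd rfl h

/-- the index set of `Fil g k P` -/
def Sx (k P : ℤ) : Set Ix :=
  {p | (p.2.1 : ℤ) + p.2.2 ≤ k ∧ (p.1.1 : ℤ) + p.1.2 - (p.2.1 + p.2.2) = P}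

theorem Fil_eq_m1 (g : K) (k P : ℤ) : Fil g k P = Submodule.span K (m1 g '' Sx k P) := by
  rw [Fil]
  congr 1
  ext T
  constructor
  · rintro ⟨a, b, h1, h2, rfl⟩
    exact ⟨(a, b), ⟨h1, h2⟩, rfl⟩
  · rintro ⟨p, ⟨h1, h2⟩, rfl⟩
    exact ⟨p.1, p.2, h1, h2, rfl⟩

theorem comm_XD (g : K) {i j : Fin 2} (h : i ≠ j) (m n : ℕ) :
    (X i : Op K) ^ m * D g j ^ n = D g j ^ n * X i ^ m :=
  ((show Commute (X i : Op K) (D g j) from X_D g h).pow_pow m n).eq

theorem comm_XX (i j : Fin 2) (m n : ℕ) : (X i : Op K) ^ m * X j ^ n = X j ^ n * X i ^ m :=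
  ((show Commute (X i : Op K) (X j) from X_comm i j).pow_pow m n).eq

theorem comm_DD (g : K) (i j : Fin 2) (m n : ℕ) :
    (D g i : Op K) ^ m * D g j ^ n = D g j ^ n * D g i ^ m :=
  ((show Commute (D g i : Op K) (D g j) from D_comm g i j).pow_pow m n).eq

theorem D_X_self {g : K} (hg : Gen g) (i : Fin 2) :
    D g i * X i = (-g⁻¹) • (1 : Op K) + g⁻¹ • (X i * D g i) := by
  have h : (-g⁻¹) • (1 : Op K) + g⁻¹ • (1 : Op K) = 0 := by
    rw [← add_smul, neg_add_cancel, zero_smul]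
  rw [X_D_self hg i, smul_add, smul_smul, inv_mul_cancel₀ hg.1, one_smul, ← add_assoc, h,
    zero_add]

theorem m2_mem {g : K} (hg : Gen g) {k P : ℤ} {p : Ix} (hp : p ∈ Sx k P) :
    m2 g p ∈ Submodule.span K (m1 g '' Sx k P) := by
  obtain ⟨⟨a1, a2⟩, b1, b2⟩ := p
  have h1 : m2 g ((a1, a2), (b1, b2)) = (D g 0 ^ b1 * X 0 ^ a1) * (D g 1 ^ b2 * X 1 ^ a2) := by
    show D g 0 ^ b1 * D g 1 ^ b2 * X 0 ^ a1 * X 1 ^ a2 = _
    rw [mul_assoc (D g 0 ^ b1), ← comm_XD g (by decide : (0 : Fin 2) ≠ 1)]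
    simp only [mul_assoc]
  rw [h1]
  have h2 := Submodule.mul_mem_mul (norm_one (K := K) (R := Op K) (D_X_self hg 0) b1 a1)
    (norm_one (K := K) (R := Op K) (D_X_self hg 1) b2 a2)
  rw [Submodule.span_mul_span] at h2
  refine Submodule.span_mono ?_ h2
  rintro T ⟨T1, ⟨r1, h3, h4, rfl⟩, T2, ⟨r2, h5, h6, rfl⟩, rfl⟩
  refine ⟨((a1 - r1, a2 - r2), (b1 - r1, b2 - r2)), ?_, ?_⟩
  · obtain ⟨h7, h8⟩ := hp
    simp only at h7 h8
    refine ⟨?_, ?_⟩ <;> simp only <;> omega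
  · show X 0 ^ (a1 - r1) * X 1 ^ (a2 - r2) * D g 0 ^ (b1 - r1) * D g 1 ^ (b2 - r2) =
      X 0 ^ (a1 - r1) * D g 0 ^ (b1 - r1) * (X 1 ^ (a2 - r2) * D g 1 ^ (b2 - r2))
    rw [mul_assoc (X 0 ^ (a1 - r1)), comm_XD g (by decide : (1 : Fin 2) ≠ 0)]
    simp only [mul_assoc]

theorem m1_mem {g : K} (hg : Gen g) {k P : ℤ} {p : Ix} (hp : p ∈ Sx k P) :
    m1 g p ∈ Submodule.span K (m2 g '' Sx k P) := by
  obtain ⟨⟨a1, a2⟩, b1, b2⟩ := p
  have hr : ∀ i : Fin 2, (X i : Op K) * D g i = (1 : K) • (1 : Op K) + g • (D g i * X i) :=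
    fun i => by rw [one_smul]; exact X_D_self hg i
  have h1 : m1 g ((a1, a2), (b1, b2)) = (X 0 ^ a1 * D g 0 ^ b1) * (X 1 ^ a2 * D g 1 ^ b2) := by
    show X 0 ^ a1 * X 1 ^ a2 * D g 0 ^ b1 * D g 1 ^ b2 = _
    rw [mul_assoc (X 0 ^ a1), comm_XD g (by decide : (1 : Fin 2) ≠ 0)]
    simp only [mul_assoc]
  rw [h1]
  have h2 := Submodule.mul_mem_mul (norm_one (K := K) (R := Op K) (hr 0) a1 b1)
    (norm_one (K := K) (R := Op K) (hr 1) a2 b2)
  rw [Submodule.span_mul_span] at h2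
  refine Submodule.span_mono ?_ h2
  rintro T ⟨T1, ⟨r1, h3, h4, rfl⟩, T2, ⟨r2, h5, h6, rfl⟩, rfl⟩
  refine ⟨((a1 - r1, a2 - r2), (b1 - r1, b2 - r2)), ?_, ?_⟩
  · obtain ⟨h7, h8⟩ := hp
    simp only at h7 h8
    refine ⟨?_, ?_⟩ <;> simp only <;> omega
  · show D g 0 ^ (b1 - r1) * D g 1 ^ (b2 - r2) * X 0 ^ (a1 - r1) * X 1 ^ (a2 - r2) =
      D g 0 ^ (b1 - r1) * X 0 ^ (a1 - r1) * (D g 1 ^ (b2 - r2) * X 1 ^ (a2 - r2))
    rw [mul_assoc (D g 0 ^ (b1 - r1)), ← comm_XD g (by decide : (0 : Fin 2) ≠ 1)]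
    simp only [mul_assoc]

theorem Fil_eq_m2 {g : K} (hg : Gen g) (k P : ℤ) :
    Fil g k P = Submodule.span K (m2 g '' Sx k P) := by
  rw [Fil_eq_m1]
  refine le_antisymm (Submodule.span_le.2 ?_) (Submodule.span_le.2 ?_)
  · rintro T ⟨p, hp, rfl⟩
    exact m1_mem hg hp
  · rintro T ⟨p, hp, rfl⟩
    exact m2_mem hg hp

/-! ### shifts -/

/-- `b ↦ b + e_i` -/
def sb (i : Fin 2) (p : Ix) : Ix :=
  (p.1, if i = 0 then (p.2.1 + 1, p.2.2) else (p.2.1, p.2.2 + 1))

/-- `a ↦ a + e_i` -/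
def sa (i : Fin 2) (p : Ix) : Ix :=
  (if i = 0 then (p.1.1 + 1, p.1.2) else (p.1.1, p.1.2 + 1), p.2)

theorem sb_inj (i : Fin 2) : Function.Injective (sb i) := by
  rintro ⟨⟨a, b⟩, c, d⟩ ⟨⟨a', b'⟩, c', d'⟩ h
  fin_cases i <;> simp [sb] at h ⊢ <;> omega

theorem sa_inj (i : Fin 2) : Function.Injective (sa i) := by
  rintro ⟨⟨a, b⟩, c, d⟩ ⟨⟨a', b'⟩, c', d'⟩ h
  fin_cases i <;> simp [sa] at h ⊢ <;> omega

theorem sb_range0 (p : Ix) : p ∈ Set.range (sb 0) ↔ 0 < p.2.1 := by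
  constructor
  · rintro ⟨q, rfl⟩
    simp [sb]
  · obtain ⟨⟨a, b⟩, c, d⟩ := p
    intro h
    refine ⟨((a, b), (c - 1, d)), ?_⟩
    simp [sb] at h ⊢
    omega

theorem sb_range1 (p : Ix) : p ∈ Set.range (sb 1) ↔ 0 < p.2.2 := by
  constructor
  · rintro ⟨q, rfl⟩
    simp [sb]
  · obtain ⟨⟨a, b⟩, c, d⟩ := p
    intro h
    refine ⟨((a, b), (c, d - 1)), ?_⟩
    simp [sb] at h ⊢
    omega

theorem sa_range0 (p : Ix) : p ∈ Set.range (sa 0) ↔ 0 < p.1.1 := by
  constructor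
  · rintro ⟨q, rfl⟩
    simp [sa]
  · obtain ⟨⟨a, b⟩, c, d⟩ := p
    intro h
    refine ⟨((a - 1, b), (c, d)), ?_⟩
    simp [sa] at h ⊢
    omega

theorem sa_range1 (p : Ix) : p ∈ Set.range (sa 1) ↔ 0 < p.1.2 := by
  constructor
  · rintro ⟨q, rfl⟩
    simp [sa]
  · obtain ⟨⟨a, b⟩, c, d⟩ := p
    intro h
    refine ⟨((a, b - 1), (c, d)), ?_⟩
    simp [sa] at h ⊢
    omega

theorem sb_pre (i : Fin 2) (k P : ℤ) : sb i ⁻¹' Sx k P = Sx (k - 1) (P + 1) := by
  ext ⟨⟨a, b⟩, c, d⟩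
  fin_cases i <;> simp [sb, Sx] <;> omega

theorem sa_pre (i : Fin 2) (k P : ℤ) : sa i ⁻¹' Sx k P = Sx k (P - 1) := by
  ext ⟨⟨a, b⟩, c, d⟩
  fin_cases i <;> simp [sa, Sx] <;> omega

theorem sb_mem (i : Fin 2) {k P : ℤ} (p : Ix) (h : p ∈ Sx k P) : sb i p ∈ Sx (k + 1) (P - 1) := by
  rw [← Set.mem_preimage, sb_pre, add_sub_cancel_right, sub_add_cancel]
  exact h

theorem sa_mem (i : Fin 2) {k P : ℤ} (p : Ix) (h : p ∈ Sx k P) : sa i p ∈ Sx k (P + 1) := by
  rw [← Set.mem_preimage, sa_pre, add_sub_cancel_right]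
  exact h

/-- right multiplication by `D i` on `x^a d^b` -/
theorem m1_D (g : K) (i : Fin 2) (p : Ix) : m1 g p * D g i = m1 g (sb i p) := by
  fin_cases i
  · show X 0 ^ p.1.1 * X 1 ^ p.1.2 * D g 0 ^ p.2.1 * D g 1 ^ p.2.2 * D g 0 =
      X 0 ^ p.1.1 * X 1 ^ p.1.2 * D g 0 ^ (p.2.1 + 1) * D g 1 ^ p.2.2
    have h := comm_DD g 1 0 p.2.2 1
    rw [pow_one] at h
    rw [mul_assoc _ (D g 1 ^ p.2.2), h, pow_succ]
    simp only [mul_assoc]
  · show X 0 ^ p.1.1 * X 1 ^ p.1.2 * D g 0 ^ p.2.1 * D g 1 ^ p.2.2 * D g 1 =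
      X 0 ^ p.1.1 * X 1 ^ p.1.2 * D g 0 ^ p.2.1 * D g 1 ^ (p.2.2 + 1)
    rw [pow_succ]
    simp only [mul_assoc]


/-- right multiplication by `X i` on `d^b x^a` -/
theorem m2_X (g : K) (i : Fin 2) (p : Ix) : m2 g p * X i = m2 g (sa i p) := by
  fin_cases i
  · show D g 0 ^ p.2.1 * D g 1 ^ p.2.2 * X 0 ^ p.1.1 * X 1 ^ p.1.2 * X 0 =
      D g 0 ^ p.2.1 * D g 1 ^ p.2.2 * X 0 ^ (p.1.1 + 1) * X 1 ^ p.1.2
    have h := comm_XX (K := K) 1 0 p.1.2 1
    rw [pow_one] at h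
    rw [mul_assoc _ (X 1 ^ p.1.2), h, pow_succ]
    simp only [mul_assoc]
  · show D g 0 ^ p.2.1 * D g 1 ^ p.2.2 * X 0 ^ p.1.1 * X 1 ^ p.1.2 * X 1 =
      D g 0 ^ p.2.1 * D g 1 ^ p.2.2 * X 0 ^ p.1.1 * X 1 ^ (p.1.2 + 1)
    rw [pow_succ]
    simp only [mul_assoc]


/-! ### the four multiplications -/

/-- right multiplication, as a linear map -/
noncomputable def rm (y : Op K) : Op K →ₗ[K] Op K := LinearMap.mulRight K y

/-- left multiplication, as a linear map -/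
noncomputable def lm (y : Op K) : Op K →ₗ[K] Op K := LinearMap.mulLeft K y

theorem rm_apply (y T : Op K) : rm y T = T * y := rfl

theorem lm_apply (y T : Op K) : lm y T = y * T := rfl

theorem mem_range1 {g : K} {k P : ℤ} {T : Op K} (h : T ∈ Fil g k P) :
    T ∈ Submodule.span K (Set.range (m1 g)) := by
  rw [Fil_eq_m1] at h
  exact span_le_range h

theorem mem_range2 {g : K} (hg : Gen g) {k P : ℤ} {T : Op K} (h : T ∈ Fil g k P) :
    T ∈ Submodule.span K (Set.range (m2 g)) := by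
  rw [Fil_eq_m2 hg] at h
  exact span_le_range h

theorem mul_D_mem {g : K} (i : Fin 2) {k P : ℤ} {T : Op K} (h : T ∈ Fil g k P) :
    T * D g i ∈ Fil g (k + 1) (P - 1) := by
  rw [Fil_eq_m1] at h ⊢
  exact map_span (R := rm (D g i)) (m1_D g i) (sb_mem i) h



theorem mul_X_mem {g : K} (hg : Gen g) (i : Fin 2) {k P : ℤ} {T : Op K} (h : T ∈ Fil g k P) :
    T * X i ∈ Fil g k (P + 1) := by
  rw [Fil_eq_m2 hg] at h ⊢
  exact map_span (R := rm (X i)) (m2_X g i) (sa_mem i) h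

theorem mul_D_inj {g : K} (hg : Gen g) (i : Fin 2) {k P : ℤ} {T : Op K} (h : T ∈ Fil g k P)
    (h0 : T * D g i = 0) : T = 0 :=
  div_inj (R := rm (D g i)) (m1_indep hg) (sb_inj i) (m1_D g i)
    (mem_range1 h) h0



theorem mul_X_inj (i : Fin 2) {T : Op K} (h0 : T * X i = 0) : T = 0 := by
  refine op_ext fun m => ?_
  have h1 : ((T * X i : Op K)) (Finsupp.single (m - ev i) 1) = 0 := by rw [h0]; rfl
  rw [Module.End.mul_apply, X_single, sub_add_cancel] at h1
  rw [h1]; rfl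





/-! ### Koszul facts -/

theorem op_neg {b c : Op K} (h : b + c = 0) : b = -c := by
  refine LinearMap.ext fun v => ?_
  have h1 := LinearMap.congr_fun h v
  rw [LinearMap.add_apply, LinearMap.zero_apply] at h1
  rw [LinearMap.neg_apply]
  exact eq_neg_of_add_eq_zero_left h1

theorem D1r {g : K} (hg : Gen g) {k P : ℤ} {a b : Op K} (ha : a ∈ Fil g k P) (hb : b ∈ Fil g k P)
    (h : a * D g 0 + b * D g 1 = 0) :
    ∃ e ∈ Fil g (k - 1) (P + 1), a = e * D g 1 ∧ b = -(e * D g 0) := by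
  rw [Fil_eq_m1] at hb
  obtain ⟨e, h1, h2, h3⟩ := kos (R0 := rm (D g 0)) (R1 := rm (D g 1))
    (m1_indep hg) (sb_inj 0) (sb_inj 1) (m1_D g 0) (m1_D g 1)
    (fun x => by rw [rm_apply, rm_apply, rm_apply, rm_apply, mul_assoc, mul_assoc, D_comm])
    (fun p hp => by rw [sb_range0] at hp ⊢; exact hp) (mem_range1 ha) hb h
  rw [sb_pre, ← Fil_eq_m1] at h1
  exact ⟨e, h1, h2, op_neg h3⟩


theorem X1r {g : K} (hg : Gen g) {k P : ℤ} {a b : Op K} (ha : a ∈ Fil g k P) (hb : b ∈ Fil g k P)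
    (h : a * X 0 + b * X 1 = 0) :
    ∃ e ∈ Fil g k (P - 1), a = e * X 1 ∧ b = -(e * X 0) := by
  rw [Fil_eq_m2 hg] at hb
  obtain ⟨e, h1, h2, h3⟩ := kos (R0 := rm (X 0)) (R1 := rm (X 1))
    (m2_indep hg) (sa_inj 0) (sa_inj 1) (m2_X g 0) (m2_X g 1)
    (fun x => by rw [rm_apply, rm_apply, rm_apply, rm_apply, mul_assoc, mul_assoc, X_comm])
    (fun p hp => by rw [sa_range0] at hp ⊢; exact hp) (mem_range2 hg ha) hb h
  rw [sa_pre, ← Fil_eq_m2 hg] at h1
  exact ⟨e, h1, h2, op_neg h3⟩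


theorem rem_D (k P : ℤ) :
    {p | p ∈ Sx k P ∧ p ∉ Set.range (sb 0) ∧ p ∉ Set.range (sb 1)} ⊆ Sx 0 P := by
  rintro p ⟨h1, h2, h3⟩
  rw [sb_range0] at h2
  rw [sb_range1] at h3
  obtain ⟨h4, h5⟩ := h1
  exact ⟨by omega, h5⟩


theorem D2r {g : K} {k P : ℤ} {a : Op K} (ha : a ∈ Fil g k P) :
    ∃ b ∈ Fil g (k - 1) (P + 1), ∃ c ∈ Fil g (k - 1) (P + 1), ∃ p ∈ Fil g 0 P,
      a = b * D g 0 + c * D g 1 + p := by
  rw [Fil_eq_m1] at ha
  obtain ⟨b, hb, c, hc, p, hp, h⟩ := dec (R0 := rm (D g 0))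
    (R1 := rm (D g 1)) (m1_D g 0) (m1_D g 1) ha
  rw [sb_pre, ← Fil_eq_m1] at hb hc
  refine ⟨b, hb, c, hc, p, ?_, h⟩
  rw [Fil_eq_m1]
  exact Submodule.span_mono (Set.image_mono (rem_D k P)) hp




theorem rem_X {k P : ℤ} (hP : 0 < P) :
    {p | p ∈ Sx k P ∧ p ∉ Set.range (sa 0) ∧ p ∉ Set.range (sa 1)} ⊆ (∅ : Set Ix) := by
  rintro p ⟨h1, h2, h3⟩
  rw [sa_range0] at h2
  rw [sa_range1] at h3
  obtain ⟨h4, h5⟩ := h1
  exfalso
  omega

/-- `Fil k P = Fil k (P-1) X 0 + Fil k (P-1) X 1` for `P > 0` -/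
theorem X2r {g : K} (hg : Gen g) {k P : ℤ} (hP : 0 < P) {a : Op K} (ha : a ∈ Fil g k P) :
    ∃ b ∈ Fil g k (P - 1), ∃ c ∈ Fil g k (P - 1), a = b * X 0 + c * X 1 := by
  rw [Fil_eq_m2 hg] at ha
  obtain ⟨b, hb, c, hc, p, hp, h⟩ := dec (R0 := rm (X 0))
    (R1 := rm (X 1)) (m2_X g 0) (m2_X g 1) ha
  rw [sa_pre, ← Fil_eq_m2 hg] at hb hc
  have h1 := Submodule.span_mono (R := K) (Set.image_mono (f := m2 g) (rem_X hP)) hp
  rw [Set.image_empty, Submodule.span_empty, Submodule.mem_bot] at h1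
  refine ⟨b, hb, c, hc, ?_⟩
  rw [h, h1, add_zero]
  rfl


/-! ### evaluation at `1`, products -/

theorem Fil0_mem {g : K} {P : ℤ} {p : Op K} (hp : p ∈ Fil g 0 P) :
    p ∈ Submodule.span K {T | ∃ a : ℕ × ℕ, (a.1 : ℤ) + a.2 = P ∧ T = X 0 ^ a.1 * X 1 ^ a.2} := by
  rw [Fil_eq_m1] at hp
  refine Submodule.span_mono ?_ hp
  rintro T ⟨⟨⟨a1, a2⟩, b1, b2⟩, ⟨h1, h2⟩, rfl⟩
  simp only at h1 h2
  obtain rfl : b1 = 0 := by omega
  obtain rfl : b2 = 0 := by omega
  refine ⟨(a1, a2), by simpa using h2, ?_⟩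
  show X 0 ^ a1 * X 1 ^ a2 * D g 0 ^ 0 * D g 1 ^ 0 = _
  rw [pow_zero, pow_zero, mul_one, mul_one]

/-- an operator of order `0` is determined by its value at `1` -/
theorem Fil0_eval {g : K} {P : ℤ} {p : Op K} (hp : p ∈ Fil g 0 P)
    (h : p (Finsupp.single 0 1) = 0) : p = 0 := by
  have h1 : p ∈ Submodule.span K (Set.range fun a : ℕ × ℕ => (X 0 ^ a.1 * X 1 ^ a.2 : Op K)) := by
    refine Submodule.span_mono ?_ (Fil0_mem hp)
    rintro T ⟨a, _, rfl⟩
    exact ⟨a, rfl⟩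
  obtain ⟨c, rfl⟩ := (Finsupp.mem_span_range_iff_exists_finsupp).1 h1
  have h2 : Function.Injective (fun a : ℕ × ℕ => ((a.1 : ℤ), (a.2 : ℤ))) := by
    rintro ⟨a, b⟩ ⟨a', b'⟩ h
    simpa using h
  have h3 : Finsupp.mapDomain (fun a : ℕ × ℕ => ((a.1 : ℤ), (a.2 : ℤ))) c = 0 := by
    rw [← h, Finsupp.mapDomain, Finsupp.sum, Finsupp.sum, LinearMap.sum_apply]
    refine Finset.sum_congr rfl fun a _ => ?_
    rw [LinearMap.smul_apply, Module.End.mul_apply, X_pow_single, X_pow_single, Finsupp.smul_single,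
      smul_eq_mul, mul_one]
    congr 1
    ext <;> simp [ev]
  have h4 : c = 0 := Finsupp.mapDomain_injective h2 (by rw [h3, Finsupp.mapDomain_zero])
  rw [h4, Finsupp.sum_zero_index]

theorem D_one (g : K) (i : Fin 2) : D g i (Finsupp.single 0 1) = 0 := by
  rw [D_single]
  have h : co i (0 : ℤ × ℤ) = 0 := by fin_cases i <;> rfl
  rw [h, cq_zero, zero_mul, Finsupp.single_zero]

theorem D2r_ker {g : K} {k P : ℤ} {a : Op K} (ha : a ∈ Fil g k P)
    (h : a (Finsupp.single 0 1) = 0) :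
    ∃ b ∈ Fil g (k - 1) (P + 1), ∃ c ∈ Fil g (k - 1) (P + 1), a = b * D g 0 + c * D g 1 := by
  obtain ⟨b, hb, c, hc, p, hp, rfl⟩ := D2r ha
  rw [LinearMap.add_apply, LinearMap.add_apply, Module.End.mul_apply, Module.End.mul_apply, D_one,
    D_one, map_zero, map_zero, add_zero, zero_add] at h
  exact ⟨b, hb, c, hc, by rw [Fil0_eval hp h, add_zero]⟩





end Crest.Agent.R186.B281.D3
end

-- ▼ part R186/Cov1Op_605
section

/-!
Row 186, S0281 base (helper605): the operators `Op K` with right multiplications, filtered by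
`Fil g`, as the abstract Weyl module of `Cov1_605`.
-/

set_option autoImplicit false

namespace Crest.Agent.R186.Cov605

open Crest.Agent.R186.B281 Crest.Agent.R186.B281.D3

variable {K : Type} [Field K]

/-- the right Weyl module `Op K`, `F P A = Fil g A P` -/
noncomputable def wOp {g : K} (hg : Gen g) : Wey K (Op K) where
  g := g
  hg := hg.1
  lam m := cq g (m : ℤ)
  lam0 := cq_zero g
  lams m := by
    have := cq_pred hg ((m : ℤ) + 1)
    rw [add_sub_cancel_right] at this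
    push_cast
    exact this
  lamne m := cq_ne hg (by omega)
  X0 := rm (X 0)
  X1 := rm (X 1)
  D0 := rm (D g 0)
  D1 := rm (D g 1)
  xx m := by rw [rm_apply, rm_apply, rm_apply, rm_apply, mul_assoc, mul_assoc, X_comm]
  dd m := by rw [rm_apply, rm_apply, rm_apply, rm_apply, mul_assoc, mul_assoc, D_comm]
  r00 m := by
    rw [rm_apply, rm_apply, rm_apply, rm_apply, mul_assoc, mul_assoc, X_D_self hg, mul_add, mul_one,
      mul_smul_comm]
  r11 m := by
    rw [rm_apply, rm_apply, rm_apply, rm_apply, mul_assoc, mul_assoc, X_D_self hg, mul_add, mul_one,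
      mul_smul_comm]
  r01 m := by
    rw [rm_apply, rm_apply, rm_apply, rm_apply, mul_assoc, mul_assoc, X_D g (by decide)]
  r10 m := by
    rw [rm_apply, rm_apply, rm_apply, rm_apply, mul_assoc, mul_assoc, X_D g (by decide)]
  F P A := Fil g A P
  mono P A := Fil_mono g (by omega)
  X0F h := mul_X_mem hg 0 h
  X1F h := mul_X_mem hg 1 h
  D0F h := mul_D_mem 0 h
  D1F h := mul_D_mem 1 h
  X0inj m h := mul_X_inj 0 h
  X1inj m h := mul_X_inj 1 h
  D0inj h h0 := mul_D_inj hg 0 h h0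
  kx _ ha hb h := X1r hg ha hb h
  sx hP h := by
    obtain ⟨b, hb, c, hc, e⟩ := X2r hg (by omega) h
    exact ⟨b, hb, c, hc, e⟩
  kd ha hb h := D1r hg ha hb h

section
variable {g : K} (hg : Gen g)

@[simp] theorem wOp_g : (wOp hg).g = g := rfl
@[simp] theorem wOp_lam (m : ℕ) : (wOp hg).lam m = cq g (m : ℤ) := rfl
@[simp] theorem wOp_X0 (T : Op K) : (wOp hg).X0 T = T * X 0 := rfl
@[simp] theorem wOp_X1 (T : Op K) : (wOp hg).X1 T = T * X 1 := rfl
@[simp] theorem wOp_D0 (T : Op K) : (wOp hg).D0 T = T * D g 0 := rfl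
@[simp] theorem wOp_D1 (T : Op K) : (wOp hg).D1 T = T * D g 1 := rfl
@[simp] theorem wOp_F (P A : ℤ) : (wOp hg).F P A = Fil g A P := rfl

end

end Crest.Agent.R186.Cov605
end

-- ▼ part R186/KE1_605
section

/-!
Row 186, S0281 base (helper605): exactness (`s = 1`) of helper355's literal maps
`e3v0 e3v1 | e2w e2q0 e2q1 | e1w e1q` on tuples, index `j` = exponent of `x₁`
(from `Cov1_605`, index `i` = exponent of `x₀`, by the reflection `j = m - i`).
-/

set_option autoImplicit false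

namespace Crest.Agent.R186.B281

namespace KE1

open Cov605 KN

/-- reflection of a sequence with `m` entries -/
def rf {M : Type*} [Zero M] (m : ℕ) (u : ℕ → M) (i : ℕ) : M := if i < m then u (m - 1 - i) else 0

section
variable {M : Type*} [Zero M]

theorem rf_eq {m i : ℕ} (u : ℕ → M) (j : ℕ) (h : i + j + 1 = m) : rf m u i = u j := by
  unfold rf
  rw [if_pos (by omega)]
  congr 1
  omega

theorem rf_ge {m i : ℕ} (u : ℕ → M) (h : m ≤ i) : rf m u i = 0 := if_neg (by omega)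

theorem rf_sh {m i : ℕ} (u : ℕ → M) (j : ℕ) (h : i + j = m) : rf m u i = KN.sh u j := by
  rcases j with _ | j
  · exact rf_ge u (by omega)
  · exact rf_eq u j (by omega)

/-- `sh (rf m u) i = u j` if `i + j = m` and `u m = 0` -/
theorem sh_rf {m i : ℕ} (u : ℕ → M) (j : ℕ) (h : i + j = m) (h0 : u m = 0) :
    Cov605.sh (rf m u) i = u j := by
  rcases i with _ | i
  · rw [Cov605.sh_zero]
    obtain rfl : j = m := by omega
    exact h0.symm
  · rw [Cov605.sh_succ]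
    exact rf_eq u j (by omega)

end

variable {K : Type} [Field K] {g : K}

/-- `(w, q) ↦ ξ` -/
noncomputable def xi (n : ℕ) (w : ℕ → Fin 2 → Op K) (q : Fin 2 → ℕ → Op K) : Fin 4 → ℕ → Op K :=
  ![rf n (fun j => w j 0), rf n (fun j => w j 1), rf (n + 2) (q 0), rf (n + 2) (q 1)]

/-- `v ↦ η` -/
noncomputable def et (n : ℕ) (v : Fin 2 → ℕ → Fin 2 → Op K) : Fin 4 → ℕ → Op K :=
  ![rf (n + 1) (fun j => v 0 j 0), rf (n + 1) (fun j => v 0 j 1), rf (n + 1) (fun j => v 1 j 0),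
    rf (n + 1) (fun j => v 1 j 1)]

theorem dd1_xi (hg : Gen g) (n : ℕ) (w : ℕ → Fin 2 → Op K) (q : Fin 2 → ℕ → Op K)
    (hw : w n = 0) {i j : ℕ} (hij : i + j = n) :
    (wOp hg).dd1 n (xi n w q) i = e1w g n w j + e1q g n q j := by
  have e1 : (wOp hg).d1K (rf n fun j => w j 0) (rf n fun j => w j 1) i = e1w g n w j := by
    unfold Wey.d1K e1w
    have hb : rf n (fun j => w j 1) i = KN.sh w j 1 := by
      rw [rf_sh _ j hij]
      rcases j with _ | j <;> rfl
    have ha : Cov605.sh (rf n fun j => w j 0) i = w j 0 :=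
      sh_rf _ j hij (by rw [hw]; rfl)
    have hc : Cov605.sh ((wOp hg).cc (rf n fun j => w j 0) (rf n fun j => w j 1)) i =
        cc (w j) := by
      rcases i with _ | i
      · obtain rfl : j = n := by omega
        rw [Cov605.sh_zero, hw, cc_zero]
      · rw [Cov605.sh_succ]
        unfold Wey.cc cc
        rw [rf_eq _ j (by omega), rf_eq _ j (by omega)]
        rfl
    rw [ha, hb, hc, show n - j = i by omega]
    rfl
  have e2 : (wOp hg).d1q0 (rf (n + 2) (q 0)) i = q 0 j * D g 0 * X 0 -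
      cq g (n + 1 - j : ℕ) • q 0 j + (if j = n then q 0 (n + 1) * D g 0 * X 1 else 0) := by
    unfold Wey.d1q0
    rw [rf_eq (q 0) j (by omega), rf_eq (q 0) (n + 1) (by omega), show n + 1 - j = i + 1 by omega]
    have : (i = 0) ↔ (j = n) := by omega
    simp only [this]
    rfl
  have e3 : (wOp hg).d1q1 n (rf (n + 2) (q 1)) i = q 1 j * D g 1 * X 0 -
      cq g (j + 1 : ℕ) • q 1 (j + 1) + (if j = n then q 1 (n + 1) * D g 1 * X 1 else 0) := by
    unfold Wey.d1q1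
    rw [rf_eq (i := i + 1) (q 1) j (by omega), rf_eq (i := 0) (q 1) (n + 1) (by omega),
      rf_eq (i := i) (q 1) (j + 1) (by omega), show n + 1 - i = j + 1 by omega]
    have : (i = 0) ↔ (j = n) := by omega
    simp only [this]
    rfl
  change (wOp hg).d1K _ _ i + (wOp hg).d1q0 _ i + (wOp hg).d1q1 n _ i = _
  unfold e1q
  rw [← e1, ← add_assoc, ← e3, ← e2]
  rfl

/-! ### `d2` -/

theorem cc_rf (hg : Gen g) {m i : ℕ} (u : ℕ → Fin 2 → Op K) (j : ℕ) (h : i + j + 1 = m) :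
    (wOp hg).cc (rf m fun j => u j 0) (rf m fun j => u j 1) i = cc (u j) := by
  unfold Wey.cc cc
  rw [rf_eq _ j h, rf_eq _ j h]
  rfl

theorem sh_cc_rf (hg : Gen g) {m i : ℕ} (u : ℕ → Fin 2 → Op K) (j : ℕ) (h : i + j = m)
    (h0 : u m = 0) :
    Cov605.sh ((wOp hg).cc (rf m fun j => u j 0) (rf m fun j => u j 1)) i = cc (u j) := by
  rcases i with _ | i
  · obtain rfl : j = m := by omega
    rw [Cov605.sh_zero, h0, cc_zero]
  · rw [Cov605.sh_succ]
    exact cc_rf hg u j (by omega)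

theorem d2_et_a (hg : Gen g) (n : ℕ) (v : Fin 2 → ℕ → Fin 2 → Op K) {i j : ℕ}
    (hij : i + j + 1 = n) : (wOp hg).d2 n (et n v) 0 i = e2w g n v j 0 := by
  change (wOp hg).d20a (rf (n + 1) fun j => v 0 j 0) (rf (n + 1) fun j => v 0 j 1) i +
    (wOp hg).d21a n (rf (n + 1) fun j => v 1 j 0) (rf (n + 1) fun j => v 1 j 1) i = _
  unfold Wey.d20a Wey.d21a e2w
  rw [rf_eq (i := i + 1) _ j (by omega), rf_eq (i := i + 1) _ j (by omega),
    rf_eq (i := i + 1) _ j (by omega), rf_eq (i := i) _ (j + 1) (by omega),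
    show n - i = j + 1 by omega, show n - j = i + 1 by omega]
  simp only [Pi.add_apply, Pi.sub_apply, Pi.neg_apply, Pi.smul_apply, syz, Matrix.cons_val_zero,
    neg_smul]
  rfl

theorem d2_et_b (hg : Gen g) (n : ℕ) (v : Fin 2 → ℕ → Fin 2 → Op K) {i j : ℕ}
    (hij : i + j + 1 = n) : (wOp hg).d2 n (et n v) 1 i = e2w g n v j 1 := by
  change (wOp hg).d20b (rf (n + 1) fun j => v 0 j 0) (rf (n + 1) fun j => v 0 j 1) i +
    (wOp hg).d21b n (rf (n + 1) fun j => v 1 j 0) (rf (n + 1) fun j => v 1 j 1) i = _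
  unfold Wey.d20b Wey.d21b e2w
  rw [rf_eq (i := i + 1) _ j (by omega), rf_eq (i := i + 1) _ j (by omega),
    rf_eq (i := i) _ (j + 1) (by omega),
    show n - i = j + 1 by omega, show n - j = i + 1 by omega]
  simp only [Pi.add_apply, Pi.sub_apply, Pi.neg_apply, Pi.smul_apply, syz, Matrix.cons_val_zero,
    Matrix.cons_val_one, neg_smul, smul_neg, sub_neg_eq_add]
  rfl

theorem d2_et_q0 (hg : Gen g) (n : ℕ) (v : Fin 2 → ℕ → Fin 2 → Op K) (hv : ∀ e, v e (n + 1) = 0)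
    {i j : ℕ} (hij : i + j = n + 1) : (wOp hg).d2 n (et n v) 2 i = e2q0 g n v j := by
  change (wOp hg).d20q0 n (rf (n + 1) fun j => v 0 j 0) (rf (n + 1) fun j => v 0 j 1) i +
    (wOp hg).d21q0 (rf (n + 1) fun j => v 1 j 0) (rf (n + 1) fun j => v 1 j 1) i = _
  unfold Wey.d20q0 Wey.d21q0 e2q0
  have hb : rf (n + 1) (fun j => v 0 j 1) i = KN.sh (v 0) j 1 := by
    rw [rf_sh _ j hij]
    rcases j with _ | j <;> rfl
  have : (i = 0) ↔ (j = n + 1) := by omega
  rw [sh_rf _ j hij (by rw [hv]; rfl), hb, sh_cc_rf hg (v 1) j hij (hv 1),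
    cc_rf hg (i := 0) (v 0) n (by omega), show n + 1 - j = i by omega]
  simp only [this]
  rfl

theorem d2_et_q1 (hg : Gen g) (n : ℕ) (v : Fin 2 → ℕ → Fin 2 → Op K) (hv : ∀ e, v e (n + 1) = 0)
    {i j : ℕ} (hij : i + j = n + 1) : (wOp hg).d2 n (et n v) 3 i = e2q1 g n v j := by
  change (wOp hg).d20q1 n (rf (n + 1) fun j => v 0 j 0) (rf (n + 1) fun j => v 0 j 1) i +
    (wOp hg).d21q1 (rf (n + 1) fun j => v 1 j 0) (rf (n + 1) fun j => v 1 j 1) i = _
  unfold Wey.d20q1 Wey.d21q1 e2q1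
  have hb : rf (n + 1) (fun j => v 1 j 1) i = KN.sh (v 1) j 1 := by
    rw [rf_sh _ j hij]
    rcases j with _ | j <;> rfl
  have : (i = 0) ↔ (j = n + 1) := by omega
  rw [sh_rf _ j hij (by rw [hv]; rfl), hb, sh_cc_rf hg (v 1) j hij (hv 1),
    cc_rf hg (i := 0) (v 0) n (by omega), show n + 1 - j = i by omega]
  simp only [this]
  rfl

/-! ### `d3` -/

theorem d3_rf_0 (hg : Gen g) (n : ℕ) (u : ℕ → Op K) (hu : u (n + 1) = 0) {i j : ℕ}
    (hij : i + j = n) : (wOp hg).d3 n (rf (n + 1) u) 0 i = e3v0 g u j 0 ∧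
      (wOp hg).d3 n (rf (n + 1) u) 1 i = e3v0 g u j 1 := by
  change (wOp hg).d30a n _ i = _ ∧ (wOp hg).d30b n _ i = _
  unfold Wey.d30a Wey.d30b e3v0
  rw [rf_eq (i := i) u j (by omega), sh_rf u (j + 1) (by omega) hu,
    show n + 1 - i = j + 1 by omega]
  exact ⟨rfl, rfl⟩

theorem d3_rf_1 (hg : Gen g) (n : ℕ) (u : ℕ → Op K) {i j : ℕ}
    (hij : i + j = n) : (wOp hg).d3 n (rf (n + 1) u) 2 i = e3v1 g n u j 0 ∧
      (wOp hg).d3 n (rf (n + 1) u) 3 i = e3v1 g n u j 1 := by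
  change (wOp hg).d31a _ i = _ ∧ (wOp hg).d31b _ i = _
  unfold Wey.d31a Wey.d31b e3v1
  rw [rf_eq (i := i) u j (by omega), rf_sh (i := i + 1) u j (by omega),
    show n + 1 - j = i + 1 by omega]
  exact ⟨rfl, rfl⟩

/-! ### tuples and lattices -/

/-- the rows of `K₂` in bidegree `(k, P)` -/
def T2 (g : K) (k P : ℤ) (x : Fin 2 → Op K) : Prop :=
  x 0 ∈ Fil g k P ∧ x 1 ∈ Fil g k P ∧ cc x ∈ Fil g (k - 2) (P + 1)

/-- the rows of `K₁(-1)` in bidegree `(k, P)` -/
def T1 (g : K) (k P : ℤ) (x : Fin 2 → Op K) : Prop :=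
  x 0 ∈ Fil g (k - 1) P ∧ x 1 ∈ Fil g (k - 1) P ∧ cc x ∈ Fil g (k - 2) (P + 1)

theorem T2_zero (g : K) (k P : ℤ) : T2 g k P 0 :=
  ⟨zero_mem _, zero_mem _, by rw [cc_zero]; exact zero_mem _⟩

theorem T1_zero (g : K) (k P : ℤ) : T1 g k P 0 :=
  ⟨zero_mem _, zero_mem _, by rw [cc_zero]; exact zero_mem _⟩

theorem ez_prop {M : Type*} [Zero M] {m : ℕ} {x : Fin m → M} (p : M → Prop) (h0 : p 0)
    (hx : ∀ j, p (x j)) (j : ℕ) : p (ez x j) := by
  unfold ez
  split_ifs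
  · exact hx _
  · exact h0

theorem rf_prop {M : Type*} [Zero M] {m : ℕ} {u : ℕ → M} (p : M → Prop) (h0 : p 0)
    (hx : ∀ j, p (u j)) (i : ℕ) : p (rf m u i) := by
  unfold rf
  split_ifs
  · exact hx _
  · exact h0

theorem cc_rf_mem (hg : Gen g) {m : ℕ} {u : ℕ → Fin 2 → Op K} {S : Submodule K (Op K)}
    (h : ∀ j, cc (u j) ∈ S) (i : ℕ) :
    (wOp hg).cc (rf m fun j => u j 0) (rf m fun j => u j 1) i ∈ S := by
  rcases Nat.lt_or_ge i m with hi | hi
  · rw [cc_rf hg u (m - 1 - i) (by omega)]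
    exact h _
  · unfold Wey.cc
    rw [rf_ge _ hi, rf_ge _ hi, map_zero, map_zero, add_zero]
    exact zero_mem _

theorem Ok1_xi (hg : Gen g) {n : ℕ} {k P : ℤ} {w : Fin n → Fin 2 → Op K}
    {q : Fin 2 → Fin (n + 2) → Op K} (hw : ∀ j, T2 g k P (w j)) (hq : ∀ e j, q e j ∈ Fil g (k - 1) P) :
    (wOp hg).Ok1 P k n (xi n (ez w) (fun e => ez (q e))) := by
  have hw' : ∀ j, T2 g k P (ez w j) := ez_prop _ (T2_zero g k P) hw
  have hq' : ∀ e j, ez (q e) j ∈ Fil g (k - 1) P := fun e =>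
    ez_prop (· ∈ Fil g (k - 1) P) (zero_mem _) (hq e)
  refine ⟨fun i => ?_, fun i => ?_, fun i => ?_, fun i => ?_, fun i => ?_, fun i hi => ?_,
    fun i hi => ?_, fun i hi => ?_, fun i hi => ?_⟩
  · exact rf_prop (· ∈ Fil g k P) (zero_mem _) (fun j => (hw' j).1) i
  · exact rf_prop (· ∈ Fil g k P) (zero_mem _) (fun j => (hw' j).2.1) i
  · exact cc_rf_mem hg (fun j => (hw' j).2.2) i
  · exact rf_prop (· ∈ Fil g (k - 1) P) (zero_mem _) (hq' 0) i
  · exact rf_prop (· ∈ Fil g (k - 1) P) (zero_mem _) (hq' 1) i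
  · exact rf_ge (fun j => ez w j 0) hi
  · exact rf_ge (fun j => ez w j 1) hi
  · exact rf_ge (ez (q 0)) hi
  · exact rf_ge (ez (q 1)) hi

theorem Ok2_et (hg : Gen g) {n : ℕ} {k P : ℤ} {v : Fin 2 → Fin (n + 1) → Fin 2 → Op K}
    (hv : ∀ e j, T1 g k P (v e j)) : (wOp hg).Ok2 P k n (et n (fun e => ez (v e))) := by
  have hv' : ∀ e j, T1 g k P (ez (v e) j) := fun e => ez_prop _ (T1_zero g k P) (hv e)
  refine ⟨fun l i => ?_, fun i => ?_, fun i => ?_, fun l i hi => ?_⟩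
  · fin_cases l
    · exact rf_prop (· ∈ Fil g (k - 1) P) (zero_mem _) (fun j => (hv' 0 j).1) i
    · exact rf_prop (· ∈ Fil g (k - 1) P) (zero_mem _) (fun j => (hv' 0 j).2.1) i
    · exact rf_prop (· ∈ Fil g (k - 1) P) (zero_mem _) (fun j => (hv' 1 j).1) i
    · exact rf_prop (· ∈ Fil g (k - 1) P) (zero_mem _) (fun j => (hv' 1 j).2.1) i
  · exact cc_rf_mem hg (fun j => (hv' 0 j).2.2) i
  · exact cc_rf_mem hg (fun j => (hv' 1 j).2.2) i
  · fin_cases l
    · exact rf_ge (fun j => ez (v 0) j 0) hi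
    · exact rf_ge (fun j => ez (v 0) j 1) hi
    · exact rf_ge (fun j => ez (v 1) j 0) hi
    · exact rf_ge (fun j => ez (v 1) j 1) hi


theorem rf_ez {M : Type*} [Zero M] {n : ℕ} {u : ℕ → M} (hu : ∀ i, n < i → u i = 0) :
    rf (n + 1) (ez (fun j : Fin (n + 1) => u (n - j))) = u := by
  funext i
  rcases Nat.lt_or_ge n i with hi | hi
  · rw [rf_ge _ hi, hu i hi]
  · rw [rf_eq _ (n - i) (by omega), ez_of_lt _ (show n - i < n + 1 by omega)]
    show u (n - (n - i)) = u i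
    congr 1
    omega

theorem rf_ez2 {M : Type*} [Zero M] {n : ℕ} {u : Fin 2 → ℕ → M} (hu : ∀ l i, n < i → u l i = 0)
    (l : Fin 2) :
    rf (n + 1) (fun j => ez (fun j : Fin (n + 1) => fun l => u l (n - j)) j l) = u l := by
  funext i
  rcases Nat.lt_or_ge n i with hi | hi
  · rw [rf_ge _ hi, hu l i hi]
  · rw [rf_eq _ (n - i) (by omega), ez_of_lt _ (show n - i < n + 1 by omega)]
    show u l (n - (n - i)) = u l i
    congr 1
    omega

theorem rf_ez2' {M : Type*} [Zero M] {n : ℕ} {u : Fin 2 → ℕ → M} (hu : ∀ l i, n ≤ i → u l i = 0)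
    (l : Fin 2) :
    rf n (fun j => ez (fun j : Fin n => fun l => u l (n - 1 - j)) j l) = u l := by
  funext i
  rcases Nat.lt_or_ge i n with hi | hi
  · rw [rf_eq _ (n - 1 - i) (by omega), ez_of_lt _ (show n - 1 - i < n by omega)]
    show u l (n - 1 - (n - 1 - i)) = u l i
    congr 1
    omega
  · rw [rf_ge _ hi, hu l i hi]

/-! ### the four statements -/

/-- **exactness at `K₁`** -/
theorem ex1 (hg : Gen g) (n : ℕ) {k P : ℤ} (hP : 0 ≤ P) (w : Fin n → Fin 2 → Op K)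
    (q : Fin 2 → Fin (n + 2) → Op K) (hw : ∀ j, T2 g k P (w j))
    (hq : ∀ e j, q e j ∈ Fil g (k - 1) P)
    (h : ∀ j : Fin (n + 1), e1w g n (ez w) j + e1q g n (fun e => ez (q e)) j = 0) :
    ∃ v : Fin 2 → Fin (n + 1) → Fin 2 → Op K, (∀ e j, T1 g k P (v e j)) ∧
      (∀ j : Fin n, e2w g n (fun e => ez (v e)) j = w j) ∧
      (∀ j : Fin (n + 2), e2q0 g n (fun e => ez (v e)) j = q 0 j) ∧
      (∀ j : Fin (n + 2), e2q1 g n (fun e => ez (v e)) j = q 1 j) := by
  have ok := Ok1_xi hg hw hq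
  obtain ⟨η, okη, hη⟩ := (wOp hg).exact1 hP n _ ok (by
    funext i
    rcases Nat.lt_or_ge n i with hi | hi
    · exact ((wOp hg).dd1_mem ok).2 i hi
    · rw [dd1_xi hg n (ez w) _ (ez_of_ge _ le_rfl) (show i + (n - i) = n by omega)]
      exact h ⟨n - i, by omega⟩)
  let v : Fin 2 → Fin (n + 1) → Fin 2 → Op K :=
    ![fun j l => (![η 0, η 1] : Fin 2 → ℕ → Op K) l (n - j),
      fun j l => (![η 2, η 3] : Fin 2 → ℕ → Op K) l (n - j)]
  have h01 : ∀ (l : Fin 2) i, n < i → (![η 0, η 1] : Fin 2 → ℕ → Op K) l i = 0 := fun l i hi => by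
    fin_cases l <;> exact okη.2.2.2 _ i hi
  have h23 : ∀ (l : Fin 2) i, n < i → (![η 2, η 3] : Fin 2 → ℕ → Op K) l i = 0 := fun l i hi => by
    fin_cases l <;> exact okη.2.2.2 _ i hi
  have hev : et n (fun e => ez (v e)) = η := by
    funext l
    fin_cases l
    · exact rf_ez2 h01 0
    · exact rf_ez2 h01 1
    · exact rf_ez2 h23 0
    · exact rf_ez2 h23 1
  have hv1 : ∀ e, ez (v e) (n + 1) = 0 := fun e => ez_of_ge _ le_rfl
  rw [← hev] at hη
  refine ⟨v, fun e j => ?_, fun j => ?_, fun j => ?_, fun j => ?_⟩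
  · fin_cases e
    · exact ⟨okη.1 0 _, okη.1 1 _, okη.2.1 _⟩
    · exact ⟨okη.1 2 _, okη.1 3 _, okη.2.2.1 _⟩
  · funext l
    have hj : n - 1 - (j : ℕ) + j + 1 = n := by omega
    fin_cases l
    · have := d2_et_a hg n (fun e => ez (v e)) hj
      rw [hη] at this
      refine this.symm.trans ?_
      change rf n (fun j => ez w j 0) _ = _
      rw [rf_eq _ j hj, ez_fin]
      rfl
    · have := d2_et_b hg n (fun e => ez (v e)) hj
      rw [hη] at this
      refine this.symm.trans ?_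
      change rf n (fun j => ez w j 1) _ = _
      rw [rf_eq _ j hj, ez_fin]
      rfl
  · have := d2_et_q0 hg n (fun e => ez (v e)) hv1 (show n + 1 - (j : ℕ) + j = n + 1 by omega)
    rw [hη] at this
    refine this.symm.trans ?_
    change rf (n + 2) (ez (q 0)) _ = _
    rw [rf_eq _ j (by omega), ez_fin]
  · have := d2_et_q1 hg n (fun e => ez (v e)) hv1 (show n + 1 - (j : ℕ) + j = n + 1 by omega)
    rw [hη] at this
    refine this.symm.trans ?_
    change rf (n + 2) (ez (q 1)) _ = _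
    rw [rf_eq _ j (by omega), ez_fin]

/-- **exactness at `K₂`** -/
theorem ex2 (hg : Gen g) (n : ℕ) {k P : ℤ} (hP : 0 ≤ P) (v : Fin 2 → Fin (n + 1) → Fin 2 → Op K)
    (hv : ∀ e j, T1 g k P (v e j)) (h1 : ∀ j : Fin n, e2w g n (fun e => ez (v e)) j = 0)
    (h2 : ∀ j : Fin (n + 2), e2q0 g n (fun e => ez (v e)) j = 0)
    (h3 : ∀ j : Fin (n + 2), e2q1 g n (fun e => ez (v e)) j = 0) :
    ∃ u : Fin (n + 1) → Op K, (∀ j, u j ∈ Fil g (k - 2) P) ∧
      (∀ j : Fin (n + 1), e3v0 g (ez u) j = v 0 j) ∧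
      (∀ j : Fin (n + 1), e3v1 g n (ez u) j = v 1 j) := by
  have ok := Ok2_et hg hv
  have hv1 : ∀ e, ez (v e) (n + 1) = 0 := fun e => ez_of_ge _ le_rfl
  have okd := (wOp hg).Ok1_d2 ok
  obtain ⟨e, he, hd⟩ := (wOp hg).exact2 hP n _ ok (by
    funext l i
    fin_cases l
    · rcases Nat.lt_or_ge i n with hi | hi
      · refine (d2_et_a hg n _ (show i + (n - 1 - i) + 1 = n by omega)).trans ?_
        exact congrFun (h1 ⟨n - 1 - i, by omega⟩) 0
      · exact okd.2.2.2.2.2.1 i hi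
    · rcases Nat.lt_or_ge i n with hi | hi
      · refine (d2_et_b hg n _ (show i + (n - 1 - i) + 1 = n by omega)).trans ?_
        exact congrFun (h1 ⟨n - 1 - i, by omega⟩) 1
      · exact okd.2.2.2.2.2.2.1 i hi
    · rcases Nat.lt_or_ge (n + 1) i with hi | hi
      · exact okd.2.2.2.2.2.2.2.1 i hi
      · refine (d2_et_q0 hg n _ hv1 (show i + (n + 1 - i) = n + 1 by omega)).trans ?_
        exact h2 ⟨n + 1 - i, by omega⟩
    · rcases Nat.lt_or_ge (n + 1) i with hi | hi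
      · exact okd.2.2.2.2.2.2.2.2 i hi
      · refine (d2_et_q1 hg n _ hv1 (show i + (n + 1 - i) = n + 1 by omega)).trans ?_
        exact h3 ⟨n + 1 - i, by omega⟩)
  have hr := rf_ez he.2
  refine ⟨fun j => e (n - j), fun j => he.1 _, fun j => ?_, fun j => ?_⟩
  · have hj : n - (j : ℕ) + j = n := by omega
    obtain ⟨a0, a1⟩ := d3_rf_0 hg n (ez fun j : Fin (n + 1) => e (n - j)) (ez_of_ge _ le_rfl) hj
    rw [hr, hd] at a0 a1
    funext l
    fin_cases l
    · refine a0.symm.trans ?_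
      change rf (n + 1) (fun j => ez (v 0) j 0) _ = _
      rw [rf_eq _ j (by omega), ez_fin]
      rfl
    · refine a1.symm.trans ?_
      change rf (n + 1) (fun j => ez (v 0) j 1) _ = _
      rw [rf_eq _ j (by omega), ez_fin]
      rfl
  · have hj : n - (j : ℕ) + j = n := by omega
    obtain ⟨a0, a1⟩ := d3_rf_1 hg n (ez fun j : Fin (n + 1) => e (n - j)) hj
    rw [hr, hd] at a0 a1
    funext l
    fin_cases l
    · refine a0.symm.trans ?_
      change rf (n + 1) (fun j => ez (v 1) j 0) _ = _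
      rw [rf_eq _ j (by omega), ez_fin]
      rfl
    · refine a1.symm.trans ?_
      change rf (n + 1) (fun j => ez (v 1) j 1) _ = _
      rw [rf_eq _ j (by omega), ez_fin]
      rfl

/-- **injectivity of `d3`** -/
theorem inj3 (hg : Gen g) (n : ℕ) (u : Fin (n + 1) → Op K)
    (h1 : ∀ j : Fin (n + 1), e3v0 g (ez u) j = 0) (h2 : ∀ j : Fin (n + 1), e3v1 g n (ez u) j = 0) :
    u = 0 := by
  have h := (wOp hg).exact3 n (rf (n + 1) (ez u)) (fun i hi => rf_ge _ hi) (by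
    funext l i
    have hu : ez u (n + 1) = 0 := ez_of_ge _ le_rfl
    rcases Nat.lt_or_ge n i with hi | hi
    · have e0 : rf (n + 1) (ez u) i = 0 := rf_ge _ hi
      have e1 : rf (n + 1) (ez u) (i + 1) = 0 := rf_ge _ (by omega)
      have e2 : (wOp hg).lam (n + 1 - i) • Cov605.sh (rf (n + 1) (ez u)) i = 0 := by
        rcases Nat.lt_or_ge (n + 1) i with hi' | hi'
        · obtain ⟨i, rfl⟩ : ∃ k, i = k + 1 := ⟨i - 1, by omega⟩
          rw [Cov605.sh_succ, rf_ge _ (by omega), smul_zero]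
        · obtain rfl : i = n + 1 := by omega
          rw [Nat.sub_self, (wOp hg).lam0, zero_smul]
      fin_cases l
      · change (wOp hg).d30a n _ i = 0
        simp [Wey.d30a, e0]
      · change (wOp hg).d30b n _ i = 0
        unfold Wey.d30b
        rw [e0, e2]
        simp
      · change (wOp hg).d31a _ i = 0
        simp [Wey.d31a, e0, e1]
      · change (wOp hg).d31b _ i = 0
        simp [Wey.d31b, e0]
    · have hi' : i + (n - i) = n := by omega
      obtain ⟨a0, a1⟩ := d3_rf_0 hg n (ez u) hu hi'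
      obtain ⟨b0, b1⟩ := d3_rf_1 hg n (ez u) hi'
      have c0 := h1 ⟨n - i, by omega⟩
      have c1 := h2 ⟨n - i, by omega⟩
      fin_cases l
      · exact a0.trans (congrFun c0 0)
      · exact a1.trans (congrFun c0 1)
      · exact b0.trans (congrFun c1 0)
      · exact b1.trans (congrFun c1 1))
  funext j
  have := congrFun h (n - j)
  rw [rf_eq _ j (by omega), ez_fin] at this
  exact this

theorem rm_pow (y T : Op K) (k : ℕ) : (D3.rm y ^ k) T = T * y ^ k := by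
  induction k generalizing T with
  | zero => rw [pow_zero, pow_zero, mul_one]; rfl
  | succ k ih => rw [pow_succ, Module.End.mul_apply, ih, D3.rm_apply, mul_assoc, ← pow_succ']

theorem ev_aug (hg : Gen g) (n : ℕ) (u : Fin (n + 1) → Op K) :
    ((wOp hg).ev n (rf (n + 1) (ez u))) (Finsupp.single 0 1) =
      ∑ j : Fin (n + 1), u j (Finsupp.single ((n : ℤ) - (j : ℕ), ((j : ℕ) : ℤ)) 1) := by
  have h1 : ∀ i ∈ Finset.range (n + 1), ((((wOp hg).X1 ^ (n - i)) (((wOp hg).X0 ^ i)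
      (rf (n + 1) (ez u) i)) : Op K)) (Finsupp.single 0 1) =
      ez u (n - i) (Finsupp.single ((n : ℤ) - ((n - i : ℕ) : ℤ), ((n - i : ℕ) : ℤ)) 1) := by
    intro i hi
    rw [Finset.mem_range] at hi
    have e1 : ((wOp hg).X1 ^ (n - i)) (((wOp hg).X0 ^ i) (rf (n + 1) (ez u) i)) =
      rf (n + 1) (ez u) i * X 0 ^ i * X 1 ^ (n - i) := by
      change (D3.rm (X 1) ^ (n - i)) ((D3.rm (X 0) ^ i) _) = _
      rw [rm_pow, rm_pow]
    rw [e1, rf_eq _ (n - i) (by omega), Module.End.mul_apply, Module.End.mul_apply,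
      D3.X_pow_single, D3.X_pow_single]
    congr 2
    ext
    · simp [B281.ev]
      omega
    · simp [B281.ev]
  rw [Wey.ev, LinearMap.sum_apply, Finset.sum_congr rfl h1]
  refine (Finset.sum_range_reflect (fun j => ez u j (Finsupp.single ((n : ℤ) - (j : ℤ), (j : ℤ)) 1))
    (n + 1)).trans ?_
  rw [Finset.sum_range]
  exact Finset.sum_congr rfl fun j _ => by rw [ez_fin]

/-- **exactness at `K₀`** -/
theorem ex0 (hg : Gen g) (n : ℕ) {k P : ℤ} (hP : 0 ≤ P) (u : Fin (n + 1) → Op K)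
    (hu : ∀ j, u j ∈ Fil g k P)
    (h : ∑ j : Fin (n + 1), u j (Finsupp.single ((n : ℤ) - (j : ℕ), ((j : ℕ) : ℤ)) 1) = 0) :
    ∃ (w : Fin n → Fin 2 → Op K) (q : Fin 2 → Fin (n + 2) → Op K), (∀ j, T2 g k P (w j)) ∧
      (∀ e j, q e j ∈ Fil g (k - 1) P) ∧
      ∀ j : Fin (n + 1), e1w g n (ez w) j + e1q g n (fun e => ez (q e)) j = u j := by
  have hu' : ∀ i, rf (n + 1) (ez u) i ∈ Fil g k P :=
    rf_prop (· ∈ Fil g k P) (zero_mem _) (ez_prop (· ∈ Fil g k P) (zero_mem _) hu)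
  obtain ⟨f0, hf0, f1, hf1, hf⟩ := D3.D2r_ker ((wOp hg).ev_mem (P := P) (A := k) n _ fun i _ => hu' i)
    ((ev_aug hg n u).trans h)
  obtain ⟨ξ, ok, hξ⟩ := (wOp hg).exact0 hP n _ hu' (fun i hi => rf_ge _ hi)
    ⟨f0, hf0, f1, hf1, hf⟩
  let w : Fin n → Fin 2 → Op K := fun j l => (![ξ 0, ξ 1] : Fin 2 → ℕ → Op K) l (n - 1 - j)
  let q : Fin 2 → Fin (n + 2) → Op K := ![fun j => ξ 2 (n + 1 - j), fun j => ξ 3 (n + 1 - j)]
  have h01 : ∀ (l : Fin 2) i, n ≤ i → (![ξ 0, ξ 1] : Fin 2 → ℕ → Op K) l i = 0 := fun l i hi => by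
    fin_cases l
    · exact ok.2.2.2.2.2.1 i hi
    · exact ok.2.2.2.2.2.2.1 i hi
  have hξ' : xi n (ez w) (fun e => ez (q e)) = ξ := by
    funext l
    fin_cases l
    · exact rf_ez2' h01 0
    · exact rf_ez2' h01 1
    · exact rf_ez ok.2.2.2.2.2.2.2.1
    · exact rf_ez ok.2.2.2.2.2.2.2.2
  refine ⟨w, q, fun j => ⟨ok.1 _, ok.2.1 _, ok.2.2.1 _⟩, fun e j => ?_, fun j => ?_⟩
  · fin_cases e
    · exact ok.2.2.2.1 _
    · exact ok.2.2.2.2.1 _
  · rw [← dd1_xi hg n (ez w) (fun e => ez (q e)) (ez_of_ge _ le_rfl)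
      (show n - (j : ℕ) + j = n by omega), hξ', hξ, rf_eq _ j (by omega), ez_fin]

/-! ### the complex -/

/-- the augmentation kills the image of `d1` -/
theorem aug_d1 (hg : Gen g) (n : ℕ) (w : Fin n → Fin 2 → Op K) (q : Fin 2 → Fin (n + 2) → Op K) :
    ∑ j : Fin (n + 1), (e1w g n (ez w) j + e1q g n (fun e => ez (q e)) j : Op K)
      (Finsupp.single ((n : ℤ) - (j : ℕ), ((j : ℕ) : ℤ)) 1) = 0 := by
  rw [← ev_aug hg n fun j : Fin (n + 1) => e1w g n (ez w) j + e1q g n (fun e => ez (q e)) j]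
  have h1 : ∀ i, i ≤ n → rf (n + 1) (ez fun j : Fin (n + 1) =>
      e1w g n (ez w) j + e1q g n (fun e => ez (q e)) j) i =
      (wOp hg).dd1 n (xi n (ez w) (fun e => ez (q e))) i := by
    intro i hi
    rw [dd1_xi hg n (ez w) _ (ez_of_ge _ le_rfl) (show i + (n - i) = n by omega),
      rf_eq _ (n - i) (by omega), ez_of_lt _ (show n - i < n + 1 by omega)]
  have h2 : (wOp hg).ev n (rf (n + 1) (ez fun j : Fin (n + 1) =>
      e1w g n (ez w) j + e1q g n (fun e => ez (q e)) j)) =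
      (wOp hg).ev n ((wOp hg).dd1 n (xi n (ez w) (fun e => ez (q e)))) := by
    unfold Wey.ev
    exact Finset.sum_congr rfl fun i hi => by
      rw [h1 i (by rw [Finset.mem_range] at hi; omega)]
  rw [h2, (wOp hg).ev_dd1 n _ (fun i hi => rf_ge (fun j => ez w j 1) hi), LinearMap.add_apply,
    wOp_D0, wOp_D1, Module.End.mul_apply, Module.End.mul_apply, D3.D_one, D3.D_one, map_zero,
    map_zero, add_zero]

/-- supports of `d2` -/
theorem d2_supp (hg : Gen g) {n : ℕ} {η : Fin 4 → ℕ → Op K} (h4 : ∀ l i, n < i → η l i = 0) :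
    (∀ i, n ≤ i → (wOp hg).d2 n η 0 i = 0) ∧ (∀ i, n ≤ i → (wOp hg).d2 n η 1 i = 0) ∧
      (∀ i, n + 1 < i → (wOp hg).d2 n η 2 i = 0) ∧ ∀ i, n + 1 < i → (wOp hg).d2 n η 3 i = 0 := by
  refine ⟨fun i hi => ?_, fun i hi => ?_, fun i hi => ?_, fun i hi => ?_⟩
  · change (wOp hg).d20a (η 0) (η 1) i + (wOp hg).d21a n (η 2) (η 3) i = 0
    rcases eq_or_lt_of_le hi with rfl | hi'
    · unfold Wey.d20a Wey.d21a
      rw [h4 _ (n + 1) (by omega), h4 _ (n + 1) (by omega), h4 _ (n + 1) (by omega), Nat.sub_self,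
        (wOp hg).lam0]
      simp
    · unfold Wey.d20a Wey.d21a
      rw [h4 _ (i + 1) (by omega), h4 _ (i + 1) (by omega), h4 _ (i + 1) (by omega), h4 _ i hi']
      simp
  · change (wOp hg).d20b (η 0) (η 1) i + (wOp hg).d21b n (η 2) (η 3) i = 0
    rcases eq_or_lt_of_le hi with rfl | hi'
    · unfold Wey.d20b Wey.d21b
      rw [h4 _ (n + 1) (by omega), h4 _ (n + 1) (by omega), Nat.sub_self,
        (wOp hg).lam0]
      simp
    · unfold Wey.d20b Wey.d21b
      rw [h4 _ (i + 1) (by omega), h4 _ (i + 1) (by omega), h4 _ i hi']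
      simp
  · change (wOp hg).d20q0 n (η 0) (η 1) i + (wOp hg).d21q0 (η 2) (η 3) i = 0
    obtain ⟨i, rfl⟩ : ∃ k, i = k + 1 := ⟨i - 1, by omega⟩
    unfold Wey.d20q0 Wey.d21q0
    rw [Cov605.sh_succ, Cov605.sh_succ, if_neg (by omega)]
    unfold Wey.cc
    rw [h4 _ i (by omega), h4 _ i (by omega), h4 _ i (by omega), h4 _ (i + 1) (by omega)]
    simp
  · change (wOp hg).d20q1 n (η 0) (η 1) i + (wOp hg).d21q1 (η 2) (η 3) i = 0
    obtain ⟨i, rfl⟩ : ∃ k, i = k + 1 := ⟨i - 1, by omega⟩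
    unfold Wey.d20q1 Wey.d21q1
    rw [Cov605.sh_succ, Cov605.sh_succ, if_neg (by omega)]
    unfold Wey.cc
    rw [h4 _ i (by omega), h4 _ i (by omega), h4 _ (i + 1) (by omega)]
    simp

theorem et_supp (n : ℕ) (v : Fin 2 → ℕ → Fin 2 → Op K) (l : Fin 4) (i : ℕ) (hi : n < i) :
    et n v l i = 0 := by
  fin_cases l
  · exact rf_ge (fun j => v 0 j 0) hi
  · exact rf_ge (fun j => v 0 j 1) hi
  · exact rf_ge (fun j => v 1 j 0) hi
  · exact rf_ge (fun j => v 1 j 1) hi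

/-- `xi` of `e2 v` is `d2` of `et v` -/
theorem xi_e2 (hg : Gen g) (n : ℕ) (v : Fin 2 → ℕ → Fin 2 → Op K) (hv : ∀ e, v e (n + 1) = 0) :
    xi n (ez fun j : Fin n => e2w g n v j) (ez2 ![fun j : Fin (n + 2) => e2q0 g n v j,
      fun j : Fin (n + 2) => e2q1 g n v j]) = (wOp hg).d2 n (et n v) := by
  obtain ⟨s0, s1, s2, s3⟩ := d2_supp hg (et_supp n v)
  funext l i
  fin_cases l
  · change rf n (fun j => ez (fun j : Fin n => e2w g n v j) j 0) i = _
    rcases Nat.lt_or_ge i n with hi | hi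
    · rw [rf_eq _ (n - 1 - i) (by omega), ez_of_lt _ (show n - 1 - i < n by omega)]
      exact (d2_et_a hg n v (show i + (n - 1 - i) + 1 = n by omega)).symm
    · exact (rf_ge _ hi).trans (s0 i hi).symm
  · change rf n (fun j => ez (fun j : Fin n => e2w g n v j) j 1) i = _
    rcases Nat.lt_or_ge i n with hi | hi
    · rw [rf_eq _ (n - 1 - i) (by omega), ez_of_lt _ (show n - 1 - i < n by omega)]
      exact (d2_et_b hg n v (show i + (n - 1 - i) + 1 = n by omega)).symm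
    · exact (rf_ge _ hi).trans (s1 i hi).symm
  · change rf (n + 2) (ez (fun j : Fin (n + 2) => e2q0 g n v j)) i = _
    rcases Nat.lt_or_ge (n + 1) i with hi | hi
    · exact (rf_ge _ hi).trans (s2 i hi).symm
    · rw [rf_eq _ (n + 1 - i) (by omega), ez_of_lt _ (show n + 1 - i < n + 2 by omega)]
      exact (d2_et_q0 hg n v hv (show i + (n + 1 - i) = n + 1 by omega)).symm
  · change rf (n + 2) (ez (fun j : Fin (n + 2) => e2q1 g n v j)) i = _
    rcases Nat.lt_or_ge (n + 1) i with hi | hi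
    · exact (rf_ge _ hi).trans (s3 i hi).symm
    · rw [rf_eq _ (n + 1 - i) (by omega), ez_of_lt _ (show n + 1 - i < n + 2 by omega)]
      exact (d2_et_q1 hg n v hv (show i + (n + 1 - i) = n + 1 by omega)).symm

/-- supports of `d3` -/
theorem d3_supp (hg : Gen g) {n : ℕ} {e : ℕ → Op K} (h4 : ∀ i, n < i → e i = 0) (l : Fin 4) (i : ℕ)
    (hi : n < i) : (wOp hg).d3 n e l i = 0 := by
  have e2 : (wOp hg).lam (n + 1 - i) • Cov605.sh e i = 0 := by
    rcases Nat.lt_or_ge (n + 1) i with hi' | hi'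
    · obtain ⟨i, rfl⟩ : ∃ k, i = k + 1 := ⟨i - 1, by omega⟩
      rw [Cov605.sh_succ, h4 _ (by omega), smul_zero]
    · obtain rfl : i = n + 1 := by omega
      rw [Nat.sub_self, (wOp hg).lam0, zero_smul]
  fin_cases l
  · change (wOp hg).d30a n _ i = 0
    unfold Wey.d30a
    rw [h4 i hi]
    simp
  · change (wOp hg).d30b n _ i = 0
    unfold Wey.d30b
    rw [h4 i hi, e2]
    simp
  · change (wOp hg).d31a _ i = 0
    unfold Wey.d31a
    rw [h4 i hi, h4 (i + 1) (by omega)]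
    simp
  · change (wOp hg).d31b _ i = 0
    unfold Wey.d31b
    rw [h4 i hi]
    simp

/-- `et` of `e3 u` is `d3` of `rf u` -/
theorem et_e3 (hg : Gen g) (n : ℕ) (u : ℕ → Op K) (hu : u (n + 1) = 0) :
    et n (ez2 ![fun j : Fin (n + 1) => e3v0 g u j, fun j : Fin (n + 1) => e3v1 g n u j]) =
      (wOp hg).d3 n (rf (n + 1) u) := by
  have s := d3_supp hg (n := n) (e := rf (n + 1) u) (fun i hi => rf_ge _ hi)
  funext l i
  rcases Nat.lt_or_ge n i with hi | hi
  · rw [s l i hi, et_supp _ _ _ _ hi]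
  have hi' : i + (n - i) = n := by omega
  obtain ⟨a0, a1⟩ := d3_rf_0 hg n u hu hi'
  obtain ⟨b0, b1⟩ := d3_rf_1 hg n u hi'
  fin_cases l
  · refine Eq.trans ?_ a0.symm
    change rf (n + 1) (fun j => ez (fun j : Fin (n + 1) => e3v0 g u j) j 0) i = _
    rw [rf_eq _ (n - i) (by omega), ez_of_lt _ (show n - i < n + 1 by omega)]
  · refine Eq.trans ?_ a1.symm
    change rf (n + 1) (fun j => ez (fun j : Fin (n + 1) => e3v0 g u j) j 1) i = _
    rw [rf_eq _ (n - i) (by omega), ez_of_lt _ (show n - i < n + 1 by omega)]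
  · refine Eq.trans ?_ b0.symm
    change rf (n + 1) (fun j => ez (fun j : Fin (n + 1) => e3v1 g n u j) j 0) i = _
    rw [rf_eq _ (n - i) (by omega), ez_of_lt _ (show n - i < n + 1 by omega)]
  · refine Eq.trans ?_ b1.symm
    change rf (n + 1) (fun j => ez (fun j : Fin (n + 1) => e3v1 g n u j) j 1) i = _
    rw [rf_eq _ (n - i) (by omega), ez_of_lt _ (show n - i < n + 1 by omega)]

/-! ### the literal statements for 355's `E1 E2 E3 EP` -/

theorem E_z1 (hg : Gen g) (n : ℕ) (v : Fin 2 → Fin (n + 1) → Fin 2 → Op K) :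
    E1 g n (E2 g n v) = 0 := by
  have hv1 : ∀ e, ez2 v e (n + 1) = 0 := fun e => ez_of_ge _ le_rfl
  have h := (wOp hg).dd1_d2 n (et n (ez2 v)) (fun i hi => et_supp n (ez2 v) 3 i hi)
  rw [← xi_e2 hg n (ez2 v) hv1] at h
  funext j
  exact (dd1_xi hg n _ _ (ez_of_ge _ le_rfl) (show n - (j : ℕ) + j = n by omega)).symm.trans (h _)

theorem E_z2 (hg : Gen g) (n : ℕ) (u : Fin (n + 1) → Op K) : E2 g n (E3 g n u) = 0 := by
  have h := (wOp hg).d2_d3 n (rf (n + 1) (ez u)) (fun i hi => rf_ge _ hi)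
  rw [← et_e3 hg n (ez u) (ez_of_ge _ le_rfl)] at h
  have hv1 : ∀ e, ez2 (E3 g n u) e (n + 1) = 0 := fun e => ez_of_ge _ le_rfl
  refine Prod.ext ?_ (funext (Fin.forall_fin_two.2 ⟨?_, ?_⟩))
  · funext j l
    have hj : n - 1 - (j : ℕ) + j + 1 = n := by omega
    fin_cases l
    · exact (d2_et_a hg n (ez2 (E3 g n u)) hj).symm.trans (congrFun (congrFun h 0) _)
    · exact (d2_et_b hg n (ez2 (E3 g n u)) hj).symm.trans (congrFun (congrFun h 1) _)
  · funext j
    exact (d2_et_q0 hg n (ez2 (E3 g n u)) hv1 (show n + 1 - (j : ℕ) + j = n + 1 by omega)).symm.trans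
      (congrFun (congrFun h 2) _)
  · funext j
    exact (d2_et_q1 hg n (ez2 (E3 g n u)) hv1 (show n + 1 - (j : ℕ) + j = n + 1 by omega)).symm.trans
      (congrFun (congrFun h 3) _)

theorem E_z0 (hg : Gen g) (n : ℕ) (p : (Fin n → Fin 2 → Op K) × (Fin 2 → Fin (n + 2) → Op K)) :
    EP K n (E1 g n p) = 0 := aug_d1 hg n p.1 p.2

theorem E_x0 (hg : Gen g) (n : ℕ) {k P : ℤ} (hP : 0 ≤ P) (u : Fin (n + 1) → Op K)
    (hu : ∀ j, u j ∈ Fil g k P) (h : EP K n u = 0) :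
    ∃ p : (Fin n → Fin 2 → Op K) × (Fin 2 → Fin (n + 2) → Op K), (∀ j, RK g 0 2 k P (p.1 j)) ∧
      (∀ e j, p.2 e j ∈ Fil g (k - 1) P) ∧ E1 g n p = u := by
  obtain ⟨w, q, h1, h2, h3⟩ := ex0 hg n hP u hu h
  refine ⟨(w, q), fun j => ?_, h2, funext h3⟩
  unfold RK
  rw [sub_zero]
  exact h1 j

theorem E_x1 (hg : Gen g) (n : ℕ) {k P : ℤ} (hP : 0 ≤ P)
    (p : (Fin n → Fin 2 → Op K) × (Fin 2 → Fin (n + 2) → Op K)) (h1 : ∀ j, RK g 0 2 k P (p.1 j))
    (h2 : ∀ e j, p.2 e j ∈ Fil g (k - 1) P) (h : E1 g n p = 0) :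
    ∃ v : Fin 2 → Fin (n + 1) → Fin 2 → Op K, (∀ e j, RK g 1 2 k P (v e j)) ∧ E2 g n v = p := by
  obtain ⟨v, a1, a2, a3, a4⟩ := ex1 hg n hP p.1 p.2 (fun j => by
    have := h1 j
    unfold RK at this
    rw [sub_zero] at this
    exact this) h2 (fun j => congrFun h j)
  exact ⟨v, a1, Prod.ext (funext a2) (funext (Fin.forall_fin_two.2 ⟨funext a3, funext a4⟩))⟩

theorem E_x2 (hg : Gen g) (n : ℕ) {k P : ℤ} (hP : 0 ≤ P) (v : Fin 2 → Fin (n + 1) → Fin 2 → Op K)
    (hv : ∀ e j, RK g 1 2 k P (v e j)) (h : E2 g n v = 0) :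
    ∃ u : Fin (n + 1) → Op K, (∀ j, u j ∈ Fil g (k - 2) P) ∧ E3 g n u = v := by
  obtain ⟨u, a1, a2, a3⟩ := ex2 hg n hP v hv (fun j => congrFun (congrArg Prod.fst h) j)
    (fun j => congrFun (congrFun (congrArg Prod.snd h) 0) j)
    (fun j => congrFun (congrFun (congrArg Prod.snd h) 1) j)
  exact ⟨u, a1, funext (Fin.forall_fin_two.2 ⟨funext a2, funext a3⟩)⟩

theorem E_x3 (hg : Gen g) (n : ℕ) (u : Fin (n + 1) → Op K) (h : E3 g n u = 0) : u = 0 :=
  inj3 hg n u (fun j => congrFun (congrFun h 0) j) (fun j => congrFun (congrFun h 1) j)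

end KE1

end Crest.Agent.R186.B281
end

-- ▼ part R186/KRJ_823

/-!
Row 186, S0281, leaf B281.K0/K1 (helper823): the resolutions of families `K(n)`, both `s`
(elementwise exactness: 853 `KE0_853`, 605 `KE1_605`; maps and memberships: 355; frame: 128).
-/

set_option autoImplicit false

noncomputable section

namespace Crest.Agent.R186.KRJ823

open Crest.Agent.R186.B281 Crest.Agent.R186.B281.KN Crest.Agent.R186.B281.KR
  Crest.Agent.R186.FamX823 Crest.Agent.R186.KRS823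

variable {K : Type} [Field K] {g : K}

/-- `0 → G3 → G2 → G1 → G0 → Vf n → 0`, `s = 0` -/
def res0 (hg : Gen g) (n : ℕ) :
    FRes 0 (Vf g n) (G0 hg n) (G1 hg n) (G2 hg n) (G3 hg n) :=
  fres0 hg n (KE0_853.z0 hg n) (KE0_853.z1 hg n) (KE0_853.z2 hg n)
    (fun _ _ hP => KE0_853.x0 hg hP) (fun _ _ hP => KE0_853.x1 hg hP)
    (fun _ _ hP => KE0_853.x2 hg hP) (fun _ _ _ u _ h => KE0_853.x3 n u h)

/-- `0 → H3 → H2 → H1 → H0 → Vf n → 0`, `s = 1` -/
def res1 (hg : Gen g) (n : ℕ) :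
    FRes 1 (Vf g n) (H0 hg n) (H1 hg n) (H2 hg n) (H3 hg n) :=
  fres1 hg n (KE1.E_z0 hg n) (KE1.E_z1 hg n) (KE1.E_z2 hg n)
    (fun _ _ hP => KE1.E_x0 hg n hP) (fun _ _ hP => KE1.E_x1 hg n hP)
    (fun _ _ hP => KE1.E_x2 hg n hP) (fun _ _ _ u _ h => KE1.E_x3 hg n u h)


end Crest.Agent.R186.KRJ823
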