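import Crest.Agent.R186.KR_355
import Crest.Agent.R186.KRJ_823

/-!
Row 186, S0281, base, leaf B281.K1 for `s = 1` (helper755): the terms and the maps of `K(n)`,
`s = 1`, on the projectives `Pv g 1 v` (helper713's `Fin` types), as transport of helper355's
families, with the row formulas; the resolution `MRes` of `E g 1 n` with these literal maps.
-/

set_option autoImplicit false
set_option linter.unusedSectionVars false
set_option linter.unusedVariables false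

noncomputable section

namespace Crest.Agent.R186.B281.KPv1

open KN FamX823 KR

variable {K : Type} [Field K] {g : K}

/-! ### rows of elements of `Pv g s v` -/



/-! ### the equivalences of the terms -/

/-- `K₀` -/
def e0 (hg : Gen g) (n : ℕ) : (KR.H0 hg n).W 1 ≃ₗ[A g 1] (Fin (n + 1) → Pv g 1 0) :=
  (piW (TV hg 1 0) (Fin (n + 1)) 1).trans (LinearEquiv.piCongrRight fun _ => WPv hg 1 0)

/-- `K₃` -/
def e3 (hg : Gen g) (n : ℕ) : (KR.H3 hg n).W 1 ≃ₗ[A g 1] (Fin (n + 1) → Pv g 1 2) :=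
  (piW (TV hg 1 2) (Fin (n + 1)) 1).trans (LinearEquiv.piCongrRight fun _ => WPv hg 1 2)

/-- `K₂` -/
def e2 (hg : Gen g) (n : ℕ) :
    (KR.H2 hg n).W 1 ≃ₗ[A g 1] (Fin 2 → Fin (n + 1) → Pv g 1 3) :=
  (piW (FamX823.pi (TV hg 1 3) (Fin (n + 1))) (Fin 2) 1).trans (LinearEquiv.piCongrRight fun _ =>
    (piW (TV hg 1 3) (Fin (n + 1)) 1).trans (LinearEquiv.piCongrRight fun _ => WPv hg 1 3))

/-- `K₁` -/
def e1 (hg : Gen g) (n : ℕ) : (KR.H1 hg n).W 1 ≃ₗ[A g 1]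
    ((Fin n → Pv g 1 4) × (Fin 2 → Fin (n + 2) → Pv g 1 1)) :=
  (prodW (FamX823.pi (TV hg 1 4) (Fin n))
    (FamX823.pi (FamX823.pi (TV hg 1 1) (Fin (n + 2))) (Fin 2)) 1).trans
    (LinearEquiv.prodCongr
      ((piW (TV hg 1 4) (Fin n) 1).trans (LinearEquiv.piCongrRight fun _ => WPv hg 1 4))
      ((piW (FamX823.pi (TV hg 1 1) (Fin (n + 2))) (Fin 2) 1).trans
        (LinearEquiv.piCongrRight fun _ =>
          (piW (TV hg 1 1) (Fin (n + 2)) 1).trans (LinearEquiv.piCongrRight fun _ => WPv hg 1 1))))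

/-! ### the maps -/

/-- the augmentation `K₀ → E n` -/
def ε (hg : Gen g) (n : ℕ) : (Fin (n + 1) → Pv g 1 0) →ₗ[A g 1] E g 1 n :=
  (VfW hg n zero_le_one).toLinearMap ∘ₗ (KR.he hg n).W 1 ∘ₗ (e0 hg n).symm.toLinearMap

/-- `K₁ → K₀` -/
def d1 (hg : Gen g) (n : ℕ) : ((Fin n → Pv g 1 4) × (Fin 2 → Fin (n + 2) → Pv g 1 1)) →ₗ[A g 1]
    (Fin (n + 1) → Pv g 1 0) :=
  (e0 hg n).toLinearMap ∘ₗ (KR.h1 hg n).W 1 ∘ₗ (e1 hg n).symm.toLinearMap

/-- `K₂ → K₁` -/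
def d2 (hg : Gen g) (n : ℕ) : (Fin 2 → Fin (n + 1) → Pv g 1 3) →ₗ[A g 1]
    ((Fin n → Pv g 1 4) × (Fin 2 → Fin (n + 2) → Pv g 1 1)) :=
  (e1 hg n).toLinearMap ∘ₗ (KR.h2 hg n).W 1 ∘ₗ (e2 hg n).symm.toLinearMap

/-- `K₃ → K₂` -/
def d3 (hg : Gen g) (n : ℕ) : (Fin (n + 1) → Pv g 1 2) →ₗ[A g 1]
    (Fin 2 → Fin (n + 1) → Pv g 1 3) :=
  (e2 hg n).toLinearMap ∘ₗ (KR.h3 hg n).W 1 ∘ₗ (e3 hg n).symm.toLinearMap

/-! ### the row formulas -/




section rows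
variable (hg : Gen g) (n : ℕ)

/-- the pair of the entries in the columns `3, 4` -/
abbrev k1F (i : Fin 7) (x : Pv g 1 3) : Fin 2 → Op K := ![(x : A g 1).1.fst i 3, (x : A g 1).1.fst i 4]
/-- the same, half `snd` -/
abbrev k1S (i : Fin 7) (x : Pv g 1 3) : Fin 2 → Op K := ![(x : A g 1).1.snd i 3, (x : A g 1).1.snd i 4]
/-- the pair of the entries in the columns `5, 6` -/
abbrev k2F (i : Fin 7) (x : Pv g 1 4) : Fin 2 → Op K := ![(x : A g 1).1.fst i 5, (x : A g 1).1.fst i 6]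





theorem d2_fst1 (x : Fin 2 → Fin (n + 1) → Pv g 1 3) (j : Fin n) (i : Fin 7) :
    k2F i ((d2 hg n x).1 j) = (KN.E2 g n (fun t a => k1F i (x t a))).1 j := by
  refine funext (Fin.forall_fin_two.2 ⟨rfl, rfl⟩)




theorem d3_fst (x : Fin (n + 1) → Pv g 1 2) (t : Fin 2) (j : Fin (n + 1)) (i : Fin 7) :
    k1F i (d3 hg n x t j) = KN.E3 g n (fun a => (x a : A g 1).1.fst i 2) t j := by
  refine funext (Fin.forall_fin_two.2 ⟨rfl, rfl⟩)

theorem d3_snd (x : Fin (n + 1) → Pv g 1 2) (t : Fin 2) (j : Fin (n + 1)) (i : Fin 7) :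
    k1S i (d3 hg n x t j) = KN.E3 g n (fun a => (x a : A g 1).1.snd i 2) t j := by
  refine funext (Fin.forall_fin_two.2 ⟨rfl, rfl⟩)

end rows

/-! ### the resolution -/

/-- generic: the resolution with the transported maps -/
def mresT {s : ℤ} {V F0 F1 F2 F3 : Fam g} (R : FRes s V F0 F1 F2 F3) (hg : Gen g)
    {E' P0 P1 P2 P3 : Type} [AddCommGroup E'] [Module (A g s) E']
    [AddCommGroup P0] [Module (A g s) P0] [AddCommGroup P1] [Module (A g s) P1]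
    [AddCommGroup P2] [Module (A g s) P2] [AddCommGroup P3] [Module (A g s) P3]
    (p0 : Module.Projective (A g s) P0) (p1 : Module.Projective (A g s) P1)
    (p2 : Module.Projective (A g s) P2) (p3 : Module.Projective (A g s) P3)
    (eE : V.W s ≃ₗ[A g s] E') (e0 : F0.W s ≃ₗ[A g s] P0) (e1 : F1.W s ≃ₗ[A g s] P1)
    (e2 : F2.W s ≃ₗ[A g s] P2) (e3 : F3.W s ≃ₗ[A g s] P3) :
    NullChain538.MRes (A g s) E' :=
  R.mresOf hg eE e0 e1 e2 e3
    (eE.toLinearMap ∘ₗ R.ε.W s ∘ₗ e0.symm.toLinearMap)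
    (e0.toLinearMap ∘ₗ R.φ1.W s ∘ₗ e1.symm.toLinearMap)
    (e1.toLinearMap ∘ₗ R.φ2.W s ∘ₗ e2.symm.toLinearMap)
    (e2.toLinearMap ∘ₗ R.φ3.W s ∘ₗ e3.symm.toLinearMap)
    (fun x => congrArg (fun z => eE (R.ε.W s z)) (e0.symm_apply_apply x))
    (fun x => congrArg (fun z => e0 (R.φ1.W s z)) (e1.symm_apply_apply x))
    (fun x => congrArg (fun z => e1 (R.φ2.W s z)) (e2.symm_apply_apply x))
    (fun x => congrArg (fun z => e2 (R.φ3.W s z)) (e3.symm_apply_apply x))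

instance ip0 (n : ℕ) : Module.Projective (A g 1) (Fin (n + 1) → Pv g 1 0) := iProjPi _
instance ip3 (n : ℕ) : Module.Projective (A g 1) (Fin (n + 1) → Pv g 1 2) := iProjPi _
instance ip2 (n : ℕ) : Module.Projective (A g 1) (Fin 2 → Fin (n + 1) → Pv g 1 3) :=
  haveI : Module.Projective (A g 1) (Fin (n + 1) → Pv g 1 3) := iProjPi _
  iProjPi _
instance ip1 (n : ℕ) : Module.Projective (A g 1)
    ((Fin n → Pv g 1 4) × (Fin 2 → Fin (n + 2) → Pv g 1 1)) :=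
  haveI : Module.Projective (A g 1) (Fin n → Pv g 1 4) := iProjPi _
  haveI : Module.Projective (A g 1) (Fin (n + 2) → Pv g 1 1) := iProjPi _
  haveI : Module.Projective (A g 1) (Fin 2 → Fin (n + 2) → Pv g 1 1) := iProjPi _
  inferInstance

/-- the resolution of `E g 1 n` on the literal `Fin` types -/
def mres (hg : Gen g) (n : ℕ) (R : FRes 1 (Vf g n) (KR.H0 hg n) (KR.H1 hg n) (KR.H2 hg n)
    (KR.H3 hg n)) : NullChain538.MRes (A g 1) (E g 1 n) :=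
  mresT R hg (ip0 n) (ip1 n) (ip2 n) (ip3 n) (VfW hg n zero_le_one) (e0 hg n) (e1 hg n) (e2 hg n)
    (e3 hg n)

/-- **the resolution of `E g 1 n`**, terms = `Fin` tuples of `Pv`, maps = `ε d1 d2 d3` -/
def mres1 (hg : Gen g) (n : ℕ) : NullChain538.MRes (A g 1) (E g 1 n) :=
  mres hg n (KRJ823.res1 hg n)

theorem surj (hg : Gen g) (n : ℕ) : Function.Surjective (ε hg n) := (mres1 hg n).surj

theorem ex0 (hg : Gen g) (n : ℕ) : Function.Exact (d1 hg n) (ε hg n) := (mres1 hg n).ex0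

theorem ex1 (hg : Gen g) (n : ℕ) : Function.Exact (d2 hg n) (d1 hg n) := (mres1 hg n).ex1

theorem ex2 (hg : Gen g) (n : ℕ) : Function.Exact (d3 hg n) (d2 hg n) := (mres1 hg n).ex2

theorem inj (hg : Gen g) (n : ℕ) : Function.Injective (d3 hg n) := (mres1 hg n).inj

end Crest.Agent.R186.B281.KPv1
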