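import Crest.Agent.R186.PDef_580
import Crest.Agent.R186.KN_355

/-!
Row 186, S0281, base, leaf B281.K1 (helper448): THE ELEMENTS of `A g s` by which the differentials
of `K(n)`, `s = 0`, are right multiplications.  `hf 0 x = x.fst`, `hf 1 x = x.snd` (halves);
`el M hM hb : Pv g s w` is the element `(M, 0)` with columns in the block `w`;
`hf_el : hf e (x * el M) i j = (hf e x * M) i j`.
-/

set_option autoImplicit false
set_option linter.unusedSectionVars false

open Matrix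

namespace Crest.Agent.R186.B281

namespace K448

open FD757

variable {K : Type} [Field K] {g : K} {s : ℤ}

/-- the two halves of an element -/
def hf (e : Fin 2) (x : A g s) : Mat K := if e = 0 then x.1.fst else x.1.snd

theorem hf_zero (x : A g s) : hf 0 x = x.1.fst := rfl

theorem hf_one (x : A g s) : hf 1 x = x.1.snd := rfl

theorem A_ext' {x y : A g s} (h : ∀ e i j, hf e x i j = hf e y i j) : x = y :=
  A_ext (fun i j => h 0 i j) (fun i j => h 1 i j)

theorem hf_add (e : Fin 2) (x y : A g s) : hf e (x + y) = hf e x + hf e y := by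
  fin_cases e <;> rfl

theorem hf_sub (e : Fin 2) (x y : A g s) : hf e (x - y) = hf e x - hf e y := by
  fin_cases e <;> rfl

theorem hf_neg (e : Fin 2) (x : A g s) : hf e (-x) = -hf e x := by
  fin_cases e <;> rfl

theorem hf_z (e : Fin 2) : hf e (0 : A g s) = 0 := by
  fin_cases e <;> rfl

theorem hf_smul (e : Fin 2) (c : K) (x : A g s) : hf e (c • x) = c • hf e x := by
  fin_cases e <;> rfl

/-- the element `(M, 0)` -/
noncomputable def el {w : Fin 5} (M : Mat K) (hM : Pres g s 0 M)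
    (hb : ∀ i j, blk j ≠ w → M i j = 0) : Pv g s w :=
  ⟨ofM M 0 hM (Pres.zero g s 1), mem_Pv.2 fun i j h => ⟨hb i j h, rfl⟩⟩

theorem el_fst {w : Fin 5} (M : Mat K) (hM : Pres g s 0 M)
    (hb : ∀ i j, blk j ≠ w → M i j = 0) : ((el M hM hb : Pv g s w) : A g s).1.fst = M := rfl

theorem el_snd {w : Fin 5} (M : Mat K) (hM : Pres g s 0 M)
    (hb : ∀ i j, blk j ≠ w → M i j = 0) : ((el M hM hb : Pv g s w) : A g s).1.snd = 0 := rfl

theorem hf_el {w : Fin 5} (M : Mat K) (hM : Pres g s 0 M)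
    (hb : ∀ i j, blk j ≠ w → M i j = 0) (e : Fin 2) (x : A g s) :
    hf e (x * ((el M hM hb : Pv g s w) : A g s)) = hf e x * M := by
  fin_cases e
  · exact fst_mulA _ _
  · show (x * ((el M hM hb : Pv g s w) : A g s)).1.snd = x.1.snd * M
    rw [snd_mulA, el_fst, el_snd, mul_zero, zero_add]

theorem mul_single_apply (M : Mat K) (p q : Fin 7) (T : Op K) (i j : Fin 7) :
    (M * Matrix.single p q T) i j = if q = j then M i p * T else 0 := by
  rw [Matrix.mul_apply, Finset.sum_eq_single p]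
  · by_cases h : q = j
    · subst h
      rw [if_pos rfl, Matrix.single_apply_same]
    · rw [if_neg h, Matrix.single_apply_of_col_ne _ _ h, mul_zero]
  · intro b _ hb
    rw [Matrix.single_apply_of_row_ne (Ne.symm hb), mul_zero]
  · intro h
    exact absurd (Finset.mem_univ p) h

theorem vec_single (v : Fin 7 → Op K) (p q : Fin 7) (T : Op K) (j : Fin 7) :
    (v ᵥ* Matrix.single p q T) j = if q = j then v p * T else 0 := by
  have := mul_single_apply (Matrix.of fun _ => v : Mat K) p q T 0 j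
  exact this

/-! ### the matrices -/

/-- `(a, b) ↦ (a x₀ + b x₁) T`, from the `K`-block at `p` to the position `q` -/
noncomputable def mC (p p' q : Fin 7) (T : Op K) : Mat K :=
  Matrix.single p q (X 0 * T) + Matrix.single p' q (X 1 * T)

/-- `h ↦ (h T x₁, -h T x₀)`, from the position `p` to the `K`-block at `q` -/
noncomputable def mS (p q q' : Fin 7) (T : Op K) : Mat K :=
  Matrix.single p q (T * X 1) - Matrix.single p q' (T * X 0)

theorem row_mC (v : Fin 7 → Op K) (p p' q : Fin 7) (T : Op K) (j : Fin 7) :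
    (v ᵥ* mC p p' q T) j = if q = j then (v p * X 0 + v p' * X 1) * T else 0 := by
  rw [mC, Matrix.vecMul_add, Pi.add_apply, vec_single, vec_single]
  split_ifs
  · rw [add_mul, mul_assoc, mul_assoc]
  · rw [add_zero]

theorem row_mS (v : Fin 7 → Op K) (p q q' : Fin 7) (T : Op K) (j : Fin 7) :
    (v ᵥ* mS p q q' T) j = (if q = j then v p * T * X 1 else 0) -
      (if q' = j then v p * T * X 0 else 0) := by
  rw [mS, Matrix.vecMul_sub, Pi.sub_apply, vec_single, vec_single, mul_assoc, mul_assoc]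

/-! ### they preserve the lattices (`s = 0`) -/


theorem memD (i : Fin 2) {k P : ℤ} {T : Op K} (h : T ∈ Fil g (k - 1) (P + 1)) :
    T * D g i ∈ Fil g k P := by
  have := mul_D_mem i h
  rwa [show k - 1 + 1 = k by ring, show P + 1 - 1 = P by ring] at this

theorem memX (hg : Gen g) (i : Fin 2) {k P : ℤ} {T : Op K} (h : T ∈ Fil g k P) :
    T * X i ∈ Fil g k (P + 1) := mul_X_mem hg i h


/-- `K₁ → O(0)`, `v ↦ (v.x) d_i` -/
theorem pres_c1 (i : Fin 2) : Pres g 0 0 (mC 3 4 0 (D g i) : Mat K) := by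
  rintro k P v ⟨h0, h1, h2, ⟨h3, h4, h34⟩, h5, h6, h56⟩
  rw [add_zero]
  have key : (v 3 * X 0 + v 4 * X 1) * D g i ∈ Fil g k P := by
    refine memD i ?_
    rwa [show k - 1 = k - 0 - 1 by ring]
  refine ⟨?_, ?_, ?_, ⟨?_, ?_, ?_⟩, ?_, ?_, ?_⟩ <;> simp [row_mC] <;> simpa using key

/-- `K₁ → O(0)`, the entries -/
theorem pres_p1 (t : Fin 7) (ht : t = 3 ∨ t = 4) :
    Pres g 0 0 (Matrix.single t 0 1 : Mat K) := by
  rintro k P v ⟨h0, h1, h2, ⟨h3, h4, h34⟩, h5, h6, h56⟩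
  rw [add_zero]
  have key : v t ∈ Fil g k P := by
    rw [sub_zero] at h3 h4
    rcases ht with rfl | rfl <;> assumption
  refine ⟨?_, ?_, ?_, ⟨?_, ?_, ?_⟩, ?_, ?_, ?_⟩ <;> simp [vec_single] <;> simpa using key

/-- `K₂ → K₁`, the inclusion -/
theorem pres_j21 : Pres g 0 0 (Matrix.single 5 3 1 + Matrix.single 6 4 1 : Mat K) := by
  rintro k P v ⟨h0, h1, h2, ⟨h3, h4, h34⟩, h5, h6, h56⟩
  rw [add_zero]
  have e : v 5 * X 0 + v 6 * X 1 ∈ Fil g (k - 1) (P + 1) := Fil_mono g (by omega) h56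
  refine ⟨?_, ?_, ?_, ⟨?_, ?_, ?_⟩, ?_, ?_, ?_⟩ <;>
    simp [Matrix.vecMul_add, vec_single] <;> assumption

/-- `K₂ → K₁`, `w ↦ (w.x) d_i` at the entry `t` -/
theorem pres_u21 (hg : Gen g) (i : Fin 2) (t : Fin 7) (ht : t = 3 ∨ t = 4) :
    Pres g 0 0 (mC 5 6 t (D g i) : Mat K) := by
  rintro k P v ⟨h0, h1, h2, ⟨h3, h4, h34⟩, h5, h6, h56⟩
  rw [add_zero]
  have key : (v 5 * X 0 + v 6 * X 1) * D g i ∈ Fil g (k - 1) P := by
    refine memD i ?_
    rwa [show k - 1 - 1 = k - 2 by ring]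
  have key' : (v 5 * X 0 + v 6 * X 1) * D g i ∈ Fil g k P := Fil_mono g (by omega) key
  have kx := memX hg 0 key
  have ky := memX hg 1 key
  rcases ht with rfl | rfl <;>
  refine ⟨?_, ?_, ?_, ⟨?_, ?_, ?_⟩, ?_, ?_, ?_⟩ <;> simp [row_mC] <;> assumption

/-- `O(-1) → K₁`, the entries -/
theorem pres_a1 (hg : Gen g) (t : Fin 7) (ht : t = 3 ∨ t = 4) :
    Pres g 0 0 (Matrix.single 1 t 1 : Mat K) := by
  rintro k P v ⟨h0, h1, h2, ⟨h3, h4, h34⟩, h5, h6, h56⟩
  rw [add_zero]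
  have key' : v 1 ∈ Fil g k P := Fil_mono g (by omega) h1
  have kx := memX hg 0 h1
  have ky := memX hg 1 h1
  rcases ht with rfl | rfl <;>
  refine ⟨?_, ?_, ?_, ⟨?_, ?_, ?_⟩, ?_, ?_, ?_⟩ <;> simp [vec_single] <;> assumption

theorem syz0 (T : Op K) : T * X 1 * X 0 - T * X 0 * X 1 = 0 := by
  rw [mul_assoc, mul_assoc, X_comm 1 0, sub_self]

/-- `O(-1) → K₁`, `h ↦ (h d_i x₁, -h d_i x₀)` -/
theorem pres_s1 (hg : Gen g) (i : Fin 2) : Pres g 0 0 (mS 1 3 4 (D g i) : Mat K) := by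
  rintro k P v ⟨h0, h1, h2, ⟨h3, h4, h34⟩, h5, h6, h56⟩
  rw [add_zero]
  have key : ∀ j : Fin 2, v 1 * D g i * X j ∈ Fil g k P := by
    intro j
    have := mul_X_mem hg j (mul_D_mem i h1)
    rwa [show k - 1 + 1 = k by ring, show P - 1 + 1 = P by ring] at this
  have k0 := key 0
  have k1 := key 1
  have z : v 1 * D g i * X 1 * X 0 + -(v 1 * D g i * X 0 * X 1) ∈ Fil g (k - 1) (P + 1) := by
    rw [← sub_eq_add_neg, syz0]
    exact zero_mem _
  refine ⟨?_, ?_, ?_, ⟨?_, ?_, ?_⟩, ?_, ?_, ?_⟩ <;> simp [row_mS] <;> assumption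

/-- `O(-2) → K₂`, the entries -/
theorem pres_a2 (hg : Gen g) (t : Fin 7) (ht : t = 5 ∨ t = 6) :
    Pres g 0 0 (Matrix.single 2 t 1 : Mat K) := by
  rintro k P v ⟨h0, h1, h2, ⟨h3, h4, h34⟩, h5, h6, h56⟩
  rw [add_zero]
  have key' : v 2 ∈ Fil g k P := Fil_mono g (by omega) h2
  have kx := memX hg 0 h2
  have ky := memX hg 1 h2
  rcases ht with rfl | rfl <;>
  refine ⟨?_, ?_, ?_, ⟨?_, ?_, ?_⟩, ?_, ?_, ?_⟩ <;> simp [vec_single] <;> assumption

/-- `O(-2) → K₂`, `u ↦ (u d_i x₁, -u d_i x₀)` -/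
theorem pres_s2 (hg : Gen g) (i : Fin 2) : Pres g 0 0 (mS 2 5 6 (D g i) : Mat K) := by
  rintro k P v ⟨h0, h1, h2, ⟨h3, h4, h34⟩, h5, h6, h56⟩
  rw [add_zero]
  have key : ∀ j : Fin 2, v 2 * D g i * X j ∈ Fil g k P := by
    intro j
    have := mul_X_mem hg j (mul_D_mem i h2)
    rw [show k - 2 + 1 = k - 1 by ring, show P - 1 + 1 = P by ring] at this
    exact Fil_mono g (by omega) this
  have k0 := key 0
  have k1 := key 1
  have z : v 2 * D g i * X 1 * X 0 + -(v 2 * D g i * X 0 * X 1) ∈ Fil g (k - 2) (P + 1) := by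
    rw [← sub_eq_add_neg, syz0]
    exact zero_mem _
  refine ⟨?_, ?_, ?_, ⟨?_, ?_, ?_⟩, ?_, ?_, ?_⟩ <;> simp [row_mS] <;> assumption

/-- `O(-2) → O(-1)`, the inclusion -/
theorem pres_h21 : Pres g 0 0 (Matrix.single 2 1 1 : Mat K) := by
  rintro k P v ⟨h0, h1, h2, ⟨h3, h4, h34⟩, h5, h6, h56⟩
  rw [add_zero]
  have key' : v 2 ∈ Fil g (k - 1) P := Fil_mono g (by omega) h2
  refine ⟨?_, ?_, ?_, ⟨?_, ?_, ?_⟩, ?_, ?_, ?_⟩ <;> simp [vec_single] <;> assumption

/-- `O(-2) → O(-1)`, `u ↦ u d_i x₁` -/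
theorem pres_r21 (hg : Gen g) (i : Fin 2) :
    Pres g 0 0 (Matrix.single 2 1 (D g i * X 1) : Mat K) := by
  rintro k P v ⟨h0, h1, h2, ⟨h3, h4, h34⟩, h5, h6, h56⟩
  rw [add_zero]
  have key : v 2 * (D g i * X 1) ∈ Fil g (k - 1) P := by
    have := mul_X_mem hg 1 (mul_D_mem i h2)
    rwa [show k - 2 + 1 = k - 1 by ring, show P - 1 + 1 = P by ring, mul_assoc] at this
  refine ⟨?_, ?_, ?_, ⟨?_, ?_, ?_⟩, ?_, ?_, ?_⟩ <;> simp [vec_single] <;> assumption

/-! ### the elements (`s = 0`) -/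

/-- columns in the block -/
theorem hb_single {w : Fin 5} (p q : Fin 7) (T : Op K) (hq : blk q = w) (i j : Fin 7)
    (h : blk j ≠ w) : Matrix.single p q T i j = 0 := by
  refine Matrix.single_apply_of_col_ne _ _ (fun e => h ?_) _
  rw [← e, hq]

/-- `K₁ → O(0)`, `v ↦ (v.x) d_i` -/
noncomputable def c1 (g : K) (i : Fin 2) : Pv g 0 0 := el (mC 3 4 0 (D g i)) (pres_c1 i) (by
  intro a b h
  rw [mC, Matrix.add_apply, hb_single 3 0 _ rfl a b h, hb_single 4 0 _ rfl a b h, add_zero])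

/-- `K₁ → O(0)`, `v ↦ v_0` -/
noncomputable def p0 (g : K) : Pv g 0 0 := el (Matrix.single 3 0 1) (pres_p1 3 (Or.inl rfl))
  (hb_single 3 0 _ rfl)

/-- `K₁ → O(0)`, `v ↦ v_1` -/
noncomputable def p1 (g : K) : Pv g 0 0 := el (Matrix.single 4 0 1) (pres_p1 4 (Or.inr rfl))
  (hb_single 4 0 _ rfl)

/-- `K₂ → K₁`, the inclusion -/
noncomputable def j21 (g : K) : Pv g 0 3 := el (Matrix.single 5 3 1 + Matrix.single 6 4 1) pres_j21
  (by
    intro a b h
    rw [Matrix.add_apply, hb_single 5 3 _ rfl a b h, hb_single 6 4 _ rfl a b h, add_zero])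

/-- `K₂ → K₁`, `w ↦ ((w.x) d_i, 0)` -/
noncomputable def u0 (hg : Gen g) (i : Fin 2) : Pv g 0 3 :=
  el (mC 5 6 3 (D g i)) (pres_u21 hg i 3 (Or.inl rfl)) (by
    intro a b h
    rw [mC, Matrix.add_apply, hb_single 5 3 _ rfl a b h, hb_single 6 3 _ rfl a b h, add_zero])

/-- `K₂ → K₁`, `w ↦ (0, (w.x) d_i)` -/
noncomputable def u1 (hg : Gen g) (i : Fin 2) : Pv g 0 3 :=
  el (mC 5 6 4 (D g i)) (pres_u21 hg i 4 (Or.inr rfl)) (by
    intro a b h
    rw [mC, Matrix.add_apply, hb_single 5 4 _ rfl a b h, hb_single 6 4 _ rfl a b h, add_zero])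

/-- `O(-1) → K₁`, `h ↦ (h, 0)` -/
noncomputable def a10 (hg : Gen g) : Pv g 0 3 := el (Matrix.single 1 3 1) (pres_a1 hg 3 (Or.inl rfl))
  (hb_single 1 3 _ rfl)

/-- `O(-1) → K₁`, `h ↦ (0, h)` -/
noncomputable def a11 (hg : Gen g) : Pv g 0 3 := el (Matrix.single 1 4 1) (pres_a1 hg 4 (Or.inr rfl))
  (hb_single 1 4 _ rfl)

/-- `O(-1) → K₁`, `h ↦ h d_i (x₁, -x₀)` -/
noncomputable def s1 (hg : Gen g) (i : Fin 2) : Pv g 0 3 := el (mS 1 3 4 (D g i)) (pres_s1 hg i) (by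
    intro a b h
    rw [mS, Matrix.sub_apply, hb_single 1 3 _ rfl a b h, hb_single 1 4 _ rfl a b h, sub_zero])

/-- `O(-2) → K₂`, `u ↦ (u, 0)` -/
noncomputable def a20 (hg : Gen g) : Pv g 0 4 := el (Matrix.single 2 5 1) (pres_a2 hg 5 (Or.inl rfl))
  (hb_single 2 5 _ rfl)

/-- `O(-2) → K₂`, `u ↦ (0, u)` -/
noncomputable def a21 (hg : Gen g) : Pv g 0 4 := el (Matrix.single 2 6 1) (pres_a2 hg 6 (Or.inr rfl))
  (hb_single 2 6 _ rfl)

/-- `O(-2) → K₂`, `u ↦ u d_i (x₁, -x₀)` -/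
noncomputable def s2 (hg : Gen g) (i : Fin 2) : Pv g 0 4 := el (mS 2 5 6 (D g i)) (pres_s2 hg i) (by
    intro a b h
    rw [mS, Matrix.sub_apply, hb_single 2 5 _ rfl a b h, hb_single 2 6 _ rfl a b h, sub_zero])

/-- `O(-2) → O(-1)`, the inclusion -/
noncomputable def h21 (g : K) : Pv g 0 1 := el (Matrix.single 2 1 1) pres_h21 (hb_single 2 1 _ rfl)

/-- `O(-2) → O(-1)`, `u ↦ u d_i x₁` -/
noncomputable def r21 (hg : Gen g) (i : Fin 2) : Pv g 0 1 :=
  el (Matrix.single 2 1 (D g i * X 1)) (pres_r21 hg i) (hb_single 2 1 _ rfl)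

/-! ### their action on rows; `rO q e i x` = the entry `(i, q)` of the half `e`, `rK q q'` = the
pair of the entries `(i, q), (i, q')` -/

/-- an entry -/
def rO (q : Fin 7) (e : Fin 2) (i : Fin 7) (x : A g s) : Op K := hf e x i q

/-- a pair of entries -/
def rK (q q' : Fin 7) (e : Fin 2) (i : Fin 7) (x : A g s) : Fin 2 → Op K := ![hf e x i q, hf e x i q']

section act

variable (e : Fin 2) (i : Fin 7) (x : A g (0 : ℤ))

theorem rO_c1 (t : Fin 2) : rO 0 e i (x * (c1 g t : A g 0)) = KN.cc (rK 3 4 e i x) * D g t := by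
  rw [rO, c1, hf_el]
  have := row_mC (hf e x i) 3 4 0 (D g t) 0
  rw [if_pos rfl] at this
  exact this

theorem rO_p0 : rO 0 e i (x * (p0 g : A g 0)) = rK 3 4 e i x 0 := by
  rw [rO, p0, hf_el, mul_single_apply, if_pos rfl, mul_one]
  rfl

theorem rO_p1 : rO 0 e i (x * (p1 g : A g 0)) = rK 3 4 e i x 1 := by
  rw [rO, p1, hf_el, mul_single_apply, if_pos rfl, mul_one]
  rfl

theorem vec2_ext {M : Type*} {a b : Fin 2 → M} (h0 : a 0 = b 0) (h1 : a 1 = b 1) : a = b := by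
  funext j
  fin_cases j
  · exact h0
  · exact h1

theorem rK_zero (q q' : Fin 7) : rK q q' e i x 0 = hf e x i q := rfl

theorem rK_one (q q' : Fin 7) : rK q q' e i x 1 = hf e x i q' := rfl

theorem rK_j21 : rK 3 4 e i (x * (j21 g : A g 0)) = rK 5 6 e i x := by
  apply vec2_ext
  · rw [rK_zero, rK_zero, j21, hf_el, mul_add, Matrix.add_apply, mul_single_apply,
      mul_single_apply, if_pos rfl, if_neg (by decide), mul_one, add_zero]
  · rw [rK_one, rK_one, j21, hf_el, mul_add, Matrix.add_apply, mul_single_apply,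
      mul_single_apply, if_neg (by decide), if_pos rfl, mul_one, zero_add]

theorem rK_u0 (hg : Gen g) (t : Fin 2) :
    rK 3 4 e i (x * (u0 hg t : A g 0)) = ![KN.cc (rK 5 6 e i x) * D g t, 0] := by
  apply vec2_ext
  · rw [rK_zero, u0, hf_el]
    have := row_mC (hf e x i) 5 6 3 (D g t) 3
    rw [if_pos rfl] at this
    exact this
  · rw [rK_one, u0, hf_el]
    have := row_mC (hf e x i) 5 6 3 (D g t) 4
    rw [if_neg (by decide)] at this
    exact this

theorem rK_u1 (hg : Gen g) (t : Fin 2) :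
    rK 3 4 e i (x * (u1 hg t : A g 0)) = ![0, KN.cc (rK 5 6 e i x) * D g t] := by
  apply vec2_ext
  · rw [rK_zero, u1, hf_el]
    have := row_mC (hf e x i) 5 6 4 (D g t) 3
    rw [if_neg (by decide)] at this
    exact this
  · rw [rK_one, u1, hf_el]
    have := row_mC (hf e x i) 5 6 4 (D g t) 4
    rw [if_pos rfl] at this
    exact this

theorem rK_a10 (hg : Gen g) : rK 3 4 e i (x * (a10 hg : A g 0)) = ![rO 1 e i x, 0] := by
  apply vec2_ext
  · rw [rK_zero, a10, hf_el, mul_single_apply, if_pos rfl, mul_one]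
    rfl
  · rw [rK_one, a10, hf_el, mul_single_apply, if_neg (by decide)]
    rfl

theorem rK_a11 (hg : Gen g) : rK 3 4 e i (x * (a11 hg : A g 0)) = ![0, rO 1 e i x] := by
  apply vec2_ext
  · rw [rK_zero, a11, hf_el, mul_single_apply, if_neg (by decide)]
    rfl
  · rw [rK_one, a11, hf_el, mul_single_apply, if_pos rfl, mul_one]
    rfl

theorem rK_s1 (hg : Gen g) (t : Fin 2) :
    rK 3 4 e i (x * (s1 hg t : A g 0)) = KN.syz (rO 1 e i x * D g t) := by
  apply vec2_ext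
  · rw [rK_zero, s1, hf_el]
    have := row_mS (hf e x i) 1 3 4 (D g t) 3
    rw [if_pos rfl, if_neg (by decide), sub_zero] at this
    exact this
  · rw [rK_one, s1, hf_el]
    have := row_mS (hf e x i) 1 3 4 (D g t) 4
    rw [if_neg (by decide), if_pos rfl, zero_sub] at this
    exact this

theorem rK_a20 (hg : Gen g) : rK 5 6 e i (x * (a20 hg : A g 0)) = ![rO 2 e i x, 0] := by
  apply vec2_ext
  · rw [rK_zero, a20, hf_el, mul_single_apply, if_pos rfl, mul_one]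
    rfl
  · rw [rK_one, a20, hf_el, mul_single_apply, if_neg (by decide)]
    rfl

theorem rK_a21 (hg : Gen g) : rK 5 6 e i (x * (a21 hg : A g 0)) = ![0, rO 2 e i x] := by
  apply vec2_ext
  · rw [rK_zero, a21, hf_el, mul_single_apply, if_neg (by decide)]
    rfl
  · rw [rK_one, a21, hf_el, mul_single_apply, if_pos rfl, mul_one]
    rfl

theorem rK_s2 (hg : Gen g) (t : Fin 2) :
    rK 5 6 e i (x * (s2 hg t : A g 0)) = KN.syz (rO 2 e i x * D g t) := by
  apply vec2_ext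
  · rw [rK_zero, s2, hf_el]
    have := row_mS (hf e x i) 2 5 6 (D g t) 5
    rw [if_pos rfl, if_neg (by decide), sub_zero] at this
    exact this
  · rw [rK_one, s2, hf_el]
    have := row_mS (hf e x i) 2 5 6 (D g t) 6
    rw [if_neg (by decide), if_pos rfl, zero_sub] at this
    exact this

theorem rO_h21 : rO 1 e i (x * (h21 g : A g 0)) = rO 2 e i x := by
  rw [rO, h21, hf_el, mul_single_apply, if_pos rfl, mul_one]
  rfl

theorem rO_r21 (hg : Gen g) (t : Fin 2) :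
    rO 1 e i (x * (r21 hg t : A g 0)) = rO 2 e i x * D g t * X 1 := by
  rw [rO, r21, hf_el, mul_single_apply, if_pos rfl, ← mul_assoc]
  rfl

end act

end K448

end Crest.Agent.R186.B281
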