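import Crest.Agent.R186.KdefE_448
import Crest.Agent.R186.KL_355

/-!
Row 186, S0281, base, leaf B281.K1 (helper448): THE `A g 0`-LINEAR MAPS of `K(n)`, `s = 0`, on
580's projectives, index `j` = exponent of `x₁`, and their ROWS = 355's `D1, D2, D3, EP`.
-/

set_option autoImplicit false
set_option linter.unusedSectionVars false

open Matrix

namespace Crest.Agent.R186.B281

namespace K448

open KN

section gen

variable (R : Type*) {P : Type*} [Ring R] [AddCommGroup P] [Module R P]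

/-- the entry `k` of the zero extension -/
def ezL (m k : ℕ) : (Fin m → P) →ₗ[R] P where
  toFun x := ez x k
  map_add' x y := ez_add x y k
  map_smul' r x := ez_smul r x k

/-- the entry `k - 1` of the zero extension -/
def shL (m k : ℕ) : (Fin m → P) →ₗ[R] P where
  toFun x := sh (ez x) k
  map_add' x y := by
    rw [ez_add']
    exact sh_add' _ _ k
  map_smul' r x := by
    rw [ez_smul']
    exact sh_smul' _ _ k

variable {R}



end gen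

variable {K : Type} [Field K] {g : K}

/-- `K₁ → K₀`, the component `j` -/
noncomputable def d1r (g : K) (n j : ℕ) :
    (Fin 2 → Fin (n + 1) → Pv g 0 3) →ₗ[A g 0] Pv g 0 0 :=
  mulR 3 (c1 g 0) ∘ₗ ezL (A g 0) (n + 1) j ∘ₗ LinearMap.proj 0 +
  mulR 3 (c1 g 1) ∘ₗ ezL (A g 0) (n + 1) j ∘ₗ LinearMap.proj 1 -
  mulR 3 (cq g (n - j : ℕ) • p0 g) ∘ₗ ezL (A g 0) (n + 1) j ∘ₗ LinearMap.proj 0 -
  mulR 3 (cq g j • p1 g) ∘ₗ ezL (A g 0) (n + 1) j ∘ₗ LinearMap.proj 1 -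
  mulR 3 (cq g (n + 1 - j : ℕ) • p1 g) ∘ₗ shL (A g 0) (n + 1) j ∘ₗ LinearMap.proj 0 -
  mulR 3 (cq g (j + 1 : ℕ) • p0 g) ∘ₗ ezL (A g 0) (n + 1) (j + 1) ∘ₗ LinearMap.proj 1

/-- **`K₁ → K₀`** -/
noncomputable def d1 (g : K) (n : ℕ) :
    (Fin 2 → Fin (n + 1) → Pv g 0 3) →ₗ[A g 0] (Fin (n + 1) → Pv g 0 0) :=
  LinearMap.pi fun j => d1r g n j

/-! ### rows -/

section rows

variable {s : ℤ}

theorem smul_coe (c : K) {w : Fin 5} (m : Pv g s w) : ((c • m : Pv g s w) : A g s) = c • (m : A g s) :=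
  rfl

theorem mulR_smul_coe (c : K) (v : Fin 5) {w : Fin 5} (m : Pv g s w) (x : Pv g s v) :
    (mulR v (c • m) x : A g s) = c • ((x : A g s) * m) := by
  rw [mulR_coe, smul_coe, mul_smul_comm]

theorem rO_add (q : Fin 7) (e : Fin 2) (i : Fin 7) (x y : A g s) :
    rO q e i (x + y) = rO q e i x + rO q e i y := by
  rw [rO, hf_add]
  rfl

theorem rO_sub (q : Fin 7) (e : Fin 2) (i : Fin 7) (x y : A g s) :
    rO q e i (x - y) = rO q e i x - rO q e i y := by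
  rw [rO, hf_sub]
  rfl

theorem rO_smul (q : Fin 7) (e : Fin 2) (i : Fin 7) (c : K) (x : A g s) :
    rO q e i (c • x) = c • rO q e i x := by
  rw [rO, hf_smul]
  rfl

theorem rO_z (q : Fin 7) (e : Fin 2) (i : Fin 7) : rO q e i (0 : A g s) = 0 := by
  rw [rO, hf_z]
  rfl

theorem rK_add (q q' : Fin 7) (e : Fin 2) (i : Fin 7) (x y : A g s) :
    rK q q' e i (x + y) = rK q q' e i x + rK q q' e i y := by
  rw [rK, hf_add]
  exact vec2_ext rfl rfl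

theorem rK_sub (q q' : Fin 7) (e : Fin 2) (i : Fin 7) (x y : A g s) :
    rK q q' e i (x - y) = rK q q' e i x - rK q q' e i y := by
  rw [rK, hf_sub]
  exact vec2_ext rfl rfl

theorem rK_neg (q q' : Fin 7) (e : Fin 2) (i : Fin 7) (x : A g s) :
    rK q q' e i (-x) = -rK q q' e i x := by
  rw [rK, hf_neg]
  exact vec2_ext rfl rfl

theorem rK_smul (q q' : Fin 7) (e : Fin 2) (i : Fin 7) (c : K) (x : A g s) :
    rK q q' e i (c • x) = c • rK q q' e i x := by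
  rw [rK, hf_smul]
  exact vec2_ext rfl rfl

theorem rK_z (q q' : Fin 7) (e : Fin 2) (i : Fin 7) : rK q q' e i (0 : A g s) = 0 := by
  rw [rK, hf_z]
  exact vec2_ext rfl rfl

theorem rO_ez {v : Fin 5} {m : ℕ} (q : Fin 7) (e : Fin 2) (i : Fin 7) (x : Fin m → Pv g s v) (j : ℕ) :
    rO q e i ((ez x j : Pv g s v) : A g s) = ez (fun j => rO q e i (x j : A g s)) j := by
  unfold ez
  split_ifs
  · rfl
  · exact rO_z q e i

theorem rK_ez {v : Fin 5} {m : ℕ} (q q' : Fin 7) (e : Fin 2) (i : Fin 7) (x : Fin m → Pv g s v)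
    (j : ℕ) : rK q q' e i ((ez x j : Pv g s v) : A g s) = ez (fun j => rK q q' e i (x j : A g s)) j := by
  unfold ez
  split_ifs
  · rfl
  · exact rK_z q q' e i

theorem rO_sh {v : Fin 5} {m : ℕ} (q : Fin 7) (e : Fin 2) (i : Fin 7) (x : Fin m → Pv g s v) (j : ℕ) :
    rO q e i ((sh (ez x) j : Pv g s v) : A g s) = sh (ez fun j => rO q e i (x j : A g s)) j := by
  cases j
  · exact rO_z q e i
  · exact rO_ez q e i x _

theorem rK_sh {v : Fin 5} {m : ℕ} (q q' : Fin 7) (e : Fin 2) (i : Fin 7) (x : Fin m → Pv g s v)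
    (j : ℕ) : rK q q' e i ((sh (ez x) j : Pv g s v) : A g s) = sh (ez fun j => rK q q' e i (x j : A g s)) j := by
  cases j
  · exact rK_z q q' e i
  · exact rK_ez q q' e i x _

theorem coe_addv {v : Fin 5} (x y : Pv g s v) :
    ((x + y : Pv g s v) : A g s) = (x : A g s) + (y : A g s) := rfl

theorem coe_subv {v : Fin 5} (x y : Pv g s v) :
    ((x - y : Pv g s v) : A g s) = (x : A g s) - (y : A g s) := rfl

theorem coe_negv {v : Fin 5} (x : Pv g s v) :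
    ((-x : Pv g s v) : A g s) = -(x : A g s) := rfl

theorem rO_addv {v : Fin 5} (q : Fin 7) (e : Fin 2) (i : Fin 7) (x y : Pv g s v) :
    rO q e i ((x + y : Pv g s v) : A g s) = rO q e i (x : A g s) + rO q e i (y : A g s) := by
  rw [coe_addv, rO_add]

theorem rO_subv {v : Fin 5} (q : Fin 7) (e : Fin 2) (i : Fin 7) (x y : Pv g s v) :
    rO q e i ((x - y : Pv g s v) : A g s) = rO q e i (x : A g s) - rO q e i (y : A g s) := by
  rw [coe_subv, rO_sub]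

theorem rK_addv {v : Fin 5} (q q' : Fin 7) (e : Fin 2) (i : Fin 7) (x y : Pv g s v) :
    rK q q' e i ((x + y : Pv g s v) : A g s) = rK q q' e i (x : A g s) + rK q q' e i (y : A g s) := by
  rw [coe_addv, rK_add]

theorem rK_subv {v : Fin 5} (q q' : Fin 7) (e : Fin 2) (i : Fin 7) (x y : Pv g s v) :
    rK q q' e i ((x - y : Pv g s v) : A g s) = rK q q' e i (x : A g s) - rK q q' e i (y : A g s) := by
  rw [coe_subv, rK_sub]

theorem rK_negv {v : Fin 5} (q q' : Fin 7) (e : Fin 2) (i : Fin 7) (x : Pv g s v) :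
    rK q q' e i ((-x : Pv g s v) : A g s) = -rK q q' e i (x : A g s) := by
  rw [coe_negv, rK_neg]

theorem rO_mulR {v w : Fin 5} (q : Fin 7) (e : Fin 2) (i : Fin 7) (m : Pv g s w) (x : Pv g s v) :
    rO q e i (mulR v m x : A g s) = rO q e i ((x : A g s) * (m : A g s)) := rfl

theorem rK_mulR {v w : Fin 5} (q q' : Fin 7) (e : Fin 2) (i : Fin 7) (m : Pv g s w)
    (x : Pv g s v) : rK q q' e i (mulR v m x : A g s) = rK q q' e i ((x : A g s) * (m : A g s)) :=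
  rfl

theorem rO_mulc {v w : Fin 5} (q : Fin 7) (e : Fin 2) (i : Fin 7) (c : K) (m : Pv g s w)
    (x : Pv g s v) :
    rO q e i (mulR v (c • m) x : A g s) = c • rO q e i ((x : A g s) * (m : A g s)) := by
  rw [mulR_smul_coe, rO_smul]

theorem rK_mulc {v w : Fin 5} (q q' : Fin 7) (e : Fin 2) (i : Fin 7) (c : K) (m : Pv g s w)
    (x : Pv g s v) :
    rK q q' e i (mulR v (c • m) x : A g s) = c • rK q q' e i ((x : A g s) * (m : A g s)) := by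
  rw [mulR_smul_coe, rK_smul]

end rows

/-- `d1` in coordinates -/
theorem d1_apply (n : ℕ) (x : Fin 2 → Fin (n + 1) → Pv g 0 3) (j : Fin (n + 1)) :
    d1 g n x j = mulR 3 (c1 g 0) (ez (x 0) j) + mulR 3 (c1 g 1) (ez (x 1) j) -
      mulR 3 (cq g (n - j : ℕ) • p0 g) (ez (x 0) j) -
      mulR 3 (cq g (j : ℕ) • p1 g) (ez (x 1) j) -
      mulR 3 (cq g (n + 1 - j : ℕ) • p1 g) (sh (ez (x 0)) j) -
      mulR 3 (cq g (j + 1 : ℕ) • p0 g) (ez (x 1) (j + 1)) := rfl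

/-- **the rows of `d1`** -/
theorem d1_row (n : ℕ) (x : Fin 2 → Fin (n + 1) → Pv g 0 3) (e : Fin 2) (i : Fin 7)
    (j : Fin (n + 1)) :
    rO 0 e i (d1 g n x j : A g 0) = D1 g n (fun t k => rK 3 4 e i (x t k : A g 0)) j := by
  rw [d1_apply]
  simp only [rO_addv, rO_subv, rO_mulc]
  simp only [rO_mulR, rO_c1, rO_p0, rO_p1, rK_ez, rK_sh]
  rfl

/-! ### `K₂ → K₁` -/

/-- the terms of `K₂` -/
abbrev T2 (g : K) (n : ℕ) : Type := (Fin (n + 2) → Pv g 0 4) × (Fin 2 → Fin n → Pv g 0 1)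

/-- the entry `k` of the `K₂`-part -/
noncomputable def wL (g : K) (n k : ℕ) : T2 g n →ₗ[A g 0] Pv g 0 4 :=
  ezL (A g 0) (n + 2) k ∘ₗ LinearMap.fst _ _ _

/-- the entry `k` of the slot `t` of the `O(-1)`-part -/
noncomputable def hL (g : K) (n : ℕ) (t : Fin 2) (k : ℕ) : T2 g n →ₗ[A g 0] Pv g 0 1 :=
  ezL (A g 0) n k ∘ₗ LinearMap.proj t ∘ₗ LinearMap.snd _ _ _

/-- the entry `k - 1` of the slot `t` of the `O(-1)`-part -/
noncomputable def hS (g : K) (n : ℕ) (t : Fin 2) (k : ℕ) : T2 g n →ₗ[A g 0] Pv g 0 1 :=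
  shL (A g 0) n k ∘ₗ LinearMap.proj t ∘ₗ LinearMap.snd _ _ _

/-- `K₂ → K₁`, slot `0`, component `j` -/
noncomputable def d2r0 (hg : Gen g) (n j : ℕ) : T2 g n →ₗ[A g 0] Pv g 0 3 :=
  mulR 4 (cq g (j + 1 : ℕ) • j21 g) ∘ₗ wL g n (j + 1) -
  (if j = 0 then mulR 4 (g⁻¹ • u0 hg 1) ∘ₗ wL g n 0 else 0) -
  mulR 4 (u1 hg 1) ∘ₗ wL g n (j + 1) +
  (mulR 1 (a11 hg) ∘ₗ hL g n 0 j - mulR 1 (g⁻¹ • a10 hg) ∘ₗ hS g n 0 j +
    (mulR 1 ((cq g (n - j : ℕ))⁻¹ • s1 hg 0) ∘ₗ hL g n 0 j +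
      mulR 1 ((cq g (n - j : ℕ))⁻¹ • s1 hg 1) ∘ₗ hL g n 1 j))

/-- `K₂ → K₁`, slot `1`, component `j` -/
noncomputable def d2r1 (hg : Gen g) (n j : ℕ) : T2 g n →ₗ[A g 0] Pv g 0 3 :=
  -(mulR 4 (cq g (n + 1 - j : ℕ) • j21 g) ∘ₗ wL g n j) +
  (if j = 0 then mulR 4 (u0 hg 0) ∘ₗ wL g n 0 else 0) +
  mulR 4 (g⁻¹ • u1 hg 0) ∘ₗ wL g n (j + 1) +
  (mulR 1 (g⁻¹ • a11 hg) ∘ₗ hL g n 1 j - mulR 1 (a10 hg) ∘ₗ hS g n 1 j)

/-- **`K₂ → K₁`** -/
noncomputable def d2 (hg : Gen g) (n : ℕ) :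
    T2 g n →ₗ[A g 0] (Fin 2 → Fin (n + 1) → Pv g 0 3) :=
  LinearMap.pi ![LinearMap.pi fun j => d2r0 hg n j, LinearMap.pi fun j => d2r1 hg n j]

/-! ### `K₃ → K₂` -/

/-- `K₃ → K₂`, `K₂`-part, component `j` -/
noncomputable def d3w' (hg : Gen g) (n j : ℕ) : (Fin (n + 1) → Pv g 0 2) →ₗ[A g 0] Pv g 0 4 :=
  mulR 2 (a20 hg) ∘ₗ shL (A g 0) (n + 1) j - mulR 2 (a21 hg) ∘ₗ ezL (A g 0) (n + 1) j -
  mulR 2 ((cq g (n + 1 - j : ℕ))⁻¹ • s2 hg 0) ∘ₗ ezL (A g 0) (n + 1) j -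
  (if j = n + 1 then mulR 2 ((cq g (n + 1 : ℕ))⁻¹ • s2 hg 1) ∘ₗ ezL (A g 0) (n + 1) n else 0)

/-- `K₃ → K₂`, `O(-1)`-part, slot `0`, component `j` -/
noncomputable def d3h0' (hg : Gen g) (n j : ℕ) : (Fin (n + 1) → Pv g 0 2) →ₗ[A g 0] Pv g 0 1 :=
  mulR 2 ((cq g (j + 1 : ℕ) - 1) • h21 g) ∘ₗ ezL (A g 0) (n + 1) (j + 1) -
  mulR 2 (g • r21 hg 1) ∘ₗ ezL (A g 0) (n + 1) (j + 1)

/-- `K₃ → K₂`, `O(-1)`-part, slot `1`, component `j` -/
noncomputable def d3h1' (hg : Gen g) (n j : ℕ) : (Fin (n + 1) → Pv g 0 2) →ₗ[A g 0] Pv g 0 1 :=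
  mulR 2 (r21 hg 0) ∘ₗ ezL (A g 0) (n + 1) (j + 1) -
  mulR 2 (cq g (n - j : ℕ) • h21 g) ∘ₗ ezL (A g 0) (n + 1) j

/-- **`K₃ → K₂`** -/
noncomputable def d3 (hg : Gen g) (n : ℕ) : (Fin (n + 1) → Pv g 0 2) →ₗ[A g 0] T2 g n :=
  LinearMap.prod (LinearMap.pi fun j => d3w' hg n j)
    (LinearMap.pi ![LinearMap.pi fun j => d3h0' hg n j, LinearMap.pi fun j => d3h1' hg n j])

/-! ### the rows of `d2`, `d3` -/

/-- the rows of an element of `K₂` -/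
noncomputable def row2 (n : ℕ) (e : Fin 2) (i : Fin 7) (x : T2 g n) :
    (Fin (n + 2) → Fin 2 → Op K) × (Fin 2 → Fin n → Op K) :=
  (fun k => rK 5 6 e i (x.1 k : A g 0), fun t k => rO 1 e i (x.2 t k : A g 0))

theorem rK_wL (n : ℕ) (e : Fin 2) (i : Fin 7) (x : T2 g n) (k : ℕ) :
    rK 5 6 e i ((wL g n k x : Pv g 0 4) : A g 0) = ez (row2 n e i x).1 k := rK_ez 5 6 e i x.1 k

theorem rO_hL (n : ℕ) (e : Fin 2) (i : Fin 7) (x : T2 g n) (t : Fin 2) (k : ℕ) :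
    rO 1 e i ((hL g n t k x : Pv g 0 1) : A g 0) = ez2 (row2 n e i x).2 t k :=
  rO_ez 1 e i (x.2 t) k

theorem rO_hS (n : ℕ) (e : Fin 2) (i : Fin 7) (x : T2 g n) (t : Fin 2) (k : ℕ) :
    rO 1 e i ((hS g n t k x : Pv g 0 1) : A g 0) = sh (ez2 (row2 n e i x).2 t) k :=
  rO_sh 1 e i (x.2 t) k

theorem rK_ite {s : ℤ} {v : Fin 5} (q q' : Fin 7) (e : Fin 2) (i : Fin 7) (p : Prop) [Decidable p]
    (x : Pv g s v) : rK q q' e i ((if p then x else 0 : Pv g s v) : A g s) =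
      if p then rK q q' e i (x : A g s) else 0 := by
  split_ifs
  · rfl
  · exact rK_z q q' e i

theorem d2r0_apply (hg : Gen g) (n j : ℕ) (x : T2 g n) : d2r0 hg n j x =
    mulR 4 (cq g (j + 1 : ℕ) • j21 g) (wL g n (j + 1) x) -
      (if j = 0 then mulR 4 (g⁻¹ • u0 hg 1) (wL g n 0 x) else 0) -
      mulR 4 (u1 hg 1) (wL g n (j + 1) x) +
      (mulR 1 (a11 hg) (hL g n 0 j x) - mulR 1 (g⁻¹ • a10 hg) (hS g n 0 j x) +
        (mulR 1 ((cq g (n - j : ℕ))⁻¹ • s1 hg 0) (hL g n 0 j x) +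
          mulR 1 ((cq g (n - j : ℕ))⁻¹ • s1 hg 1) (hL g n 1 j x))) := by
  unfold d2r0
  split_ifs <;> rfl

theorem d2r1_apply (hg : Gen g) (n j : ℕ) (x : T2 g n) : d2r1 hg n j x =
    -(mulR 4 (cq g (n + 1 - j : ℕ) • j21 g) (wL g n j x)) +
      (if j = 0 then mulR 4 (u0 hg 0) (wL g n 0 x) else 0) +
      mulR 4 (g⁻¹ • u1 hg 0) (wL g n (j + 1) x) +
      (mulR 1 (g⁻¹ • a11 hg) (hL g n 1 j x) - mulR 1 (a10 hg) (hS g n 1 j x)) := by
  unfold d2r1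
  split_ifs <;> rfl

theorem d3w'_apply (hg : Gen g) (n j : ℕ) (x : Fin (n + 1) → Pv g 0 2) : d3w' hg n j x =
    mulR 2 (a20 hg) (sh (ez x) j) - mulR 2 (a21 hg) (ez x j) -
      mulR 2 ((cq g (n + 1 - j : ℕ))⁻¹ • s2 hg 0) (ez x j) -
      (if j = n + 1 then mulR 2 ((cq g (n + 1 : ℕ))⁻¹ • s2 hg 1) (ez x n) else 0) := by
  unfold d3w'
  split_ifs <;> rfl

/-- **the rows of `d2`, slot `0`** -/
theorem d2_row0 (hg : Gen g) (n : ℕ) (x : T2 g n) (e : Fin 2) (i : Fin 7) (j : Fin (n + 1)) :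
    rK 3 4 e i (d2 hg n x 0 j : A g 0) = D2 g n (row2 n e i x) 0 j := by
  show rK 3 4 e i (d2r0 hg n j x : A g 0) = _
  rw [d2r0_apply]
  simp only [rK_addv, rK_subv, rK_mulc, rK_ite]
  simp only [rK_mulR, rK_j21, rK_u0, rK_u1, rK_a10, rK_a11, rK_s1, rK_wL, rO_hL, rO_hS]
  show _ = d2w0 g (ez (row2 n e i x).1) j + d2h0 g n (ez2 (row2 n e i x).2) j
  rw [d2w0, d2h0]
  have e1 : ∀ a b : Op K, syz (a + b) = syz a + syz b := fun a b => ext2
    (by simp only [syz_0, Pi.add_apply, add_mul])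
    (by simp only [syz_1, Pi.add_apply, add_mul, neg_add])
  have e2 : ∀ (c : K) (a b : Op K), (![-(c • a), b] : Fin 2 → Op K) = ![0, b] - c • ![a, 0] := by
    intro c a b
    refine ext2 ?_ ?_
    · show -(c • a) = 0 - c • a
      rw [zero_sub]
    · show b = b - c • (0 : Op K)
      rw [smul_zero, sub_zero]
  rw [e1, e2, smul_add]

/-- **the rows of `d2`, slot `1`** -/
theorem d2_row1 (hg : Gen g) (n : ℕ) (x : T2 g n) (e : Fin 2) (i : Fin 7) (j : Fin (n + 1)) :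
    rK 3 4 e i (d2 hg n x 1 j : A g 0) = D2 g n (row2 n e i x) 1 j := by
  show rK 3 4 e i (d2r1 hg n j x : A g 0) = _
  rw [d2r1_apply]
  simp only [rK_addv, rK_subv, rK_negv, rK_mulc, rK_ite]
  simp only [rK_mulR, rK_j21, rK_u0, rK_u1, rK_a10, rK_a11, rK_wL, rO_hL, rO_hS]
  show _ = d2w1 g n (ez (row2 n e i x).1) j + d2h1 g (ez2 (row2 n e i x).2) j
  rw [d2w1, d2h1]
  have e2 : ∀ (c : K) (a b : Op K), (![-a, c • b] : Fin 2 → Op K) = c • ![0, b] - ![a, 0] := by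
    intro c a b
    refine ext2 ?_ ?_
    · show -a = c • (0 : Op K) - a
      rw [smul_zero, zero_sub]
    · show c • b = c • b - (0 : Op K)
      rw [sub_zero]
  rw [e2]

/-- **the rows of `d3`, `K₂`-part** -/
theorem d3_row (hg : Gen g) (n : ℕ) (x : Fin (n + 1) → Pv g 0 2) (e : Fin 2) (i : Fin 7)
    (j : Fin (n + 2)) :
    rK 5 6 e i ((d3 hg n x).1 j : A g 0) = (D3 g n fun k => rO 2 e i (x k : A g 0)).1 j := by
  show rK 5 6 e i (d3w' hg n j x : A g 0) = _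
  rw [d3w'_apply]
  simp only [rK_subv, rK_mulc, rK_ite]
  simp only [rK_mulR, rK_a20, rK_a21, rK_s2, rO_ez, rO_sh]
  show _ = d3w g n (ez fun k => rO 2 e i (x k : A g 0)) j
  rw [d3w]
  have e2 : ∀ (a b : Op K), (![a, -b] : Fin 2 → Op K) = ![a, 0] - ![0, b] := by
    intro a b
    refine ext2 ?_ ?_
    · show a = a - (0 : Op K)
      rw [sub_zero]
    · show -b = (0 : Op K) - b
      rw [zero_sub]
  rw [e2]

/-- **the rows of `d3`, `O(-1)`-part, slot `0`** -/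
theorem d3_rowh0 (hg : Gen g) (n : ℕ) (x : Fin (n + 1) → Pv g 0 2) (e : Fin 2) (i : Fin 7)
    (j : Fin n) :
    rO 1 e i ((d3 hg n x).2 0 j : A g 0) = (D3 g n fun k => rO 2 e i (x k : A g 0)).2 0 j := by
  have h : (d3 hg n x).2 0 j = mulR 2 ((cq g (j + 1 : ℕ) - 1) • h21 g) (ez x (j + 1)) -
      mulR 2 (g • r21 hg 1) (ez x (j + 1)) := rfl
  rw [h]
  simp only [rO_subv, rO_mulc]
  simp only [rO_h21, rO_r21, rO_ez]
  rfl

/-- **the rows of `d3`, `O(-1)`-part, slot `1`** -/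
theorem d3_rowh1 (hg : Gen g) (n : ℕ) (x : Fin (n + 1) → Pv g 0 2) (e : Fin 2) (i : Fin 7)
    (j : Fin n) :
    rO 1 e i ((d3 hg n x).2 1 j : A g 0) = (D3 g n fun k => rO 2 e i (x k : A g 0)).2 1 j := by
  have h : (d3 hg n x).2 1 j = mulR 2 (r21 hg 0) (ez x (j + 1)) -
      mulR 2 (cq g (n - j : ℕ) • h21 g) (ez x j) := rfl
  rw [h]
  simp only [rO_subv, rO_mulc]
  simp only [rO_mulR, rO_h21, rO_r21, rO_ez]
  rfl

/-- **the rows of `d3`** -/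
theorem row2_d3 (hg : Gen g) (n : ℕ) (x : Fin (n + 1) → Pv g 0 2) (e : Fin 2) (i : Fin 7) :
    row2 n e i (d3 hg n x) = D3 g n fun k => rO 2 e i (x k : A g 0) := by
  refine Prod.ext ?_ (funext (Fin.forall_fin_two.2 ⟨?_, ?_⟩))
  · exact funext fun j => d3_row hg n x e i j
  · exact funext fun j => d3_rowh0 hg n x e i j
  · exact funext fun j => d3_rowh1 hg n x e i j

/-- **the rows of `d2`** -/
theorem row_d2 (hg : Gen g) (n : ℕ) (x : T2 g n) (e : Fin 2) (i : Fin 7) :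
    (fun t j => rK 3 4 e i (d2 hg n x t j : A g 0)) = D2 g n (row2 n e i x) := by
  refine funext (Fin.forall_fin_two.2 ⟨?_, ?_⟩)
  · exact funext fun j => d2_row0 hg n x e i j
  · exact funext fun j => d2_row1 hg n x e i j

end K448

end Crest.Agent.R186.B281
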