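import Crest.Agent.R186.B281W2_128
import Crest.Agent.R186.NullChain_538

/-!
Row 186, S0281 base (helper229): the `A`-level of the blocks LCQ0 / LCQ1, both `s`.

* `Fam.Sub F` : a subfamily `L' ≤ L` on the same module; `Quo F F' s = W(L) / W(L')`;
* `hom Φ0 Φ1 : T.W s → F.W s` for filtered `Op`-linear maps `Φ0` (degree `0`), `Φ1` (degree `1`);
* `Cell`, `Good` : every `A`-linear map `T.W s → W(L) / W(L')` is `hom Φ0 Φ1`, for `T` a vertex
  family or a finite sum of vertex families;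
* `H0_of .. H3_of` : exactness of the filtered Hom complexes gives `MRes.H0 .. H3`-type statements.
-/

set_option autoImplicit false
set_option linter.unusedSectionVars false

open Matrix

noncomputable section

namespace Crest.Agent.R186.B281

variable {K : Type} [Field K] {g : K}

section inst
variable (F : Fam g) (s : ℤ)
noncomputable instance iWg229 : AddCommGroup (F.W s) := inferInstance
noncomputable instance iWm229 : Module (A g s) (F.W s) := inferInstance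
noncomputable instance iWs229 : SMul (A g s) (F.W s) :=
  (iWm229 F s).toDistribMulAction.toDistribSMul.toSMulZeroClass.toSMul
end inst

/-- an entry of a column, as an additive map -/
def colF {N : Type} [AddCommGroup N] (j : Fin 7) : Col N →+ N where
  toFun p := p.1 j
  map_zero' := rfl
  map_add' _ _ := rfl

/-- an entry of the second column, as an additive map -/
def colS {N : Type} [AddCommGroup N] (j : Fin 7) : Col N →+ N where
  toFun p := p.2 j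
  map_zero' := rfl
  map_add' _ _ := rfl

/-- a subfamily on the same module -/
structure Fam.Sub (F : Fam g) where
  L : ℤ → ℤ → Submodule K F.N
  le : ∀ {k P : ℤ} {n : F.N}, n ∈ L k P → n ∈ F.L k P
  mono : ∀ {k l P : ℤ}, k ≤ l → L k P ≤ L l P
  smul : ∀ {j e k P : ℤ} {T : Op K} {n : F.N}, T ∈ Fil g j e → n ∈ L k P →
    T • n ∈ L (k + j) (P + e)

/-- the subfamily as a family -/
def Fam.Sub.fam {F : Fam g} (F' : F.Sub) : Fam g where
  N := F.N
  L := F'.L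
  mono := F'.mono
  smul := F'.smul

/-- the inclusion -/
def Fam.Sub.inc {F : Fam g} (F' : F.Sub) : F'.fam.Hom F where
  f := LinearMap.id
  map h := F'.le h

/-- `π` is onto with kernel `W(L')` -/
structure IsQuo (F : Fam g) (F' : F.Sub) (s : ℤ) {Y : Type} [AddCommGroup Y] [Module (A g s) Y]
    (π : F.W s →ₗ[A g s] Y) : Prop where
  surj : Function.Surjective π
  ker : ∀ y : F.W s, π y = 0 ↔ (y : Col F.N) ∈ F'.fam.W s

/-- `Φ` is filtered of degree `e` -/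
def HF (e : ℤ) (T : Fam g) {N : Type} [AddCommGroup N] [Module K N] [Module (Op K) N]
    (L : ℤ → ℤ → Submodule K N) (Φ : T.N →ₗ[Op K] N) : Prop :=
  ∀ ⦃k P : ℤ⦄ ⦃n : T.N⦄, n ∈ T.L k P → Φ n ∈ L k (P + e)

/-- the column of images -/
def homC {T F : Fam g} (Φ0 Φ1 : T.N →ₗ[Op K] F.N) (p : Col T.N) : Col F.N :=
  (fun i => Φ0 (p.1 i), fun i => Φ1 (p.1 i) + Φ0 (p.2 i))

theorem homC_mem {T F : Fam g} {s : ℤ} {Φ0 Φ1 : T.N →ₗ[Op K] F.N} (h0 : HF 0 T F.L Φ0)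
    (h1 : HF 1 T F.L Φ1) (p : T.W s) : homC Φ0 Φ1 (p : Col T.N) ∈ F.W s := by
  intro k P r hr
  obtain ⟨a, b⟩ := p.2 k P r hr
  constructor
  · show pair r (fun i => Φ0 (p.1.1 i)) ∈ _
    rw [pair_map]
    have := h0 a
    rwa [add_zero] at this
  · show pair r ((fun i => Φ1 (p.1.1 i)) + fun i => Φ0 (p.1.2 i)) ∈ _
    rw [pair_add, pair_map, pair_map]
    refine add_mem (h1 a) ?_
    have := h0 b
    rwa [add_zero] at this

/-- the `A`-linear map of a pair of filtered maps -/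
def hom {T F : Fam g} (s : ℤ) (Φ0 Φ1 : T.N →ₗ[Op K] F.N) (h0 : HF 0 T F.L Φ0)
    (h1 : HF 1 T F.L Φ1) : T.W s →ₗ[A g s] F.W s where
  toFun p := ⟨homC Φ0 Φ1 (p : Col T.N), homC_mem h0 h1 p⟩
  map_add' p q := by
    apply Subtype.ext
    refine Col.ext' (fun i => ?_) (fun i => ?_)
    · exact map_add Φ0 _ _
    · show Φ1 (p.1.1 i + q.1.1 i) + Φ0 (p.1.2 i + q.1.2 i) =
        (Φ1 (p.1.1 i) + Φ0 (p.1.2 i)) + (Φ1 (q.1.1 i) + Φ0 (q.1.2 i))
      rw [map_add, map_add]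
      abel
  map_smul' x p := by
    apply Subtype.ext
    refine Col.ext' (fun i => ?_) (fun i => ?_)
    · show Φ0 (cact x.1.fst p.1.1 i) = cact x.1.fst (fun i => Φ0 (p.1.1 i)) i
      simp only [cact, map_sum, map_smul]
    · show Φ1 (cact x.1.fst p.1.1 i) + Φ0 (cact x.1.fst p.1.2 i + cact x.1.snd p.1.1 i) =
        cact x.1.fst (fun i => Φ1 (p.1.1 i) + Φ0 (p.1.2 i)) i +
          cact x.1.snd (fun i => Φ0 (p.1.1 i)) i
      simp only [cact, map_sum, map_smul, map_add, smul_add, Finset.sum_add_distrib]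
      abel


/-- composition with a map of families -/
theorem HF.comp {e : ℤ} {S T : Fam g} {N : Type} [AddCommGroup N] [Module K N] [Module (Op K) N]
    {L : ℤ → ℤ → Submodule K N} {Φ : T.N →ₗ[Op K] N} (h : HF e T L Φ) (d : S.Hom T) :
    HF e S L (Φ ∘ₗ d.f) := fun _ _ _ hn => h (d.map hn)

/-- the properties of the source families -/
structure Good (s : ℤ) (T : Fam g) : Prop where
  rep : ∀ (F : Fam g) (Y : Type) [AddCommGroup Y] [Module (A g s) Y] (π : F.W s →ₗ[A g s] Y),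
    Function.Surjective π → ∀ f : T.W s →ₗ[A g s] Y,
    ∃ (Φ0 Φ1 : T.N →ₗ[Op K] F.N) (h0 : HF 0 T F.L Φ0) (h1 : HF 1 T F.L Φ1),
      ∀ p, f p = π (hom s Φ0 Φ1 h0 h1 p)
  cst : ∀ (F : Fam g) (Φ0 Φ1 : T.N →ₗ[Op K] F.N),
    (∀ p : T.W s, homC Φ0 Φ1 (p : Col T.N) ∈ F.W s) → HF 0 T F.L Φ0 ∧ HF 1 T F.L Φ1

/-! ### vertex families -/

/-- a vertex family -/
structure Cell (s : ℤ) (T : Fam g) where
  inc : T.N →ₗ[Op K] (Fin 7 → Op K)
  col : Fin 7 → T.N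
  inc_mem : ∀ {k P : ℤ} {n : T.N}, n ∈ T.L k P → inc n ∈ Lat g s k P
  pair_mem : ∀ {k P : ℤ} {r : Fin 7 → Op K}, r ∈ Lat g s k P → pair r col ∈ T.L k P
  pair_inc : ∀ n, pair (inc n) col = n

namespace Cell

variable {s : ℤ} {T : Fam g} (C : Cell s T)

/-- the generator -/
def gen : T.W s := ⟨((C.col, 0) : Col T.N), by
  intro k P r hr
  refine ⟨C.pair_mem hr, ?_⟩
  show pair r 0 ∈ _
  rw [pair_zero]
  exact zero_mem _⟩

/-- the matrix of a column -/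
def mat (m : Fin 7 → T.N) : Mat K := fun i => C.inc (m i)

theorem vecMul_mat (r : Fin 7 → Op K) (m : Fin 7 → T.N) : r ᵥ* C.mat m = C.inc (pair r m) := by
  have h : pair r m = ∑ i, r i • m i := rfl
  rw [h, map_sum]
  funext j
  rw [Finset.sum_apply]
  simp only [map_smul, Pi.smul_apply, smul_eq_mul, Matrix.vecMul, dotProduct, mat]

theorem cact_mat (m : Fin 7 → T.N) : cact (C.mat m) C.col = m := by
  funext i
  exact C.pair_inc (m i)

/-- the element of `A g s` of a column -/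
def elt (p : T.W s) : A g s := ⟨((C.mat p.1.1, C.mat p.1.2) : DualNumber (Mat K)), by
  constructor
  · intro k P r hr
    show r ᵥ* C.mat p.1.1 ∈ _
    rw [C.vecMul_mat, add_zero]
    exact C.inc_mem (p.2 k P r hr).1
  · intro k P r hr
    show r ᵥ* C.mat p.1.2 ∈ _
    rw [C.vecMul_mat]
    exact C.inc_mem (p.2 k P r hr).2⟩

theorem elt_smul_gen (p : T.W s) : C.elt p • C.gen = p := by
  apply Subtype.ext
  show ((cact (C.mat p.1.1) C.col, cact (C.mat p.1.1) 0 + cact (C.mat p.1.2) C.col) : Col T.N) = p.1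
  rw [C.cact_mat, C.cact_mat, cact_zero, zero_add]
  rfl

/-- pairing with a column of a target, as an `Op`-linear map -/
def phi {N : Type} [AddCommGroup N] [Module (Op K) N] (y : Fin 7 → N) : T.N →ₗ[Op K] N where
  toFun n := pair (C.inc n) y
  map_add' a b := by
    simp only [pair, map_add, Pi.add_apply, add_smul, Finset.sum_add_distrib]
  map_smul' t a := by
    simp only [pair, map_smul, Pi.smul_apply, smul_eq_mul, mul_smul, Finset.smul_sum,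
      RingHom.id_apply]

theorem good (C : Cell s T) : Good s T where
  rep F Y _ _ π hπ f := by
    obtain ⟨y, hy⟩ := hπ (f C.gen)
    have h0 : HF 0 T F.L (C.phi y.1.1) := by
      intro k P n hn
      rw [add_zero]
      exact (y.2 k P _ (C.inc_mem hn)).1
    have h1 : HF 1 T F.L (C.phi y.1.2) := by
      intro k P n hn
      exact (y.2 k P _ (C.inc_mem hn)).2
    refine ⟨_, _, h0, h1, fun p => ?_⟩
    have h2 : f p = f (C.elt p • C.gen) := by rw [C.elt_smul_gen]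
    rw [h2, map_smul, ← hy, ← map_smul]
    congr 1
  cst F Φ0 Φ1 h := by
    have h2 := h C.gen
    constructor
    · intro k P n hn
      have h3 := (h2 k P _ (C.inc_mem hn)).1
      have h4 : pair (C.inc n) (fun i => Φ0 (C.col i)) = Φ0 n := by
        rw [pair_map, C.pair_inc]
      rw [add_zero, ← h4]
      exact h3
    · intro k P n hn
      have h3 := (h2 k P _ (C.inc_mem hn)).2
      have h4 : pair (C.inc n) (fun i => Φ1 (C.col i) + Φ0 ((0 : Fin 7 → T.N) i)) = Φ1 n := by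
        have : (fun i => Φ1 (C.col i) + Φ0 ((0 : Fin 7 → T.N) i)) = fun i => Φ1 (C.col i) := by
          funext i
          simp
        rw [this, pair_map, C.pair_inc]
      rw [← h4]
      exact h3

end Cell

/-! ### finite sums of families -/

theorem good_of_decomp {s : ℤ} {T : Fam g} {ι : Type} [Fintype ι] (S : ι → Fam g)
    (inc : ∀ i, (S i).Hom T) (pr : ∀ i, T.Hom (S i))
    (h : ∀ n : T.N, ∑ i, (inc i).f ((pr i).f n) = n) (hS : ∀ i, Good s (S i)) : Good s T where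
  rep F Y _ _ π hπ f := by
    choose Φ0 Φ1 h0 h1 hf using fun i => (hS i).rep F Y π hπ (f ∘ₗ (inc i).W s)
    have k0 : HF 0 T F.L (∑ i, Φ0 i ∘ₗ (pr i).f) := by
      intro k P n hn
      rw [LinearMap.sum_apply]
      exact Submodule.sum_mem _ fun i _ => h0 i ((pr i).map hn)
    have k1 : HF 1 T F.L (∑ i, Φ1 i ∘ₗ (pr i).f) := by
      intro k P n hn
      rw [LinearMap.sum_apply]
      exact Submodule.sum_mem _ fun i _ => h1 i ((pr i).map hn)
    refine ⟨_, _, k0, k1, fun p => ?_⟩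
    have hp : p = ∑ i, (inc i).W s ((pr i).W s p) := by
      apply Subtype.ext
      rw [AddSubmonoidClass.coe_finsetSum]
      refine Col.ext' (fun j => ?_) (fun j => ?_)
      · refine ((map_sum (colF j) _ _).trans ?_).symm
        exact h _
      · refine ((map_sum (colS j) _ _).trans ?_).symm
        exact h _
    have e1 : f p = ∑ i, (f ∘ₗ (inc i).W s) ((pr i).W s p) := by
      conv_lhs => rw [hp]
      rw [map_sum]
      rfl
    rw [e1, Finset.sum_congr rfl fun i _ => hf i ((pr i).W s p)]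
    have e2 : hom s _ _ k0 k1 p = ∑ i, hom s _ _ (h0 i) (h1 i) ((pr i).W s p) := by
      apply Subtype.ext
      rw [AddSubmonoidClass.coe_finsetSum]
      refine Col.ext' (fun j => ?_) (fun j => ?_)
      · refine Eq.trans ?_ (map_sum (colF j) _ _).symm
        show (∑ i, Φ0 i ∘ₗ (pr i).f) (p.1.1 j) = _
        rw [LinearMap.sum_apply]
        rfl
      · refine Eq.trans ?_ (map_sum (colS j) _ _).symm
        show (∑ i, Φ1 i ∘ₗ (pr i).f) (p.1.1 j) + (∑ i, Φ0 i ∘ₗ (pr i).f) (p.1.2 j) = _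
        rw [LinearMap.sum_apply, LinearMap.sum_apply, ← Finset.sum_add_distrib]
        rfl
    rw [e2, map_sum]
  cst F Φ0 Φ1 hh := by
    have h1 : ∀ i, HF 0 (S i) F.L (Φ0 ∘ₗ (inc i).f) ∧ HF 1 (S i) F.L (Φ1 ∘ₗ (inc i).f) :=
      fun i => (hS i).cst F _ _ fun p => hh ((inc i).W s p)
    constructor
    · intro k P n hn
      rw [← h n, map_sum]
      exact Submodule.sum_mem _ fun i _ => (h1 i).1 ((pr i).map hn)
    · intro k P n hn
      rw [← h n, map_sum]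
      exact Submodule.sum_mem _ fun i _ => (h1 i).2 ((pr i).map hn)

/-! ### from filtered exactness to exactness -/

section ex

variable {s : ℤ} {F : Fam g} {F' : F.Sub} {Y : Type} [AddCommGroup Y] [Module (A g s) Y]
  {π : F.W s →ₗ[A g s] Y}

theorem hom_comp_W {S T : Fam g} (d : S.Hom T) (Φ0 Φ1 : T.N →ₗ[Op K] F.N) (h0 : HF 0 T F.L Φ0)
    (h1 : HF 1 T F.L Φ1) (p : S.W s) :
    hom s Φ0 Φ1 h0 h1 (d.W s p) = hom s _ _ (h0.comp d) (h1.comp d) p := rfl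

theorem cst' {S : Fam g} (hπ : IsQuo F F' s π) (hS : Good s S) {Φ0 Φ1 : S.N →ₗ[Op K] F.N}
    (h0 : HF 0 S F.L Φ0) (h1 : HF 1 S F.L Φ1)
    (h : ∀ p, π (hom s Φ0 Φ1 h0 h1 p) = 0) :
    HF 0 S F'.L Φ0 ∧ HF 1 S F'.L Φ1 :=
  hS.cst F'.fam Φ0 Φ1 fun p => (hπ.ker _).1 (h p)

theorem mk_hom_eq {S : Fam g} (hπ : IsQuo F F' s π) {Φ0 Φ1 Ψ0 Ψ1 : S.N →ₗ[Op K] F.N}
    (h0 : HF 0 S F.L Φ0) (h1 : HF 1 S F.L Φ1) (k0 : HF 0 S F.L Ψ0) (k1 : HF 1 S F.L Ψ1)
    (d0 : HF 0 S F'.L (Φ0 - Ψ0)) (d1 : HF 1 S F'.L (Φ1 - Ψ1)) (p : S.W s) :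
    π (hom s Φ0 Φ1 h0 h1 p) = π (hom s Ψ0 Ψ1 k0 k1 p) := by
  rw [← sub_eq_zero, ← map_sub, hπ.ker]
  have h := homC_mem (F := F'.fam) d0 d1 p
  have e : ((hom s Φ0 Φ1 h0 h1 p - hom s Ψ0 Ψ1 k0 k1 p : F.W s) : Col F.N) =
      homC (F := F'.fam) (Φ0 - Ψ0) (Φ1 - Ψ1) (p : Col S.N) := by
    refine Col.ext' (fun i => ?_) (fun i => ?_)
    · rfl
    · show (Φ1 (p.1.1 i) + Φ0 (p.1.2 i)) - (Ψ1 (p.1.1 i) + Ψ0 (p.1.2 i)) =
        (Φ1 - Ψ1) (p.1.1 i) + (Φ0 - Ψ0) (p.1.2 i)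
      rw [LinearMap.sub_apply, LinearMap.sub_apply]
      abel
  rw [e]
  exact h

/-- degree `0` -/
theorem H0_of (hπ : IsQuo F F' s π) {T0 T1 : Fam g} (g0 : Good s T0) (g1 : Good s T1)
    (d1 : T1.Hom T0)
    (ex : ∀ e : ℤ, e = 0 ∨ e = 1 → ∀ Φ : T0.N →ₗ[Op K] F.N, HF e T0 F.L Φ →
      HF e T1 F'.L (Φ ∘ₗ d1.f) → HF e T0 F'.L Φ)
    (f : T0.W s →ₗ[A g s] Y) (hf : f ∘ₗ d1.W s = 0) : f = 0 := by
  obtain ⟨Φ0, Φ1, h0, h1, hp⟩ := g0.rep F Y π hπ.surj f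
  have h2 := cst' hπ g1 (h0.comp d1) (h1.comp d1) (fun p => by
    rw [← hom_comp_W d1 Φ0 Φ1 h0 h1, ← hp]
    exact LinearMap.congr_fun hf p)
  have k0 := ex 0 (Or.inl rfl) Φ0 h0 h2.1
  have k1 := ex 1 (Or.inr rfl) Φ1 h1 h2.2
  ext p
  rw [hp, LinearMap.zero_apply, hπ.ker]
  exact homC_mem (F := F'.fam) k0 k1 p

/-- the middle degrees -/
theorem H1_of (hπ : IsQuo F F' s π) {T0 T1 T2 : Fam g} (g1 : Good s T1) (g2 : Good s T2)
    (d1 : T1.Hom T0) (d2 : T2.Hom T1)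
    (ex : ∀ e : ℤ, e = 0 ∨ e = 1 → ∀ Φ : T1.N →ₗ[Op K] F.N, HF e T1 F.L Φ →
      HF e T2 F'.L (Φ ∘ₗ d2.f) → ∃ Γ : T0.N →ₗ[Op K] F.N, HF e T0 F.L Γ ∧
        HF e T1 F'.L (Φ - Γ ∘ₗ d1.f))
    (f : T1.W s →ₗ[A g s] Y) (hf : f ∘ₗ d2.W s = 0) :
    ∃ h : T0.W s →ₗ[A g s] Y, h ∘ₗ d1.W s = f := by
  obtain ⟨Φ0, Φ1, h0, h1, hp⟩ := g1.rep F Y π hπ.surj f
  have h2 := cst' hπ g2 (h0.comp d2) (h1.comp d2) (fun p => by
    rw [← hom_comp_W d2 Φ0 Φ1 h0 h1, ← hp]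
    exact LinearMap.congr_fun hf p)
  obtain ⟨Γ0, k0, m0⟩ := ex 0 (Or.inl rfl) Φ0 h0 h2.1
  obtain ⟨Γ1, k1, m1⟩ := ex 1 (Or.inr rfl) Φ1 h1 h2.2
  refine ⟨π ∘ₗ hom s Γ0 Γ1 k0 k1, ?_⟩
  ext p
  rw [hp p]
  exact (mk_hom_eq hπ h0 h1 (k0.comp d1) (k1.comp d1) m0 m1 p).symm

/-- the last degree -/
theorem H3_of (hπ : IsQuo F F' s π) {T2 T3 : Fam g} (g3 : Good s T3) (d3 : T3.Hom T2)
    (ex : ∀ e : ℤ, e = 0 ∨ e = 1 → ∀ Φ : T3.N →ₗ[Op K] F.N, HF e T3 F.L Φ →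
      ∃ Γ : T2.N →ₗ[Op K] F.N, HF e T2 F.L Γ ∧ HF e T3 F'.L (Φ - Γ ∘ₗ d3.f))
    (f : T3.W s →ₗ[A g s] Y) :
    ∃ h : T2.W s →ₗ[A g s] Y, h ∘ₗ d3.W s = f := by
  obtain ⟨Φ0, Φ1, h0, h1, hp⟩ := g3.rep F Y π hπ.surj f
  obtain ⟨Γ0, k0, m0⟩ := ex 0 (Or.inl rfl) Φ0 h0
  obtain ⟨Γ1, k1, m1⟩ := ex 1 (Or.inr rfl) Φ1 h1
  refine ⟨π ∘ₗ hom s Γ0 Γ1 k0 k1, ?_⟩
  ext p
  rw [hp p]
  exact (mk_hom_eq hπ h0 h1 (k0.comp d3) (k1.comp d3) m0 m1 p).symm

end ex

end Crest.Agent.R186.B281
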