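import Crest.Agent.R186.Syz_700
import Crest.Agent.R186.ExtRes_700
import Crest.Agent.R186.Cell_580
import Crest.Agent.R186.Dual_700

-- ▼ part R186/LinkK1_721
section

/-!
Row 186, S0281, block LINK (helper721), part 1: the algebra `Gam = A ⋉ K`,
`K = {f : J →ₗ[k] Y | f U ⊆ P}`, its modules `GM`, and the coinduction lemma.
-/

set_option autoImplicit false
set_option linter.unusedSectionVars false
set_option linter.style.haveILetI false

universe u

open CategoryTheory CategoryTheory.Abelian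

namespace Crest.Agent.R186.LinkK721

open ExtRes700

/-! ### the bimodule -/

section KK

variable (k : Type u) [Field k] {A : Type u} [Ring A] [Algebra k A]
  {J Y : Type u} [AddCommGroup J] [Module k J] [Module A J] [IsScalarTower k A J]
  [AddCommGroup Y] [Module k Y] [Module A Y] [IsScalarTower k A Y]
  (U : Submodule A J) (P : Submodule A Y)

/-- `{f : J →ₗ[k] Y | f U ⊆ P}` -/
def KK : Submodule k (J →ₗ[k] Y) where
  carrier := {f | ∀ u ∈ U, f u ∈ P}
  zero_mem' := fun _ _ => by simp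
  add_mem' := fun {f g} hf hg u hu => by
    rw [LinearMap.add_apply]
    exact P.add_mem (hf u hu) (hg u hu)
  smul_mem' := fun c f hf u hu => by
    rw [LinearMap.smul_apply]
    exact P.smul_of_tower_mem c (hf u hu)

variable {k} {U P}

/-- left multiplication -/
def lK (a : A) (f : KK k U P) : KK k U P :=
  ⟨(Algebra.lsmul k k Y a) ∘ₗ f.1, fun u hu => P.smul_mem a (f.2 u hu)⟩

/-- right multiplication -/
def rK (f : KK k U P) (a : A) : KK k U P :=
  ⟨f.1 ∘ₗ (Algebra.lsmul k k J a), fun u hu => f.2 _ (U.smul_mem a hu)⟩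

@[simp] theorem lK_apply (a : A) (f : KK k U P) (x : J) : (lK a f).1 x = a • f.1 x := rfl

@[simp] theorem rK_apply (a : A) (f : KK k U P) (x : J) : (rK f a).1 x = f.1 (a • x) := rfl

variable (k A U P)

/-- `A ⋉ K` -/
def Gam : Type u := A × KK k U P

variable {k A U P}

instance : AddCommGroup (Gam k A U P) := inferInstanceAs (AddCommGroup (A × KK k U P))

instance : Module k (Gam k A U P) := inferInstanceAs (Module k (A × KK k U P))

theorem Gam.ext {x y : Gam k A U P} (h1 : x.1 = y.1) (h2 : ∀ j, x.2.1 j = y.2.1 j) : x = y :=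
  Prod.ext h1 (Subtype.ext (LinearMap.ext h2))

instance : One (Gam k A U P) := ⟨(1, 0)⟩

instance : Mul (Gam k A U P) := ⟨fun x y => (x.1 * y.1, lK x.1 y.2 + rK x.2 y.1)⟩

theorem mul_fst (x y : Gam k A U P) : (x * y).1 = x.1 * y.1 := rfl

theorem mul_snd (x y : Gam k A U P) : (x * y).2 = lK x.1 y.2 + rK x.2 y.1 := rfl

theorem mul_snd_apply (x y : Gam k A U P) (j : J) :
    (x * y).2.1 j = x.1 • y.2.1 j + x.2.1 (y.1 • j) := rfl

theorem one_fst : (1 : Gam k A U P).1 = 1 := rfl

theorem one_snd_apply (j : J) : (1 : Gam k A U P).2.1 j = 0 := rfl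

theorem add_fst (x y : Gam k A U P) : (x + y).1 = x.1 + y.1 := rfl

theorem add_snd_apply (x y : Gam k A U P) (j : J) : (x + y).2.1 j = x.2.1 j + y.2.1 j := rfl

theorem zero_fst : (0 : Gam k A U P).1 = 0 := rfl

theorem zero_snd_apply (j : J) : (0 : Gam k A U P).2.1 j = 0 := rfl

theorem smul_fst (c : k) (x : Gam k A U P) : (c • x).1 = c • x.1 := rfl

theorem smul_snd_apply (c : k) (x : Gam k A U P) (j : J) : (c • x).2.1 j = c • x.2.1 j := rfl

instance : Ring (Gam k A U P) :=
  { (inferInstance : AddCommGroup (Gam k A U P)) with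
    one := 1
    mul := (· * ·)
    mul_assoc := fun x y z => by
      refine Gam.ext (mul_assoc _ _ _) fun j => ?_
      simp only [mul_snd_apply, mul_fst, smul_add, mul_smul, add_assoc]
    one_mul := fun x => by
      refine Gam.ext (one_mul _) fun j => ?_
      simp only [mul_snd_apply, one_fst, one_snd_apply, one_smul, add_zero]
    mul_one := fun x => by
      refine Gam.ext (mul_one _) fun j => ?_
      simp only [mul_snd_apply, one_fst, one_snd_apply, one_smul, smul_zero, zero_add]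
    left_distrib := fun x y z => by
      refine Gam.ext (mul_add _ _ _) fun j => ?_
      simp only [mul_snd_apply, add_fst, add_snd_apply, smul_add, add_smul, map_add]
      abel
    right_distrib := fun x y z => by
      refine Gam.ext (add_mul _ _ _) fun j => ?_
      simp only [mul_snd_apply, add_fst, add_snd_apply, smul_add, add_smul]
      abel
    zero_mul := fun x => by
      refine Gam.ext (zero_mul _) fun j => ?_
      simp only [mul_snd_apply, zero_fst, zero_snd_apply, zero_smul, add_zero]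
    mul_zero := fun x => by
      refine Gam.ext (mul_zero _) fun j => ?_
      simp only [mul_snd_apply, zero_fst, zero_snd_apply, zero_smul, smul_zero, map_zero,
        add_zero] }

instance : Algebra k (Gam k A U P) :=
  Algebra.ofModule
    (fun c x y => by
      refine Gam.ext (smul_mul_assoc _ _ _) fun j => ?_
      simp only [mul_snd_apply, smul_snd_apply, smul_fst, smul_add, smul_assoc])
    (fun c x y => by
      refine Gam.ext (mul_smul_comm _ _ _) fun j => ?_
      show x.1 • (c • y.2.1 j) + x.2.1 ((c • y.1) • j) =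
        c • (x.1 • y.2.1 j + x.2.1 (y.1 • j))
      rw [smul_add, smul_assoc c y.1 j, map_smul, smul_algebra_smul_comm])

/-- the inclusion `A → Gam` -/
def inc : A →ₐ[k] Gam k A U P where
  toFun a := (a, 0)
  map_one' := rfl
  map_mul' a b := by
    refine Gam.ext rfl fun j => ?_
    simp only [mul_snd_apply]
    show (0 : Y) = a • (0 : Y) + 0
    simp
  map_zero' := rfl
  map_add' a b := by
    refine Gam.ext rfl fun j => ?_
    show (0 : Y) = 0 + 0
    simp
  commutes' c := by
    refine Gam.ext ?_ fun j => ?_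
    · show algebraMap k A c = (c • (1 : Gam k A U P)).1
      rw [smul_fst, one_fst, Algebra.algebraMap_eq_smul_one]
    · show (0 : Y) = (c • (1 : Gam k A U P)).2.1 j
      rw [smul_snd_apply, one_snd_apply, smul_zero]

/-- the projection `Gam → A` -/
def prj : Gam k A U P →ₐ[k] A where
  toFun x := x.1
  map_one' := rfl
  map_mul' _ _ := rfl
  map_zero' := rfl
  map_add' _ _ := rfl
  commutes' c := by
    show (c • (1 : Gam k A U P)).1 = algebraMap k A c
    rw [smul_fst, one_fst, Algebra.algebraMap_eq_smul_one]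

/-- the element `(0, f)` -/
def el (f : KK k U P) : Gam k A U P := (0, f)

theorem inc_fst (a : A) : (inc a : Gam k A U P).1 = a := rfl

theorem inc_snd (a : A) : (inc a : Gam k A U P).2 = 0 := rfl

theorem el_fst (f : KK k U P) : (el f : Gam k A U P).1 = 0 := rfl

theorem el_snd (f : KK k U P) : (el f : Gam k A U P).2 = f := rfl

theorem inc_mul_el (a : A) (f : KK k U P) : inc a * el f = (el (lK a f) : Gam k A U P) := by
  refine Gam.ext (mul_zero _) fun j => ?_
  rw [mul_snd_apply, el_snd, inc_fst, inc_snd, el_fst, zero_smul, map_zero, add_zero]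
  rfl

theorem el_mul_inc (a : A) (f : KK k U P) : el f * inc a = (el (rK f a) : Gam k A U P) := by
  refine Gam.ext (zero_mul _) fun j => ?_
  rw [mul_snd_apply, el_snd, inc_fst, inc_snd, el_fst, zero_smul, zero_add]
  rfl

theorem el_add (f g : KK k U P) : (el (f + g) : Gam k A U P) = el f + el g :=
  Gam.ext (add_zero _).symm fun _ => rfl

theorem inc_add_el (x : Gam k A U P) : x = inc x.1 + el x.2 :=
  Gam.ext (add_zero _).symm fun j => by
    rw [add_snd_apply, inc_snd, el_snd]
    exact (zero_add _).symm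

/-! ### modules over `Gam` -/

/-- an action of `K` from `X₁` to `X₂` -/
structure Act (k : Type u) [Field k] {A : Type u} [Ring A] [Algebra k A]
    {J Y : Type u} [AddCommGroup J] [Module k J] [Module A J] [IsScalarTower k A J]
    [AddCommGroup Y] [Module k Y] [Module A Y] [IsScalarTower k A Y]
    (U : Submodule A J) (P : Submodule A Y) (X₁ X₂ : Type u) [AddCommGroup X₁] [Module A X₁]
    [AddCommGroup X₂] [Module A X₂] where
  t : KK k U P →+ X₁ →+ X₂
  hl : ∀ (a : A) (f : KK k U P) (x : X₁), t (lK a f) x = a • t f x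
  hr : ∀ (a : A) (f : KK k U P) (x : X₁), t (rK f a) x = t f (a • x)

variable {X₁ X₂ : Type u} [AddCommGroup X₁] [Module A X₁] [AddCommGroup X₂] [Module A X₂]

/-- the `Gam`-module `(X₁ ; X₂)` -/
def GM (_c : Act k U P X₁ X₂) : Type u := X₁ × X₂

variable (c : Act k U P X₁ X₂)

instance : AddCommGroup (GM c) := inferInstanceAs (AddCommGroup (X₁ × X₂))

instance : Module (Gam k A U P) (GM c) where
  smul g x := (g.1 • x.1, c.t g.2 x.1 + g.1 • x.2)
  one_smul x := Prod.ext (one_smul _ _) (by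
    show c.t (1 : Gam k A U P).2 x.1 + (1 : A) • x.2 = x.2
    have : (1 : Gam k A U P).2 = 0 := rfl
    rw [this, map_zero, AddMonoidHom.zero_apply, zero_add, one_smul])
  mul_smul g h x := Prod.ext (mul_smul _ _ _) (by
    show c.t (g * h).2 x.1 + (g.1 * h.1) • x.2 =
      c.t g.2 (h.1 • x.1) + g.1 • (c.t h.2 x.1 + h.1 • x.2)
    rw [mul_snd, map_add, AddMonoidHom.add_apply, c.hl, c.hr, mul_smul, smul_add]
    abel)
  smul_zero g := Prod.ext (smul_zero _) (by
    show c.t g.2 0 + g.1 • (0 : X₂) = 0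
    rw [map_zero, smul_zero, add_zero])
  smul_add g x y := Prod.ext (smul_add _ _ _) (by
    show c.t g.2 (x.1 + y.1) + g.1 • (x.2 + y.2) =
      (c.t g.2 x.1 + g.1 • x.2) + (c.t g.2 y.1 + g.1 • y.2)
    rw [map_add, smul_add]
    abel)
  add_smul g h x := Prod.ext (add_smul _ _ _) (by
    show c.t (g + h).2 x.1 + (g.1 + h.1) • x.2 =
      (c.t g.2 x.1 + g.1 • x.2) + (c.t h.2 x.1 + h.1 • x.2)
    have : (g + h).2 = g.2 + h.2 := rfl
    rw [this, map_add, AddMonoidHom.add_apply, add_smul]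
    abel)
  zero_smul x := Prod.ext (zero_smul _ _) (by
    show c.t (0 : Gam k A U P).2 x.1 + (0 : A) • x.2 = 0
    have : (0 : Gam k A U P).2 = 0 := rfl
    rw [this, map_zero, AddMonoidHom.zero_apply, zero_smul, add_zero])

theorem GM.smul_def (g : Gam k A U P) (x : GM c) :
    g • x = ((g.1 • x.1, c.t g.2 x.1 + g.1 • x.2) : X₁ × X₂) := rfl



end KK

end Crest.Agent.R186.LinkK721
end

-- ▼ part R186/LinkK2_721
section

/-!
Row 186, S0281, block LINK (helper721), part 2: the coinduction lemma.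

`φ : A →+* G`, `W` an `A`-module, `M` a `G`-module with an `A`-linear `pr : M → W` which identifies
`M` with `Hom_A(G, W)`, and `Ext_A^{>0}(G, W) = 0`.  Then `Ext_A^i(Z, W) = 0 ⇒ Ext_G^i(Z, M) = 0`.
-/

set_option autoImplicit false
set_option linter.unusedSectionVars false
set_option linter.style.haveILetI false

universe u

open CategoryTheory CategoryTheory.Abelian

namespace Crest.Agent.R186.LinkK721

open ExtRes700 Syz700

section coind

variable {A G : Type u} [Ring A] [Ring G] [IsNoetherianRing G] (φ : A →+* G)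

/-- restriction of scalars along `φ : A → G` -/
def RA (_φ : A →+* G) (X : Type u) : Type u := X

variable {X X' : Type u} [AddCommGroup X] [AddCommGroup X'] [Module G X] [Module G X']

instance : AddCommGroup (RA φ X) := inferInstanceAs (AddCommGroup X)

instance : Module A (RA φ X) := Module.compHom X φ

/-- the identity -/
def toRA (x : X) : RA φ X := x

theorem RA.smul_def (a : A) (x : X) : a • toRA φ x = toRA φ (φ a • x) := rfl

/-- a linear map, restricted -/
def RA.map (f : X →ₗ[G] X') : RA φ X →ₗ[A] RA φ X' where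
  toFun x := f x
  map_add' x y := map_add f x y
  map_smul' a x := LinearMap.map_smul f (φ a) (show X from x)


/-- `RA` of a finite power -/
def raPi (n : ℕ) : (Fin n → RA φ G) ≃ₗ[A] RA φ (Fin n → G) where
  toFun x := x
  invFun x := x
  map_add' _ _ := rfl
  map_smul' _ _ := rfl
  left_inv _ := rfl
  right_inv _ := rfl

/-- extension of maps from `Ext^1 = 0` -/
theorem ext_lift {B C D N : Type u} [AddCommGroup B] [AddCommGroup C] [AddCommGroup D]
    [AddCommGroup N] [Module A B] [Module A C] [Module A D] [Module A N]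
    (f : B →ₗ[A] C) (g : C →ₗ[A] D) (hf : Function.Injective f) (hg : Function.Surjective g)
    (he : Function.Exact f g) (h : E0 A D N 1) (x : B →ₗ[A] N) :
    ∃ y : C →ₗ[A] N, y ∘ₗ f = x := by
  have hse := se f g hf hg he
  let x' : Ext (ModuleCat.of A B) (ModuleCat.of A N) 0 := Ext.mk₀ (ModuleCat.ofHom x)
  have h0 : hse.extClass.comp x' (add_zero 1) = 0 := h.elim _ _
  obtain ⟨y, hy⟩ := Ext.contravariant_sequence_exact₁ hse (ModuleCat.of A N) x' (add_zero 1) h0
  obtain ⟨ψ, rfl⟩ := Ext.homEquiv₀.symm.surjective y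
  rw [Ext.homEquiv₀_symm_apply, Ext.mk₀_comp_mk₀] at hy
  have h1 := Ext.homEquiv₀.symm.injective
    (a₁ := ModuleCat.ofHom f ≫ ψ) (a₂ := ModuleCat.ofHom x)
    (by simpa [Ext.homEquiv₀_symm_apply] using hy)
  exact ⟨ψ.hom, congrArg ModuleCat.Hom.hom h1⟩

variable {M W : Type u} [AddCommGroup M] [Module G M] [AddCommGroup W] [Module A W]

/-- `M = Hom_A(G, W)` through `pr`. -/
structure CoI (φ : A →+* G) (M W : Type u) [AddCommGroup M] [Module G M] [AddCommGroup W]
    [Module A W] where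
  pr : RA φ M →ₗ[A] W
  uni : ∀ m : M, (∀ g : G, pr (g • m : M) = 0) → m = 0
  exi : ∀ g : RA φ G →ₗ[A] W, ∃ m : M, ∀ x : G, pr (x • m : M) = g x
  ac : ∀ i : ℕ, E0 A (RA φ G) W (i + 1)

variable {φ} (c : CoI φ M W)

include c

theorem CoI.hom_ext {Z : Type u} [AddCommGroup Z] [Module G Z] (f g : Z →ₗ[G] M)
    (h : ∀ z, c.pr (f z) = c.pr (g z)) : f = g := by
  refine LinearMap.ext fun z => sub_eq_zero.1 (c.uni _ fun x => ?_)
  have h1 := h (x • z)
  rw [map_smul, map_smul] at h1
  have h2 : c.pr (x • (f z - g z) : M) = c.pr (x • f z : M) - c.pr (x • g z : M) := by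
    rw [smul_sub]
    exact map_sub c.pr _ _
  rw [h2, h1, sub_self]

theorem CoI.exi_free (n : ℕ) (g : RA φ (Fin n → G) →ₗ[A] W) :
    ∃ f : (Fin n → G) →ₗ[G] M, ∀ z : Fin n → G, c.pr (f z) = g z := by
  have h : ∀ i : Fin n, ∃ m : M, ∀ x : G, c.pr (x • m : M) =
      g (Pi.single i x : Fin n → G) := by
    intro i
    exact c.exi (g ∘ₗ RA.map φ (LinearMap.single G (fun _ : Fin n => G) i))
  choose m hm using h
  refine ⟨∑ i, (LinearMap.proj (R := G) (φ := fun _ : Fin n => G) i).smulRight (m i), ?_⟩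
  intro z
  have h1 : (∑ i, (LinearMap.proj (R := G) (φ := fun _ : Fin n => G) i).smulRight (m i)) z =
      ∑ i, (z i • m i) := by
    rw [LinearMap.sum_apply]
    rfl
  rw [h1]
  have h2 : c.pr (∑ i, (z i • m i) : M) = ∑ i, c.pr (z i • m i : M) :=
    map_sum c.pr (fun i => (z i • m i : M)) Finset.univ
  rw [h2]
  have h3 : g z = ∑ i, g (Pi.single i (z i) : Fin n → G) := by
    have h4 : (∑ i, (Pi.single i (z i) : Fin n → G)) = z := Finset.univ_sum_single z
    have h5 : g (∑ i, (Pi.single i (z i) : Fin n → G)) =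
        ∑ i, g (Pi.single i (z i) : Fin n → G) :=
      map_sum g (fun i => (Pi.single i (z i) : Fin n → G)) Finset.univ
    refine Eq.trans ?_ h5
    exact congrArg g h4.symm
  rw [h3]
  exact Finset.sum_congr rfl fun i _ => hm i (z i)

omit c in
theorem cov_exact (Z : FM G) : Function.Exact Z.inc Z.cov := fun y =>
  ⟨fun hy => Z.exists_inc y hy, fun ⟨x, hx⟩ => by
    rw [← hx]; exact LinearMap.congr_fun Z.cov_inc x⟩

theorem CoI.coind (i : ℕ) : ∀ Z : FM G, E0 A (RA φ Z.X) W i → E0 G Z.X M i := by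
  induction i with
  | zero =>
    intro Z h
    rw [zero_iff] at h ⊢
    intro f
    refine c.hom_ext f 0 fun z => ?_
    have h1 := LinearMap.congr_fun (h (c.pr ∘ₗ RA.map φ f)) z
    have h2 : c.pr ((0 : Z.X →ₗ[G] M) z) = 0 := map_zero c.pr
    rw [h2]
    exact h1
  | succ i ih =>
    intro Z h
    have hex := cov_exact Z
    have hex' : Function.Exact (RA.map φ Z.inc) (RA.map φ Z.cov) := fun y => hex y
    rcases Nat.eq_zero_or_pos i with rfl | hi
    · refine Cell580.ev_one hex Z.inc_inj Z.cov_surj (ExtRes700.proj 0) fun f => ?_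
      obtain ⟨g, hg⟩ := ext_lift (RA.map φ Z.inc) (RA.map φ Z.cov) Z.inc_inj Z.cov_surj hex' h
        (c.pr ∘ₗ RA.map φ f)
      obtain ⟨F, hF⟩ := c.exi_free Z.n g
      refine ⟨F, c.hom_ext _ _ fun z => ?_⟩
      have h1 := LinearMap.congr_fun hg z
      exact (hF (Z.inc z)).trans h1
    · obtain ⟨i, rfl⟩ := Nat.exists_eq_add_of_le' hi
      refine right Z.inc Z.cov Z.inc_inj Z.cov_surj hex (i + 1) (ih Z.syz ?_)
        (ExtRes700.proj (i + 1))
      refine left (RA.map φ Z.inc) (RA.map φ Z.cov) Z.inc_inj Z.cov_surj hex' (i + 1) ?_ h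
      exact iso_left (raPi φ Z.n) (i + 1) (pi_left (i + 1) Z.n (c.ac i))

end coind

end Crest.Agent.R186.LinkK721
end

-- ▼ part R186/LinkK3_721
section

/-!
Row 186, S0281, block LINK (helper721), part 3: instances, the two kinds of actions, maps of pairs,
the two exact sequences for `Gam` as a left and as a right `A`-module.
-/

set_option autoImplicit false
set_option linter.unusedSectionVars false
set_option linter.style.haveILetI false

universe u

open CategoryTheory CategoryTheory.Abelian MulOpposite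

namespace Crest.Agent.R186.LinkK721

open ExtRes700 Dual700

/-! ### instances -/

section inst

variable {k : Type u} [Field k] {A : Type u} [Ring A] [Algebra k A]
  {J Y : Type u} [AddCommGroup J] [Module k J] [Module A J] [IsScalarTower k A J]
  [AddCommGroup Y] [Module k Y] [Module A Y] [IsScalarTower k A Y]
  {U : Submodule A J} {P : Submodule A Y}
  {X₁ X₂ : Type u} [AddCommGroup X₁] [Module A X₁] [AddCommGroup X₂] [Module A X₂]
  [Module k X₁] [Module k X₂] [IsScalarTower k A X₁] [IsScalarTower k A X₂]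
  (c : Act k U P X₁ X₂)

instance : Module k (GM c) := inferInstanceAs (Module k (X₁ × X₂))

theorem Act.t_smul (r : k) (f : KK k U P) (x : X₁) : c.t (r • f) x = r • c.t f x := by
  have h : r • f = lK (algebraMap k A r) f :=
    Subtype.ext (LinearMap.ext fun j => (algebraMap_smul A r _).symm)
  rw [h, c.hl, algebraMap_smul]

instance : IsScalarTower k (Gam k A U P) (GM c) := ⟨fun r g x => Prod.ext (smul_assoc _ _ _) (by
  show c.t (r • g.2) x.1 + (r • g.1) • x.2 = r • (c.t g.2 x.1 + g.1 • x.2)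
  rw [c.t_smul, smul_add, smul_assoc])⟩

instance [Module.Finite k X₁] [Module.Finite k X₂] : Module.Finite k (GM c) :=
  inferInstanceAs (Module.Finite k (X₁ × X₂))

instance [Module.Finite k A] [Module.Finite k J] [Module.Finite k Y] :
    Module.Finite k (Gam k A U P) :=
  inferInstanceAs (Module.Finite k (A × KK k U P))

/-- restriction of a pair -/
def raGM : RA (inc (k := k) (A := A) (U := U) (P := P)).toRingHom (GM c) ≃ₗ[A] X₁ × X₂ where
  toFun x := x
  invFun x := x
  map_add' _ _ := rfl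
  map_smul' a x := Prod.ext rfl (by
    show c.t (inc a : Gam k A U P).2 x.1 + a • x.2 = a • x.2
    rw [inc_snd, map_zero, AddMonoidHom.zero_apply, zero_add])
  left_inv _ := rfl
  right_inv _ := rfl

end inst

/-! ### maps of pairs -/

section hom

variable {k : Type u} [Field k] {A : Type u} [Ring A] [Algebra k A]
  {J Y : Type u} [AddCommGroup J] [Module k J] [Module A J] [IsScalarTower k A J]
  [AddCommGroup Y] [Module k Y] [Module A Y] [IsScalarTower k A Y]
  {U : Submodule A J} {P : Submodule A Y}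
  {X₁ X₂ X₁' X₂' X₁'' X₂'' : Type u} [AddCommGroup X₁] [Module A X₁] [AddCommGroup X₂]
  [Module A X₂] [AddCommGroup X₁'] [Module A X₁'] [AddCommGroup X₂'] [Module A X₂']
  [AddCommGroup X₁''] [Module A X₁''] [AddCommGroup X₂''] [Module A X₂'']

/-- a map of pairs -/
def GM.hom (c : Act k U P X₁ X₂) (c' : Act k U P X₁' X₂') (f₁ : X₁ →ₗ[A] X₁')
    (f₂ : X₂ →ₗ[A] X₂') (h : ∀ f x, f₂ (c.t f x) = c'.t f (f₁ x)) :
    GM c →ₗ[Gam k A U P] GM c' where
  toFun x := ((f₁ x.1, f₂ x.2) : X₁' × X₂')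
  map_add' x y := Prod.ext (map_add f₁ _ _) (map_add f₂ _ _)
  map_smul' g x := Prod.ext (f₁.map_smul _ _) (by
    show f₂ (c.t g.2 x.1 + g.1 • x.2) = c'.t g.2 (f₁ x.1) + g.1 • f₂ x.2
    rw [map_add, h, f₂.map_smul])



theorem GM.hom_inj {c : Act k U P X₁ X₂} {c' : Act k U P X₁' X₂'} {f₁ : X₁ →ₗ[A] X₁'}
    {f₂ : X₂ →ₗ[A] X₂'} (h : ∀ f x, f₂ (c.t f x) = c'.t f (f₁ x)) (h₁ : Function.Injective f₁)
    (h₂ : Function.Injective f₂) : Function.Injective (GM.hom c c' f₁ f₂ h) := fun x y e =>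
  Prod.ext (h₁ (congrArg Prod.fst e)) (h₂ (congrArg Prod.snd e))

theorem GM.hom_surj {c : Act k U P X₁ X₂} {c' : Act k U P X₁' X₂'} {f₁ : X₁ →ₗ[A] X₁'}
    {f₂ : X₂ →ₗ[A] X₂'} (h : ∀ f x, f₂ (c.t f x) = c'.t f (f₁ x)) (h₁ : Function.Surjective f₁)
    (h₂ : Function.Surjective f₂) : Function.Surjective (GM.hom c c' f₁ f₂ h) := by
  intro y
  obtain ⟨x₁, e₁⟩ := h₁ y.1
  obtain ⟨x₂, e₂⟩ := h₂ y.2
  exact ⟨((x₁, x₂) : X₁ × X₂), Prod.ext e₁ e₂⟩

theorem GM.hom_exact {c : Act k U P X₁ X₂} {c' : Act k U P X₁' X₂'} {c'' : Act k U P X₁'' X₂''}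
    {f₁ : X₁ →ₗ[A] X₁'} {f₂ : X₂ →ₗ[A] X₂'} (h : ∀ f x, f₂ (c.t f x) = c'.t f (f₁ x))
    {g₁ : X₁' →ₗ[A] X₁''} {g₂ : X₂' →ₗ[A] X₂''} (h' : ∀ f x, g₂ (c'.t f x) = c''.t f (g₁ x))
    (e₁ : Function.Exact f₁ g₁) (e₂ : Function.Exact f₂ g₂) :
    Function.Exact (GM.hom c c' f₁ f₂ h) (GM.hom c' c'' g₁ g₂ h') := by
  intro y
  constructor
  · intro hy
    obtain ⟨x₁, r₁⟩ := (e₁ y.1).1 (congrArg Prod.fst hy)
    obtain ⟨x₂, r₂⟩ := (e₂ y.2).1 (congrArg Prod.snd hy)
    exact ⟨((x₁, x₂) : X₁ × X₂), Prod.ext r₁ r₂⟩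
  · rintro ⟨x, rfl⟩
    exact Prod.ext (e₁.apply_apply_eq_zero _) (e₂.apply_apply_eq_zero _)

end hom

/-! ### actions -/

section act

variable {k : Type u} [Field k] {A : Type u} [Ring A] [Algebra k A]
  {J Y : Type u} [AddCommGroup J] [Module k J] [Module A J] [IsScalarTower k A J]
  [AddCommGroup Y] [Module k Y] [Module A Y] [IsScalarTower k A Y]
  {X₁ X₂ : Type u} [AddCommGroup X₁] [Module A X₁] [AddCommGroup X₂] [Module A X₂]

/-- the second kind: `f x = j (f (π x))` -/
def actP {U : Submodule A J} {P : Submodule A Y} (π : X₁ →ₗ[A] U) (j : P →ₗ[A] X₂) :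
    Act k U P X₁ X₂ where
  t := AddMonoidHom.mk' (fun f => AddMonoidHom.mk'
      (fun x => j ⟨f.1 (π x : J), f.2 _ (π x).2⟩) (fun x y => by
        rw [← map_add]
        congr 1
        apply Subtype.ext
        show f.1 (π (x + y) : J) = f.1 (π x : J) + f.1 (π y : J)
        rw [map_add, Submodule.coe_add, map_add]))
    (fun f g => AddMonoidHom.ext fun x => by
      show j ⟨(f + g).1 (π x : J), _⟩ = j ⟨f.1 (π x : J), _⟩ + j ⟨g.1 (π x : J), _⟩
      rw [← map_add]
      rfl)
  hl a f x := by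
    show j ⟨(lK a f).1 (π x : J), _⟩ = a • j ⟨f.1 (π x : J), _⟩
    rw [← map_smul]
    rfl
  hr a f x := by
    show j ⟨(rK f a).1 (π x : J), _⟩ = j ⟨f.1 (π (a • x) : J), _⟩
    congr 1
    apply Subtype.ext
    show f.1 (a • (π x : J)) = f.1 (π (a • x) : J)
    rw [π.map_smul, Submodule.coe_smul]


variable {Jq Yq : Type u} [AddCommGroup Jq] [Module k Jq] [Module A Jq] [IsScalarTower k A Jq]
  [AddCommGroup Yq] [Module k Yq] [Module A Yq] [IsScalarTower k A Yq]
  {πJ : J →ₗ[A] Jq} {πY : Y →ₗ[A] Yq} (hJ : Function.Surjective πJ)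

theorem bar_aux (f : KK k (LinearMap.ker πJ) (LinearMap.ker πY)) {x y : J} (h : πJ x = πJ y) :
    πY (f.1 x) = πY (f.1 y) := by
  have h1 : x - y ∈ LinearMap.ker πJ := by
    rw [LinearMap.mem_ker, map_sub, h, sub_self]
  have h2 : πY (f.1 (x - y)) = 0 := f.2 _ h1
  rw [map_sub, map_sub] at h2
  exact sub_eq_zero.1 h2

/-- the induced map `J/U → Y/P` -/
noncomputable def bar (f : KK k (LinearMap.ker πJ) (LinearMap.ker πY)) : Jq →ₗ[k] Yq where
  toFun x := πY (f.1 (Function.surjInv hJ x))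
  map_add' x y := by
    rw [← map_add, ← map_add]
    apply bar_aux f
    rw [map_add, Function.surjInv_eq hJ, Function.surjInv_eq hJ, Function.surjInv_eq hJ]
  map_smul' r x := by
    have h1 : πY (f.1 (Function.surjInv hJ (r • x))) =
        πY (f.1 (r • Function.surjInv hJ x)) := by
      apply bar_aux f
      rw [LinearMap.map_smul_of_tower, Function.surjInv_eq hJ, Function.surjInv_eq hJ]
    rw [h1, map_smul, LinearMap.map_smul_of_tower]
    rfl

theorem bar_apply (f : KK k (LinearMap.ker πJ) (LinearMap.ker πY)) (j : J) :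
    bar hJ f (πJ j) = πY (f.1 j) := bar_aux f (Function.surjInv_eq hJ _)

theorem bar_add (f g : KK k (LinearMap.ker πJ) (LinearMap.ker πY)) (x : Jq) :
    bar hJ (f + g) x = bar hJ f x + bar hJ g x := by
  obtain ⟨j, rfl⟩ := hJ x
  rw [bar_apply, bar_apply, bar_apply, ← map_add]
  rfl

theorem bar_lK (a : A) (f : KK k (LinearMap.ker πJ) (LinearMap.ker πY)) (x : Jq) :
    bar hJ (lK a f) x = a • bar hJ f x := by
  obtain ⟨j, rfl⟩ := hJ x
  rw [bar_apply, bar_apply, ← map_smul]
  rfl

theorem bar_rK (a : A) (f : KK k (LinearMap.ker πJ) (LinearMap.ker πY)) (x : Jq) :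
    bar hJ (rK f a) x = bar hJ f (a • x) := by
  obtain ⟨j, rfl⟩ := hJ x
  rw [← map_smul, bar_apply, bar_apply]
  rfl

/-- the first kind: `f x = j (f̄ (ρ x))` -/
noncomputable def actQ (ρ : X₁ →ₗ[A] Jq) (j : Yq →ₗ[A] X₂) :
    Act k (LinearMap.ker πJ) (LinearMap.ker πY) X₁ X₂ where
  t := AddMonoidHom.mk' (fun f => AddMonoidHom.mk' (fun x => j (bar hJ f (ρ x)))
      (fun x y => by rw [map_add, map_add, map_add]))
    (fun f g => AddMonoidHom.ext fun x => by
      show j (bar hJ (f + g) (ρ x)) = j (bar hJ f (ρ x)) + j (bar hJ g (ρ x))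
      rw [bar_add, map_add])
  hl a f x := by
    show j (bar hJ (lK a f) (ρ x)) = a • j (bar hJ f (ρ x))
    rw [bar_lK, map_smul]
  hr a f x := by
    show j (bar hJ (rK f a) (ρ x)) = j (bar hJ f (ρ (a • x)))
    rw [bar_rK, ρ.map_smul]


end act

end Crest.Agent.R186.LinkK721
end

-- ▼ part R186/LinkK4_721

/-!
Row 186, S0281, block LINK (helper721), part 4: `Gam` as a left and as a right `A`-module.
-/

set_option autoImplicit false
set_option linter.unusedSectionVars false
set_option linter.style.haveILetI false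

universe u

open CategoryTheory CategoryTheory.Abelian MulOpposite

namespace Crest.Agent.R186.LinkK721

open ExtRes700 Dual700

section seq

variable {k : Type u} [Field k] {A : Type u} [Ring A] [Algebra k A]
  {J Y : Type u} [AddCommGroup J] [Module k J] [Module A J] [IsScalarTower k A J]
  [AddCommGroup Y] [Module k Y] [Module A Y] [IsScalarTower k A Y]
  {Jq Yq : Type u} [AddCommGroup Jq] [Module k Jq] [Module A Jq] [IsScalarTower k A Jq]
  [AddCommGroup Yq] [Module k Yq] [Module A Yq] [IsScalarTower k A Yq]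
  {πJ : J →ₗ[A] Jq} {πY : Y →ₗ[A] Yq}

theorem smul_comm' (a : A) (r : k) (y : Y) : r • (a • y) = a • (r • y) := by
  rw [← algebraMap_smul A r (a • y), ← algebraMap_smul A r y, smul_smul, smul_smul,
    Algebra.commutes]

/-- `(ξ ∘ πJ) ⊗ y` -/
def a1 (πJ : J →ₗ[A] Jq) (πY : Y →ₗ[A] Yq) (ξ : Jq →ₗ[k] k) (y : Y) :
    KK k (LinearMap.ker πJ) (LinearMap.ker πY) :=
  ⟨(ξ ∘ₗ kl k πJ).smulRight y, fun u hu => by
    show ξ (πJ u) • y ∈ LinearMap.ker πY
    rw [LinearMap.mem_ker.1 hu, map_zero, zero_smul]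
    exact Submodule.zero_mem _⟩

/-- `ξ ⊗ p` -/
def a2 (πJ : J →ₗ[A] Jq) (πY : Y →ₗ[A] Yq) (ξ : J →ₗ[k] k) (p : LinearMap.ker πY) :
    KK k (LinearMap.ker πJ) (LinearMap.ker πY) :=
  ⟨ξ.smulRight (p : Y), fun _ _ => Submodule.smul_of_tower_mem _ _ p.2⟩

theorem a1_apply (ξ : Jq →ₗ[k] k) (y : Y) (x : J) : (a1 πJ πY ξ y).1 x = ξ (πJ x) • y := rfl

theorem a2_apply (ξ : J →ₗ[k] k) (p : LinearMap.ker πY) (x : J) :
    (a2 πJ πY ξ p).1 x = ξ x • (p : Y) := rfl

theorem KK.ext' {f g : KK k (LinearMap.ker πJ) (LinearMap.ker πY)} (h : ∀ x, f.1 x = g.1 x) :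
    f = g := Subtype.ext (LinearMap.ext h)

theorem KK.add_apply (f g : KK k (LinearMap.ker πJ) (LinearMap.ker πY)) (x : J) :
    (f + g).1 x = f.1 x + g.1 x := rfl

theorem KK.sum_apply {ι : Type} (s : Finset ι)
    (f : ι → KK k (LinearMap.ker πJ) (LinearMap.ker πY)) (x : J) :
    (∑ i ∈ s, f i).1 x = ∑ i ∈ s, (f i).1 x := by
  rw [AddSubmonoidClass.coe_finset_sum, LinearMap.sum_apply]

theorem a1_add (ξ : Jq →ₗ[k] k) (y y' : Y) :
    a1 πJ πY ξ (y + y') = a1 πJ πY ξ y + a1 πJ πY ξ y' :=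
  KK.ext' fun x => smul_add _ _ _

theorem a1_smul (ξ : Jq →ₗ[k] k) (a : A) (y : Y) :
    a1 πJ πY ξ (a • y) = lK a (a1 πJ πY ξ y) :=
  KK.ext' fun x => smul_comm' a _ y

theorem a1_add' (ξ ξ' : Jq →ₗ[k] k) (y : Y) :
    a1 πJ πY (ξ + ξ') y = a1 πJ πY ξ y + a1 πJ πY ξ' y :=
  KK.ext' fun x => add_smul _ _ _

theorem a1_smul' (ξ : Dl k Jq) (a : A) (y : Y) :
    a1 πJ πY (show Jq →ₗ[k] k from op a • ξ) y = rK (a1 πJ πY ξ y) a :=
  KK.ext' fun x => by
    show ξ (a • πJ x) • y = ξ (πJ (a • x)) • y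
    rw [πJ.map_smul]

theorem a2_add (ξ : J →ₗ[k] k) (y y' : LinearMap.ker πY) :
    a2 πJ πY ξ (y + y') = a2 πJ πY ξ y + a2 πJ πY ξ y' :=
  KK.ext' fun x => smul_add _ _ _

theorem a2_smul (ξ : J →ₗ[k] k) (a : A) (y : LinearMap.ker πY) :
    a2 πJ πY ξ (a • y) = lK a (a2 πJ πY ξ y) :=
  KK.ext' fun x => smul_comm' a _ (y : Y)

theorem a2_add' (ξ ξ' : J →ₗ[k] k) (y : LinearMap.ker πY) :
    a2 πJ πY (ξ + ξ') y = a2 πJ πY ξ y + a2 πJ πY ξ' y :=
  KK.ext' fun x => add_smul _ _ _

theorem a2_smul' (ξ : Dl k J) (a : A) (y : LinearMap.ker πY) :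
    a2 πJ πY (show J →ₗ[k] k from op a • ξ) y = rK (a2 πJ πY ξ y) a := rfl

variable [Module.Finite k J] [Module.Finite k Y] [Module.Finite k Jq] [Module.Finite k Yq]

omit [Module.Finite k Y] [Module.Finite k Jq] [Module.Finite k Yq] in
theorem finite_sub (U : Submodule A J) : Module.Finite k U :=
  inferInstanceAs (Module.Finite k (U.restrictScalars k))

variable (k) in
/-- a basis of a submodule -/
noncomputable def bS (U : Submodule A J) :
    Module.Basis (Fin (Module.finrank k U)) k U := by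
  haveI := finite_sub (k := k) U
  exact Module.finBasis k U

theorem ext_coord (U : Submodule A J) (i : Fin (Module.finrank k U)) :
    ∃ ξ : J →ₗ[k] k, ∀ u : U, ξ u = (bS k U).coord i u := by
  obtain ⟨g, hg⟩ := LinearMap.exists_extend (p := U.restrictScalars k) ((bS k U).coord i)
  exact ⟨g, fun u => LinearMap.congr_fun hg u⟩

variable (k) in
/-- the coordinates extended -/
noncomputable def xiS (U : Submodule A J) (i : Fin (Module.finrank k U)) : J →ₗ[k] k :=
  (ext_coord (k := k) U i).choose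

theorem xiS_apply (U : Submodule A J) (i : Fin (Module.finrank k U)) (u : U) :
    xiS k U i u = (bS k U).coord i u := (ext_coord (k := k) U i).choose_spec u

theorem sum_bS (U : Submodule A J) (u : U) :
    (∑ i, (bS k U).coord i u • ((bS k U i : U) : J)) = u := by
  have h := (bS k U).sum_repr u
  have h2 := congrArg (fun x : U => (x : J)) h
  simp only [Submodule.coe_sum] at h2
  exact h2

variable (hJ : Function.Surjective πJ) (hY : Function.Surjective πY)

/-- a map of `K` vanishing on `U` -/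
theorem dec1 (f : KK k (LinearMap.ker πJ) (LinearMap.ker πY))
    (hf : ∀ u ∈ LinearMap.ker πJ, f.1 u = 0) :
    f = ∑ i, a1 πJ πY ((Module.finBasis k Jq).coord i)
      (f.1 (Function.surjInv hJ (Module.finBasis k Jq i))) := by
  refine KK.ext' fun x => ?_
  rw [KK.sum_apply]
  simp only [a1_apply]
  have h1 : (∑ i, (Module.finBasis k Jq).coord i (πJ x) •
      f.1 (Function.surjInv hJ (Module.finBasis k Jq i))) =
      f.1 (∑ i, (Module.finBasis k Jq).coord i (πJ x) •
        (Function.surjInv hJ (Module.finBasis k Jq i))) := by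
    rw [map_sum]
    exact Finset.sum_congr rfl fun i _ => (f.1.map_smul _ _).symm
  rw [h1, ← sub_eq_zero, ← map_sub]
  apply hf
  rw [LinearMap.mem_ker, map_sub, map_sum, sub_eq_zero]
  have h2 : ∀ i, πJ ((Module.finBasis k Jq).coord i (πJ x) •
        (Function.surjInv hJ (Module.finBasis k Jq i))) =
      (Module.finBasis k Jq).repr (πJ x) i • Module.finBasis k Jq i := by
    intro i
    rw [LinearMap.map_smul_of_tower, Function.surjInv_eq hJ]
    rfl
  simp only [h2]
  exact ((Module.finBasis k Jq).sum_repr _).symm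

/-- subtracting the values on `U` -/
theorem dec2 (f : KK k (LinearMap.ker πJ) (LinearMap.ker πY)) (u : J)
    (hu : u ∈ LinearMap.ker πJ) :
    (f - ∑ i, a2 πJ πY (xiS k (LinearMap.ker πJ) i)
      ⟨f.1 (bS k (LinearMap.ker πJ) i : J), f.2 _ (bS k (LinearMap.ker πJ) i).2⟩).1 u = 0 := by
  have h0 : (f - ∑ i, a2 πJ πY (xiS k (LinearMap.ker πJ) i)
      ⟨f.1 (bS k (LinearMap.ker πJ) i : J), f.2 _ (bS k (LinearMap.ker πJ) i).2⟩).1 u =
      f.1 u - (∑ i, a2 πJ πY (xiS k (LinearMap.ker πJ) i)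
      ⟨f.1 (bS k (LinearMap.ker πJ) i : J), f.2 _ (bS k (LinearMap.ker πJ) i).2⟩).1 u := rfl
  rw [h0, KK.sum_apply, sub_eq_zero]
  simp only [a2_apply]
  have h1 : ∀ i, xiS k (LinearMap.ker πJ) i u =
      (bS k (LinearMap.ker πJ)).coord i ⟨u, hu⟩ := fun i => xiS_apply _ i ⟨u, hu⟩
  simp only [h1]
  have h2 := sum_bS (k := k) (LinearMap.ker πJ) ⟨u, hu⟩
  conv_lhs => rw [show u = _ from h2.symm]
  rw [map_sum]
  exact Finset.sum_congr rfl fun i _ => f.1.map_smul _ _

/-- a map of `K` with values in `P` -/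
theorem dec3 (f : KK k (LinearMap.ker πJ) (LinearMap.ker πY))
    (hf : ∀ x, πY (f.1 x) = 0) :
    f = ∑ i, a2 πJ πY ((bS k (LinearMap.ker πY)).coord i ∘ₗ
      (f.1.codRestrict ((LinearMap.ker πY).restrictScalars k) hf))
      (bS k (LinearMap.ker πY) i) := by
  refine KK.ext' fun x => ?_
  rw [KK.sum_apply]
  exact (sum_bS (k := k) (LinearMap.ker πY) ⟨f.1 x, hf x⟩).symm

/-- subtracting the induced map -/
theorem dec4 (f : KK k (LinearMap.ker πJ) (LinearMap.ker πY)) (x : J) :
    πY ((f - ∑ i, a1 πJ πY ((Module.finBasis k Yq).coord i ∘ₗ bar hJ f)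
      (Function.surjInv hY (Module.finBasis k Yq i))).1 x) = 0 := by
  have h0 : (f - ∑ i, a1 πJ πY ((Module.finBasis k Yq).coord i ∘ₗ bar hJ f)
      (Function.surjInv hY (Module.finBasis k Yq i))).1 x = f.1 x -
      (∑ i, a1 πJ πY ((Module.finBasis k Yq).coord i ∘ₗ bar hJ f)
      (Function.surjInv hY (Module.finBasis k Yq i))).1 x := rfl
  rw [h0, KK.sum_apply, map_sub, sub_eq_zero, map_sum]
  have h2 : ∀ i, πY ((a1 πJ πY ((Module.finBasis k Yq).coord i ∘ₗ bar hJ f)
      (Function.surjInv hY (Module.finBasis k Yq i))).1 x) =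
      (Module.finBasis k Yq).repr (πY (f.1 x)) i • Module.finBasis k Yq i := by
    intro i
    rw [a1_apply, LinearMap.map_smul_of_tower, Function.surjInv_eq hY, LinearMap.comp_apply,
      bar_apply]
    rfl
  simp only [h2]
  exact ((Module.finBasis k Yq).sum_repr _).symm

theorem bar_a1 (ξ : Jq →ₗ[k] k) (y : Y) (x : Jq) :
    bar hJ (a1 πJ πY ξ y) x = ξ x • πY y := by
  obtain ⟨j, rfl⟩ := hJ x
  rw [bar_apply, a1_apply, LinearMap.map_smul_of_tower]

end seq

end Crest.Agent.R186.LinkK721
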