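import Crest.Agent.R186.HH_498
import Crest.Agent.R186.Cells1_221
import Crest.Agent.R186.Ex_306
import Mathlib
import Crest.Agent.R186.KHevB_302
import Crest.Agent.R186.FinD_384
import Crest.Agent.R186.KHc_302
import Crest.Agent.R186.CEbr_247
import Crest.Agent.R186.FamB_654

-- ▼ part R186/ZZH_380
section

/-!
Row 186 (A), short road (helper380): from 306's four lemmas to the exactness of the sixteen cells with
values in homology (the input of `TF.ac_of_H`).

`Q4` = exactness of `A → B0 × B1 → C0 × C1 → D` (injective at `A`, onto `D`); `Q4.of_fam` = EXl of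
`Ex_306`, `Q4.scale` = rescaled operators (second half of the cells: `e, gj, gc`).
`ex16` = the sixteen cells, `ac16` = the twisted complex is acyclic.
-/

set_option autoImplicit false
set_option linter.unusedSectionVars false
set_option linter.unusedTactic false
set_option linter.unusedSimpArgs false

namespace Crest.Agent.R186.ZZH380

open Cells221 Zig498 Ex306
open Crest.Agent.R186.PBW128 (E)

section quad

variable {A B0 B1 C0 C1 D : Type} [AddCommGroup A] [AddCommGroup B0] [AddCommGroup B1]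
  [AddCommGroup C0] [AddCommGroup C1] [AddCommGroup D]

/-- exactness of `A → B0 × B1 → C0 × C1 → D → 0`, injective at `A` -/
structure Q4 (a0 : A → B0) (a1 : A → B1) (b00 : B0 → C0) (b01 : B1 → C0) (b10 : B0 → C1)
    (b11 : B1 → C1) (c0 : C0 → D) (c1 : C1 → D) : Prop where
  l0 : ∀ y, a0 y = 0 → a1 y = 0 → y = 0
  l1 : ∀ p0 p1, b00 p0 + b01 p1 = 0 → b10 p0 + b11 p1 = 0 → ∃ f, a0 f = p0 ∧ a1 f = p1
  l2 : ∀ z0 z1, c0 z0 + c1 z1 = 0 → ∃ p0 p1, b00 p0 + b01 p1 = z0 ∧ b10 p0 + b11 p1 = z1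
  l3 : ∀ w, ∃ z0 z1, c0 z0 + c1 z1 = w

theorem Q4.congr {a0 a0' : A → B0} {a1 a1' : A → B1} {b00 b00' : B0 → C0} {b01 b01' : B1 → C0}
    {b10 b10' : B0 → C1} {b11 b11' : B1 → C1} {c0 c0' : C0 → D} {c1 c1' : C1 → D}
    (q : Q4 a0 a1 b00 b01 b10 b11 c0 c1) (h0 : ∀ y, a0' y = a0 y) (h1 : ∀ y, a1' y = a1 y)
    (h00 : ∀ y, b00' y = b00 y) (h01 : ∀ y, b01' y = b01 y) (h10 : ∀ y, b10' y = b10 y)
    (h11 : ∀ y, b11' y = b11 y) (k0 : ∀ y, c0' y = c0 y) (k1 : ∀ y, c1' y = c1 y) :
    Q4 a0' a1' b00' b01' b10' b11' c0' c1' := by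
  obtain rfl := funext h0
  obtain rfl := funext h1
  obtain rfl := funext h00
  obtain rfl := funext h01
  obtain rfl := funext h10
  obtain rfl := funext h11
  obtain rfl := funext k0
  obtain rfl := funext k1
  exact q

variable {K : Type} [Field K] [Module K A] [Module K B0] [Module K B1] [Module K C0] [Module K C1]
  [Module K D]

/-- rescaling -/
theorem Q4.scale {a0 : A → B0} {a1 : A → B1} {b00 : B0 → C0} {b01 : B1 → C0}
    {b10 : B0 → C1} {b11 : B1 → C1} {c0 : C0 → D} {c1 : C1 → D}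
    (q : Q4 a0 a1 b00 b01 b10 b11 c0 c1)
    (hb00 : ∀ (r : K) y, b00 (r • y) = r • b00 y) (hb01 : ∀ (r : K) y, b01 (r • y) = r • b01 y)
    (hb10 : ∀ (r : K) y, b10 (r • y) = r • b10 y) (hb11 : ∀ (r : K) y, b11 (r • y) = r • b11 y)
    (hc0 : ∀ (r : K) y, c0 (r • y) = r • c0 y) (hc1 : ∀ (r : K) y, c1 (r • y) = r • c1 y)
    {β0 β1 γ0 γ1 δ : K} (hβ0 : β0 ≠ 0) (hβ1 : β1 ≠ 0) (hγ0 : γ0 ≠ 0) (hγ1 : γ1 ≠ 0) (hδ : δ ≠ 0) :
    Q4 (fun y => β0 • a0 y) (fun y => β1 • a1 y) (fun y => (γ0 * β0⁻¹) • b00 y)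
      (fun y => (γ0 * β1⁻¹) • b01 y) (fun y => (γ1 * β0⁻¹) • b10 y)
      (fun y => (γ1 * β1⁻¹) • b11 y) (fun y => (δ * γ0⁻¹) • c0 y) (fun y => (δ * γ1⁻¹) • c1 y) where
  l0 y h0 h1 := q.l0 y ((smul_eq_zero.mp h0).resolve_left hβ0) ((smul_eq_zero.mp h1).resolve_left hβ1)
  l1 p0 p1 h0 h1 := by
    obtain ⟨f, e0, e1⟩ := q.l1 (β0⁻¹ • p0) (β1⁻¹ • p1)
      (by
        rw [hb00, hb01]
        have : γ0 • (β0⁻¹ • b00 p0 + β1⁻¹ • b01 p1) = 0 := by
          rw [smul_add, smul_smul, smul_smul]; exact h0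
        exact (smul_eq_zero.mp this).resolve_left hγ0)
      (by
        rw [hb10, hb11]
        have : γ1 • (β0⁻¹ • b10 p0 + β1⁻¹ • b11 p1) = 0 := by
          rw [smul_add, smul_smul, smul_smul]; exact h1
        exact (smul_eq_zero.mp this).resolve_left hγ1)
    refine ⟨f, ?_, ?_⟩
    · change β0 • a0 f = p0
      rw [e0, smul_smul, mul_inv_cancel₀ hβ0, one_smul]
    · change β1 • a1 f = p1
      rw [e1, smul_smul, mul_inv_cancel₀ hβ1, one_smul]
  l2 z0 z1 h := by
    obtain ⟨p0, p1, e0, e1⟩ := q.l2 (γ0⁻¹ • z0) (γ1⁻¹ • z1) (by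
      rw [hc0, hc1]
      have : δ • (γ0⁻¹ • c0 z0 + γ1⁻¹ • c1 z1) = 0 := by
        rw [smul_add, smul_smul, smul_smul]; exact h
      exact (smul_eq_zero.mp this).resolve_left hδ)
    refine ⟨β0 • p0, β1 • p1, ?_, ?_⟩
    · change (γ0 * β0⁻¹) • b00 (β0 • p0) + (γ0 * β1⁻¹) • b01 (β1 • p1) = z0
      rw [hb00, hb01, smul_smul, smul_smul, inv_mul_cancel_right₀ hβ0, inv_mul_cancel_right₀ hβ1,
        ← smul_add, e0, smul_smul, mul_inv_cancel₀ hγ0, one_smul]
    · change (γ1 * β0⁻¹) • b10 (β0 • p0) + (γ1 * β1⁻¹) • b11 (β1 • p1) = z1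
      rw [hb10, hb11, smul_smul, smul_smul, inv_mul_cancel_right₀ hβ0, inv_mul_cancel_right₀ hβ1,
        ← smul_add, e1, smul_smul, mul_inv_cancel₀ hγ1, one_smul]
  l3 w := by
    obtain ⟨z0, z1, e⟩ := q.l3 (δ⁻¹ • w)
    refine ⟨γ0 • z0, γ1 • z1, ?_⟩
    change (δ * γ0⁻¹) • c0 (γ0 • z0) + (δ * γ1⁻¹) • c1 (γ1 • z1) = w
    rw [hc0, hc1, smul_smul, smul_smul, inv_mul_cancel_right₀ hγ0, inv_mul_cancel_right₀ hγ1,
      ← smul_add, e, smul_smul, mul_inv_cancel₀ hδ, one_smul]

end quad

/-! ### 306's EXl -/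

section fam

variable {K : Type} [Field K] {g : K} (Y : Fam K g)

theorem m_smul (j i : Fin 2) (a : ℕ) (r : K) (y : Y.Y0 a) : Y.m j i a (r • y) = r • Y.m j i a y := by
  unfold Fam.m
  split_ifs <;> simp only [map_smul, smul_add, smul_comm r]

/-- EXl at the Adams position `a`: theta_0 bijective on `Y1 a`, `Y1 (a+1)`; theta_(-1) bijective on
`Y0 (a+1)`, injective on `Y0 (a+2)` is replaced by the hypotheses of 306's lemmas -/
theorem Q4.of_fam (hg : g ≠ 0) (hg1 : g ≠ 1) (two : (2 : K) = 0) (a : ℕ)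
    (i1 : ∀ y, Y.th1 (g ^ 2)⁻¹ a y = 0 → y = 0) (s1 : ∀ y, ∃ z, Y.th1 (g ^ 2)⁻¹ a z = y)
    (i1' : ∀ y, Y.th1 (g ^ 2)⁻¹ (a + 1) y = 0 → y = 0)
    (s1' : ∀ y, ∃ z, Y.th1 (g ^ 2)⁻¹ (a + 1) z = y)
    (i0 : ∀ y, Y.th0 g⁻¹ (a + 1) y = 0 → y = 0) (s0 : ∀ y, ∃ z, Y.th0 g⁻¹ (a + 1) z = y) :
    Q4 (Y.d 0 a) (Y.d 1 a) (Y.m 0 1 (a + 1)) (fun y => g • Y.m 0 0 (a + 1) y)
      (Y.m 1 1 (a + 1)) (fun y => g • Y.m 1 0 (a + 1) y) (Y.x 1 (a + 2)) (Y.x 0 (a + 2)) where
  l0 y h0 h1 := Y.l0 hg hg1 two a i1 y h0 h1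
  l1 p0 p1 h0 h1 := Y.l1 hg hg1 two a s1 i0 p0 p1 h0 h1
  l2 z0 z1 h := Y.l2 hg hg1 two (a + 1) s0 i1' z0 z1 h
  l3 w := Y.l3 hg hg1 two (a + 1) s1' w

/-- the second half of the cells: `f → e → gj → gc` with the scalars of 221's table -/
theorem Q4.of_fam' (hg : g ≠ 0) (hg1 : g ≠ 1) (two : (2 : K) = 0) (a : ℕ)
    (i1 : ∀ y, Y.th1 (g ^ 2)⁻¹ a y = 0 → y = 0) (s1 : ∀ y, ∃ z, Y.th1 (g ^ 2)⁻¹ a z = y)
    (i1' : ∀ y, Y.th1 (g ^ 2)⁻¹ (a + 1) y = 0 → y = 0)
    (s1' : ∀ y, ∃ z, Y.th1 (g ^ 2)⁻¹ (a + 1) z = y)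
    (i0 : ∀ y, Y.th0 g⁻¹ (a + 1) y = 0 → y = 0) (s0 : ∀ y, ∃ z, Y.th0 g⁻¹ (a + 1) z = y) :
    Q4 (fun y => g ^ 2 • Y.d 0 a y) (fun y => g • Y.d 1 a y)
      (fun y => ((g ^ 2)⁻¹ * g) • Y.m 0 1 (a + 1) y)
      (fun y => ((g ^ 2)⁻¹ * g ^ 3) • Y.m 0 0 (a + 1) y)
      (fun y => (g⁻¹ * g) • Y.m 1 1 (a + 1) y)
      (fun y => (g⁻¹ * g ^ 3) • Y.m 1 0 (a + 1) y)
      (fun y => g⁻¹ • Y.x 1 (a + 2) y) (fun y => (g ^ 2)⁻¹ • Y.x 0 (a + 2) y) := by
  have h := (Q4.of_fam Y hg hg1 two a i1 s1 i1' s1' i0 s0).scale (K := K)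
    (m_smul Y 0 1 (a + 1)) (fun r y => by rw [m_smul, smul_comm]) (m_smul Y 1 1 (a + 1))
    (fun r y => by rw [m_smul, smul_comm]) (fun r y => map_smul _ r y) (fun r y => map_smul _ r y)
    (β0 := g ^ 2) (β1 := g) (γ0 := g) (γ1 := g ^ 2) (δ := 1) (pow_ne_zero 2 hg) hg hg
    (pow_ne_zero 2 hg) one_ne_zero
  refine h.congr (fun _ => rfl) (fun _ => rfl) (fun y => ?_) (fun y => ?_) (fun y => ?_)
    (fun y => ?_) (fun y => ?_) (fun y => ?_)
  · rw [mul_comm]
  · change _ = (g * g⁻¹) • g • _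
    rw [smul_smul]
    congr 1
    field_simp
  · congr 1
    field_simp
  · change _ = (g ^ 2 * g⁻¹) • g • _
    rw [smul_smul]
    congr 1
    field_simp
  · congr 1
    rw [one_mul]
  · congr 1
    rw [one_mul]

end fam

/-! ### the sixteen cells -/

section cells

variable {K : Type} [Field K] {Yc : Cell → Type} [∀ c, AddCommGroup (Yc c)] [∀ c, Module K (Yc c)]

/-- the entries of 221's table between adjacent levels -/
def tab : Cell → Cell → Bool
  | some (.d _), none => true
  | some (.z _), some (.d _) => true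
  | some .zc, some (.z _) => true
  | some .zc, some .f => true
  | some (.e _), some .f => true
  | some (.gj _), some (.e _) => true
  | some .gc, some (.gj _) => true
  | some (.v i), some (.u j) => if i = j then true else false
  | _, _ => false

/-- sum over the cells -/
theorem sumC {M : Type*} [AddCommMonoid M] (F : Cell → M) : ∑ l, F l =
    F none + (F (some (.d 0)) + F (some (.d 1)) + F (some .f) + F (some (.z 0)) + F (some (.z 1)) +
      F (some .zc) + F (some (.u 0)) + F (some (.u 1)) + F (some (.e 0)) + F (some (.e 1)) +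
      F (some (.gj 0)) + F (some (.gj 1)) + F (some .gc) + F (some (.v 0)) + F (some (.v 1))) := by
  rw [Fintype.sum_option, sumE]

theorem forall_cell {P : Cell → Prop} (h : P none) (h1 : P (some (.d 0))) (h2 : P (some (.d 1)))
    (h3 : P (some .f)) (h4 : P (some (.z 0))) (h5 : P (some (.z 1))) (h6 : P (some .zc))
    (h7 : P (some (.u 0))) (h8 : P (some (.u 1))) (h9 : P (some (.e 0))) (h10 : P (some (.e 1)))
    (h11 : P (some (.gj 0))) (h12 : P (some (.gj 1))) (h13 : P (some .gc)) (h14 : P (some (.v 0)))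
    (h15 : P (some (.v 1))) : ∀ l, P l := by
  intro l
  rcases l with _ | l
  · exact h
  cases l with
  | d j => rcases f2 j with rfl | rfl <;> assumption
  | f => exact h3
  | z j => rcases f2 j with rfl | rfl <;> assumption
  | zc => exact h6
  | u j => rcases f2 j with rfl | rfl <;> assumption
  | e j => rcases f2 j with rfl | rfl <;> assumption
  | gj j => rcases f2 j with rfl | rfl <;> assumption
  | gc => exact h13
  | v j => rcases f2 j with rfl | rfl <;> assumption

theorem sum_single (t : ∀ l l' : Cell, Yc l' →ₗ[K] Yc l) (l c : Cell) (y : Yc c) :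
    ∑ l', t l l' ((Pi.single c y : ∀ l, Yc l) l') = t l c y := by
  rw [Finset.sum_eq_single c, Pi.single_eq_same]
  · intro b _ hb
    rw [Pi.single_eq_of_ne hb, map_zero]
  · intro h
    exact absurd (Finset.mem_univ _) h

/-- the sum -/
noncomputable def tS (t : ∀ l l' : Cell, Yc l' →ₗ[K] Yc l) (l : Cell) :
    (∀ l, Yc l) →ₗ[K] Yc l where
  toFun ω := ∑ l', t l l' (ω l')
  map_add' x y := by
    simp only [Pi.add_apply, map_add, Finset.sum_add_distrib]
  map_smul' r x := by
    simp only [Pi.smul_apply, map_smul, RingHom.id_apply, Finset.smul_sum]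

theorem tS_apply (t : ∀ l l' : Cell, Yc l' →ₗ[K] Yc l) (l : Cell) (ω : ∀ l, Yc l) :
    tS t l ω = ∑ l', t l l' (ω l') := rfl

theorem tS_single (t : ∀ l l' : Cell, Yc l' →ₗ[K] Yc l) (l c : Cell) (y : Yc c) :
    tS t l (Pi.single c y) = t l c y := sum_single t l c y

/-- **the sixteen cells are exact** (`t l l'` = the adjacent coefficients on homology) -/
theorem ex16 (t : ∀ l l' : Cell, Yc l' →ₗ[K] Yc l)
    (hz : ∀ l l' : Cell, cdeg l = cdeg l' + 1 → tab l l' = false → t l l' = 0)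
    (q1 : Q4 (t (some (.d 0)) none) (t (some (.d 1)) none)
      (t (some (.z 0)) (some (.d 0))) (t (some (.z 0)) (some (.d 1)))
      (t (some (.z 1)) (some (.d 0))) (t (some (.z 1)) (some (.d 1)))
      (t (some .zc) (some (.z 0))) (t (some .zc) (some (.z 1))))
    (q2 : Q4 (t (some (.e 0)) (some .f)) (t (some (.e 1)) (some .f))
      (t (some (.gj 0)) (some (.e 0))) (t (some (.gj 0)) (some (.e 1)))
      (t (some (.gj 1)) (some (.e 0))) (t (some (.gj 1)) (some (.e 1)))
      (t (some .gc) (some (.gj 0))) (t (some .gc) (some (.gj 1))))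
    (b0 : Function.Bijective (t (some (.v 0)) (some (.u 0))))
    (b1 : Function.Bijective (t (some (.v 1)) (some (.u 1))))
    (m : ℤ) (ζ : ∀ l, Yc l) (h0 : ∀ l, (cdeg l : ℤ) ≠ m → ζ l = 0)
    (h1 : ∀ l, (cdeg l : ℤ) = m + 1 → ∑ l', t l l' (ζ l') = 0) :
    ∃ ω : ∀ l, Yc l, (∀ l, (cdeg l : ℤ) + 1 ≠ m → ω l = 0) ∧
      ∀ l, (cdeg l : ℤ) = m → ζ l = ∑ l', t l l' (ω l') := by
  have hz' : ∀ l l' : Cell, cdeg l = cdeg l' + 1 → tab l l' = false → ∀ y, t l l' y = 0 :=
    fun l l' h h' y => by rw [hz l l' h h', LinearMap.zero_apply]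
  have sing : ∀ (c l : Cell) (y : Yc c), (cdeg c : ℤ) + 1 = m → (cdeg l : ℤ) + 1 ≠ m →
      (Pi.single c y : ∀ l, Yc l) l = 0 := by
    intro c l y hc hl
    refine Pi.single_eq_of_ne ?_ y
    rintro rfl
    exact hl hc
  by_cases hm : m < 0 ∨ 5 < m
  · refine ⟨0, fun _ _ => rfl, fun l hl => ?_⟩
    exfalso
    have h5 : ∀ l : Cell, cdeg l ≤ 5 := by decide
    have := h5 l
    rcases hm with hm | hm <;> omega
  push Not at hm
  obtain ⟨hm0, hm5⟩ := hm
  have hm' : m = 0 ∨ m = 1 ∨ m = 2 ∨ m = 3 ∨ m = 4 ∨ m = 5 := by omega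
  rcases hm' with rfl | rfl | rfl | rfl | rfl | rfl
  · -- level 0
    have z : ∀ l, l ≠ none → ζ l = 0 := fun l hl => h0 l (by
      revert hl; revert l; decide)
    have e0 := h1 (some (.d 0)) rfl
    have e1 := h1 (some (.d 1)) rfl
    rw [Finset.sum_eq_single none (fun b _ hb => by rw [z b hb, map_zero]) (fun h =>
      absurd (Finset.mem_univ _) h)] at e0 e1
    have := q1.l0 _ e0 e1
    refine ⟨0, fun _ _ => rfl, fun l hl => ?_⟩
    have hl' : l = none := by
      revert hl; revert l; decide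
    subst hl'
    rw [this]
    simp only [Pi.zero_apply, map_zero, Finset.sum_const_zero]
  · -- level 1
    have z : ∀ l : Cell, cdeg l ≠ 1 → ζ l = 0 := fun l hl => h0 l (fun h => hl (by exact_mod_cast h))
    have ex : ∀ l, ∑ l', t l l' (ζ l') = t l (some (.d 0)) (ζ (some (.d 0))) + t l (some (.d 1)) (ζ (some (.d 1))) := by
      intro l
      rw [sumC, z none (by decide), z (some .f) (by decide), z (some (.z 0)) (by decide), z (some (.z 1)) (by decide), z (some .zc) (by decide), z (some (.u 0)) (by decide), z (some (.u 1)) (by decide), z (some (.e 0)) (by decide), z (some (.e 1)) (by decide), z (some (.gj 0)) (by decide), z (some (.gj 1)) (by decide), z (some .gc) (by decide), z (some (.v 0)) (by decide), z (some (.v 1)) (by decide)]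
      simp only [map_zero, zero_add, add_zero]
    have e0 := h1 (some (.z 0)) rfl
    have e1 := h1 (some (.z 1)) rfl
    rw [ex] at e0 e1
    obtain ⟨f, hf0, hf1⟩ := q1.l1 _ _ e0 e1
    refine ⟨Pi.single none f, ?_, forall_cell ?_ ?_ ?_ ?_ ?_ ?_ ?_ ?_ ?_ ?_ ?_ ?_ ?_ ?_ ?_ ?_⟩
    · intro l hl
      exact sing none l _ rfl hl
    · intro h; exact absurd h (by decide)
    · intro _
      rw [sum_single, hf0]
    · intro _
      rw [sum_single, hf1]
    · intro h; exact absurd h (by decide)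
    · intro h; exact absurd h (by decide)
    · intro h; exact absurd h (by decide)
    · intro h; exact absurd h (by decide)
    · intro h; exact absurd h (by decide)
    · intro h; exact absurd h (by decide)
    · intro h; exact absurd h (by decide)
    · intro h; exact absurd h (by decide)
    · intro h; exact absurd h (by decide)
    · intro h; exact absurd h (by decide)
    · intro h; exact absurd h (by decide)
    · intro h; exact absurd h (by decide)
    · intro h; exact absurd h (by decide)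
  · -- level 2
    have z : ∀ l : Cell, cdeg l ≠ 2 → ζ l = 0 := fun l hl => h0 l (fun h => hl (by exact_mod_cast h))
    have ex : ∀ l, ∑ l', t l l' (ζ l') = t l (some .f) (ζ (some .f)) + t l (some (.z 0)) (ζ (some (.z 0))) +
        t l (some (.z 1)) (ζ (some (.z 1))) + t l (some (.u 0)) (ζ (some (.u 0))) := by
      intro l
      rw [sumC, z none (by decide), z (some (.d 0)) (by decide), z (some (.d 1)) (by decide), z (some .zc) (by decide), z (some (.u 1)) (by decide), z (some (.e 0)) (by decide), z (some (.e 1)) (by decide), z (some (.gj 0)) (by decide), z (some (.gj 1)) (by decide), z (some .gc) (by decide), z (some (.v 0)) (by decide), z (some (.v 1)) (by decide)]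
      simp only [map_zero, zero_add, add_zero]
    have e0 := h1 (some (.e 0)) rfl
    have e1 := h1 (some (.e 1)) rfl
    have e2 := h1 (some .zc) rfl
    have e3 := h1 (some (.v 0)) rfl
    rw [ex, hz' (some (.e 0)) (some (.z 0)) rfl rfl, hz' (some (.e 0)) (some (.z 1)) rfl rfl,
      hz' (some (.e 0)) (some (.u 0)) rfl rfl, add_zero, add_zero, add_zero] at e0
    rw [ex, hz' (some (.e 1)) (some (.z 0)) rfl rfl, hz' (some (.e 1)) (some (.z 1)) rfl rfl,
      hz' (some (.e 1)) (some (.u 0)) rfl rfl, add_zero, add_zero, add_zero] at e1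
    have hf : ζ (some .f) = 0 := q2.l0 _ e0 e1
    rw [ex, hf, map_zero, zero_add, hz' (some .zc) (some (.u 0)) rfl rfl, add_zero] at e2
    rw [ex, hf, map_zero, zero_add, hz' (some (.v 0)) (some (.z 0)) rfl rfl,
      hz' (some (.v 0)) (some (.z 1)) rfl rfl, zero_add, zero_add] at e3
    have hu : ζ (some (.u 0)) = 0 := b0.1 (by rw [e3, map_zero])
    obtain ⟨p0, p1, hp0, hp1⟩ := q1.l2 _ _ e2
    refine ⟨Pi.single (some (.d 0)) p0 + Pi.single (some (.d 1)) p1, ?_, forall_cell ?_ ?_ ?_ ?_ ?_ ?_ ?_ ?_ ?_ ?_ ?_ ?_ ?_ ?_ ?_ ?_⟩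
    · intro l hl
      simp only [Pi.add_apply, sing (some (.d 0)) l _ rfl hl, sing (some (.d 1)) l _ rfl hl, add_zero]
    · intro h; exact absurd h (by decide)
    · intro h; exact absurd h (by decide)
    · intro h; exact absurd h (by decide)
    · intro _
      rw [← tS_apply, map_add, tS_single, tS_single, hz' (some .f) (some (.d 0)) rfl rfl,
        hz' (some .f) (some (.d 1)) rfl rfl, add_zero, hf]
    · intro _
      rw [← tS_apply, map_add, tS_single, tS_single, hp0]
    · intro _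
      rw [← tS_apply, map_add, tS_single, tS_single, hp1]
    · intro h; exact absurd h (by decide)
    · intro _
      rw [← tS_apply, map_add, tS_single, tS_single, hz' (some (.u 0)) (some (.d 0)) rfl rfl,
        hz' (some (.u 0)) (some (.d 1)) rfl rfl, add_zero, hu]
    · intro h; exact absurd h (by decide)
    · intro h; exact absurd h (by decide)
    · intro h; exact absurd h (by decide)
    · intro h; exact absurd h (by decide)
    · intro h; exact absurd h (by decide)
    · intro h; exact absurd h (by decide)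
    · intro h; exact absurd h (by decide)
    · intro h; exact absurd h (by decide)
  · -- level 3
    have z : ∀ l : Cell, cdeg l ≠ 3 → ζ l = 0 := fun l hl => h0 l (fun h => hl (by exact_mod_cast h))
    have ex : ∀ l, ∑ l', t l l' (ζ l') = t l (some .zc) (ζ (some .zc)) + t l (some (.u 1)) (ζ (some (.u 1))) +
        t l (some (.e 0)) (ζ (some (.e 0))) + t l (some (.e 1)) (ζ (some (.e 1))) +
        t l (some (.v 0)) (ζ (some (.v 0))) := by
      intro l
      rw [sumC, z none (by decide), z (some (.d 0)) (by decide), z (some (.d 1)) (by decide), z (some .f) (by decide), z (some (.z 0)) (by decide), z (some (.z 1)) (by decide), z (some (.u 0)) (by decide), z (some (.gj 0)) (by decide), z (some (.gj 1)) (by decide), z (some .gc) (by decide), z (some (.v 1)) (by decide)]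
      simp only [map_zero, zero_add, add_zero]
    have e0 := h1 (some (.gj 0)) rfl
    have e1 := h1 (some (.gj 1)) rfl
    have e3 := h1 (some (.v 1)) rfl
    rw [ex, hz' (some (.gj 0)) (some .zc) rfl rfl, hz' (some (.gj 0)) (some (.u 1)) rfl rfl,
      hz' (some (.gj 0)) (some (.v 0)) rfl rfl, zero_add, zero_add, add_zero] at e0
    rw [ex, hz' (some (.gj 1)) (some .zc) rfl rfl, hz' (some (.gj 1)) (some (.u 1)) rfl rfl,
      hz' (some (.gj 1)) (some (.v 0)) rfl rfl, zero_add, zero_add, add_zero] at e1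
    rw [ex, hz' (some (.v 1)) (some .zc) rfl rfl, hz' (some (.v 1)) (some (.e 0)) rfl rfl,
      hz' (some (.v 1)) (some (.e 1)) rfl rfl, hz' (some (.v 1)) (some (.v 0)) rfl rfl,
      zero_add, add_zero, add_zero, add_zero] at e3
    have hu : ζ (some (.u 1)) = 0 := b1.1 (by rw [e3, map_zero])
    obtain ⟨f, hf0, hf1⟩ := q2.l1 _ _ e0 e1
    obtain ⟨w0, w1, hw⟩ := q1.l3 (ζ (some .zc) - t (some .zc) (some .f) f)
    obtain ⟨w, hv⟩ := b0.2 (ζ (some (.v 0)))
    refine ⟨Pi.single (some .f) f + Pi.single (some (.z 0)) w0 + Pi.single (some (.z 1)) w1 +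
      Pi.single (some (.u 0)) w, ?_, forall_cell ?_ ?_ ?_ ?_ ?_ ?_ ?_ ?_ ?_ ?_ ?_ ?_ ?_ ?_ ?_ ?_⟩
    · intro l hl
      simp only [Pi.add_apply, sing (some .f) l _ rfl hl, sing (some (.z 0)) l _ rfl hl, sing (some (.z 1)) l _ rfl hl, sing (some (.u 0)) l _ rfl hl, add_zero]
    · intro h; exact absurd h (by decide)
    · intro h; exact absurd h (by decide)
    · intro h; exact absurd h (by decide)
    · intro h; exact absurd h (by decide)
    · intro h; exact absurd h (by decide)
    · intro h; exact absurd h (by decide)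
    · intro _
      rw [← tS_apply, map_add, map_add, map_add, tS_single, tS_single, tS_single, tS_single,
        hz' (some .zc) (some (.u 0)) rfl rfl, add_zero, add_assoc, hw]
      abel
    · intro h; exact absurd h (by decide)
    · intro _
      rw [← tS_apply, map_add, map_add, map_add, tS_single, tS_single, tS_single, tS_single,
        hz' (some (.u 1)) (some .f) rfl rfl, hz' (some (.u 1)) (some (.z 0)) rfl rfl,
        hz' (some (.u 1)) (some (.z 1)) rfl rfl, hz' (some (.u 1)) (some (.u 0)) rfl rfl, add_zero,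
        add_zero, add_zero, hu]
    · intro _
      rw [← tS_apply, map_add, map_add, map_add, tS_single, tS_single, tS_single, tS_single,
        hz' (some (.e 0)) (some (.z 0)) rfl rfl,
        hz' (some (.e 0)) (some (.z 1)) rfl rfl, hz' (some (.e 0)) (some (.u 0)) rfl rfl, add_zero,
        add_zero, add_zero, hf0]
    · intro _
      rw [← tS_apply, map_add, map_add, map_add, tS_single, tS_single, tS_single, tS_single,
        hz' (some (.e 1)) (some (.z 0)) rfl rfl,
        hz' (some (.e 1)) (some (.z 1)) rfl rfl, hz' (some (.e 1)) (some (.u 0)) rfl rfl, add_zero,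
        add_zero, add_zero, hf1]
    · intro h; exact absurd h (by decide)
    · intro h; exact absurd h (by decide)
    · intro h; exact absurd h (by decide)
    · intro _
      rw [← tS_apply, map_add, map_add, map_add, tS_single, tS_single, tS_single, tS_single,
        hz' (some (.v 0)) (some .f) rfl rfl, hz' (some (.v 0)) (some (.z 0)) rfl rfl,
        hz' (some (.v 0)) (some (.z 1)) rfl rfl, zero_add, zero_add, zero_add, hv]
    · intro h; exact absurd h (by decide)
  · -- level 4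
    have z : ∀ l : Cell, cdeg l ≠ 4 → ζ l = 0 := fun l hl => h0 l (fun h => hl (by exact_mod_cast h))
    have ex : ∀ l, ∑ l', t l l' (ζ l') = t l (some (.gj 0)) (ζ (some (.gj 0))) + t l (some (.gj 1)) (ζ (some (.gj 1))) +
        t l (some (.v 1)) (ζ (some (.v 1))) := by
      intro l
      rw [sumC, z none (by decide), z (some (.d 0)) (by decide), z (some (.d 1)) (by decide), z (some .f) (by decide), z (some (.z 0)) (by decide), z (some (.z 1)) (by decide), z (some .zc) (by decide), z (some (.u 0)) (by decide), z (some (.u 1)) (by decide), z (some (.e 0)) (by decide), z (some (.e 1)) (by decide), z (some .gc) (by decide), z (some (.v 0)) (by decide)]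
      simp only [map_zero, zero_add, add_zero]
    have e0 := h1 (some .gc) rfl
    rw [ex, hz' (some .gc) (some (.v 1)) rfl rfl, add_zero] at e0
    obtain ⟨p0, p1, hp0, hp1⟩ := q2.l2 _ _ e0
    obtain ⟨w, hv⟩ := b1.2 (ζ (some (.v 1)))
    refine ⟨Pi.single (some (.e 0)) p0 + Pi.single (some (.e 1)) p1 + Pi.single (some (.u 1)) w, ?_, forall_cell ?_ ?_ ?_ ?_ ?_ ?_ ?_ ?_ ?_ ?_ ?_ ?_ ?_ ?_ ?_ ?_⟩
    · intro l hl
      simp only [Pi.add_apply, sing (some (.e 0)) l _ rfl hl, sing (some (.e 1)) l _ rfl hl, sing (some (.u 1)) l _ rfl hl, add_zero]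
    · intro h; exact absurd h (by decide)
    · intro h; exact absurd h (by decide)
    · intro h; exact absurd h (by decide)
    · intro h; exact absurd h (by decide)
    · intro h; exact absurd h (by decide)
    · intro h; exact absurd h (by decide)
    · intro h; exact absurd h (by decide)
    · intro h; exact absurd h (by decide)
    · intro h; exact absurd h (by decide)
    · intro h; exact absurd h (by decide)
    · intro h; exact absurd h (by decide)
    · intro _
      rw [← tS_apply, map_add, map_add, tS_single, tS_single, tS_single,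
        hz' (some (.gj 0)) (some (.u 1)) rfl rfl, add_zero, hp0]
    · intro _
      rw [← tS_apply, map_add, map_add, tS_single, tS_single, tS_single,
        hz' (some (.gj 1)) (some (.u 1)) rfl rfl, add_zero, hp1]
    · intro h; exact absurd h (by decide)
    · intro h; exact absurd h (by decide)
    · intro _
      rw [← tS_apply, map_add, map_add, tS_single, tS_single, tS_single,
        hz' (some (.v 1)) (some (.e 0)) rfl rfl, hz' (some (.v 1)) (some (.e 1)) rfl rfl, zero_add,
        zero_add, hv]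
  · -- level 5
    obtain ⟨w0, w1, hw⟩ := q2.l3 (ζ (some .gc))
    refine ⟨Pi.single (some (.gj 0)) w0 + Pi.single (some (.gj 1)) w1, ?_, forall_cell ?_ ?_ ?_ ?_ ?_ ?_ ?_ ?_ ?_ ?_ ?_ ?_ ?_ ?_ ?_ ?_⟩
    · intro l hl
      simp only [Pi.add_apply, sing (some (.gj 0)) l _ rfl hl, sing (some (.gj 1)) l _ rfl hl, add_zero]
    · intro h; exact absurd h (by decide)
    · intro h; exact absurd h (by decide)
    · intro h; exact absurd h (by decide)
    · intro h; exact absurd h (by decide)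
    · intro h; exact absurd h (by decide)
    · intro h; exact absurd h (by decide)
    · intro h; exact absurd h (by decide)
    · intro h; exact absurd h (by decide)
    · intro h; exact absurd h (by decide)
    · intro h; exact absurd h (by decide)
    · intro h; exact absurd h (by decide)
    · intro h; exact absurd h (by decide)
    · intro h; exact absurd h (by decide)
    · intro _
      rw [← tS_apply, map_add, tS_single, tS_single, hw]
    · intro h; exact absurd h (by decide)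
    · intro h; exact absurd h (by decide)

end cells

end Crest.Agent.R186.ZZH380
private theorem rz_8b6d815209 : type_of% @_root_.Crest.Agent.R186.ZZH380.tab.eq_1 := @_root_.Crest.Agent.R186.ZZH380.tab.eq_1 -- L175
end

-- ▼ part R186/HL_462
section

/-!
Row 186 (A), short road of helper306 (helper462): a finite twisted complex is acyclic when its
first page is exact.
-/

set_option autoImplicit false

namespace Crest.Agent.R186.HL462

variable {K E κ : Type*} [Field K] [AddCommGroup E] [Module K E] [Fintype κ]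

/-- finite twisted complexes: levels `lv`, pieces `G c n`, internal differential `d n` of degree
`-1` on the piece of degree `n`, operators `m c c'` from cell `c'` to cell `c`;
a tuple `y` has degree `N` when `y c ∈ G c (N + lv c)` -/
structure FT (K E κ : Type*) [Field K] [AddCommGroup E] [Module K E] [Fintype κ] where
  lv : κ → ℤ
  G : κ → ℤ → Submodule K E
  d : ℤ → E →ₗ[K] E
  m : κ → κ → E →ₗ[K] E
  d_mem : ∀ c n x, x ∈ G c n → d n x ∈ G c (n - 1)
  m_mem : ∀ c c' n x, x ∈ G c' n → m c c' x ∈ G c (n + lv c - lv c' - 1)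
  m_low : ∀ c c' x, lv c ≤ lv c' → m c c' x = 0
  /-- characteristic two -/
  two : ∀ x : E, x + x = 0
  /-- the total square is zero -/
  sq : ∀ (N : ℤ) (y : κ → E), (∀ c, y c ∈ G c (N + lv c)) → ∀ c,
    d (N - 1 + lv c) (d (N + lv c) (y c) + ∑ c', m c c' (y c')) +
      ∑ c', m c c' (d (N + lv c') (y c') + ∑ c'', m c' c'' (y c'')) = 0

variable (T : FT K E κ)

namespace FT

/-- the total differential -/
def tot (N : ℤ) (y : κ → E) : κ → E := fun c => T.d (N + T.lv c) (y c) + ∑ c', T.m c c' (y c')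

/-- exactness of the first page at level `r`, degree `n` -/
def E1 (r n : ℤ) : Prop := ∀ u : κ → E, (∀ c, T.lv c ≠ r → u c = 0) → (∀ c, u c ∈ T.G c n) →
  (∀ c, T.d n (u c) = 0) →
  (∀ c, T.lv c = r + 1 → ∃ v ∈ T.G c (n + 1), ∑ c', T.m c c' (u c') = T.d (n + 1) v) →
  ∃ w : κ → E, (∀ c, T.lv c ≠ r - 1 → w c = 0) ∧ (∀ c, w c ∈ T.G c n) ∧
    (∀ c, T.d n (w c) = 0) ∧
    ∀ c, T.lv c = r → ∃ v ∈ T.G c (n + 1), u c = ∑ c', T.m c c' (w c') + T.d (n + 1) v







end FT

/-! ### homology as a quotient -/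

/-- cycles modulo boundaries -/
abbrev HQ (Z B : Submodule K E) : Type _ := Z ⧸ B.comap Z.subtype

/-- the map induced by an operator -/
def HQ.map {Z B Z' B' : Submodule K E} (f : E →ₗ[K] E) (hZ : ∀ x ∈ Z, f x ∈ Z')
    (hB : ∀ x ∈ B, f x ∈ B') : HQ Z B →ₗ[K] HQ Z' B' :=
  Submodule.mapQ _ _ (f.restrict hZ) fun x hx => hB _ hx


end Crest.Agent.R186.HL462
end

-- ▼ part R186/HLw_462
section

/-!
Row 186 (A), short road of helper306 (helper462): the field `H` of `FinD384.HIn` over the cell data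
`CE` of a window, from the exactness of the first page.
-/

set_option autoImplicit false
set_option linter.style.haveILetI false

namespace Crest.Agent.R186.HL462

open Hat827 Win810 Adapt186 KHev302 ConeHyp462

variable {K : Type} [Field K] {w : WD K} (E : CE w) (X : PCells w.dga)

/-- tuples -/
abbrev TB : Type := X.ι → w.Ob → E.B

/-- right action of the window algebra on rows -/
def ra (m : w.dga.C) : (w.Ob → E.B) →ₗ[K] (w.Ob → E.B) where
  toFun x j := ∑ i, x i * E.p ((show w.Win from m).1 i j)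
  map_add' x y := by
    funext j
    simp only [Pi.add_apply, add_mul, Finset.sum_add_distrib]
  map_smul' r x := by
    funext j
    simp only [Pi.smul_apply, smul_mul_assoc, Finset.smul_sum, RingHom.id_apply]

theorem ra_apply (m : w.dga.C) (x : w.Ob → E.B) (j : w.Ob) :
    ra E m x j = ∑ i, x i * E.p ((show w.Win from m).1 i j) := rfl





/-- the differential of `B`, row by row -/
def db : (w.Ob → E.B) →ₗ[K] (w.Ob → E.B) where
  toFun x j := E.DB (x j)
  map_add' x y := by
    funext j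
    exact map_add _ _ _
  map_smul' r x := by
    funext j
    exact map_smul _ _ _



/-- homogeneous tuples of position `(p, a)` and degree `n` -/
def Tg (p a n : ℤ) : Submodule K (TB E X) where
  carrier := {x | (∀ σ j, x σ j ∈ E.pb (p - w.P j) (a - w.A j) (n - X.s σ)) ∧
    ∀ σ, ra E (X.e σ) (x σ) = x σ}
  add_mem' {x y} hx hy := ⟨fun σ j => Submodule.add_mem _ (hx.1 σ j) (hy.1 σ j), fun σ => by
    rw [Pi.add_apply, map_add, hx.2, hy.2]⟩
  zero_mem' := ⟨fun σ j => Submodule.zero_mem _, fun σ => by rw [Pi.zero_apply, map_zero]⟩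
  smul_mem' r x hx := ⟨fun σ j => Submodule.smul_mem _ r (hx.1 σ j), fun σ => by
    rw [Pi.smul_apply, map_smul, hx.2]⟩


/-- the differential, cells of degree at most `M` -/
def dM (M : ℕ) : TB E X →ₗ[K] TB E X where
  toFun x τ := db E (x τ) + ∑ σ ∈ X.F M, ra E (X.c σ τ) (x σ)
  map_add' x y := by
    funext τ
    simp only [Pi.add_apply, map_add, Finset.sum_add_distrib]
    abel
  map_smul' r x := by
    funext τ
    simp only [Pi.smul_apply, map_smul, RingHom.id_apply, Finset.smul_sum, smul_add]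

theorem dM_apply (M : ℕ) (x : TB E X) (τ : X.ι) :
    dM E X M x τ = db E (x τ) + ∑ σ ∈ X.F M, ra E (X.c σ τ) (x σ) := rfl

/-- the differential of `T` in degree `n` -/
def dT (n : ℤ) : TB E X →ₗ[K] TB E X := dM E X n.toNat

theorem Tg_zero {p a n : ℤ} {x : TB E X} (hx : x ∈ Tg E X p a n) {σ : X.ι} (h : n < X.s σ) :
    x σ = 0 := by
  funext j
  have h1 := hx.1 σ j
  rw [E.pb_neg _ _ _ (by omega)] at h1
  exact (Submodule.mem_bot K).1 h1

theorem dM_eq {p a n : ℤ} {x : TB E X} (hx : x ∈ Tg E X p a n) {M : ℕ} (h : n ≤ M) :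
    dM E X M x = dT E X n x := by
  funext τ
  unfold dT
  rw [dM_apply, dM_apply]
  congr 1
  symm
  refine Finset.sum_subset (fun σ hσ => ?_) fun σ _ hσ => ?_
  · rw [X.mem_F] at hσ ⊢
    omega
  · rw [X.mem_F] at hσ
    rw [Tg_zero E X hx (by omega), map_zero]






/-- left multiplication -/
def lm (b : E.B) : TB E X →ₗ[K] TB E X where
  toFun x σ j := b * x σ j
  map_add' x y := by
    funext σ j
    exact mul_add _ _ _
  map_smul' r x := by
    funext σ j
    exact mul_smul_comm _ _ _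

theorem lm_apply (b : E.B) (x : TB E X) (σ : X.ι) (j : w.Ob) : lm E X b x σ j = b * x σ j := rfl

theorem ra_lm (m : w.dga.C) (b : E.B) (x : TB E X) (σ : X.ι) :
    ra E m (lm E X b x σ) = fun j => b * ra E m (x σ) j := by
  funext j
  simp only [ra_apply, lm_apply, Finset.mul_sum, mul_assoc]

theorem lm_mem {p a n P A C : ℤ} {b : E.B} (hb : b ∈ E.pb P A C) {x : TB E X}
    (hx : x ∈ Tg E X p a n) : lm E X b x ∈ Tg E X (p + P) (a + A) (n + C) := by
  refine ⟨fun σ j => ?_, fun σ => ?_⟩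
  · have h := E.pb_mul hb (hx.1 σ j)
    rwa [show P + (p - w.P j) = p + P - w.P j by ring,
      show A + (a - w.A j) = a + A - w.A j by ring,
      show C + (n - X.s σ) = n + C - X.s σ by ring] at h
  · rw [ra_lm, hx.2]
    rfl

theorem dM_lm (M : ℕ) (b : E.B) (x : TB E X) :
    dM E X M (lm E X b x) = lm E X (E.DB b) x + lm E X b (dM E X M x) := by
  funext τ j
  rw [dM_apply, Pi.add_apply, Finset.sum_apply]
  simp only [ra_lm]
  change E.DB (b * x τ j) + ∑ σ ∈ X.F M, b * ra E (X.c σ τ) (x σ) j =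
    E.DB b * x τ j + b * ((db E (x τ) + ∑ σ ∈ X.F M, ra E (X.c σ τ) (x σ)) j)
  rw [E.DB_mul, Pi.add_apply, Finset.sum_apply, mul_add, Finset.mul_sum, add_assoc]
  rfl

theorem lm_mul (b b' : E.B) (x : TB E X) : lm E X (b * b') x = lm E X b (lm E X b' x) := by
  funext σ j
  exact mul_assoc _ _ _

theorem lm_add (b b' : E.B) (x : TB E X) : lm E X (b + b') x = lm E X b x + lm E X b' x := by
  funext σ j
  exact add_mul _ _ _

theorem lm_zero (x : TB E X) : lm E X 0 x = 0 := by
  funext σ j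
  exact zero_mul _

theorem lm_smul (r : K) (b : E.B) (x : TB E X) : lm E X (r • b) x = r • lm E X b x := by
  funext σ j
  exact smul_mul_assoc _ _ _


theorem cc_zero {c c' : E.ka} (h : (E.cd c : ℤ) ≤ E.cd c') : E.cc c c' = 0 := by
  have h1 := E.cc_mem c c'
  rw [E.pb_neg _ _ _ (by omega)] at h1
  exact (Submodule.mem_bot K).1 h1


theorem key (M : ℕ) (y : X.ι → E.H) (c : E.ka) (τ : X.ι) (j : w.Ob) :
    (CE.dH (y τ) + ∑ σ ∈ X.F M, CE.RH (show w.Win from X.c σ τ) (y σ)).1 c j =
      (dM E X M (fun σ j => (y σ).1 c j) +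
        ∑ c', lm E X (E.cc c c') (fun σ j => (y σ).1 c' j)) τ j := by
  have e1 : (CE.dH (y τ) + ∑ σ ∈ X.F M, CE.RH (show w.Win from X.c σ τ) (y σ)).1 c j =
      (CE.dH (y τ)).1 c j + ∑ σ ∈ X.F M, (CE.RH (show w.Win from X.c σ τ) (y σ)).1 c j := by
    rw [Submodule.coe_add, AddSubmonoidClass.coe_finsetSum, Pi.add_apply, Pi.add_apply,
      Finset.sum_apply, Finset.sum_apply]
  rw [e1, CE.dH_apply, Pi.add_apply, Pi.add_apply, Finset.sum_apply, Finset.sum_apply, dM_apply,
    Pi.add_apply, Finset.sum_apply]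
  change _ + ∑ σ ∈ X.F M, ∑ i, (y σ).1 c i * E.p ((show w.Win from X.c σ τ).1 i j) = _ + _ +
    ∑ c', E.cc c c' * (y τ).1 c' j
  change E.DB ((y τ).1 c j) + ∑ c', E.cc c c' * (y τ).1 c' j + ∑ σ ∈ X.F M,
    ∑ i, (y σ).1 c i * E.p ((show w.Win from X.c σ τ).1 i j) = E.DB ((y τ).1 c j) + ∑ σ ∈ X.F M,
    ∑ i, (y σ).1 c i * E.p ((show w.Win from X.c σ τ).1 i j) + ∑ c', E.cc c c' * (y τ).1 c' j
  abel


end Crest.Agent.R186.HL462
end

-- ▼ part R186/FamT_462
section

/-!
Row 186 (A), short road of helper306 (helper462): the homology of `T(row (1, a))`, `T(row (2, a))`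
as a family `Ex306.Fam`.
-/

set_option autoImplicit false
set_option linter.style.haveILetI false

namespace Crest.Agent.R186.HL462

open Hat827 Win810 Adapt186 KHev302 ConeHyp462

variable {K : Type} [Field K] {w : WD K} (E : CE w) (X : PCells w.dga)

/-- the letters of degree zero -/
structure Lt (g : K) where
  x : Fin 2 → E.B
  d : Fin 2 → E.B
  h : E.B
  t : E.B
  z : Fin 2 → E.B
  x_mem : ∀ j, x j ∈ E.pb 1 0 0
  d_mem : ∀ j, d j ∈ E.pb (-1) 1 0
  h_mem : h ∈ E.pb 0 1 0
  t_mem : t ∈ E.pb 0 1 0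
  z_mem : ∀ j, z j ∈ E.pb (-1) 2 1
  Dx : ∀ j, E.DB (x j) = 0
  Dd : ∀ j, E.DB (d j) = 0
  Dh : E.DB h = 0
  Dt : E.DB t = 0
  ht0 : t = h + (g - 1) • (d 0 * x 0 + d 1 * x 1)
  ht1 : g ^ 2 • t = h + (g - 1) • (x 0 * d 0 + g • (x 1 * d 1))
  xt : ∀ j, x j * t = g • (t * x j)
  td : ∀ j, t * d j = g • (d j * t) + E.DB (z j)
  xh : ∀ j, x j * h = h * x j
  hd : ∀ j, h * d j = d j * h

/-- cycles -/
def Zt (p a n : ℤ) : Submodule K (TB E X) := Tg E X p a n ⊓ LinearMap.ker (dT E X n)

/-- boundaries -/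
def Bt (p a n : ℤ) : Submodule K (TB E X) := (Tg E X p a (n + 1)).map (dT E X (n + 1))



/-- homology -/
abbrev HT (p a n : ℤ) : Type := HQ (Zt E X p a n) (Bt E X p a n)

variable {E X}

/-- the class of a cycle -/
def cl {p a n : ℤ} (u : TB E X) (hu : u ∈ Zt E X p a n) : HT E X p a n :=
  Submodule.Quotient.mk ⟨u, hu⟩

theorem cl_surj {p a n : ℤ} (y : HT E X p a n) : ∃ u hu, cl (E := E) (X := X) u hu = y := by
  obtain ⟨⟨u, hu⟩, rfl⟩ := Submodule.Quotient.mk_surjective _ y
  exact ⟨u, hu, rfl⟩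

theorem cl_add {p a n : ℤ} {u v : TB E X} (hu : u ∈ Zt E X p a n) (hv : v ∈ Zt E X p a n) :
    cl u hu + cl v hv = cl (u + v) (Submodule.add_mem _ hu hv) := rfl

theorem cl_smul {p a n : ℤ} {u : TB E X} (r : K) (hu : u ∈ Zt E X p a n) :
    r • cl u hu = cl (r • u) (Submodule.smul_mem _ r hu) := rfl

theorem cl_eq {p a n : ℤ} {u v : TB E X} {hu : u ∈ Zt E X p a n} {hv : v ∈ Zt E X p a n} :
    cl u hu = cl v hv ↔ u - v ∈ Bt E X p a n := by
  unfold cl
  rw [Submodule.Quotient.eq]
  exact Iff.rfl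

theorem cl_congr {p a n : ℤ} {u v : TB E X} {hu : u ∈ Zt E X p a n} {hv : v ∈ Zt E X p a n}
    (h : u = v) : cl u hu = cl v hv := by
  subst h
  rfl


theorem dT_lm {p a n P A : ℤ} {b : E.B} (hb : b ∈ E.pb P A 0) (hD : E.DB b = 0) {x : TB E X}
    (hx : x ∈ Tg E X p a n) : dT E X n (lm E X b x) = lm E X b (dT E X n x) := by
  have h := dM_lm E X n.toNat b x
  rw [hD, lm_zero, zero_add] at h
  exact h

theorem lm_Z {p a n P A p' a' : ℤ} {b : E.B} (hb : b ∈ E.pb P A 0) (hD : E.DB b = 0)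
    (hp : p' = p + P) (ha : a' = a + A) {x : TB E X}
    (hx : x ∈ Zt E X p a n) : lm E X b x ∈ Zt E X p' a' n := by
  subst hp ha
  refine ⟨?_, ?_⟩
  · have := lm_mem E X hb hx.1
    rwa [add_zero] at this
  · change dT E X n (lm E X b x) = 0
    rw [dT_lm hb hD hx.1, show dT E X n x = 0 from hx.2, map_zero]

theorem lm_B {p a n P A p' a' : ℤ} {b : E.B} (hb : b ∈ E.pb P A 0) (hD : E.DB b = 0)
    (hp : p' = p + P) (ha : a' = a + A) {x : TB E X}
    (hx : x ∈ Bt E X p a n) : lm E X b x ∈ Bt E X p' a' n := by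
  subst hp ha
  obtain ⟨v, hv, rfl⟩ := hx
  refine ⟨lm E X b v, ?_, ?_⟩
  · have := lm_mem E X hb hv
    rwa [add_zero] at this
  · exact dT_lm hb hD hv

variable (E X) in
/-- the operator of `b` on homology -/
def op {p a n P A p' a' : ℤ} (b : E.B) (hb : b ∈ E.pb P A 0) (hD : E.DB b = 0)
    (hp : p' = p + P) (ha : a' = a + A) : HT E X p a n →ₗ[K] HT E X p' a' n :=
  HQ.map (lm E X b) (fun _ hx => lm_Z hb hD hp ha hx) (fun _ hx => lm_B hb hD hp ha hx)

theorem op_cl {p a n P A p' a' : ℤ} {b : E.B} {hb : b ∈ E.pb P A 0} {hD : E.DB b = 0}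
    {hp : p' = p + P} {ha : a' = a + A} {u : TB E X} (hu : u ∈ Zt E X p a n) :
    op E X b hb hD hp ha (cl u hu) = cl (lm E X b u) (lm_Z hb hD hp ha hu) := rfl

variable (E X) in
/-- **the family** -/
def fam {g : K} (L : Lt E g) (a0 n : ℤ) : Ex306.Fam K g where
  Y0 a := HT E X 1 (a0 + a) n
  Y1 a := HT E X 2 (a0 + a) n
  x j a := op E X (L.x j) (L.x_mem j) (L.Dx j) (by norm_num) (by ring)
  d j a := op E X (L.d j) (L.d_mem j) (L.Dd j) (by norm_num) (by push_cast; ring)
  h0 a := op E X L.h L.h_mem L.Dh (by norm_num) (by push_cast; ring)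
  h1 a := op E X L.h L.h_mem L.Dh (by norm_num) (by push_cast; ring)
  t0 a := op E X L.t L.t_mem L.Dt (by norm_num) (by push_cast; ring)
  t1 a := op E X L.t L.t_mem L.Dt (by norm_num) (by push_cast; ring)
  ht0 a y := by
    obtain ⟨u, hu, rfl⟩ := cl_surj y
    simp only [op_cl, cl_add, cl_smul]
    refine cl_congr ?_
    rw [← lm_mul, ← lm_mul, ← lm_add, ← lm_smul, ← lm_add, ← L.ht0]
  ht1 a y := by
    obtain ⟨u, hu, rfl⟩ := cl_surj y
    simp only [op_cl, cl_add, cl_smul]
    refine cl_congr ?_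
    rw [← lm_mul, ← lm_mul, ← lm_smul, ← lm_smul, ← lm_add, ← lm_smul, ← lm_add, ← L.ht1]
  xt j a y := by
    obtain ⟨u, hu, rfl⟩ := cl_surj y
    simp only [op_cl, cl_smul]
    refine cl_congr ?_
    rw [← lm_mul, ← lm_mul, ← lm_smul, L.xt]
  td j a y := by
    obtain ⟨u, hu, rfl⟩ := cl_surj y
    simp only [op_cl, cl_smul]
    rw [cl_eq, ← lm_mul, ← lm_mul, ← lm_smul, L.td, lm_add, add_sub_cancel_left]
    refine ⟨lm E X (L.z j) u, ?_, ?_⟩
    · have := lm_mem E X (L.z_mem j) hu.1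
      rwa [show (2 : ℤ) + -1 = 1 by norm_num,
        show a0 + (a : ℤ) + 2 = a0 + ((a + 1 + 1 : ℕ) : ℤ) by push_cast; ring] at this
    · have h1 : dT E X n u = 0 := hu.2
      have h3 : dT E X (n + 1) (lm E X (L.z j) u) = dM E X (n + 1).toNat (lm E X (L.z j) u) := rfl
      rw [h3, dM_lm, dM_eq E X hu.1 (by omega), h1, map_zero, add_zero]
  xh j a y := by
    obtain ⟨u, hu, rfl⟩ := cl_surj y
    simp only [op_cl]
    refine cl_congr ?_
    rw [← lm_mul, ← lm_mul, L.xh]
  hd j a y := by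
    obtain ⟨u, hu, rfl⟩ := cl_surj y
    simp only [op_cl]
    refine cl_congr ?_
    rw [← lm_mul, ← lm_mul, L.hd]




theorem Lt.th_mem {g : K} (L : Lt E g) (l : K) : L.t + l • L.h ∈ E.pb 0 1 0 :=
  Submodule.add_mem _ L.t_mem (Submodule.smul_mem _ _ L.h_mem)

theorem Lt.th_D {g : K} (L : Lt E g) (l : K) : E.DB (L.t + l • L.h) = 0 := by
  rw [map_add, map_smul, L.Dt, L.Dh, smul_zero, add_zero]


theorem th1_eq {g : K} (L : Lt E g) (a0 n : ℤ) (l : K) (a : ℕ) (y : HT E X 2 (a0 + a) n) :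
    (fam E X L a0 n).th1 l a y = op E X (L.t + l • L.h) (L.th_mem l) (L.th_D l) (by norm_num)
      (by push_cast; ring) y := by
  obtain ⟨u, hu, rfl⟩ := cl_surj y
  change cl (p := 2) (a := a0 + ((a + 1 : ℕ) : ℤ)) (lm E X L.t u + l • lm E X L.h u)
    (Submodule.add_mem _ (lm_Z L.t_mem L.Dt (by norm_num) (by push_cast; ring) hu)
      (Submodule.smul_mem _ l (lm_Z L.h_mem L.Dh (by norm_num) (by push_cast; ring) hu))) =
    cl (lm E X (L.t + l • L.h) u) (lm_Z (L.th_mem l) (L.th_D l) (by norm_num)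
      (by push_cast; ring) hu)
  refine cl_congr ?_
  rw [lm_add, lm_smul]





end Crest.Agent.R186.HL462
end

-- ▼ part R186/Rel_306
section

/-!
Row 186, half (A), short road (helper306): the relations of `Ex306.Fam` as identities in `R π`:
`x, d, h, t` (exact ones) and `t d_j = g d_j t` up to the boundary `D z`.
-/

set_option autoImplicit false

namespace Crest.Agent.R186.Rel306

open Crest.Agent.R186.VOp220 Crest.Agent.R186.DefsQ830 Crest.Agent.R186.Vmod220
open Crest.Agent.R186.Der580 Crest.Agent.R186.Cells221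
open Crest.Agent.R186.DefsQ830.Gen

variable {K : Type} [Field K] (π : Par K)

/-- `t` through `d x` (field `ht0`) -/
theorem ht0 : tR π = X π h + (π.g - 1) • (X π (d 0) * X π (x 0) + X π (d 1) * X π (x 1)) := rfl

/-- `g² t` through `x d` (field `ht1`) -/
theorem ht1 : π.g ^ 2 • tR π =
    X π h + (π.g - 1) • (X π (x 0) * X π (d 0) + π.g • (X π (x 1) * X π (d 1))) := by
  rw [ht0, r_x0d0, r_x1d1]
  generalize X π h = u
  generalize X π (d 0) * X π (x 0) = v
  generalize X π (d 1) * X π (x 1) = w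
  match_scalars <;> ring

/-- `x_j t = g t x_j` (field `xt`) -/
theorem xt (j : Fin 2) : X π (x j) * tR π = π.g • (tR π * X π (x j)) := by
  have two := π.two
  have cp : CharP K 2 := CharTwo.of_one_ne_zero_of_two_eq_zero one_ne_zero two
  revert j
  fin2 <;> (simp only [tR]; idR)

/-- `x_j h = h x_j` (field `xh`) -/
theorem xh (j : Fin 2) : X π (x j) * X π h = X π h * X π (x j) := r_h_x π j

/-- `d_j h = h d_j` (field `hd`) -/
theorem dh (j : Fin 2) : X π (d j) * X π h = X π h * X π (d j) := r_h_d π j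


/-- `t d_0 + g d_0 t` is a boundary (field `td`) -/
theorem td0 : tR π * X π (d 0) + π.g • (X π (d 0) * tR π) =
    ((π.g - 1) * (π.c 1)⁻¹) • D π (X π (z 1)) := by
  have two := π.two
  have cp : CharP K 2 := CharTwo.of_one_ne_zero_of_two_eq_zero one_ne_zero two
  have g0 := π.g0
  rw [D_X]
  simp only [tR, dGen, rF, map_mul, map_add, map_smul, mk_L]
  idR

/-- `t d_1 + g d_1 t` is a boundary (field `td`) -/
theorem td1 : tR π * X π (d 1) + π.g • (X π (d 1) * tR π) =
    ((π.g - 1) * (π.c 0)⁻¹) • D π (X π (z 0)) := by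
  have two := π.two
  have cp : CharP K 2 := CharTwo.of_one_ne_zero_of_two_eq_zero one_ne_zero two
  have g0 := π.g0
  rw [D_X]
  simp only [tR, dGen, rF, map_mul, map_add, map_smul, mk_L]
  idR

/-! the four products `d_i x_j` through `x_k d_l` (the forms `n i j` of `Ex_306`) -/





end Crest.Agent.R186.Rel306
end

-- ▼ part R186/LtR_654

/-!
Row 186 (A), short road of helper306, leaf (H) (helper654): the concrete letters
`x_j, d_j, h, t, z_j` of `R'` as 462's structure `Lt` over `E := ev (CEr π s hs)`; the adapter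
`Lt → XDHT`; the table of the sixteen cells in these letters.
-/

set_option autoImplicit false
set_option linter.style.haveILetI false

noncomputable section

namespace Crest.Agent.R186.LtR654

open DefsQ830 PBW128 Win810 SM890 WL221 C2b44 Cells221 KHc302 HL462
open DefsQ830.Gen

/-- 462's letters as letters of the row system -/
def xdht {K : Type} [Field K] {w : WD K} {E : KHev302.CE w} {g : K} (L : HL462.Lt E g)
    (X : Frame515.LCells w.dga) : FamU654.XDHT (FamU654.rowSys E X) g where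
  x := L.x
  d := L.d
  s := L.z
  h := L.h
  t := L.t
  x_mem := L.x_mem
  d_mem := L.d_mem
  s_mem := L.z_mem
  h_mem := L.h_mem
  t_mem := L.t_mem
  x_D := L.Dx
  d_D := L.Dd
  h_D := L.Dh
  t_D := L.Dt
  ht0 := L.ht0
  ht1 := L.ht1
  xt := L.xt
  td := L.td
  xh := L.xh
  hd := L.hd

variable {K : Type} [Field K] (π : Par K)

theorem x_pcZ (j : Fin 2) : X π (x j) ∈ pcZ π 1 0 0 := by
  have h := PBW128.X_mem_pc π (x j)
  rw [← pcZ_nat] at h
  exact h

theorem d_pcZ (j : Fin 2) : X π (d j) ∈ pcZ π (-1) 1 0 := by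
  have h := PBW128.X_mem_pc π (d j)
  rw [← pcZ_nat] at h
  exact h

theorem h_pcZ : X π h ∈ pcZ π 0 1 0 := by
  have h := PBW128.X_mem_pc π .h
  rw [← pcZ_nat] at h
  exact h

theorem z_pcZ (j : Fin 2) : X π (z j) ∈ pcZ π (-1) 2 1 := by
  have h := PBW128.X_mem_pc π (z j)
  rw [← pcZ_nat] at h
  exact h

theorem tR_pcZ : tR π ∈ pcZ π 0 1 0 := by
  have h := Cells221.tR_mem π
  rw [← pcZ_nat] at h
  exact h

/-! ### the letters of `R'` -/

def xL (j : Fin 2) : RL π := prL π (X π (x j))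
def dL (j : Fin 2) : RL π := prL π (X π (d j))
def hL : RL π := prL π (X π h)
def tL : RL π := prL π (tR π)
def zL (j : Fin 2) : RL π := prL π (X π (z j))

/-- `t d_j + g d_j t = D (zc j)` -/
def zcL (j : Fin 2) : RL π :=
  if j = 0 then ((π.g - 1) * (π.c 1)⁻¹) • zL π 1 else ((π.g - 1) * (π.c 0)⁻¹) • zL π 0

theorem DX (a : DefsQ830.Gen) (ha : dGen π a = 0) : WL221.DL π (prL π (X π a)) = 0 := by
  rw [DL_prL, Der580.D_X, ha, map_zero, map_zero]

theorem zcL_mem (j : Fin 2) : zcL π j ∈ pcL π (-1) 2 1 := by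
  unfold zcL
  split_ifs
  · exact Submodule.smul_mem _ _ (prL_mem (z_pcZ π 1))
  · exact Submodule.smul_mem _ _ (prL_mem (z_pcZ π 0))

theorem add_two {a b c : RL π} (h : a + b = c) : a = b + c := by
  rw [← h, ← add_assoc, add_comm b a, add_assoc, RL_two, add_zero]

theorem td_L (j : Fin 2) : tL π * dL π j = π.g • (dL π j * tL π) + WL221.DL π (zcL π j) := by
  rcases f2 j with rfl | rfl
  · have h := congrArg (prL π) (Rel306.td0 π)
    simp only [map_add, map_mul, map_smul] at h
    rw [← DL_prL] at h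
    have e : WL221.DL π (zcL π 0) = ((π.g - 1) * (π.c 1)⁻¹) • WL221.DL π (zL π 1) := by
      rw [← map_smul]; rfl
    rw [e]
    exact add_two π h
  · have h := congrArg (prL π) (Rel306.td1 π)
    simp only [map_add, map_mul, map_smul] at h
    rw [← DL_prL] at h
    have e : WL221.DL π (zcL π 1) = ((π.g - 1) * (π.c 0)⁻¹) • WL221.DL π (zL π 0) := by
      rw [← map_smul]; rfl
    rw [e]
    exact add_two π h

theorem ht0_L : tL π = hL π + (π.g - 1) • (dL π 0 * xL π 0 + dL π 1 * xL π 1) := by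
  have h := congrArg (prL π) (Rel306.ht0 π)
  simp only [map_add, map_mul, map_smul] at h
  exact h

theorem ht1_L : π.g ^ 2 • tL π =
    hL π + (π.g - 1) • (xL π 0 * dL π 0 + π.g • (xL π 1 * dL π 1)) := by
  have h := congrArg (prL π) (Rel306.ht1 π)
  simp only [map_add, map_mul, map_smul] at h
  exact h

theorem xt_L (j : Fin 2) : xL π j * tL π = π.g • (tL π * xL π j) := by
  have h := congrArg (prL π) (Rel306.xt π j)
  simp only [map_mul, map_smul] at h
  exact h

theorem xh_L (j : Fin 2) : xL π j * hL π = hL π * xL π j := by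
  have h := congrArg (prL π) (Rel306.xh π j)
  simp only [map_mul] at h
  exact h

theorem hd_L (j : Fin 2) : hL π * dL π j = dL π j * hL π := by
  have h := congrArg (prL π) (Rel306.dh π j)
  simp only [map_mul] at h
  exact h.symm

theorem DtL : WL221.DL π (tL π) = 0 := by
  change WL221.DL π (prL π (tR π)) = 0
  rw [DL_prL, D_tR, map_zero]

variable (s : ℕ) (hs : 5 ≤ s)

/-- the concrete closing data, 302's first form -/
abbrev Er : KHev302.CE (WG π s (two_le hs)) := CEbr247.ev (CEr π s hs)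

/-- **the concrete letters** -/
def lt : HL462.Lt (Er π s hs) π.g where
  x := xL π
  d := dL π
  h := hL π
  t := tL π
  z := zcL π
  x_mem j := prL_mem (x_pcZ π j)
  d_mem j := prL_mem (d_pcZ π j)
  h_mem := prL_mem (h_pcZ π)
  t_mem := prL_mem (tR_pcZ π)
  z_mem := zcL_mem π
  Dx _ := DX π _ rfl
  Dd _ := DX π _ rfl
  Dh := DX π _ rfl
  Dt := DtL π
  ht0 := ht0_L π
  ht1 := ht1_L π
  xt := xt_L π
  td := td_L π
  xh := xh_L π
  hd := hd_L π

/-! ### the table of the sixteen cells -/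

section table


theorem cc_zd0 (j : Fin 2) : cL π (some (.z j)) (some (.d 0)) = xL π j * dL π 1 :=
  map_mul (prL π) _ _

theorem cc_zd1 (j : Fin 2) : cL π (some (.z j)) (some (.d 1)) = π.g • (xL π j * dL π 0) := by
  change prL π (π.g • (X π (x j) * X π (d 0))) = _
  rw [map_smul, map_mul]
  rfl




theorem cc_ef (j : Fin 2) : cL π (some (.e j)) (some .f) = π.c j • dL π j :=
  map_smul (prL π) _ _

theorem cc_ge0 (j : Fin 2) : cL π (some (.gj j)) (some (.e 0)) =
    ((π.c j)⁻¹ * π.g) • (xL π j * dL π 1) := by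
  change prL π (((π.c j)⁻¹ * π.g) • (X π (x j) * X π (d 1))) = _
  rw [map_smul, map_mul]
  rfl

theorem cc_ge1 (j : Fin 2) : cL π (some (.gj j)) (some (.e 1)) =
    ((π.c j)⁻¹ * π.g ^ 3) • (xL π j * dL π 0) := by
  change prL π (((π.c j)⁻¹ * π.g ^ 3) • (X π (x j) * X π (d 0))) = _
  rw [map_smul, map_mul]
  rfl

theorem cc_gg0 : cL π (some .gc) (some (.gj 0)) = (π.c 1)⁻¹ • xL π 1 :=
  map_smul (prL π) _ _

theorem cc_gg1 : cL π (some .gc) (some (.gj 1)) = (π.c 0)⁻¹ • xL π 0 :=
  map_smul (prL π) _ _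

theorem cc_vu (i : Fin 2) : cL π (some (.v i)) (some (.u i)) = tL π + (π.g ^ 2)⁻¹ • hL π := by
  change prL π (if i = i then tR π + (π.g ^ 2)⁻¹ • X π h else 0) = _
  rw [if_pos rfl, map_add, map_smul]
  rfl

/-- the other entries between adjacent levels vanish -/
theorem cc_zero (l l' : Cell) (h1 : cdeg l = cdeg l' + 1) (h2 : ZZH380.tab l l' = false) :
    cL π l l' = 0 := by
  have key : C2b44.c0 π l l' = 0 := by
    rcases l with _ | l
    · rfl
    rcases l' with _ | l'
    · exfalso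
      cases l <;> simp [ZZH380.tab, cdeg] at h1 h2 <;> omega
    · cases l <;> cases l' <;> first
        | rfl
        | (exfalso; simp [ZZH380.tab] at h2; done)
        | (exfalso; simp only [cdeg] at h1; omega)
        | skip
      all_goals
        rename_i i j
        have h3 : ¬ (i = j) := fun h => by
          subst h
          simp [ZZH380.tab] at h2
        have h4 : ¬ (j = i) := fun h => h3 h.symm
        simp [C2b44.c0, cf, h4]
  change prL π (C2b44.c0 π l l') = 0
  rw [key, map_zero]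

end table

end Crest.Agent.R186.LtR654
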