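import Crest.Agent.R186.Defs281_128
import Crest.Agent.R186.Inst_823
import Crest.Agent.R186.FDord_757
import Crest.Agent.R186.PDef_580

-- ▼ part R186/BrickS_538
section

/-!
Row 186 (S0281), helper538: the brick statement for the dual chain.

Functions on `Fin m` = functionals on `K[x₀,x₁]_(m-1)`, index `a` = exponent of `x₀`
(or of `x₁`, exchange the two variables).  `op c i j m` = transpose of `x_i d_j`.
-/

set_option autoImplicit false

namespace Crest.Agent.R186.BrickS538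

variable {K : Type*} [Field K]

/-- transpose of the Euler operator of the indexing variable: `x^a ↦ c a x^a` -/
def eu (c : ℤ → K) (m : ℕ) : (Fin m → K) →ₗ[K] (Fin m → K) where
  toFun f a := c (a : ℤ) * f a
  map_add' f g := by funext a; simp [mul_add]
  map_smul' r f := by funext a; simp [mul_left_comm]

/-- transpose of the Euler operator of the other variable: `x^a ↦ c (m - 1 - a) x^a` -/
def ev (c : ℤ → K) (m : ℕ) : (Fin m → K) →ₗ[K] (Fin m → K) where
  toFun f a := c ((m : ℤ) - 1 - a) * f a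
  map_add' f g := by funext a; simp [mul_add]
  map_smul' r f := by funext a; simp [mul_left_comm]

/-- transpose of `x^a ↦ c a x^(a-1)` (times the other variable) -/
def sd (c : ℤ → K) (m : ℕ) : (Fin m → K) →ₗ[K] (Fin m → K) where
  toFun f a := c (a : ℤ) * if h : 0 < (a : ℕ) then f ⟨a - 1, by omega⟩ else 0
  map_add' f g := by
    funext a
    by_cases h : 0 < (a : ℕ)
    · simp only [h, dite_true, Pi.add_apply, mul_add]
    · simp only [h, dite_false, Pi.add_apply, mul_zero, add_zero]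
  map_smul' r f := by
    funext a
    by_cases h : 0 < (a : ℕ)
    · simp only [h, dite_true, Pi.smul_apply, smul_eq_mul, RingHom.id_apply]; ring
    · simp only [h, dite_false, Pi.smul_apply, smul_eq_mul, mul_zero]

/-- transpose of `x^a ↦ c (m-1-a) x^(a+1)` -/
def su (c : ℤ → K) (m : ℕ) : (Fin m → K) →ₗ[K] (Fin m → K) where
  toFun f a := c ((m : ℤ) - 1 - a) * if h : (a : ℕ) + 1 < m then f ⟨a + 1, h⟩ else 0
  map_add' f g := by
    funext a
    by_cases h : (a : ℕ) + 1 < m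
    · simp only [h, dite_true, Pi.add_apply, mul_add]
    · simp only [h, dite_false, Pi.add_apply, mul_zero, add_zero]
  map_smul' r f := by
    funext a
    by_cases h : (a : ℕ) + 1 < m
    · simp only [h, dite_true, Pi.smul_apply, smul_eq_mul, RingHom.id_apply]; ring
    · simp only [h, dite_false, Pi.smul_apply, smul_eq_mul, mul_zero]

/-- a map between function spaces commuting with the two Euler operators vanishes for
different degrees -/
theorem zero_of_ne {c : ℤ → K} (hc : Function.Injective c) {m m' : ℕ} (hm : m ≠ m')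
    (δ : (Fin m → K) →ₗ[K] (Fin m' → K)) (h1 : ∀ x, δ (eu c m x) = eu c m' (δ x))
    (h2 : ∀ x, δ (ev c m x) = ev c m' (δ x)) : δ = 0 := by
  classical
  refine LinearMap.pi_ext' fun a => LinearMap.ext_ring ?_
  funext b
  show δ (Pi.single a 1) b = 0
  by_contra hne
  have e1 : eu c m (Pi.single a 1) = c (a : ℤ) • Pi.single a (1 : K) := by
    funext i
    by_cases hi : i = a
    · subst hi; simp [eu]
    · simp [eu, hi]
  have e2 : ev c m (Pi.single a 1) = c ((m : ℤ) - 1 - a) • Pi.single a (1 : K) := by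
    funext i
    by_cases hi : i = a
    · subst hi; simp [ev]
    · simp [ev, hi]
  have f1 := congrFun (h1 (Pi.single a 1)) b
  have f2 := congrFun (h2 (Pi.single a 1)) b
  rw [e1, map_smul] at f1
  rw [e2, map_smul] at f2
  have g1 : c (a : ℤ) = c (b : ℤ) := mul_right_cancel₀ hne f1
  have g2 : c ((m : ℤ) - 1 - a) = c ((m' : ℤ) - 1 - b) := mul_right_cancel₀ hne f2
  have := hc g1
  have := hc g2
  omega

/-- in the same degree it is a scalar as soon as it commutes with the shift -/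
theorem scalar_of_comm {c : ℤ → K} (hc : Function.Injective c) (h0 : c 0 = 0) {m : ℕ}
    (δ : (Fin m → K) →ₗ[K] (Fin m → K)) (h1 : ∀ x, δ (eu c m x) = eu c m (δ x))
    (h3 : ∀ x, δ (sd c m x) = sd c m (δ x)) : ∃ r : K, δ = r • LinearMap.id := by
  classical
  have e1 : ∀ a : Fin m, eu c m (Pi.single a 1) = c (a : ℤ) • Pi.single a (1 : K) := by
    intro a
    funext i
    by_cases hi : i = a
    · subst hi; simp [eu]
    · simp [eu, hi]
  have dg : ∀ a b : Fin m, a ≠ b → δ (Pi.single a 1) b = 0 := by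
    intro a b hab
    by_contra hne
    have f1 := congrFun (h1 (Pi.single a 1)) b
    rw [e1, map_smul] at f1
    have g1 : c (a : ℤ) = c (b : ℤ) := mul_right_cancel₀ hne f1
    have := hc g1
    exact hab (Fin.ext (by omega))
  have dg' : ∀ a : Fin m, δ (Pi.single a 1) = δ (Pi.single a 1) a • Pi.single a (1 : K) := by
    intro a
    funext b
    by_cases hb : b = a
    · subst hb; simp
    · rw [dg a b (Ne.symm hb)]; simp [hb]
  have st : ∀ a b : Fin m, (a : ℕ) = b + 1 → δ (Pi.single a 1) a = δ (Pi.single b 1) b := by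
    intro a b hab
    have e3 : sd c m (Pi.single b 1) = c (a : ℤ) • Pi.single a (1 : K) := by
      funext i
      by_cases hi : i = a
      · subst hi
        have hpos : 0 < (i : ℕ) := by omega
        have : (⟨(i : ℕ) - 1, by omega⟩ : Fin m) = b := Fin.ext (by simp; omega)
        simp [sd, hpos, this]
      · by_cases hpos : 0 < (i : ℕ)
        · have : (⟨(i : ℕ) - 1, by omega⟩ : Fin m) ≠ b := by
            intro h
            have := congrArg Fin.val h
            simp only at this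
            exact hi (Fin.ext (by omega))
          simp [sd, hpos, this, hi]
        · simp [sd, hpos, hi]
    have f3 := congrFun (h3 (Pi.single b 1)) a
    rw [e3, map_smul, dg' b, map_smul, e3] at f3
    simp only [Pi.smul_apply, smul_eq_mul, Pi.single_eq_same, mul_one] at f3
    have hca : c (a : ℤ) ≠ 0 := by
      rw [← h0]
      intro h
      have := hc h
      omega
    rw [mul_comm] at f3
    exact mul_right_cancel₀ hca f3
  rcases Nat.eq_zero_or_pos m with rfl | hm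
  · exact ⟨0, by ext x b; exact b.elim0⟩
  · refine ⟨δ (Pi.single ⟨0, hm⟩ 1) ⟨0, hm⟩, ?_⟩
    have all : ∀ (k : ℕ) (hk : k < m), δ (Pi.single ⟨k, hk⟩ 1) ⟨k, hk⟩ =
        δ (Pi.single ⟨0, hm⟩ 1) ⟨0, hm⟩ := by
      intro k
      induction k with
      | zero => intro _; rfl
      | succ k ih =>
        intro hk
        rw [st ⟨k + 1, hk⟩ ⟨k, by omega⟩ rfl, ih]
    refine LinearMap.pi_ext' fun a => LinearMap.ext_ring ?_
    show δ (Pi.single a 1) = δ (Pi.single ⟨0, hm⟩ 1) ⟨0, hm⟩ • Pi.single a (1 : K)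
    rw [dg' a, all a.1 a.2]

/-- the operators on the pairs -/
def pr (op : (m : ℕ) → (Fin m → K) →ₗ[K] (Fin m → K)) (n : ℕ) :
    ((Fin (n + 1) → K) × (Fin n → K)) →ₗ[K] ((Fin (n + 1) → K) × (Fin n → K)) :=
  LinearMap.prodMap (op (n + 1)) (op n)

/-- the shape of the connecting maps -/
theorem brick_form {c : ℤ → K} (hc : Function.Injective c) (h0 : c 0 = 0) (n : ℕ)
    (δ : ((Fin (n + 1) → K) × (Fin n → K)) →ₗ[K] ((Fin (n + 2) → K) × (Fin (n + 1) → K)))
    (h1 : ∀ x, δ (pr (eu c) n x) = pr (eu c) (n + 1) (δ x))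
    (h2 : ∀ x, δ (pr (ev c) n x) = pr (ev c) (n + 1) (δ x))
    (h3 : ∀ x, δ (pr (sd c) n x) = pr (sd c) (n + 1) (δ x)) :
    ∃ r : K, ∀ x, δ x = (0, r • x.1) := by
  have i1 : ∀ (op : (m : ℕ) → (Fin m → K) →ₗ[K] (Fin m → K)) (x : Fin (n + 1) → K),
      pr op n (x, 0) = (op (n + 1) x, 0) := fun op x => by simp [pr]
  have i2 : ∀ (op : (m : ℕ) → (Fin m → K) →ₗ[K] (Fin m → K)) (y : Fin n → K),
      pr op n (0, y) = (0, op n y) := fun op y => by simp [pr]
  -- the four blocks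
  have b11 : LinearMap.fst K _ _ ∘ₗ δ ∘ₗ LinearMap.inl K _ _ = 0 :=
    zero_of_ne hc (m := n + 1) (m' := n + 2) (by omega) _
      (fun x => by
        have := h1 (x, 0)
        rw [i1] at this
        exact congrArg Prod.fst this)
      (fun x => by
        have := h2 (x, 0)
        rw [i1] at this
        exact congrArg Prod.fst this)
  have b12 : LinearMap.fst K _ _ ∘ₗ δ ∘ₗ LinearMap.inr K _ _ = 0 :=
    zero_of_ne hc (m := n) (m' := n + 2) (by omega) _
      (fun x => by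
        have := h1 (0, x)
        rw [i2] at this
        exact congrArg Prod.fst this)
      (fun x => by
        have := h2 (0, x)
        rw [i2] at this
        exact congrArg Prod.fst this)
  have b22 : LinearMap.snd K _ _ ∘ₗ δ ∘ₗ LinearMap.inr K _ _ = 0 :=
    zero_of_ne hc (m := n) (m' := n + 1) (by omega) _
      (fun x => by
        have := h1 (0, x)
        rw [i2] at this
        exact congrArg Prod.snd this)
      (fun x => by
        have := h2 (0, x)
        rw [i2] at this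
        exact congrArg Prod.snd this)
  obtain ⟨r, hr⟩ := scalar_of_comm hc h0 (LinearMap.snd K _ _ ∘ₗ δ ∘ₗ LinearMap.inl K _ _)
    (fun x => by
      have := h1 (x, 0)
      rw [i1] at this
      exact congrArg Prod.snd this)
    (fun x => by
      have := h3 (x, 0)
      rw [i1] at this
      exact congrArg Prod.snd this)
  refine ⟨r, fun x => ?_⟩
  have hx : x = (x.1, 0) + (0, x.2) := by ext <;> simp
  have e1 : δ (x.1, 0) = (0, r • x.1) := by
    refine Prod.ext ?_ ?_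
    · exact congrArg (fun f => f x.1) b11
    · exact congrArg (fun f => f x.1) hr
  have e2 : δ (0, x.2) = 0 := by
    refine Prod.ext ?_ ?_
    · exact congrArg (fun f => f x.2) b12
    · exact congrArg (fun f => f x.2) b22
  rw [show δ x = δ ((x.1, 0) + (0, x.2)) from congrArg δ hx, map_add, e1, e2, add_zero]

variable (K) in
/-- the second component -/
def S (n : ℕ) : Submodule K ((Fin (n + 1) → K) × (Fin n → K)) :=
  LinearMap.ker (LinearMap.fst K _ _)

theorem S_zero : S K 0 = ⊥ := by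
  refine (Submodule.eq_bot_iff _).2 fun x hx => ?_
  have : x.1 = 0 := hx
  refine Prod.ext this ?_
  funext a
  exact a.elim0

/-- **the brick statement** -/
theorem brick {c : ℤ → K} (hc : Function.Injective c) (h0 : c 0 = 0) (n : ℕ)
    (δ : ((Fin (n + 1) → K) × (Fin n → K)) →ₗ[K] ((Fin (n + 2) → K) × (Fin (n + 1) → K)))
    (hδ : δ ≠ 0)
    (h1 : ∀ x, δ (pr (eu c) n x) = pr (eu c) (n + 1) (δ x))
    (h2 : ∀ x, δ (pr (ev c) n x) = pr (ev c) (n + 1) (δ x))
    (h3 : ∀ x, δ (pr (sd c) n x) = pr (sd c) (n + 1) (δ x)) :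
    LinearMap.ker δ = S K n ∧ LinearMap.range δ = S K (n + 1) := by
  obtain ⟨r, hr⟩ := brick_form hc h0 n δ h1 h2 h3
  have hr0 : r ≠ 0 := by
    rintro rfl
    refine hδ (LinearMap.ext fun x => ?_)
    rw [hr x, zero_smul]
    rfl
  constructor
  · ext x
    rw [LinearMap.mem_ker, hr x]
    show _ ↔ x.1 = 0
    constructor
    · intro h
      have := congrArg Prod.snd h
      exact (smul_eq_zero.1 this).resolve_left hr0
    · intro h
      rw [h, smul_zero]
      rfl
  · ext y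
    constructor
    · rintro ⟨x, rfl⟩
      rw [hr x]
      exact (rfl : (0 : Fin (n + 2) → K) = 0)
    · intro hy
      have hy1 : y.1 = 0 := hy
      refine ⟨(r⁻¹ • y.2, 0), ?_⟩
      rw [hr]
      refine Prod.ext hy1.symm ?_
      show r • r⁻¹ • y.2 = y.2
      rw [smul_smul, mul_inv_cancel₀ hr0, one_smul]

/-- 128's `q`-numbers are injective -/
theorem cq_inj {K : Type} [Field K] {g : K} (hg : B281.Gen g) :
    Function.Injective (B281.cq g) := by
  intro a b hab
  have h1 : g ^ (-a) - 1 = g ^ (-b) - 1 := by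
    have := congrArg (fun z => z * (g - 1)) hab
    simp only [B281.cq, div_mul_cancel₀ _ hg.sub] at this
    exact this
  by_contra hne
  refine hg.zpow (m := a - b) (sub_ne_zero.2 hne) ?_
  have h2 : g ^ (-a) = g ^ (-b) := by simpa using h1
  have h3 : g ^ a ≠ 0 := zpow_ne_zero _ hg.1
  rw [zpow_sub₀ hg.1]
  rw [zpow_neg, zpow_neg, inv_inj] at h2
  rw [h2, div_self]
  exact zpow_ne_zero _ hg.1

/-- **the brick statement** for 128's `q`-numbers and all four operators `x_i d_j`;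
`op (i, j)`: `(0,0)` and `(1,1)` Euler operators, `(1,0)` and `(0,1)` the shifts -/
noncomputable def op {K : Type} [Field K] (g : K) (t : Fin 2 × Fin 2) (m : ℕ) :
    (Fin m → K) →ₗ[K] (Fin m → K) :=
  if t = (0, 0) then eu (B281.cq g) m else if t = (1, 1) then ev (B281.cq g) m
  else if t = (1, 0) then sd (B281.cq g) m else su (B281.cq g) m

theorem op_zz {K : Type} [Field K] (g : K) : op g (0, 0) = eu (B281.cq g) := by
  funext m
  exact if_pos rfl

theorem op_oo {K : Type} [Field K] (g : K) : op g (1, 1) = ev (B281.cq g) := by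
  funext m
  rw [op, if_neg (by decide), if_pos rfl]

theorem op_oz {K : Type} [Field K] (g : K) : op g (1, 0) = sd (B281.cq g) := by
  funext m
  rw [op, if_neg (by decide), if_neg (by decide), if_pos rfl]

theorem op_zo {K : Type} [Field K] (g : K) : op g (0, 1) = su (B281.cq g) := by
  funext m
  rw [op, if_neg (by decide), if_neg (by decide), if_neg (by decide)]

theorem brick_op {K : Type} [Field K] {g : K} (hg : B281.Gen g) (n : ℕ)
    (δ : ((Fin (n + 1) → K) × (Fin n → K)) →ₗ[K] ((Fin (n + 2) → K) × (Fin (n + 1) → K)))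
    (hδ : δ ≠ 0) (h : ∀ t x, δ (pr (op g t) n x) = pr (op g t) (n + 1) (δ x)) :
    LinearMap.ker δ = S K n ∧ LinearMap.range δ = S K (n + 1) := by
  refine brick (cq_inj hg) (B281.cq_zero g) n δ hδ ?_ ?_ ?_
  · intro x; have := h (0, 0) x; rwa [op_zz] at this
  · intro x; have := h (1, 1) x; rwa [op_oo] at this
  · intro x; have := h (1, 0) x; rwa [op_oz] at this

end Crest.Agent.R186.BrickS538
end

-- ▼ part R186/EV_538
section

/-!
Row 186 (S0281), helper538, leaf B281.EV: the evaluation maps at element level.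

Index `j` = exponent of `x₁`; `mo m j = x₀^(m-j) x₁^j`; `cf n j` = coefficient at `mo n j`;
`tr n M y = Σ_{j ≤ n} cf n j (M j y)` = the trace of `v ↦ M_v y`; `evl n M M' : C n`.
-/

set_option autoImplicit false

namespace Crest.Agent.R186.EV538

open B281

variable {K : Type} [Field K]

/-! ### coefficients -/

theorem X_apply (i : Fin 2) (z : Lau K) (p : ℤ × ℤ) : (X i : Op K) z p = z (p - B281.ev i) := by
  have h : Function.Injective (fun m : ℤ × ℤ => m + B281.ev i) := fun a b h =>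
    add_right_cancel h
  have h1 := Finsupp.mapDomain_apply h z (p - B281.ev i)
  simp only [sub_add_cancel] at h1
  exact h1

theorem D_apply (g : K) (i : Fin 2) (z : Lau K) (p : ℤ × ℤ) :
    (D g i) z p = cq g (co i p + 1) * z (p + B281.ev i) := by
  induction z using Finsupp.induction_linear with
  | zero => simp
  | add a b ha hb => rw [map_add, Finsupp.add_apply, ha, hb, Finsupp.add_apply, mul_add]
  | single m a =>
    rw [D_single]
    by_cases h : m = p + B281.ev i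
    · subst h
      rw [add_sub_cancel_right, Finsupp.single_eq_same, Finsupp.single_eq_same]
      have : co i (p + B281.ev i) = co i p + 1 := by
        fin_cases i <;> simp [co, B281.ev]
      rw [this]
    · rw [Finsupp.single_eq_of_ne' h, mul_zero, Finsupp.single_eq_of_ne']
      intro h1
      exact h (by rw [← h1, sub_add_cancel])

/-- the monomial `x₀^(m-j) x₁^j` -/
noncomputable def mo (m : ℤ) (j : ℕ) : Lau K := Finsupp.single (m - j, (j : ℤ)) 1

/-- the coefficient at `x₀^(n-j) x₁^j` -/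
def cf (n j : ℕ) (f : Lau K) : K := f ((n : ℤ) - j, (j : ℤ))

theorem cf_add (n j : ℕ) (f f' : Lau K) : cf n j (f + f') = cf n j f + cf n j f' := rfl
theorem cf_sub (n j : ℕ) (f f' : Lau K) : cf n j (f - f') = cf n j f - cf n j f' := rfl
theorem cf_smul (n j : ℕ) (c : K) (f : Lau K) : cf n j (c • f) = c * cf n j f := rfl

theorem cf_mo (n i j : ℕ) : cf n i (mo (n : ℤ) j : Lau K) = if i = j then 1 else 0 := by
  unfold cf mo
  rw [Finsupp.single_apply]
  congr 1
  simp only [Prod.mk.injEq, Nat.cast_inj, eq_iff_iff]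
  constructor
  · rintro ⟨_, h⟩; exact h.symm
  · rintro rfl; exact ⟨rfl, rfl⟩

/-- `Σ_{j ≤ n} (coefficient at j of M_j y)` -/
noncomputable def tr (n : ℕ) (M : ℕ → Op K) (y : Lau K) : K :=
  ∑ j ∈ Finset.range (n + 1), cf n j (M j y)

theorem tr_congr {n : ℕ} {M M' : ℕ → Op K} (h : ∀ j, j ≤ n → M j = M' j) (y : Lau K) :
    tr n M y = tr n M' y :=
  Finset.sum_congr rfl fun j hj => by rw [h j (by simpa [Nat.lt_succ_iff] using hj)]

theorem tr_add (n : ℕ) (M M' : ℕ → Op K) (y : Lau K) : tr n (M + M') y = tr n M y + tr n M' y := by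
  unfold tr
  rw [← Finset.sum_add_distrib]
  rfl

theorem tr_smul (n : ℕ) (c : K) (M : ℕ → Op K) (y : Lau K) : tr n (c • M) y = c * tr n M y := by
  unfold tr
  rw [Finset.mul_sum]
  rfl


theorem tr_smul_right (n : ℕ) (M : ℕ → Op K) (c : K) (y : Lau K) :
    tr n M (c • y) = c * tr n M y := by
  unfold tr
  rw [Finset.mul_sum]
  exact Finset.sum_congr rfl fun j _ => by rw [map_smul, cf_smul]

theorem tr_zero_right (n : ℕ) (M : ℕ → Op K) : tr n M 0 = 0 := by
  have := tr_smul_right n M 0 0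
  rwa [zero_smul, zero_mul] at this

/-- the evaluation on pairs of families (`M` of degree `0`, `M'` of degree `1`) -/
noncomputable def evl (n : ℕ) : ((ℕ → Op K) × (ℕ → Op K)) →ₗ[K] ((Fin (n + 1) → K) × (Fin n → K))
    where
  toFun p := (fun b => tr n p.1 (mo n b), fun b => tr n p.2 (mo ((n : ℤ) - 1) b))
  map_add' p q := by
    refine Prod.ext ?_ ?_
    · funext b; exact tr_add _ _ _ _
    · funext b; exact tr_add _ _ _ _
  map_smul' c p := by
    refine Prod.ext ?_ ?_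
    · funext b; exact tr_smul _ _ _ _
    · funext b; exact tr_smul _ _ _ _

theorem evl_congr {n : ℕ} {p q : (ℕ → Op K) × (ℕ → Op K)} (h1 : ∀ j, j ≤ n → p.1 j = q.1 j)
    (h2 : ∀ j, j ≤ n → p.2 j = q.2 j) : evl n p = evl n q := by
  refine Prod.ext ?_ ?_
  · funext b; exact tr_congr h1 _
  · funext b; exact tr_congr h2 _

/-! ### the operators `x_i d_j` -/

theorem XD00 (g : K) (m : ℤ) (b : ℕ) :
    (X 0 : Op K) (D g 0 (mo m b)) = cq g (m - b) • mo m b := by
  unfold mo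
  rw [D_single, X_single, Finsupp.smul_single]
  simp [B281.ev, co]

theorem XD11 (g : K) (m : ℤ) (b : ℕ) :
    (X 1 : Op K) (D g 1 (mo m b)) = cq g b • mo m b := by
  unfold mo
  rw [D_single, X_single, Finsupp.smul_single]
  simp [B281.ev, co]

theorem XD01 (g : K) (m : ℤ) (b : ℕ) :
    (X 0 : Op K) (D g 1 (mo m (b + 1))) = cq g ((b : ℤ) + 1) • mo m b := by
  unfold mo
  rw [D_single, X_single, Finsupp.smul_single]
  have h1 : ((m - ((b + 1 : ℕ) : ℤ), ((b + 1 : ℕ) : ℤ)) : ℤ × ℤ) - B281.ev 1 + B281.ev 0 =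
      (m - b, (b : ℤ)) := by
    refine Prod.ext ?_ ?_
    · simp [B281.ev]; ring
    · simp [B281.ev]
  rw [h1]
  simp [co]

theorem XD01_zero (g : K) (m : ℤ) : (X 0 : Op K) (D g 1 (mo m 0)) = 0 := by
  unfold mo
  rw [D_single, X_single]
  simp [co, cq_zero]

theorem XD10 (g : K) (m : ℤ) (b : ℕ) :
    (X 1 : Op K) (D g 0 (mo m b)) = cq g (m - b) • mo m (b + 1) := by
  unfold mo
  rw [D_single, X_single, Finsupp.smul_single]
  have h1 : ((m - (b : ℤ), (b : ℤ)) : ℤ × ℤ) - B281.ev 0 + B281.ev 1 =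
      (m - ((b + 1 : ℕ) : ℤ), ((b + 1 : ℕ) : ℤ)) := by
    refine Prod.ext ?_ ?_
    · simp [B281.ev]; ring
    · simp [B281.ev]
  rw [h1]
  simp [co]

/-- the index exchange: position of `x_i d_i'` in `BrickS538.op` (index = exponent of `x₁`) -/
def sw (t : Fin 2 × Fin 2) : Fin 2 × Fin 2 := (1 - t.1, 1 - t.2)

/-- `tr` at the monomials of degree `m - 1`, `m` of them -/
theorem tr_op (g : K) (n m : ℕ) (M : ℕ → Op K) (t : Fin 2 × Fin 2) (b : Fin m) :
    tr n M ((X t.1 : Op K) (D g t.2 (mo ((m : ℤ) - 1) b))) =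
      BrickS538.op g (sw t) m (fun b => tr n M (mo ((m : ℤ) - 1) b)) b := by
  obtain ⟨i, j⟩ := t
  fin_cases i <;> fin_cases j
  · show tr n M ((X 0 : Op K) (D g 0 (mo ((m : ℤ) - 1) b))) = BrickS538.op g (1, 1) m _ b
    rw [XD00, tr_smul_right, BrickS538.op_oo]
    rfl
  · show tr n M ((X 0 : Op K) (D g 1 (mo ((m : ℤ) - 1) b))) = BrickS538.op g (1, 0) m _ b
    rw [BrickS538.op_oz]
    show _ = cq g (b : ℤ) * if h : 0 < (b : ℕ) then tr n M (mo ((m : ℤ) - 1) ((b : ℕ) - 1)) else 0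
    obtain ⟨b, hb⟩ := b
    cases b with
    | zero =>
      simp only [Nat.cast_zero, cq_zero, zero_mul]
      rw [XD01_zero, tr_zero_right]
    | succ b =>
      rw [dif_pos (Nat.succ_pos b)]
      simp only [Nat.add_sub_cancel]
      rw [XD01, tr_smul_right]
      push_cast
      rfl
  · show tr n M ((X 1 : Op K) (D g 0 (mo ((m : ℤ) - 1) b))) = BrickS538.op g (0, 1) m _ b
    rw [BrickS538.op_zo, XD10, tr_smul_right]
    show _ = cq g ((m : ℤ) - 1 - b) *
      if h : (b : ℕ) + 1 < m then tr n M (mo ((m : ℤ) - 1) ((b : ℕ) + 1)) else 0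
    split_ifs with h
    · rfl
    · have : (m : ℤ) - 1 - (b : ℕ) = 0 := by
        have := b.2
        omega
      rw [this, cq_zero, zero_mul, zero_mul]
  · show tr n M ((X 1 : Op K) (D g 1 (mo ((m : ℤ) - 1) b))) = BrickS538.op g (0, 0) m _ b
    rw [XD11, tr_smul_right, BrickS538.op_zz]
    rfl

/-- **(et)** right multiplication by `x_i d_i'` -/
theorem evl_op (g : K) (n : ℕ) (p : (ℕ → Op K) × (ℕ → Op K)) (t : Fin 2 × Fin 2) :
    evl n (fun j => p.1 j * (X t.1 * D g t.2), fun j => p.2 j * (X t.1 * D g t.2)) =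
      BrickS538.pr (BrickS538.op g (sw t)) n (evl n p) := by
  refine Prod.ext ?_ ?_
  · funext b
    have := tr_op g n (n + 1) p.1 t b
    rw [show ((n + 1 : ℕ) : ℤ) - 1 = n by push_cast; ring] at this
    exact this
  · funext b
    exact tr_op g n n p.2 t b

/-- the brick statement in this indexing -/
theorem brick_sw {g : K} (hg : Gen g) (n : ℕ)
    (δ : ((Fin (n + 1) → K) × (Fin n → K)) →ₗ[K] ((Fin (n + 2) → K) × (Fin (n + 1) → K)))
    (hδ : δ ≠ 0) (h : ∀ t x, δ (BrickS538.pr (BrickS538.op g (sw t)) n x) =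
      BrickS538.pr (BrickS538.op g (sw t)) (n + 1) (δ x)) :
    LinearMap.ker δ = BrickS538.S K n ∧ LinearMap.range δ = BrickS538.S K (n + 1) := by
  refine BrickS538.brick_op hg n δ hδ fun t x => ?_
  have := h (sw t) x
  have e : sw (sw t) = t := by
    obtain ⟨i, j⟩ := t
    fin_cases i <;> fin_cases j <;> rfl
  rwa [e] at this

/-! ### the column `O(-2)` -/

theorem tr_one (n : ℕ) (l : ℕ → K) {b : ℕ} (hb : b ≤ n) :
    tr n (fun j => l j • (1 : Op K)) (mo n b) = l b := by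
  unfold tr
  rw [Finset.sum_eq_single b]
  · rw [LinearMap.smul_apply, Module.End.one_apply, cf_smul, cf_mo, if_pos rfl, mul_one]
  · intro j _ hj
    rw [LinearMap.smul_apply, Module.End.one_apply, cf_smul, cf_mo, if_neg hj, mul_zero]
  · intro h
    exact absurd (Finset.mem_range.2 (by omega)) h

theorem X0_mo (m : ℤ) (b : ℕ) : (X 0 : Op K) (mo (m - 1) b) = mo m b := by
  unfold mo
  rw [X_single]
  congr 1
  refine Prod.ext ?_ ?_
  · simp [B281.ev]; ring
  · simp [B281.ev]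

theorem X1_mo (m : ℤ) (b : ℕ) : (X 1 : Op K) (mo (m - 1) b) = mo m (b + 1) := by
  unfold mo
  rw [X_single]
  congr 1
  refine Prod.ext ?_ ?_
  · simp [B281.ev]; ring
  · simp [B281.ev]

theorem tr_X (n : ℕ) (μ ν : ℕ → K) {b : ℕ} (hb : b < n) :
    tr n (fun j => μ j • (X 0 : Op K) + ν j • (X 1 : Op K)) (mo ((n : ℤ) - 1) b) =
      μ b + ν (b + 1) := by
  unfold tr
  have h : ∀ j, cf n j ((μ j • (X 0 : Op K) + ν j • (X 1 : Op K)) (mo ((n : ℤ) - 1) b)) =
      (if j = b then μ j else 0) + (if j = b + 1 then ν j else 0) := by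
    intro j
    rw [LinearMap.add_apply, LinearMap.smul_apply, LinearMap.smul_apply, X0_mo, X1_mo, cf_add,
      cf_smul, cf_smul, cf_mo, cf_mo]
    split_ifs <;> simp
  rw [Finset.sum_congr rfl fun j _ => h j, Finset.sum_add_distrib, Finset.sum_ite_eq',
    Finset.sum_ite_eq', if_pos (Finset.mem_range.2 (by omega)),
    if_pos (Finset.mem_range.2 (by omega))]

/-- the values on the column `O(-2)` -/
theorem evl_col (n : ℕ) (l μ ν : ℕ → K) :
    evl n (fun j => l j • (1 : Op K), fun j => μ j • (X 0 : Op K) + ν j • (X 1 : Op K)) =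
      (fun b : Fin (n + 1) => l b, fun b : Fin n => μ b + ν (b + 1)) := by
  refine Prod.ext ?_ ?_
  · funext b
    exact tr_one n l (Nat.lt_succ_iff.1 b.2)
  · funext b
    exact tr_X n μ ν b.2

/-- surjectivity on the column `O(-2)` -/
theorem evl_col_surj (n : ℕ) (c : (Fin (n + 1) → K) × (Fin n → K)) : ∃ l μ : ℕ → K,
    evl n (fun j => l j • (1 : Op K), fun j => μ j • (X 0 : Op K) + (0 : K) • (X 1 : Op K)) = c := by
  refine ⟨fun j => if h : j < n + 1 then c.1 ⟨j, h⟩ else 0,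
    fun j => if h : j < n then c.2 ⟨j, h⟩ else 0, ?_⟩
  rw [evl_col n _ _ (fun _ => 0)]
  refine Prod.ext ?_ ?_
  · funext b
    exact dif_pos b.2
  · funext b
    show (if h : (b : ℕ) < n then c.2 ⟨b, h⟩ else 0) + 0 = c.2 b
    rw [add_zero]
    exact dif_pos b.2


/-! ### the trace identities -/

theorem Pol_apply_neg_right {n : ℤ} {z : Lau K} (hz : z ∈ Pol K n) {a b : ℤ} (hb : b < 0) :
    z (a, b) = 0 := by
  by_contra h
  have := hz (Finsupp.mem_support_iff.2 h)
  have h2 : (0 : ℤ) ≤ b := this.2.1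
  omega

theorem Pol_apply_neg_left {n : ℤ} {z : Lau K} (hz : z ∈ Pol K n) {a b : ℤ} (ha : a < 0) :
    z (a, b) = 0 := by
  by_contra h
  have := hz (Finsupp.mem_support_iff.2 h)
  have h2 : (0 : ℤ) ≤ a := this.1
  omega

theorem cf_DX11 (g : K) (n j : ℕ) (z : Lau K) :
    cf n j (D g 1 ((X 1 : Op K) z)) = cq g ((j : ℤ) + 1) * cf n j z := by
  unfold cf
  rw [D_apply, X_apply]
  simp [B281.ev, co]

theorem cf_DX00 (g : K) (n j : ℕ) (z : Lau K) :
    cf n j (D g 0 ((X 0 : Op K) z)) = cq g ((n : ℤ) - j + 1) * cf n j z := by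
  unfold cf
  rw [D_apply, X_apply]
  simp [B281.ev, co]

theorem cf_DX10 (g : K) (n j : ℕ) (z : Lau K) :
    cf n j (D g 1 ((X 0 : Op K) z)) = cq g ((j : ℤ) + 1) * z ((n : ℤ) - (j + 1), (j : ℤ) + 1) := by
  unfold cf
  rw [D_apply, X_apply]
  simp [B281.ev, co, sub_sub]

theorem cf_DX01 (g : K) (n j : ℕ) (z : Lau K) :
    cf n j (D g 0 ((X 1 : Op K) z)) =
      cq g ((n : ℤ) - j + 1) * z ((n : ℤ) - (j - 1), (j : ℤ) - 1) := by
  unfold cf
  rw [D_apply, X_apply]
  simp only [B281.ev, co]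
  congr 2
  refine Prod.ext ?_ ?_
  · simp; ring
  · simp

/-- cyclicity for `d₁ x₁` and `d₀ x₀` -/
theorem cyc11 (g : K) (n : ℕ) (m : ℕ → Op K) (y : Lau K) :
    tr n (fun j => D g 1 * X 1 * m j - cq g ((j : ℤ) + 1) • m j) y = 0 := by
  refine Finset.sum_eq_zero fun j _ => ?_
  rw [LinearMap.sub_apply, Module.End.mul_apply, Module.End.mul_apply, LinearMap.smul_apply,
    cf_sub, cf_DX11, cf_smul, sub_self]

theorem cyc00 (g : K) (n : ℕ) (m : ℕ → Op K) (y : Lau K) :
    tr n (fun j => D g 0 * X 0 * m j - cq g ((n : ℤ) - j + 1) • m j) y = 0 := by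
  refine Finset.sum_eq_zero fun j _ => ?_
  rw [LinearMap.sub_apply, Module.End.mul_apply, Module.End.mul_apply, LinearMap.smul_apply,
    cf_sub, cf_DX00, cf_smul, sub_self]

/-- cyclicity for `d₁ x₀` (`d₁ x₀ f_j = c_j f_(j-1)`) -/
theorem cyc10 (g : K) (n : ℕ) (m : ℕ → Op K) (y : Lau K) (hy : m n y ∈ Pol K n) :
    tr n (fun j => D g 1 * X 0 * m j - cq g (j : ℤ) • m (j - 1)) y = 0 := by
  have h1 : tr n (fun j => D g 1 * X 0 * m j - cq g (j : ℤ) • m (j - 1)) y =
      ∑ j ∈ Finset.range (n + 1), cq g ((j : ℤ) + 1) * (m j y) ((n : ℤ) - (j + 1), (j : ℤ) + 1) -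
        ∑ j ∈ Finset.range (n + 1), cq g (j : ℤ) * cf n j (m (j - 1) y) := by
    rw [← Finset.sum_sub_distrib]
    refine Finset.sum_congr rfl fun j _ => ?_
    rw [LinearMap.sub_apply, Module.End.mul_apply, Module.End.mul_apply, LinearMap.smul_apply,
      cf_sub, cf_DX10, cf_smul]
  rw [h1, Finset.sum_range_succ, Finset.sum_range_succ' (fun j => cq g (j : ℤ) * _)]
  have h2 : (m n y) ((n : ℤ) - (n + 1), (n : ℤ) + 1) = 0 :=
    Pol_apply_neg_left hy (by omega)
  rw [h2, mul_zero, add_zero, Nat.cast_zero, cq_zero, zero_mul, add_zero, sub_eq_zero]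
  refine Finset.sum_congr rfl fun j _ => ?_
  rw [Nat.add_sub_cancel]
  unfold cf
  push_cast
  rfl

/-- cyclicity for `d₀ x₁` (`d₀ x₁ f_j = c_(n-j) f_(j+1)`) -/
theorem cyc01 (g : K) (n : ℕ) (m : ℕ → Op K) (y : Lau K) (hy : m 0 y ∈ Pol K n) :
    tr n (fun j => D g 0 * X 1 * m j - cq g ((n : ℤ) - j) • m (j + 1)) y = 0 := by
  have h1 : tr n (fun j => D g 0 * X 1 * m j - cq g ((n : ℤ) - j) • m (j + 1)) y =
      ∑ j ∈ Finset.range (n + 1), cq g ((n : ℤ) - j + 1) *
        (m j y) ((n : ℤ) - (j - 1), (j : ℤ) - 1) -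
        ∑ j ∈ Finset.range (n + 1), cq g ((n : ℤ) - j) * cf n j (m (j + 1) y) := by
    rw [← Finset.sum_sub_distrib]
    refine Finset.sum_congr rfl fun j _ => ?_
    rw [LinearMap.sub_apply, Module.End.mul_apply, Module.End.mul_apply, LinearMap.smul_apply,
      cf_sub, cf_DX01, cf_smul]
  rw [h1, Finset.sum_range_succ (fun j => cq g ((n : ℤ) - j) * _), Finset.sum_range_succ']
  have h2 : (m 0 y) ((n : ℤ) - (((0 : ℕ) : ℤ) - 1), ((0 : ℕ) : ℤ) - 1) = 0 :=
    Pol_apply_neg_right hy (by norm_num)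
  rw [h2, mul_zero, add_zero, sub_self, cq_zero, zero_mul, add_zero, sub_eq_zero]
  refine Finset.sum_congr rfl fun j _ => ?_
  have a1 : (n : ℤ) - ((j + 1 : ℕ) : ℤ) + 1 = n - j := by push_cast; ring
  have a2 : (n : ℤ) - (((j + 1 : ℕ) : ℤ) - 1) = n - j := by push_cast; ring
  have a3 : ((j + 1 : ℕ) : ℤ) - 1 = j := by push_cast; ring
  unfold cf
  rw [a1, a2, a3]

/-- the transpose of `d₃`, `s = 1` (525): `m0 s j`, `m1 s j` = the two entries of the value at
(slot `s`, `f_j`) -/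
noncomputable def d3t1 (g : K) (n : ℕ) (m0 m1 : Fin 2 → ℕ → Op K) (j : ℕ) : Op K :=
  D g 1 * X 1 * m0 0 j - cq g ((j : ℤ) + 1) • m0 0 j
    - (D g 1 * X 0 * m1 0 j - cq g (j : ℤ) • m1 0 (j - 1))
    - (D g 0 * X 1 * m0 1 j - cq g ((n : ℤ) - j) • m0 1 (j + 1))
    + (D g 0 * X 0 * m1 1 j - cq g ((n : ℤ) - j + 1) • m1 1 j)

/-- **(c1), `s = 1`** : the traces of boundaries vanish -/
theorem c1_one (g : K) (n : ℕ) (m0 m1 : Fin 2 → ℕ → Op K) (y : Lau K)
    (h1 : m1 0 n y ∈ Pol K n) (h0 : m0 1 0 y ∈ Pol K n) : tr n (d3t1 g n m0 m1) y = 0 := by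
  have e1 := cyc11 g n (m0 0) y
  have e2 := cyc10 g n (m1 0) y h1
  have e3 := cyc01 g n (m0 1) y h0
  have e4 := cyc00 g n (m1 1) y
  have e5 : tr n (d3t1 g n m0 m1) y =
      tr n (fun j => D g 1 * X 1 * m0 0 j - cq g ((j : ℤ) + 1) • m0 0 j) y
      - tr n (fun j => D g 1 * X 0 * m1 0 j - cq g (j : ℤ) • m1 0 (j - 1)) y
      - tr n (fun j => D g 0 * X 1 * m0 1 j - cq g ((n : ℤ) - j) • m0 1 (j + 1)) y
      + tr n (fun j => D g 0 * X 0 * m1 1 j - cq g ((n : ℤ) - j + 1) • m1 1 j) y := by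
    unfold tr
    rw [← Finset.sum_sub_distrib, ← Finset.sum_sub_distrib, ← Finset.sum_add_distrib]
    refine Finset.sum_congr rfl fun j _ => ?_
    rfl
  rw [e5, e1, e2, e3, e4]
  ring

end Crest.Agent.R186.EV538
end

-- ▼ part R186/N0Op_341
section

/-!
Row 186 (S0281), helper341, leaf B281.N0: the operator half.

* `Fil_neg`, `Fil00`, `Fil01` : the pieces of order `< 0` and `0`;
* `X_apply`, `D_apply` : coefficients;
* `tr_K2`, `tr_O0`, `tr_O1` : the traces of the coboundaries vanish;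
* `row_O`, `row_K` : rows of matrices in `A g s`.
-/

set_option autoImplicit false

open Finset Matrix

namespace Crest.Agent.R186.B281

namespace N341

variable {K : Type} [Field K]

theorem Fil_neg {g : K} {k P : ℤ} (hk : k < 0) {T : Op K} (hT : T ∈ Fil g k P) : T = 0 := by
  have h : {T : Op K | ∃ a b : ℕ × ℕ, (b.1 : ℤ) + b.2 ≤ k ∧
      (a.1 : ℤ) + a.2 - (b.1 + b.2) = P ∧ T = mon g a b} = ∅ := by
    ext T
    simp only [Set.mem_ofPred_eq, Set.mem_empty_iff_false, iff_false]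
    rintro ⟨a, b, h1, _⟩
    omega
  unfold Fil at hT
  rw [h, Submodule.span_empty, Submodule.mem_bot] at hT
  exact hT

theorem Fil00 {g : K} {T : Op K} (hT : T ∈ Fil g 0 0) : ∃ c : K, T = c • (1 : Op K) := by
  induction hT using Submodule.span_induction with
  | mem x hx =>
    obtain ⟨⟨a1, a2⟩, ⟨b1, b2⟩, h1, h2, rfl⟩ := hx
    simp only at h1 h2
    have e1 : b1 = 0 := by omega
    have e2 : b2 = 0 := by omega
    have e3 : a1 = 0 := by omega
    have e4 : a2 = 0 := by omega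
    subst e1 e2 e3 e4
    exact ⟨1, by simp [mon]⟩
  | zero => exact ⟨0, by rw [zero_smul]⟩
  | add x y _ _ hx hy =>
    obtain ⟨c, rfl⟩ := hx
    obtain ⟨c', rfl⟩ := hy
    exact ⟨c + c', by rw [add_smul]⟩
  | smul a x _ hx =>
    obtain ⟨c, rfl⟩ := hx
    exact ⟨a * c, by rw [smul_smul]⟩

theorem Fil01 {g : K} {T : Op K} (hT : T ∈ Fil g 0 1) :
    ∃ b c : K, T = b • (X 0 : Op K) + c • (X 1 : Op K) := by
  induction hT using Submodule.span_induction with
  | mem x hx =>
    obtain ⟨⟨a1, a2⟩, ⟨b1, b2⟩, h1, h2, rfl⟩ := hx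
    simp only at h1 h2
    have e1 : b1 = 0 := by omega
    have e2 : b2 = 0 := by omega
    subst e1 e2
    have e3 : (a1 = 1 ∧ a2 = 0) ∨ (a1 = 0 ∧ a2 = 1) := by omega
    rcases e3 with ⟨rfl, rfl⟩ | ⟨rfl, rfl⟩
    · exact ⟨1, 0, by simp [mon]⟩
    · exact ⟨0, 1, by simp [mon]⟩
  | zero => exact ⟨0, 0, by rw [zero_smul, zero_smul, add_zero]⟩
  | add x y _ _ hx hy =>
    obtain ⟨b, c, rfl⟩ := hx
    obtain ⟨b', c', rfl⟩ := hy
    exact ⟨b + b', c + c', by rw [add_smul, add_smul]; abel⟩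
  | smul a x _ hx =>
    obtain ⟨b, c, rfl⟩ := hx
    exact ⟨a * b, a * c, by rw [smul_add, smul_smul, smul_smul]⟩

theorem X_apply (i : Fin 2) (f : Lau K) (m : ℤ × ℤ) : (X i : Op K) f m = f (m - ev i) := by
  have hinj : Function.Injective (fun m : ℤ × ℤ => m + ev i) := fun a b h => add_right_cancel h
  have := Finsupp.mapDomain_apply hinj f (m - ev i)
  simp only [sub_add_cancel] at this
  exact this

theorem D_apply (g : K) (i : Fin 2) (f : Lau K) (m : ℤ × ℤ) :
    D g i f m = cq g (co i m + 1) * f (m + ev i) := by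
  induction f using Finsupp.induction_linear with
  | zero => simp
  | add f f' hf hf' => rw [map_add, Finsupp.add_apply, hf, hf', Finsupp.add_apply, mul_add]
  | single m' a =>
    rw [D_single, Finsupp.single_apply, Finsupp.single_apply]
    have hco : co i (m + ev i) = co i m + 1 := by fin_cases i <;> simp [co, ev]
    by_cases h : m' = m + ev i
    · subst h
      rw [if_pos (by rw [add_sub_cancel_right]), if_pos rfl, hco]
    · rw [if_neg h, if_neg, mul_zero]
      intro h'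
      exact h (by rw [← h', sub_add_cancel])

theorem pol_apply {n : ℤ} {f : Lau K} (hf : f ∈ Pol K n) {m : ℤ × ℤ}
    (hm : ¬ (0 ≤ m.1 ∧ 0 ≤ m.2 ∧ m.1 + m.2 = n)) : f m = 0 := by
  by_contra h
  exact hm (hf (Finsupp.mem_support_iff.2 h))

/-- the trace of the `K₂`-part of a coboundary -/
theorem tr_K2 (n : ℕ) (z0 z1 : ℕ → Lau K) (h0 : ∀ i, z0 i ∈ Pol K n) (h1 : ∀ i, z1 i ∈ Pol K n)
    (h : ∀ i, (X 1 : Op K) (z0 i) = (X 0 : Op K) (z1 i)) :
    ∑ j ∈ range (n + 1), ((z0 (j + 1)) ((n : ℤ) - j, j) - (z1 j) ((n : ℤ) - j, j)) = 0 := by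
  have key : ∀ j : ℕ, (z0 (j + 1)) ((n : ℤ) - j, j) =
      (z1 (j + 1)) ((n : ℤ) - (j + 1 : ℕ), ((j + 1 : ℕ) : ℤ)) := by
    intro j
    have := congrArg (fun f : Lau K => f ((n : ℤ) - j, (j : ℤ) + 1)) (h (j + 1))
    simp only [X_apply] at this
    have e1 : (((n : ℤ) - j, (j : ℤ) + 1) : ℤ × ℤ) - ev 1 = ((n : ℤ) - j, (j : ℤ)) := by
      simp [ev]
    have e2 : (((n : ℤ) - j, (j : ℤ) + 1) : ℤ × ℤ) - ev 0 =
        ((n : ℤ) - (j + 1 : ℕ), ((j + 1 : ℕ) : ℤ)) := by
      simp only [ev, if_true, Prod.mk_sub_mk]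
      push_cast
      congr 1 <;> ring
    rw [e1, e2] at this
    exact this
  have h2 : ∀ j : ℕ, (z0 (j + 1)) ((n : ℤ) - j, j) - (z1 j) ((n : ℤ) - j, j) =
      (fun j : ℕ => (z1 j) ((n : ℤ) - j, (j : ℤ))) (j + 1) -
        (fun j : ℕ => (z1 j) ((n : ℤ) - j, (j : ℤ))) j := fun j => by rw [key]
  refine (Finset.sum_congr rfl fun j _ => h2 j).trans ((Finset.sum_range_sub
    (fun j : ℕ => (z1 j) ((n : ℤ) - j, (j : ℤ))) (n + 1)).trans ?_)
  rw [pol_apply (h1 (n + 1)) (by push_cast; omega)]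
  have h3 : (z1 0) ((n : ℤ) - (0 : ℕ), ((0 : ℕ) : ℤ)) = 0 := by
    have := congrArg (fun f : Lau K => f ((n : ℤ) + 1, (0 : ℤ))) (h 0)
    simp only [X_apply] at this
    have e1 : (((n : ℤ) + 1, (0 : ℤ)) : ℤ × ℤ) - ev 1 = ((n : ℤ) + 1, (-1 : ℤ)) := by
      simp [ev]
    have e2 : (((n : ℤ) + 1, (0 : ℤ)) : ℤ × ℤ) - ev 0 = ((n : ℤ) - (0 : ℕ), ((0 : ℕ) : ℤ)) := by
      simp [ev]
    rw [e1, e2] at this
    rw [← this]
    exact pol_apply (h0 0) (by simp)
  rw [h3, sub_zero]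

/-- coefficients of `x_1 d_1 β` -/
theorem X1D1_apply (g : K) (β : Lau K) (a b : ℤ) :
    (X 1 * D g 1 : Op K) β (a, b) = cq g b * β (a, b) := by
  rw [Module.End.mul_apply, X_apply, D_apply, sub_add_cancel]
  congr 2
  simp [co, ev]

/-- coefficients of `d_0 x_1 β` -/
theorem D0X1_apply (g : K) (β : Lau K) (a b : ℤ) :
    (D g 0 * X 1 : Op K) β (a, b) = cq g (a + 1) * β (a + 1, b - 1) := by
  rw [Module.End.mul_apply, D_apply, X_apply]
  congr 2
  simp [ev]

/-- the trace of the first `O(-1)`-part of a coboundary -/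
theorem tr_O0 (g : K) (n : ℕ) (β : ℕ → Lau K) :
    ∑ j ∈ range (n + 1), (if 0 < j then (cq g j * (β (j - 1)) ((n : ℤ) - j, j) -
      ((X 1 * D g 1 : Op K) (β (j - 1))) ((n : ℤ) - j, j)) else 0) = 0 := by
  refine Finset.sum_eq_zero fun j _ => ?_
  split_ifs
  · rw [X1D1_apply, sub_self]
  · rfl

/-- the trace of the second `O(-1)`-part of a coboundary -/
theorem tr_O1 (g : K) (n : ℕ) (β : ℕ → Lau K) :
    ∑ j ∈ range (n + 1), ((if j < n then - (cq g ((n : ℤ) - j) * (β j) ((n : ℤ) - j, j)) else 0) +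
      (if 0 < j then ((D g 0 * X 1 : Op K) (β (j - 1))) ((n : ℤ) - j, j) else 0)) = 0 := by
  rw [Finset.sum_add_distrib, Finset.sum_range_succ, if_neg (lt_irrefl n), add_zero,
    Finset.sum_range_succ' (fun j : ℕ => if 0 < j then ((D g 0 * X 1 : Op K) (β (j - 1)))
      ((n : ℤ) - j, j) else 0), if_neg (lt_irrefl 0), add_zero, ← Finset.sum_add_distrib]
  refine Finset.sum_eq_zero fun j hj => ?_
  rw [if_pos (Finset.mem_range.1 hj), if_pos (Nat.succ_pos j), D0X1_apply, Nat.add_sub_cancel]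
  have e1 : (n : ℤ) - ((j + 1 : ℕ) : ℤ) + 1 = (n : ℤ) - j := by push_cast; ring
  have e2 : ((j + 1 : ℕ) : ℤ) - 1 = (j : ℤ) := by push_cast; ring
  rw [e1, e2, neg_add_cancel]

/-! ### rows -/

/-- the unit row at an `O`-position -/
theorem unit_O (g : K) (s : ℤ) (i : Fin 7) (hi : (i : ℕ) < 3) :
    (Pi.single i 1 : Fin 7 → Op K) ∈ Lat g s (i : ℕ) 0 := by
  have h0 : (1 : Op K) ∈ Fil g 0 0 := one_mem_Fil g le_rfl
  obtain ⟨i, hi'⟩ := i
  have hi2 : i = 0 ∨ i = 1 ∨ i = 2 := by simp only at hi; omega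
  rcases hi2 with rfl | rfl | rfl
  · refine ⟨?_, ?_, ?_, ⟨?_, ?_, ?_⟩, ?_, ?_, ?_⟩ <;> simp [h0]
  · refine ⟨?_, ?_, ?_, ⟨?_, ?_, ?_⟩, ?_, ?_, ?_⟩ <;> simp [h0]
  · refine ⟨?_, ?_, ?_, ⟨?_, ?_, ?_⟩, ?_, ?_, ?_⟩ <;> simp [h0]

/-- the unit rows of `K₁(-s)` -/
theorem unit_3 (g : K) (s : ℤ) : (Pi.single 3 1 : Fin 7 → Op K) ∈ Lat g s (s + 1) 0 := by
  have h0 : (1 : Op K) ∈ Fil g 1 0 := one_mem_Fil g (by omega)
  have h1 : (X 0 : Op K) ∈ Fil g 0 1 := X_mem_Fil g 0 (by omega)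
  refine ⟨?_, ?_, ?_, ⟨?_, ?_, ?_⟩, ?_, ?_, ?_⟩ <;> simp [h0, h1]

theorem unit_4 (g : K) (s : ℤ) : (Pi.single 4 1 : Fin 7 → Op K) ∈ Lat g s (s + 1) 0 := by
  have h0 : (1 : Op K) ∈ Fil g 1 0 := one_mem_Fil g (by omega)
  have h1 : (X 1 : Op K) ∈ Fil g 0 1 := X_mem_Fil g 1 (by omega)
  refine ⟨?_, ?_, ?_, ⟨?_, ?_, ?_⟩, ?_, ?_, ?_⟩ <;> simp [h0, h1]

/-- the unit rows of `K₂` -/
theorem unit_5 (g : K) (s : ℤ) : (Pi.single 5 1 : Fin 7 → Op K) ∈ Lat g s 2 0 := by
  have h0 : (1 : Op K) ∈ Fil g 2 0 := one_mem_Fil g (by omega)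
  have h1 : (X 0 : Op K) ∈ Fil g 0 1 := X_mem_Fil g 0 (by omega)
  refine ⟨?_, ?_, ?_, ⟨?_, ?_, ?_⟩, ?_, ?_, ?_⟩ <;> simp [h0, h1]

theorem unit_6 (g : K) (s : ℤ) : (Pi.single 6 1 : Fin 7 → Op K) ∈ Lat g s 2 0 := by
  have h0 : (1 : Op K) ∈ Fil g 2 0 := one_mem_Fil g (by omega)
  have h1 : (X 1 : Op K) ∈ Fil g 0 1 := X_mem_Fil g 1 (by omega)
  refine ⟨?_, ?_, ?_, ⟨?_, ?_, ?_⟩, ?_, ?_, ?_⟩ <;> simp [h0, h1]

/-- the Koszul row of `K₂` -/
theorem kos_56 (g : K) (s : ℤ) :
    (X 1 : Op K) • (Pi.single 5 1 : Fin 7 → Op K) - (X 0 : Op K) • (Pi.single 6 1 : Fin 7 → Op K)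
      ∈ Lat g s 0 1 := by
  have h0 : (X 0 : Op K) ∈ Fil g 0 1 := X_mem_Fil g 0 le_rfl
  have h1 : (X 1 : Op K) ∈ Fil g 0 1 := X_mem_Fil g 1 le_rfl
  refine ⟨?_, ?_, ?_, ⟨?_, ?_, ?_⟩, ?_, ?_, ?_⟩ <;> simp [h0, h1, X_comm (1 : Fin 2) 0]


variable {g : K} {s e : ℤ} {M : Mat K}

theorem row_O (hM : Pres g s e M) (i : Fin 7) (hi : (i : ℕ) < 3) : M i ∈ Lat g s (i : ℕ) e := by
  have h := hM _ _ _ (unit_O g s i hi)
  rwa [Matrix.single_one_vecMul, zero_add] at h

theorem row_3 (hM : Pres g s e M) : M 3 ∈ Lat g s (s + 1) e := by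
  have h := hM _ _ _ (unit_3 g s)
  rwa [Matrix.single_one_vecMul, zero_add] at h

theorem row_4 (hM : Pres g s e M) : M 4 ∈ Lat g s (s + 1) e := by
  have h := hM _ _ _ (unit_4 g s)
  rwa [Matrix.single_one_vecMul, zero_add] at h

theorem row_5 (hM : Pres g s e M) : M 5 ∈ Lat g s 2 e := by
  have h := hM _ _ _ (unit_5 g s)
  rwa [Matrix.single_one_vecMul, zero_add] at h

theorem row_6 (hM : Pres g s e M) : M 6 ∈ Lat g s 2 e := by
  have h := hM _ _ _ (unit_6 g s)
  rwa [Matrix.single_one_vecMul, zero_add] at h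

theorem op_smul_vecMul (T : Op K) (v : Fin 7 → Op K) (M : Mat K) :
    (T • v) ᵥ* M = T • (v ᵥ* M) := by
  funext j
  simp only [Matrix.vecMul, dotProduct, Pi.smul_apply, smul_eq_mul, Finset.mul_sum, mul_assoc]

theorem row_56 (hM : Pres g s e M) :
    (fun j => (X 1 : Op K) * M 5 j - (X 0 : Op K) * M 6 j) ∈ Lat g s 0 (1 + e) := by
  have h := hM _ _ _ (kos_56 g s)
  rwa [Matrix.sub_vecMul, op_smul_vecMul, op_smul_vecMul, Matrix.single_one_vecMul,
    Matrix.single_one_vecMul] at h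


/-! entries used by the columns `O(-2)` and `O(-1)` -/

theorem ent02 (hM : Pres g s e M) : M 0 2 = 0 :=
  Fil_neg (by norm_num) (row_O hM 0 (by decide)).2.2.1

theorem ent12 (hM : Pres g s e M) : M 1 2 = 0 :=
  Fil_neg (by norm_num) (row_O hM 1 (by decide)).2.2.1

theorem ent22 (hM : Pres g s e M) : M 2 2 ∈ Fil g 0 e := by
  have := (row_O hM 2 (by decide)).2.2.1
  simpa using this




theorem ent52 (hM : Pres g s e M) : M 5 2 ∈ Fil g 0 e := by
  have := (row_5 hM).2.2.1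
  norm_num at this
  exact this

theorem ent62 (hM : Pres g s e M) : M 6 2 ∈ Fil g 0 e := by
  have := (row_6 hM).2.2.1
  norm_num at this
  exact this

theorem ent51 (hM : Pres g s e M) : M 5 1 ∈ Fil g 1 e := by
  have := (row_5 hM).2.1
  norm_num at this
  exact this

theorem ent61 (hM : Pres g s e M) : M 6 1 ∈ Fil g 1 e := by
  have := (row_6 hM).2.1
  norm_num at this
  exact this

theorem kos2 (hM : Pres g s e M) : (X 1 : Op K) * M 5 2 = X 0 * M 6 2 :=
  sub_eq_zero.1 (Fil_neg (by norm_num) (row_56 hM).2.2.1)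

theorem kos1 (hM : Pres g s e M) : (X 1 : Op K) * M 5 1 = X 0 * M 6 1 :=
  sub_eq_zero.1 (Fil_neg (by norm_num) (row_56 hM).2.1)

/-- `s = 0` : the column `O(-2)` vanishes at `K₁` -/
theorem ent32 (hM : Pres g 0 e M) : M 3 2 = 0 :=
  Fil_neg (by norm_num) (row_3 hM).2.2.1

theorem ent42 (hM : Pres g 0 e M) : M 4 2 = 0 :=
  Fil_neg (by norm_num) (row_4 hM).2.2.1

/-! ### elements -/

/-- a row concentrated at an `O`-position -/
theorem single_mem_O {g : K} {s k P : ℤ} (c : Fin 7) (hc : (c : ℕ) < 3) {t : Op K}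
    (ht : t ∈ Fil g (k - (c : ℕ)) P) : (Pi.single c t : Fin 7 → Op K) ∈ Lat g s k P := by
  obtain ⟨c, hc'⟩ := c
  have hc2 : c = 0 ∨ c = 1 ∨ c = 2 := by simp only at hc; omega
  rcases hc2 with rfl | rfl | rfl
  · have ht' : t ∈ Fil g k P := by simpa using ht
    refine ⟨?_, ?_, ?_, ⟨?_, ?_, ?_⟩, ?_, ?_, ?_⟩ <;> simp [ht']
  · have ht' : t ∈ Fil g (k - 1) P := by simpa using ht
    refine ⟨?_, ?_, ?_, ⟨?_, ?_, ?_⟩, ?_, ?_, ?_⟩ <;> simp [ht']
  · have ht' : t ∈ Fil g (k - 2) P := by simpa using ht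
    refine ⟨?_, ?_, ?_, ⟨?_, ?_, ?_⟩, ?_, ?_, ?_⟩ <;> simp [ht']

theorem vecMul_single (v : Fin 7 → Op K) (i j : Fin 7) (T : Op K) :
    v ᵥ* (Matrix.single i j T : Mat K) = Pi.single j (v i * T) := by
  funext l
  simp only [Matrix.vecMul, dotProduct, Matrix.single_apply, Pi.single_apply]
  rw [Finset.sum_eq_single i]
  · by_cases h : l = j
    · subst h; simp
    · rw [if_neg h, if_neg, mul_zero]
      rintro ⟨-, h'⟩
      exact h h'.symm
  · intro b _ hb
    rw [if_neg, mul_zero]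
    rintro ⟨h', -⟩
    exact hb h'.symm
  · intro h
    exact absurd (Finset.mem_univ i) h

/-- `v i ∈ Fil (k - i) P` at the `O`-positions -/
theorem Lat_O {g : K} {s k P : ℤ} {v : Fin 7 → Op K} (hv : v ∈ Lat g s k P) (i : Fin 7)
    (hi : (i : ℕ) < 3) : v i ∈ Fil g (k - (i : ℕ)) P := by
  obtain ⟨v0, v1, v2, _⟩ := hv
  obtain ⟨i, hi'⟩ := i
  have hi2 : i = 0 ∨ i = 1 ∨ i = 2 := by simp only at hi; omega
  rcases hi2 with rfl | rfl | rfl
  · simpa using v0
  · simpa using v1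
  · simpa using v2

/-- operators of order `≤ i - c` between the `O`-positions `i` and `c` -/
theorem Pres_single {g : K} (hg : Gen g) (s : ℤ) {e : ℤ} (i c : Fin 7) (hi : (i : ℕ) < 3)
    (hc : (c : ℕ) < 3) {T : Op K} (hT : T ∈ Fil g ((i : ℕ) - (c : ℕ)) e) :
    Pres g s e (Matrix.single i c T) := by
  intro k P v hv
  rw [vecMul_single]
  refine single_mem_O c hc ?_
  have := FD757.Fil_mul hg (Lat_O hv i hi) hT
  rwa [show k - ((i : ℕ) : ℤ) + (((i : ℕ) : ℤ) - ((c : ℕ) : ℤ)) = k - ((c : ℕ) : ℤ) by ring] at this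

/-- the line `e_{K₂} A e_{O(-2)}`, in degree one -/
theorem Pres_line {g : K} (s : ℤ) (φ : K) :
    Pres g s 1 (Matrix.single 5 2 (φ • X 0) + Matrix.single 6 2 (φ • X 1)) := by
  intro k P v hv
  rw [Matrix.vecMul_add, vecMul_single, vecMul_single, ← Pi.single_add]
  refine single_mem_O 2 (by decide) ?_
  have h := hv.2.2.2.2.2.2
  rw [mul_smul_comm, mul_smul_comm, ← smul_add]
  exact Submodule.smul_mem _ _ h

end N341

end Crest.Agent.R186.B281
end

-- ▼ part R186/N0A_341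

/-!
Row 186 (S0281), helper341, leaf B281.N0: the column `O(-2)` (and `ev` on the column `O(-1)`)
of `Hom (K(n), A)` for `s = 0`, on the level of `A g s`.
-/

set_option autoImplicit false
set_option linter.unusedSectionVars false

open Finset Matrix

namespace Crest.Agent.R186.B281

namespace N341

variable {K : Type} [Field K] {g : K} {s : ℤ}

/-! ### entries of elements of `eps v * A` -/

theorem fst_eps_mul (x : A g s) (v : Fin 5) (i j : Fin 7) :
    (eps g s v * x).1.fst i j = if blk i = v then x.1.fst i j else 0 := by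
  rw [fst_mulA, eps_fst, idp, Matrix.diagonal_mul]
  split_ifs <;> simp

theorem snd_eps_mul (x : A g s) (v : Fin 5) (i j : Fin 7) :
    (eps g s v * x).1.snd i j = if blk i = v then x.1.snd i j else 0 := by
  rw [snd_mulA, eps_fst, eps_snd, zero_mul, add_zero, idp, Matrix.diagonal_mul]
  split_ifs <;> simp

theorem row_zero {v : Fin 5} {x : A g s} (h : eps g s v * x = x) {i : Fin 7} (hi : blk i ≠ v)
    (j : Fin 7) : x.1.fst i j = 0 ∧ x.1.snd i j = 0 := by
  have h1 := fst_eps_mul x v i j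
  have h2 := snd_eps_mul x v i j
  rw [if_neg hi, h] at h1 h2
  exact ⟨h1, h2⟩

theorem kos_scal {a b : K} (h : (X 1 : Op K) * (a • (1 : Op K)) = X 0 * (b • (1 : Op K))) :
    a = 0 ∧ b = 0 := by
  have h1 := congrArg (fun T : Op K => T (Finsupp.single (0, 0) 1)) h
  simp only [mul_smul_comm, mul_one, LinearMap.smul_apply, X_single] at h1
  constructor
  · have := congrArg (fun f : Lau K => f (0, 1)) h1
    simpa [ev, Finsupp.single_apply] using this
  · have := congrArg (fun f : Lau K => f (1, 0)) h1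
    simpa [ev, Finsupp.single_apply] using this.symm

theorem kos_lin {a b c d : K} (h : (X 1 : Op K) * (a • (X 0 : Op K) + b • (X 1 : Op K)) =
    X 0 * (c • (X 0 : Op K) + d • (X 1 : Op K))) : b = 0 ∧ c = 0 ∧ a = d := by
  have h1 := congrArg (fun T : Op K => T (Finsupp.single (0, 0) 1)) h
  simp only [mul_add, mul_smul_comm, LinearMap.smul_apply, LinearMap.add_apply,
    Module.End.mul_apply, X_single] at h1
  refine ⟨?_, ?_, ?_⟩
  · have := congrArg (fun f : Lau K => f (0, 2)) h1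
    simpa [ev, Finsupp.single_apply] using this
  · have := congrArg (fun f : Lau K => f (2, 0)) h1
    simpa [ev, Finsupp.single_apply] using this.symm
  · have := congrArg (fun f : Lau K => f (1, 1)) h1
    simpa [ev, Finsupp.single_apply] using this

theorem lin_zero {a b : K} (h : a • (X 0 : Op K) + b • (X 1 : Op K) = 0) : a = 0 ∧ b = 0 := by
  have h1 := congrArg (fun T : Op K => T (Finsupp.single (0, 0) 1)) h
  simp only [LinearMap.smul_apply, LinearMap.add_apply, X_single] at h1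
  constructor
  · have := congrArg (fun f : Lau K => f (1, 0)) h1
    simpa [ev, Finsupp.single_apply] using this
  · have := congrArg (fun f : Lau K => f (0, 1)) h1
    simpa [ev, Finsupp.single_apply] using this

theorem blk_ne_two {j : Fin 7} (h : j ≠ 2) : blk j ≠ 2 := by
  revert h; revert j; decide

theorem blk_ne_one {j : Fin 7} (h : j ≠ 1) : blk j ≠ 1 := by
  revert h; revert j; decide

theorem blk_ne_zero {j : Fin 7} (h : j ≠ 0) : blk j ≠ 0 := by
  revert h; revert j; decide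

theorem blk_ne_three {j : Fin 7} (h : j ≠ 3) (h' : j ≠ 4) : blk j ≠ 3 := by
  revert h h'; revert j; decide

theorem blk_ne_four {j : Fin 7} (h : j ≠ 5) (h' : j ≠ 6) : blk j ≠ 4 := by
  revert h h'; revert j; decide

/-! ### the column `O(-2)` -/

theorem col2_ext {x y : A g s} (hx : x ∈ Pv g s 2) (hy : y ∈ Pv g s 2)
    (h : ∀ i, x.1.fst i 2 = y.1.fst i 2) (h' : ∀ i, x.1.snd i 2 = y.1.snd i 2) : x = y := by
  refine A_ext (fun i j => ?_) (fun i j => ?_)
  · by_cases hj : j = 2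
    · subst hj; exact h i
    · rw [(mem_Pv.1 hx i j (blk_ne_two hj)).1, (mem_Pv.1 hy i j (blk_ne_two hj)).1]
  · by_cases hj : j = 2
    · subst hj; exact h' i
    · rw [(mem_Pv.1 hx i j (blk_ne_two hj)).2, (mem_Pv.1 hy i j (blk_ne_two hj)).2]

theorem col2_0 {x : A g s} (hx : x ∈ Pv g s 2) (h : eps g s 0 * x = x) : x = 0 := by
  refine col2_ext hx (zero_mem _) (fun i => ?_) (fun i => ?_)
  · by_cases hi : i = 0
    · subst hi; exact ent02 x.2.1
    · exact (row_zero h (blk_ne_zero hi) 2).1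
  · by_cases hi : i = 0
    · subst hi; exact ent02 x.2.2
    · exact (row_zero h (blk_ne_zero hi) 2).2

theorem col2_1 {x : A g s} (hx : x ∈ Pv g s 2) (h : eps g s 1 * x = x) : x = 0 := by
  refine col2_ext hx (zero_mem _) (fun i => ?_) (fun i => ?_)
  · by_cases hi : i = 1
    · subst hi; exact ent12 x.2.1
    · exact (row_zero h (blk_ne_one hi) 2).1
  · by_cases hi : i = 1
    · subst hi; exact ent12 x.2.2
    · exact (row_zero h (blk_ne_one hi) 2).2

theorem col2_3 {x : A g 0} (hx : x ∈ Pv g 0 2) (h : eps g 0 3 * x = x) : x = 0 := by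
  refine col2_ext hx (zero_mem _) (fun i => ?_) (fun i => ?_)
  · by_cases hi : i = 3
    · subst hi; exact ent32 x.2.1
    · by_cases hi' : i = 4
      · subst hi'; exact ent42 x.2.1
      · exact (row_zero h (blk_ne_three hi hi') 2).1
  · by_cases hi : i = 3
    · subst hi; exact ent32 x.2.2
    · by_cases hi' : i = 4
      · subst hi'; exact ent42 x.2.2
      · exact (row_zero h (blk_ne_three hi hi') 2).2

theorem col2_4 {x : A g s} (hx : x ∈ Pv g s 2) (h : eps g s 4 * x = x) :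
    ∃ φ : K, (∀ i, x.1.fst i 2 = 0) ∧ x.1.snd 5 2 = φ • (X 0 : Op K) ∧
      x.1.snd 6 2 = φ • (X 1 : Op K) := by
  obtain ⟨a, ha⟩ := Fil00 (ent52 x.2.1)
  obtain ⟨b, hb⟩ := Fil00 (ent62 x.2.1)
  have h1 := kos2 x.2.1
  rw [ha, hb] at h1
  obtain ⟨rfl, rfl⟩ := kos_scal h1
  obtain ⟨a1, b1, ha1⟩ := Fil01 (ent52 x.2.2)
  obtain ⟨c1, d1, hc1⟩ := Fil01 (ent62 x.2.2)
  have h2 := kos2 x.2.2
  rw [ha1, hc1] at h2
  obtain ⟨rfl, rfl, rfl⟩ := kos_lin h2
  refine ⟨a1, fun i => ?_, ?_, ?_⟩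
  · by_cases hi : i = 5
    · subst hi; rw [ha, zero_smul]
    · by_cases hi' : i = 6
      · subst hi'; rw [hb, zero_smul]
      · exact (row_zero h (blk_ne_four hi hi') 2).1
  · rw [ha1, zero_smul, add_zero]
  · rw [hc1, zero_smul, zero_add]

theorem col2_2 {x : A g s} (_hx : x ∈ Pv g s 2) : ∃ α β γ : K,
    x.1.fst 2 2 = α • (1 : Op K) ∧ x.1.snd 2 2 = β • (X 0 : Op K) + γ • (X 1 : Op K) := by
  obtain ⟨a, ha⟩ := Fil00 (ent22 x.2.1)
  obtain ⟨b, c, hb⟩ := Fil01 (ent22 x.2.2)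
  exact ⟨a, b, c, ha, hb⟩

/-! ### maps out of the projectives -/

theorem eps_val {v : Fin 5} {Y : Type} [AddCommGroup Y] [Module (A g s) Y]
    (φ : Pv g s v →ₗ[A g s] Y) : eps g s v • φ (Pgen g s v) = φ (Pgen g s v) :=
  Dev580.e_smul_hom (eps_idem g s v) φ


theorem hom_zero {v w : Fin 5} (h : ∀ x : A g s, x ∈ Pv g s w → eps g s v * x = x → x = 0)
    (φ : Pv g s v →ₗ[A g s] Pv g s w) : φ = 0 := by
  refine Dev580.hom_ext (eps_idem g s v) ?_
  have h1 : eps g s v • φ (Pgen g s v) = φ (Pgen g s v) := eps_val φ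
  exact Subtype.ext (h _ (φ (Pgen g s v)).2 (congrArg Subtype.val h1))

theorem H0_col2 {m : ℕ} (f : (Fin m → Pv g s 0) →ₗ[A g s] Pv g s 2) : f = 0 :=
  LinearMap.pi_ext' fun i => (hom_zero (fun x => col2_0) _).trans (LinearMap.zero_comp _).symm

theorem H1_col2 {m : ℕ} (f : (Fin 2 → Fin m → Pv g 0 3) →ₗ[A g 0] Pv g 0 2) : f = 0 :=
  LinearMap.pi_ext' fun _ => (LinearMap.pi_ext' fun _ =>
    (hom_zero (fun x => col2_3) _).trans (LinearMap.zero_comp _).symm).trans
      (LinearMap.zero_comp _).symm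

end N341

end Crest.Agent.R186.B281
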