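import Crest.Agent.R186.EVA_538

/-!
Row 186 (S0281), helper341, leaf B281.N0: `H2`, `k2`, `c1` for the columns `O(-2)`, `O(-1)`, `s = 0`,
for any `d3` with the entries of `K(n)`.
-/

set_option autoImplicit false
set_option linter.unusedSectionVars false

open Finset Matrix

namespace Crest.Agent.R186.B281

namespace GenExp

open Dev580

variable {R : Type} [Ring R] {e f : R} (he : e * e = e) (hf : f * f = f)
  {Y : Type} [AddCommGroup Y] [Module R Y]

theorem pi_expand {m : ℕ} (φ : (Fin m → Pm e) →ₗ[R] Y) (u : Fin m → Pm e) :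
    φ u = ∑ i, (u i : R) • φ (Pi.single i (gen he)) := by
  have h1 : φ = homPi e fun i => φ (Pi.single i (gen he)) := by
    refine hom_pi_ext he fun k => ?_
    rw [homPi_single he, ← map_smul, ← Pi.single_smul, gen_smul]
  conv_lhs => rw [h1]
  exact homPi_apply _ _ _

variable {m n : ℕ}

/-- the values of `h` on the generators of the first part -/
noncomputable def y4 (h : ((Fin m → Pm e) × (Fin 2 → Fin n → Pm f)) →ₗ[R] Y) (i : Fin m) : Y :=
  h (Pi.single i (gen he), 0)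

/-- the values of `h` on the generators of the second part -/
noncomputable def y1 (h : ((Fin m → Pm e) × (Fin 2 → Fin n → Pm f)) →ₗ[R] Y) (l : Fin 2)
    (i : Fin n) : Y := h (0, Pi.single l (Pi.single i (gen hf)))

theorem e_y4 (h : ((Fin m → Pm e) × (Fin 2 → Fin n → Pm f)) →ₗ[R] Y) (i : Fin m) :
    e • y4 he h i = y4 he h i := by
  unfold y4
  rw [← map_smul, Prod.smul_mk, smul_zero, ← Pi.single_smul, gen_smul]

theorem f_y1 (h : ((Fin m → Pm e) × (Fin 2 → Fin n → Pm f)) →ₗ[R] Y) (l : Fin 2) (i : Fin n) :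
    f • y1 hf h l i = y1 hf h l i := by
  unfold y1
  rw [← map_smul, Prod.smul_mk, smul_zero, ← Pi.single_smul, ← Pi.single_smul, gen_smul]

theorem K2_expand (h : ((Fin m → Pm e) × (Fin 2 → Fin n → Pm f)) →ₗ[R] Y)
    (u : (Fin m → Pm e) × (Fin 2 → Fin n → Pm f)) :
    h u = ∑ i, (u.1 i : R) • y4 he h i + (∑ i, (u.2 0 i : R) • y1 hf h 0 i +
      ∑ i, (u.2 1 i : R) • y1 hf h 1 i) := by
  have h0 : u = (u.1, 0) + ((0, Pi.single 0 (u.2 0)) + (0, Pi.single 1 (u.2 1))) := by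
    refine Prod.ext ?_ ?_
    · show u.1 = u.1 + (0 + 0)
      rw [add_zero, add_zero]
    · show u.2 = 0 + (Pi.single 0 (u.2 0) + Pi.single 1 (u.2 1))
      funext l
      fin_cases l
      · simp
      · simp
  conv_lhs => rw [h0]
  rw [map_add, map_add]
  have e1 := pi_expand he (h ∘ₗ LinearMap.inl R _ _) u.1
  have e2 := pi_expand hf (h ∘ₗ LinearMap.inr R _ _ ∘ₗ
    LinearMap.single R (fun _ : Fin 2 => Fin n → Pm f) 0) (u.2 0)
  have e3 := pi_expand hf (h ∘ₗ LinearMap.inr R _ _ ∘ₗ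
    LinearMap.single R (fun _ : Fin 2 => Fin n → Pm f) 1) (u.2 1)
  exact congrArg₂ (· + ·) e1 (congrArg₂ (· + ·) e2 e3)

theorem K2_zero (h : ((Fin m → Pm e) × (Fin 2 → Fin n → Pm f)) →ₗ[R] Y)
    (h4 : ∀ i, y4 he h i = 0) (h1 : ∀ l i, y1 hf h l i = 0) (u) : h u = 0 := by
  rw [K2_expand he hf h u]
  simp only [h4, h1, smul_zero, Finset.sum_const_zero, add_zero]

/-- the map with given values on the generators of the first part, zero on the second -/
noncomputable def hom4 (y : Fin m → Y) : ((Fin m → Pm e) × (Fin 2 → Fin n → Pm f)) →ₗ[R] Y :=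
  homPi e y ∘ₗ LinearMap.fst R _ _

theorem single_e {ι : Type} [DecidableEq ι] (k : ι) :
    e • (Pi.single k (gen he) : ι → Pm e) = Pi.single k (gen he) := by
  rw [← Pi.single_smul, gen_smul]

theorem e_val {ι : Type} [DecidableEq ι] (F : (ι → Pm e) →ₗ[R] Y) (k : ι) :
    e • F (Pi.single k (gen he)) = F (Pi.single k (gen he)) := by
  rw [← map_smul, single_e]

theorem y1_hom4 (y : Fin m → Y) (l : Fin 2) (i : Fin n) :
    y1 hf (homPi e y ∘ₗ LinearMap.fst R (Fin m → Pm e) (Fin 2 → Fin n → Pm f)) l i = 0 := by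
  unfold y1
  rw [LinearMap.comp_apply, LinearMap.fst_apply, map_zero]

theorem hom4_apply (y : Fin m → Y) (u : (Fin m → Pm e) × (Fin 2 → Fin n → Pm f)) :
    hom4 y u = ∑ i, (u.1 i : R) • y i := homPi_apply _ _ _

end GenExp

namespace N341

variable {K : Type} [Field K] {g : K} {s : ℤ}

/-- the two matrices of an element -/
def pt (b : Bool) (x : A g s) : Mat K := cond b x.1.snd x.1.fst

theorem pt_false (x : A g s) : pt false x = x.1.fst := rfl
theorem pt_true (x : A g s) : pt true x = x.1.snd := rfl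

theorem pt_zero (b : Bool) : pt b (0 : A g s) = 0 := by cases b <;> rfl

theorem pt_add (b : Bool) (x y : A g s) : pt b (x + y) = pt b x + pt b y := by cases b <;> rfl

theorem pt_sum (b : Bool) {ι : Type} (S : Finset ι) (f : ι → A g s) :
    pt b (∑ i ∈ S, f i) = ∑ i ∈ S, pt b (f i) := by
  classical
  induction S using Finset.induction_on with
  | empty => rw [Finset.sum_empty, Finset.sum_empty, pt_zero]
  | insert a S ha ih => rw [Finset.sum_insert ha, Finset.sum_insert ha, pt_add, ih]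

theorem pt_mul (b : Bool) (x y : A g s) (hx : x.1.snd = 0) :
    pt b (x * y) = x.1.fst * pt b y := by
  cases b
  · exact fst_mulA x y
  · show (x * y).1.snd = _
    rw [snd_mulA, hx, zero_mul, add_zero]
    rfl

theorem pt_pres (b : Bool) (x : A g s) : Pres g s (cond b 1 0) (pt b x) := by
  cases b
  · exact x.2.1
  · exact x.2.2




/-! ### the entries of a coboundary -/

/-- extension by zero -/
def zx {M : Type*} [Zero M] {m : ℕ} (x : Fin m → M) (j : ℕ) : M := if h : j < m then x ⟨j, h⟩ else 0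

theorem zx_of_lt {M : Type*} [Zero M] {m : ℕ} (x : Fin m → M) {j : ℕ} (h : j < m) :
    zx x j = x ⟨j, h⟩ := dif_pos h

theorem sum_ite_zx {M : Type*} [AddCommMonoid M] {m : ℕ} (x : Fin m → M) (a : ℕ) :
    ∑ i : Fin m, (if (i : ℕ) = a then x i else 0) = zx x a := by
  unfold zx
  split_ifs with h
  · rw [Finset.sum_eq_single ⟨a, h⟩]
    · rw [if_pos rfl]
    · intro b _ hb
      rw [if_neg]
      intro h'
      exact hb (Fin.ext h')
    · intro h'
      exact absurd (Finset.mem_univ _) h'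
  · refine Finset.sum_eq_zero fun i _ => ?_
    rw [if_neg]
    have := i.2
    omega

/-- the entries of `d₃` of `K(n)`, `s = 0` -/
structure D3E (g : K) (n : ℕ) (DD : Fin (n + 1) → Fin (n + 2) → A g 0)
    (OO : Fin (n + 1) → Fin 2 → Fin n → A g 0) : Prop where
  mK : ∀ j i, DD j i ∈ Pv g 0 4
  mO : ∀ j l i, OO j l i ∈ Pv g 0 1
  kS : ∀ j i, (DD j i).1.snd = 0
  kK : ∀ j i (T0 T1 : Op K), (X 1 : Op K) * T0 = X 0 * T1 →
    (DD j i).1.fst 2 5 * T0 + (DD j i).1.fst 2 6 * T1 =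
      (if (i : ℕ) = j + 1 then T0 else 0) - (if (i : ℕ) = j then T1 else 0)
  oS : ∀ j l i, (OO j l i).1.snd = 0
  o0 : ∀ j i, (OO j 0 i).1.fst 2 1 = if (j : ℕ) = i + 1 then
    cq g (j : ℕ) • (1 : Op K) - X 1 * D g 1 else 0
  o1 : ∀ j i, (OO j 1 i).1.fst 2 1 = (if (j : ℕ) = i + 1 then D g 0 * X 1 else 0) -
    (if (j : ℕ) = i then cq g ((n : ℤ) - (i : ℕ)) • (1 : Op K) else 0)

/-- the value of `h ∘ d₃` on a generator -/
noncomputable def cob {n : ℕ} (DD : Fin (n + 1) → Fin (n + 2) → A g 0)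
    (OO : Fin (n + 1) → Fin 2 → Fin n → A g 0) (z4 : Fin (n + 2) → A g 0)
    (z1 : Fin 2 → Fin n → A g 0) (j : Fin (n + 1)) : A g 0 :=
  ∑ i, DD j i * z4 i + (∑ i, OO j 0 i * z1 0 i + ∑ i, OO j 1 i * z1 1 i)

theorem mul_row4 {x : A g s} (hx : x ∈ Pv g s 4) (N : Mat K) (p : Fin 7) :
    (x.1.fst * N) 2 p = x.1.fst 2 5 * N 5 p + x.1.fst 2 6 * N 6 p := by
  rw [Matrix.mul_apply, Fin.sum_univ_seven, (mem_Pv.1 hx 2 0 (by decide)).1,
    (mem_Pv.1 hx 2 1 (by decide)).1, (mem_Pv.1 hx 2 2 (by decide)).1,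
    (mem_Pv.1 hx 2 3 (by decide)).1, (mem_Pv.1 hx 2 4 (by decide)).1]
  simp only [zero_mul, zero_add]

theorem mul_row1 {x : A g s} (hx : x ∈ Pv g s 1) (N : Mat K) (p : Fin 7) :
    (x.1.fst * N) 2 p = x.1.fst 2 1 * N 1 p := by
  rw [Matrix.mul_apply, Fin.sum_univ_seven, (mem_Pv.1 hx 2 0 (by decide)).1,
    (mem_Pv.1 hx 2 2 (by decide)).1, (mem_Pv.1 hx 2 3 (by decide)).1,
    (mem_Pv.1 hx 2 4 (by decide)).1, (mem_Pv.1 hx 2 5 (by decide)).1,
    (mem_Pv.1 hx 2 6 (by decide)).1]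
  simp only [zero_mul, zero_add, add_zero]

theorem cob_entry {n : ℕ} {DD : Fin (n + 1) → Fin (n + 2) → A g 0}
    {OO : Fin (n + 1) → Fin 2 → Fin n → A g 0} (H : D3E g n DD OO) (z4 : Fin (n + 2) → A g 0)
    (z1 : Fin 2 → Fin n → A g 0) (b : Bool) (p : Fin 7)
    (hk : ∀ i, (X 1 : Op K) * pt b (z4 i) 5 p = X 0 * pt b (z4 i) 6 p) (j : Fin (n + 1)) :
    pt b (cob DD OO z4 z1 j) 2 p =
      (zx (fun i => pt b (z4 i) 5 p) (j + 1) - zx (fun i => pt b (z4 i) 6 p) j) +
      ((if 0 < (j : ℕ) then (cq g (j : ℕ) • (1 : Op K) - X 1 * D g 1) *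
          zx (fun i => pt b (z1 0 i) 1 p) (j - 1) else 0) +
        ((if 0 < (j : ℕ) then (D g 0 * X 1) * zx (fun i => pt b (z1 1 i) 1 p) (j - 1) else 0) -
          (if (j : ℕ) < n then cq g ((n : ℤ) - (j : ℕ)) •
            zx (fun i => pt b (z1 1 i) 1 p) j else 0))) := by
  unfold cob
  rw [pt_add, pt_add, pt_sum, pt_sum, pt_sum, Matrix.add_apply, Matrix.add_apply,
    Matrix.sum_apply, Matrix.sum_apply, Matrix.sum_apply]
  congr 1
  · have h1 : ∀ i, pt b (DD j i * z4 i) 2 p =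
        (if (i : ℕ) = j + 1 then pt b (z4 i) 5 p else 0) -
          (if (i : ℕ) = j then pt b (z4 i) 6 p else 0) := fun i => by
      rw [pt_mul b _ _ (H.kS j i), mul_row4 (H.mK j i), H.kK j i _ _ (hk i)]
    rw [Finset.sum_congr rfl fun i _ => h1 i, Finset.sum_sub_distrib, sum_ite_zx, sum_ite_zx]
  congr 1
  · have h1 : ∀ i, pt b (OO j 0 i * z1 0 i) 2 p = if (j : ℕ) = i + 1 then
        (cq g (j : ℕ) • (1 : Op K) - X 1 * D g 1) * pt b (z1 0 i) 1 p else 0 := fun i => by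
      rw [pt_mul b _ _ (H.oS j 0 i), mul_row1 (H.mO j 0 i), H.o0 j i]
      split_ifs
      · rfl
      · exact zero_mul _
    rw [Finset.sum_congr rfl fun i _ => h1 i]
    split_ifs with hj
    · have h2 : ∀ i : Fin n, (if (j : ℕ) = i + 1 then
          (cq g (j : ℕ) • (1 : Op K) - X 1 * D g 1) * pt b (z1 0 i) 1 p else 0) =
          (if (i : ℕ) = j - 1 then
            (cq g (j : ℕ) • (1 : Op K) - X 1 * D g 1) * pt b (z1 0 i) 1 p else 0) := fun i => by
        by_cases h : (j : ℕ) = i + 1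
        · rw [if_pos h, if_pos (by omega)]
        · rw [if_neg h, if_neg (by omega)]
      rw [Finset.sum_congr rfl fun i _ => h2 i, sum_ite_zx]
      unfold zx
      split_ifs
      · rfl
      · rw [mul_zero]
    · refine Finset.sum_eq_zero fun i _ => ?_
      rw [if_neg (by omega)]
  · have h1 : ∀ i, pt b (OO j 1 i * z1 1 i) 2 p =
        (if (j : ℕ) = i + 1 then (D g 0 * X 1) * pt b (z1 1 i) 1 p else 0) -
        (if (j : ℕ) = i then cq g ((n : ℤ) - (i : ℕ)) • pt b (z1 1 i) 1 p else 0) := fun i => by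
      rw [pt_mul b _ _ (H.oS j 1 i), mul_row1 (H.mO j 1 i), H.o1 j i, sub_mul]
      congr 1
      · split_ifs
        · rfl
        · exact zero_mul _
      · split_ifs
        · rw [smul_mul_assoc, one_mul]
        · exact zero_mul _
    rw [Finset.sum_congr rfl fun i _ => h1 i, Finset.sum_sub_distrib]
    congr 1
    · split_ifs with hj
      · have h2 : ∀ i : Fin n, (if (j : ℕ) = i + 1 then
            (D g 0 * X 1) * pt b (z1 1 i) 1 p else 0) =
            (if (i : ℕ) = j - 1 then (D g 0 * X 1) * pt b (z1 1 i) 1 p else 0) := fun i => by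
          by_cases h : (j : ℕ) = i + 1
          · rw [if_pos h, if_pos (by omega)]
          · rw [if_neg h, if_neg (by omega)]
        rw [Finset.sum_congr rfl fun i _ => h2 i, sum_ite_zx]
        unfold zx
        split_ifs
        · rfl
        · rw [mul_zero]
      · refine Finset.sum_eq_zero fun i _ => ?_
        rw [if_neg (by omega)]
    · have h2 : ∀ i : Fin n, (if (j : ℕ) = i then
            cq g ((n : ℤ) - (i : ℕ)) • pt b (z1 1 i) 1 p else 0) =
            (if (i : ℕ) = j then cq g ((n : ℤ) - (j : ℕ)) • pt b (z1 1 i) 1 p else 0) :=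
          fun i => by
        by_cases h : (j : ℕ) = i
        · rw [if_pos h, if_pos h.symm, h]
        · rw [if_neg h, if_neg (Ne.symm h)]
      rw [Finset.sum_congr rfl fun i _ => h2 i, sum_ite_zx]
      unfold zx
      split_ifs
      · rfl
      · rfl

/-! ### traces -/

theorem mo_mem (m : ℤ) {b : ℕ} (hb : (b : ℤ) ≤ m) : (EV538.mo m b : Lau K) ∈ Pol K m := by
  unfold EV538.mo
  refine Finsupp.single_mem_supported K _ ?_
  refine ⟨?_, ?_, ?_⟩
  · show (0 : ℤ) ≤ m - b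
    omega
  · show (0 : ℤ) ≤ b
    omega
  · show m - b + b = m
    ring

/-- the trace of the entries of a coboundary vanishes -/
theorem tr_cob (g : K) (n : ℕ) (T0 T1 B0 B1 : ℕ → Op K) (M : ℕ → Op K)
    (hT : ∀ i, (X 1 : Op K) * T0 i = X 0 * T1 i) (y : Lau K)
    (hM : ∀ j, j ≤ n → M j = (T0 (j + 1) - T1 j) +
      ((if 0 < j then (cq g (j : ℕ) • (1 : Op K) - X 1 * D g 1) * B0 (j - 1) else 0) +
        ((if 0 < j then (D g 0 * X 1) * B1 (j - 1) else 0) -
          (if j < n then cq g ((n : ℤ) - (j : ℕ)) • B1 j else 0))))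
    (h0 : ∀ i, T0 i y ∈ Pol K n) (h1 : ∀ i, T1 i y ∈ Pol K n) : EV538.tr n M y = 0 := by
  have e1 := tr_K2 n (fun i => T0 i y) (fun i => T1 i y) h0 h1 (fun i => by
    have := congrArg (fun T : Op K => T y) (hT i)
    simpa only [Module.End.mul_apply] using this)
  have e2 := tr_O0 g n (fun i => B0 i y)
  have e3 := tr_O1 g n (fun i => B1 i y)
  have e4 : ∀ j ∈ range (n + 1), EV538.cf n j (M j y) =
      ((T0 (j + 1) y) ((n : ℤ) - j, j) - (T1 j y) ((n : ℤ) - j, j)) +
      ((if 0 < j then (cq g j * (B0 (j - 1) y) ((n : ℤ) - j, j) -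
        ((X 1 * D g 1 : Op K) (B0 (j - 1) y)) ((n : ℤ) - j, j)) else 0) +
      ((if j < n then - (cq g ((n : ℤ) - j) * (B1 j y) ((n : ℤ) - j, j)) else 0) +
        (if 0 < j then ((D g 0 * X 1 : Op K) (B1 (j - 1) y)) ((n : ℤ) - j, j) else 0))) := by
    intro j hj
    rw [hM j (Nat.lt_succ_iff.1 (Finset.mem_range.1 hj))]
    unfold EV538.cf
    by_cases h2 : 0 < j
    · by_cases h3 : j < n
      · simp only [if_pos h2, if_pos h3, LinearMap.add_apply, LinearMap.sub_apply,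
          Finsupp.add_apply, Finsupp.sub_apply, Module.End.mul_apply, LinearMap.smul_apply,
          Module.End.one_apply, Finsupp.smul_apply, smul_eq_mul]
        ring
      · simp only [if_pos h2, if_neg h3, LinearMap.add_apply, LinearMap.sub_apply,
          Finsupp.add_apply, Finsupp.sub_apply, Module.End.mul_apply, LinearMap.smul_apply,
          Module.End.one_apply, Finsupp.smul_apply, smul_eq_mul, sub_zero, zero_add]
    · by_cases h3 : j < n
      · simp only [if_neg h2, if_pos h3, LinearMap.add_apply, LinearMap.sub_apply,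
          Finsupp.add_apply, Finsupp.sub_apply, LinearMap.smul_apply, Finsupp.smul_apply,
          smul_eq_mul, LinearMap.neg_apply, Finsupp.neg_apply, zero_add, zero_sub, add_zero]
      · simp only [if_neg h2, if_neg h3, LinearMap.add_apply, LinearMap.sub_apply,
          Finsupp.add_apply, Finsupp.sub_apply, add_zero, sub_zero]
  unfold EV538.tr
  rw [Finset.sum_congr rfl e4, Finset.sum_add_distrib, Finset.sum_add_distrib, e1, e2, e3,
    add_zero, add_zero]

/-- **(c1)** at element level: column `p` (`= 1` or `2`) -/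
theorem evl_cob {n : ℕ} {DD : Fin (n + 1) → Fin (n + 2) → A g 0}
    {OO : Fin (n + 1) → Fin 2 → Fin n → A g 0} (H : D3E g n DD OO) (z4 : Fin (n + 2) → A g 0)
    (z1 : Fin 2 → Fin n → A g 0) :
    EV538.evl n (fun j => pt false (zx (cob DD OO z4 z1) j) 2 1,
      fun j => pt true (zx (cob DD OO z4 z1) j) 2 1) = 0 := by
  have key : ∀ (b : Bool) (m : ℤ) (hm : m + (cond b 1 0 : ℤ) = n) (y : Lau K), y ∈ Pol K m →
      EV538.tr n (fun j => pt b (zx (cob DD OO z4 z1) j) 2 1) y = 0 := by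
    intro b m hm y hy
    have hent5 : ∀ i, zx (fun i => pt b (z4 i) 5 1) i y ∈ Pol K n := fun i => by
      unfold zx
      split_ifs with hi
      · have := Fil_Pol (ent51 (pt_pres b (z4 ⟨i, hi⟩))) hy
        rwa [hm] at this
      · rw [LinearMap.zero_apply]; exact zero_mem _
    have hent6 : ∀ i, zx (fun i => pt b (z4 i) 6 1) i y ∈ Pol K n := fun i => by
      unfold zx
      split_ifs with hi
      · have := Fil_Pol (ent61 (pt_pres b (z4 ⟨i, hi⟩))) hy
        rwa [hm] at this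
      · rw [LinearMap.zero_apply]; exact zero_mem _
    refine tr_cob g n (zx fun i => pt b (z4 i) 5 1) (zx fun i => pt b (z4 i) 6 1)
      (zx fun i => pt b (z1 0 i) 1 1) (zx fun i => pt b (z1 1 i) 1 1) _ ?_ y ?_ hent5 hent6
    · intro i
      unfold zx
      split_ifs
      · exact kos1 (pt_pres b _)
      · rw [mul_zero, mul_zero]
    · intro j hj
      have hj' : j < n + 1 := Nat.lt_succ_iff.2 hj
      have := cob_entry H z4 z1 b 1 (fun i => kos1 (pt_pres b _)) ⟨j, hj'⟩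
      rw [zx_of_lt _ hj', this]
  refine Prod.ext ?_ ?_
  · funext b
    exact key false n (by simp) _ (mo_mem _ (by have := b.2; omega))
  · funext b
    exact key true ((n : ℤ) - 1) (by simp) _ (mo_mem _ (by have := b.2; omega))

/-! ### the column `O(-2)` -/

/-- the line `e_{K₂} A e_{O(-2)}` -/
noncomputable def line (g : K) (s : ℤ) (φ : K) : A g s :=
  ofM 0 (Matrix.single 5 2 (φ • X 0) + Matrix.single 6 2 (φ • X 1)) (Pres.zero g s 0)
    (Pres_line s φ)

theorem line_fst (φ : K) : (line g s φ).1.fst = 0 := rfl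

theorem line_snd5 (φ : K) : (line g s φ).1.snd 5 2 = φ • (X 0 : Op K) := by
  show (Matrix.single 5 2 (φ • X 0) + Matrix.single 6 2 (φ • X 1) : Mat K) 5 2 = _
  rw [Matrix.add_apply, Matrix.single_apply_same, Matrix.single_apply_of_ne _ _ _ _ _ (by decide),
    add_zero]

theorem line_snd6 (φ : K) : (line g s φ).1.snd 6 2 = φ • (X 1 : Op K) := by
  show (Matrix.single 5 2 (φ • X 0) + Matrix.single 6 2 (φ • X 1) : Mat K) 6 2 = _
  rw [Matrix.add_apply, Matrix.single_apply_same, Matrix.single_apply_of_ne _ _ _ _ _ (by decide),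
    zero_add]

theorem line_mem (φ : K) : line g s φ ∈ Pv g s 2 := by
  refine mem_Pv.2 fun i j hj => ⟨rfl, ?_⟩
  have hj' : (2 : Fin 7) ≠ j := by
    rintro rfl
    exact hj rfl
  show (Matrix.single 5 2 (φ • X 0) + Matrix.single 6 2 (φ • X 1) : Mat K) i j = 0
  rw [Matrix.add_apply, Matrix.single_apply_of_ne _ _ _ _ _ (fun h => hj' h.2),
    Matrix.single_apply_of_ne _ _ _ _ _ (fun h => hj' h.2), add_zero]

/-- the coboundary of a family of line elements -/
theorem cob_line {n : ℕ} {DD : Fin (n + 1) → Fin (n + 2) → A g 0}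
    {OO : Fin (n + 1) → Fin 2 → Fin n → A g 0} (H : D3E g n DD OO) (z4 : Fin (n + 2) → A g 0)
    (z1 : Fin 2 → Fin n → A g 0) (hz : ∀ l i, z1 l i = 0) (φ : Fin (n + 2) → K)
    (h0 : ∀ i k, (z4 i).1.fst k 2 = 0) (h5 : ∀ i, (z4 i).1.snd 5 2 = φ i • (X 0 : Op K))
    (h6 : ∀ i, (z4 i).1.snd 6 2 = φ i • (X 1 : Op K)) (j : Fin (n + 1)) :
    (cob DD OO z4 z1 j).1.fst 2 2 = 0 ∧ (cob DD OO z4 z1 j).1.snd 2 2 =
      zx φ (j + 1) • (X 0 : Op K) - zx φ j • (X 1 : Op K) := by
  have hz0 : ∀ b l (k : ℕ), zx (fun i => pt b (z1 l i) 1 2) k = 0 := fun b l k => by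
    unfold zx
    split_ifs with hk
    · show pt b (z1 l ⟨k, hk⟩) 1 2 = 0
      rw [hz, pt_zero]
      rfl
    · rfl
  have e : ∀ b, (∀ i, (X 1 : Op K) * pt b (z4 i) 5 2 = X 0 * pt b (z4 i) 6 2) →
      pt b (cob DD OO z4 z1 j) 2 2 =
      zx (fun i => pt b (z4 i) 5 2) (j + 1) - zx (fun i => pt b (z4 i) 6 2) j := fun b hb => by
    rw [cob_entry H z4 z1 b 2 hb j, hz0, hz0, hz0]
    simp
  constructor
  · have := e false (fun i => by rw [pt_false, h0, h0, mul_zero, mul_zero])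
    rw [pt_false] at this
    rw [this]
    have h1 : ∀ (q : Fin 7) (k : ℕ), zx (fun i => pt false (z4 i) q 2) k = 0 := fun q k => by
      unfold zx
      split_ifs
      · exact h0 _ _
      · rfl
    rw [h1, h1, sub_zero]
  · have := e true (fun i => by
      rw [pt_true, h5, h6, mul_smul_comm, mul_smul_comm, X_comm])
    rw [pt_true] at this
    rw [this]
    congr 1
    · unfold zx
      split_ifs
      · exact h5 _
      · rw [zero_smul]
    · unfold zx
      split_ifs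
      · exact h6 _
      · rw [zero_smul]

/-! ### the statements on `A g 0`-linear maps -/

section maps

variable {n : ℕ}
  (d3 : (Fin (n + 1) → Pv g 0 2) →ₗ[A g 0] ((Fin (n + 2) → Pv g 0 4) × (Fin 2 → Fin n → Pv g 0 1)))

/-- `d₃` on generators, `K₂`-part -/
noncomputable def dD (j : Fin (n + 1)) (i : Fin (n + 2)) : A g 0 :=
  ((d3 (Pi.single j (Pgen g 0 2))).1 i : A g 0)

/-- `d₃` on generators, `O(-1)`-part -/
noncomputable def dO (j : Fin (n + 1)) (l : Fin 2) (i : Fin n) : A g 0 :=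
  ((d3 (Pi.single j (Pgen g 0 2))).2 l i : A g 0)

theorem comp_gen {w : Fin 5}
    (h : ((Fin (n + 2) → Pv g 0 4) × (Fin 2 → Fin n → Pv g 0 1)) →ₗ[A g 0] Pv g 0 w)
    (j : Fin (n + 1)) :
    ((h (d3 (Pi.single j (Pgen g 0 2))) : Pv g 0 w) : A g 0) =
      cob (dD d3) (dO d3) (fun i => (GenExp.y4 (eps_idem g 0 4) h i : Pv g 0 w))
        (fun l i => (GenExp.y1 (eps_idem g 0 1) h l i : Pv g 0 w)) j := by
  have h1 := GenExp.K2_expand (eps_idem g 0 4) (eps_idem g 0 1) h (d3 (Pi.single j (Pgen g 0 2)))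
  have h2 := congrArg (fun z : Pv g 0 w => (z : A g 0)) h1
  simp only [Submodule.coe_add, Submodule.coe_sum] at h2
  exact h2

theorem y4_coe_eps {w : Fin 5}
    (h : ((Fin (n + 2) → Pv g 0 4) × (Fin 2 → Fin n → Pv g 0 1)) →ₗ[A g 0] Pv g 0 w)
    (i : Fin (n + 2)) : eps g 0 4 * ((GenExp.y4 (eps_idem g 0 4) h i : Pv g 0 w) : A g 0) =
      (GenExp.y4 (eps_idem g 0 4) h i : Pv g 0 w) :=
  congrArg Subtype.val (GenExp.e_y4 (eps_idem g 0 4) h i)

theorem y1_coe_eps {w : Fin 5}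
    (h : ((Fin (n + 2) → Pv g 0 4) × (Fin 2 → Fin n → Pv g 0 1)) →ₗ[A g 0] Pv g 0 w)
    (l : Fin 2) (i : Fin n) :
    eps g 0 1 * ((GenExp.y1 (eps_idem g 0 1) h l i : Pv g 0 w) : A g 0) =
      (GenExp.y1 (eps_idem g 0 1) h l i : Pv g 0 w) :=
  congrArg Subtype.val (GenExp.f_y1 (eps_idem g 0 1) h l i)

/-- **(H2)** for the column `O(-2)` -/
theorem H2_col2 (H : D3E g n (dD d3) (dO d3))
    (h : ((Fin (n + 2) → Pv g 0 4) × (Fin 2 → Fin n → Pv g 0 1)) →ₗ[A g 0] Pv g 0 2)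
    (hh : h ∘ₗ d3 = 0) : h = 0 := by
  have hz1 : ∀ l i, ((GenExp.y1 (eps_idem g 0 1) h l i : Pv g 0 2) : A g 0) = 0 := fun l i =>
    col2_1 (GenExp.y1 (eps_idem g 0 1) h l i : Pv g 0 2).2 (y1_coe_eps h l i)
  choose φ h0 h5 h6 using fun i =>
    col2_4 (GenExp.y4 (eps_idem g 0 4) h i : Pv g 0 2).2 (y4_coe_eps h i)
  have hc : ∀ j : Fin (n + 1), zx φ (j + 1) = 0 ∧ zx φ (j : ℕ) = 0 := by
    intro j
    have h1 := (cob_line H _ _ hz1 φ h0 h5 h6 j).2
    rw [← comp_gen d3 h j] at h1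
    have h2 : h (d3 (Pi.single j (Pgen g 0 2))) = 0 :=
      congrArg (fun f => f (Pi.single j (Pgen g 0 2))) hh
    rw [h2] at h1
    have h3 : zx φ (j + 1) • (X 0 : Op K) + (- zx φ j) • (X 1 : Op K) = 0 := by
      rw [neg_smul, ← sub_eq_add_neg]
      exact h1.symm
    have h4 := lin_zero h3
    exact ⟨h4.1, neg_eq_zero.1 h4.2⟩
  have hφ : ∀ i : Fin (n + 2), φ i = 0 := by
    intro i
    rcases Nat.lt_or_ge (i : ℕ) (n + 1) with hi | hi
    · have := (hc ⟨i, hi⟩).2
      rwa [zx_of_lt φ i.2] at this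
    · have h1 := (hc ⟨n, by omega⟩).1
      have h2 : (i : ℕ) = n + 1 := by have := i.2; omega
      rw [zx_of_lt φ (by simp : (⟨n, by omega⟩ : Fin (n + 1)) + 1 < n + 2)] at h1
      have h3 : i = ⟨n + 1, by omega⟩ := Fin.ext h2
      rw [h3]
      exact h1
  have hz4 : ∀ i, (GenExp.y4 (eps_idem g 0 4) h i : Pv g 0 2) = 0 := by
    intro i
    refine Subtype.ext (col2_ext (GenExp.y4 (eps_idem g 0 4) h i : Pv g 0 2).2 (zero_mem _)
      (fun k => h0 i k) fun k => ?_)
    by_cases hk : k = 5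
    · subst hk; rw [h5, hφ, zero_smul]; rfl
    · by_cases hk' : k = 6
      · subst hk'; rw [h6, hφ, zero_smul]; rfl
      · exact (row_zero (y4_coe_eps h i) (blk_ne_four hk hk') 2).2
  have hz1' : ∀ l i, (GenExp.y1 (eps_idem g 0 1) h l i : Pv g 0 2) = 0 := fun l i =>
    Subtype.ext (hz1 l i)
  have h9 := GenExp.K2_zero (eps_idem g 0 4) (eps_idem g 0 1) h hz4 hz1'
  exact LinearMap.ext fun u => h9 u

/-- **(c1)** : `ev1` vanishes on coboundaries -/
theorem c1_col1 (H : D3E g n (dD d3) (dO d3))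
    (h : ((Fin (n + 2) → Pv g 0 4) × (Fin 2 → Fin n → Pv g 0 1)) →ₗ[A g 0] Pv g 0 1) :
    EVA538.ev1 g 0 n (h ∘ₗ d3) = 0 := by
  have h1 := evl_cob H (fun i => (GenExp.y4 (eps_idem g 0 4) h i : Pv g 0 1))
    (fun l i => (GenExp.y1 (eps_idem g 0 1) h l i : Pv g 0 1))
  refine (EVA538.ev1_eq (h ∘ₗ d3) _ _ (fun j => ?_) fun j => ?_).trans h1
  · rw [zx_of_lt _ j.2]
    exact congrArg (fun x : A g 0 => x.1.fst 2 1) (comp_gen d3 h j)
  · rw [zx_of_lt _ j.2]
    exact congrArg (fun x : A g 0 => x.1.snd 2 1) (comp_gen d3 h j)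

theorem hom4_y4 (y : Fin (n + 2) → Pv g 0 2) (i : Fin (n + 2)) :
    GenExp.y4 (eps_idem g 0 4) (GenExp.hom4 (f := eps g 0 1) (n := n) y) i = eps g 0 4 • y i := by
  unfold GenExp.y4
  rw [GenExp.hom4_apply]
  refine (Finset.sum_eq_single i (fun b _ hb => ?_) fun h => absurd (Finset.mem_univ i) h).trans ?_
  · show ((Pi.single i (Dev580.gen (eps_idem g 0 4)) : Fin (n + 2) → Dev580.Pm (eps g 0 4)) b :
      A g 0) • y b = 0
    rw [Pi.single_eq_of_ne hb]
    exact zero_smul _ _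
  · show ((Pi.single i (Dev580.gen (eps_idem g 0 4)) : Fin (n + 2) → Dev580.Pm (eps g 0 4)) i :
      A g 0) • y i = _
    rw [Pi.single_eq_same]
    rfl

set_option maxHeartbeats 2000000 in
/-- **(k2)** : a map with `ev2 = 0` extends along `d₃` -/
theorem k2_col2 (H : D3E g n (dD d3) (dO d3))
    (f : (Fin (n + 1) → Pv g 0 2) →ₗ[A g 0] Pv g 0 2) (hf : EVA538.ev2 g 0 n f = 0) :
    ∃ h : ((Fin (n + 2) → Pv g 0 4) × (Fin 2 → Fin n → Pv g 0 1)) →ₗ[A g 0] Pv g 0 2,
      h ∘ₗ d3 = f := by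
  obtain ⟨μ, ν, e0, e1, e2⟩ := EVA538.ev2_zero hf
  let φ : Fin (n + 2) → K := fun i => if (i : ℕ) = 0 then - ν 0 else μ ((i : ℕ) - 1)
  let y : Fin (n + 2) → Pv g 0 2 := fun i => ⟨line g 0 (φ i), line_mem (φ i)⟩
  let h : ((Fin (n + 2) → Pv g 0 4) × (Fin 2 → Fin n → Pv g 0 1)) →ₗ[A g 0] Pv g 0 2 :=
    GenExp.hom4 y
  refine ⟨h, ?_⟩
  have hy4 : ∀ i, ((GenExp.y4 (eps_idem g 0 4) h i : Pv g 0 2) : A g 0) =
      eps g 0 4 * line g 0 (φ i) := fun i => congrArg Subtype.val (hom4_y4 y i)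
  have hz1 : ∀ l i, ((GenExp.y1 (eps_idem g 0 1) h l i : Pv g 0 2) : A g 0) = 0 := fun l i =>
    congrArg Subtype.val (GenExp.y1_hom4 (eps_idem g 0 1) y l i)
  have key := fun j => cob_line H (fun i => (GenExp.y4 (eps_idem g 0 4) h i : Pv g 0 2))
    (fun l i => (GenExp.y1 (eps_idem g 0 1) h l i : Pv g 0 2)) hz1 φ
    (fun i k => by
      show ((GenExp.y4 (eps_idem g 0 4) h i : Pv g 0 2) : A g 0).1.fst k 2 = 0
      rw [hy4, fst_eps_mul, line_fst]
      split_ifs <;> rfl)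
    (fun i => by
      show ((GenExp.y4 (eps_idem g 0 4) h i : Pv g 0 2) : A g 0).1.snd 5 2 = _
      rw [hy4, snd_eps_mul, if_pos (by decide), line_snd5])
    (fun i => by
      show ((GenExp.y4 (eps_idem g 0 4) h i : Pv g 0 2) : A g 0).1.snd 6 2 = _
      rw [hy4, snd_eps_mul, if_pos (by decide), line_snd6]) j
  refine Dev580.hom_pi_ext (eps_idem g 0 2) fun j => ?_
  have hl : eps g 0 2 * ((h (d3 (Pi.single j (Pgen g 0 2))) : Pv g 0 2) : A g 0) =
      ((h (d3 (Pi.single j (Pgen g 0 2))) : Pv g 0 2) : A g 0) :=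
    congrArg Subtype.val (GenExp.e_val (eps_idem g 0 2) (h ∘ₗ d3) j)
  have hr : eps g 0 2 * ((f (Pi.single j (Pgen g 0 2)) : Pv g 0 2) : A g 0) =
      ((f (Pi.single j (Pgen g 0 2)) : Pv g 0 2) : A g 0) :=
    congrArg Subtype.val (GenExp.e_val (eps_idem g 0 2) f j)
  have kj := key j
  rw [← comp_gen d3 h j] at kj
  refine Subtype.ext (col2_ext (h (d3 (Pi.single j (Pgen g 0 2)))).2
    (f (Pi.single j (Pgen g 0 2))).2 (fun k => ?_) fun k => ?_)
  · by_cases hk : k = 2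
    · subst hk
      exact kj.1.trans (e0 j).symm
    · exact (row_zero hl (blk_ne_two hk) 2).1.trans (row_zero hr (blk_ne_two hk) 2).1.symm
  · by_cases hk : k = 2
    · subst hk
      refine kj.2.trans (Eq.trans ?_ (e1 j).symm)
      have a1 : zx φ ((j : ℕ) + 1) = μ j := by
        rw [zx_of_lt φ (by have := j.2; omega : (j : ℕ) + 1 < n + 2)]
        show (if ((j : ℕ) + 1) = 0 then - ν 0 else μ (((j : ℕ) + 1) - 1)) = μ j
        rw [if_neg (Nat.succ_ne_zero _), Nat.add_sub_cancel]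
      have a2 : zx φ (j : ℕ) = - ν j := by
        rw [zx_of_lt φ (by have := j.2; omega : (j : ℕ) < n + 2)]
        show (if (j : ℕ) = 0 then - ν 0 else μ ((j : ℕ) - 1)) = - ν j
        split_ifs with hj
        · rw [hj]
        · have h3 := e2 ((j : ℕ) - 1) (by have := j.2; omega)
          rw [Nat.sub_add_cancel (Nat.pos_of_ne_zero hj)] at h3
          exact eq_neg_of_add_eq_zero_left h3
      rw [a1, a2, neg_smul, sub_neg_eq_add]
    · exact (row_zero hl (blk_ne_two hk) 2).2.trans (row_zero hr (blk_ne_two hk) 2).2.symm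

end maps

end N341

end Crest.Agent.R186.B281
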