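import Crest.Agent.R186.TR_810
import Crest.Agent.R186.Res_255
import Crest.Agent.R186.Res2_255
import Crest.Agent.R186.WinR_810
import Crest.Agent.R186.Cells1_221
import Crest.Agent.R186.SMp_890
import Crest.Agent.R186.WLF_296
import Crest.Agent.R186.KosJ_374
import Crest.Agent.R186.VQ_735
import Crest.Agent.R186.EndV_448
import Crest.Agent.R186.WLM_982
import Crest.Agent.R186.KHr_302
import Crest.Agent.R186.HB_362
import Crest.Agent.R186.JTR_322
import Crest.Agent.R186.FamB_654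
import Crest.Agent.R186.KHc_302
import Crest.Agent.R186.LtR_654

-- ▼ part R186/TRm_810
section

/-!
Row 186 (A) (helper810): (TR) on `Frame515`: `TRD.main`.
-/

set_option autoImplicit false
set_option linter.style.haveILetI false

open MulOpposite

namespace Crest.Agent.R186.TR810

open Hat827 Hat827.DGA Frame515 Win810

variable {K : Type} [Field K] {w : WD K}

/-- left multiplication on pairs of rows -/
def lmC (u : w.S) : CR w →ₗ[K] CR w where
  toFun v := fun β j => u * v β j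
  map_add' v v' := by
    ext β j
    exact mul_add _ _ _
  map_smul' r v := by
    ext β j
    exact mul_smul_comm _ _ _


variable {X : LCells w.dga}

/-- left multiplication on families -/
noncomputable def lmT (X : LCells w.dga) (u : w.S) : (X.ι →₀ CR w) →ₗ[K] (X.ι →₀ CR w) :=
  Finsupp.mapRange.linearMap (lmC u)

theorem lmT_apply (u : w.S) (x : X.ι →₀ CR w) (σ : X.ι) (β : Bool) (j : w.Ob) :
    lmT X u x σ β j = u * x σ β j := rfl

theorem lmT_support (u : w.S) (x : X.ι →₀ CR w) : (lmT X u x).support ⊆ x.support := by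
  intro σ hσ
  rw [Finsupp.mem_support_iff] at hσ ⊢
  intro h0
  apply hσ
  change lmC u (x σ) = 0
  rw [h0, map_zero]

/-- the differential of `Yc` -/
noncomputable def dY (θ : Th w) (p a : ℤ) (X : LCells w.dga) :
    (X.ι →₀ CR w) →ₗ[K] (X.ι →₀ CR w) := (Yc θ p a X).d

theorem Yd_apply (θ : Th w) (p a : ℤ) (x : X.ι →₀ CR w) (S : Finset X.ι) (hS : x.support ⊆ S)
    (τ : X.ι) (β : Bool) (j : w.Ob) :
    dY θ p a X x τ β j = w.D (x τ β j) + tb θ.t β * x τ false j +
      ∑ σ ∈ S, ∑ l, x σ β l * (X.c σ τ : w.Win).1 l j := by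
  have h := (twG (CRM θ p a) X).dd_apply' x S hS τ
  have h3 : (dC θ (x τ) + ∑ σ ∈ S, (op (X.c σ τ) • x σ : CR w)) β j =
      w.D (x τ β j) + tb θ.t β * x τ false j +
      ∑ σ ∈ S, ∑ l, x σ β l * (X.c σ τ : w.Win).1 l j := by
    rw [CR.add_apply, CR.sum_apply]
    rfl
  exact (congrArg (CR.evL β j) h).trans h3

/-- homogeneous elements -/
def In (X : LCells w.dga) (p a n : ℤ) (x : X.ι →₀ CR w) : Prop :=
  ∀ σ, x σ ∈ grC w p a (n - X.s σ) ∧ op (X.e σ) • x σ = x σ

theorem mem_Ygr {θ : Th w} {p a n : ℤ} {x : X.ι →₀ CR w} :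
    x ∈ (Yc θ p a X).gr n ↔ In X p a n x := Iff.rfl

/-- two-sided ideals stable under the differential -/
structure Idl (F : Submodule K w.S) : Prop where
  l : ∀ (s : w.S) {a : w.S}, a ∈ F → s * a ∈ F
  r : ∀ (s : w.S) {a : w.S}, a ∈ F → a * s ∈ F
  D : ∀ {a : w.S}, a ∈ F → w.D a ∈ F

theorem TF_d {F : Submodule K w.S} (hF : Idl F) (θ : Th w) (p a : ℤ) {x : X.ι →₀ CR w}
    (hx : x ∈ TF X F) : dY θ p a X x ∈ TF X F := by
  intro τ β j
  rw [Yd_apply θ p a x x.support (Finset.Subset.refl _)]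
  exact Submodule.add_mem _ (Submodule.add_mem _ (hF.D (hx τ β j)) (hF.l _ (hx τ false j)))
    (Submodule.sum_mem _ fun σ _ => Submodule.sum_mem _ fun l _ => hF.r _ (hx σ β l))

theorem TF_mono {F F' : Submodule K w.S} (h : F ≤ F') : TF X F ≤ TF X F' :=
  fun _ hx σ β j => h (hx σ β j)

theorem comm_d {F : Submodule K w.S} (hF : Idl F) (θ θ' : Th w) (p p' a : ℤ) (u : w.S)
    (hD : w.D u ∈ F) (hθ : θ.t * u - u * θ'.t ∈ F) (x : X.ι →₀ CR w) :
    dY θ p a X (lmT X u x) - lmT X u (dY θ' p' a X x) ∈ TF X F := by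
  intro τ β j
  rw [Finsupp.sub_apply, CR.sub_apply, lmT_apply,
    Yd_apply θ p a (lmT X u x) x.support (lmT_support u x),
    Yd_apply θ' p' a x x.support (Finset.Subset.refl _)]
  have e : w.D (lmT X u x τ β j) + tb θ.t β * lmT X u x τ false j +
      ∑ σ ∈ x.support, ∑ l, lmT X u x σ β l * (X.c σ τ : w.Win).1 l j -
      u * (w.D (x τ β j) + tb θ'.t β * x τ false j +
        ∑ σ ∈ x.support, ∑ l, x σ β l * (X.c σ τ : w.Win).1 l j) =
      w.D u * x τ β j + (tb θ.t β * u - u * tb θ'.t β) * x τ false j := by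
    simp only [lmT_apply, w.D_mul, mul_add, Finset.mul_sum, sub_mul, mul_assoc]
    abel
  rw [e]
  refine Submodule.add_mem _ (hF.r _ hD) (hF.r _ ?_)
  cases β
  · change (0 : w.S) * u - u * 0 ∈ F
    rw [zero_mul, mul_zero, sub_zero]
    exact Submodule.zero_mem _
  · exact hθ

theorem lmT_gr {p a n P C : ℤ} {u : w.S} (hu : u ∈ w.pc (-P) 0 C) {x : X.ι →₀ CR w}
    (hx : In X (p + P) a n x) : In X p a (n + C) (lmT X u x) := by
  intro σ
  constructor
  · intro β j
    rw [lmT_apply]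
    exact pc_cast (w.mul_mem hu ((hx σ).1 β j)) (by ring) (by ring) (by ring)
  · ext β j
    rw [CR.act_apply]
    have h := congrArg (CR.evL β j) (hx σ).2
    have h2 : ∑ l, x σ β l * (X.e σ : w.Win).1 l j = x σ β j := h
    rw [lmT_apply, ← h2, Finset.mul_sum]
    exact Finset.sum_congr rfl fun l _ => by rw [lmT_apply, mul_assoc]

/-- lifting of existence statements from rows to families -/
theorem T_lift {κ1 κ2 : Type} [Fintype κ1] (X : LCells w.dga) (a : ℤ)
    (p1 c1 : κ1 → ℤ) (p2 c2 : κ2 → ℤ) (REL : (κ1 → CR w) → (κ2 → CR w) → Prop)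
    (hR0 : REL (fun _ => 0) (fun _ => 0))
    (hRe : ∀ y z (e : w.dga.C), REL y z → REL (fun k => op e • y k) (fun k => op e • z k))
    (HY : (κ1 → CR w) → Prop)
    (h : ∀ (m : ℤ) (y : κ1 → CR w), (∀ k, y k ∈ grC w (p1 k) a (m - c1 k)) → HY y →
      ∃ z : κ2 → CR w, (∀ k, z k ∈ grC w (p2 k) a (m - c2 k)) ∧ REL y z)
    (n : ℤ) (y : κ1 → (X.ι →₀ CR w)) (hy : ∀ k, In X (p1 k) a (n - c1 k) (y k))
    (hH : ∀ σ, HY (fun k => y k σ)) :
    ∃ z : κ2 → (X.ι →₀ CR w), (∀ k, In X (p2 k) a (n - c2 k) (z k)) ∧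
      ∀ σ, REL (fun k => y k σ) (fun k => z k σ) := by
  classical
  have h1 : ∀ σ, ∃ z : κ2 → CR w, (∀ k, z k ∈ grC w (p2 k) a (n - X.s σ - c2 k)) ∧
      REL (fun k => y k σ) z := fun σ => h (n - X.s σ) _ (fun k => by
    have := (hy k σ).1
    rwa [show n - c1 k - (X.s σ : ℤ) = n - X.s σ - c1 k by ring] at this) (hH σ)
  choose z hz hzR using h1
  let S : Finset X.ι := Finset.univ.biUnion fun k => (y k).support
  let Z : κ2 → (X.ι →₀ CR w) := fun k =>
    Finsupp.onFinset S (fun σ => if σ ∈ S then op (X.e σ) • z σ k else 0) fun σ hσ => by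
      by_contra hc
      exact hσ (if_neg hc)
  have hZ : ∀ k σ, Z k σ = if σ ∈ S then op (X.e σ) • z σ k else 0 := fun _ _ => rfl
  refine ⟨Z, fun k σ => ?_, fun σ => ?_⟩
  · rw [hZ]
    split_ifs with hσ
    · constructor
      · intro β j
        rw [CR.act_apply]
        exact Submodule.sum_mem _ fun i _ =>
          pc_cast (w.mul_mem (hz σ k β i) (X.e_mem σ i j)) (by ring) (by ring) (by ring)
      · rw [smul_smul, ← op_mul, X.e_idem]
    · exact ⟨Submodule.zero_mem _, smul_zero _⟩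
  · by_cases hσ : σ ∈ S
    · have h2 := hRe _ _ (X.e σ) (hzR σ)
      have e1 : (fun k => op (X.e σ) • y k σ) = fun k => y k σ := funext fun k => (hy k σ).2
      have e2 : (fun k => Z k σ) = fun k => op (X.e σ) • z σ k := funext fun k => by
        rw [hZ, if_pos hσ]
      rw [e2, ← e1]
      exact h2
    · have e1 : (fun k => y k σ) = fun _ => 0 := funext fun k => by
        by_contra hc
        exact hσ (Finset.mem_biUnion.2 ⟨k, Finset.mem_univ k, Finsupp.mem_support_iff.2 hc⟩)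
      have e2 : (fun k => Z k σ) = fun _ => 0 := funext fun k => by rw [hZ, if_neg hσ]
      rw [e1, e2]
      exact hR0

/-- generation on families -/
theorem T_gen {κ : Type} [Fintype κ] (X : LCells w.dga) (a p n : ℤ) (uP uC : κ → ℤ) (u : κ → w.S)
    (F F' : Submodule K w.S) (hF' : Idl F') (cond : ℤ → Prop) (hc : ∀ j, cond (p - w.P j))
    (gen : ∀ {P A C : ℤ} {x : w.S}, cond P → x ∈ F → x ∈ w.pc P A C →
      ∃ z : κ → w.S, (∀ k, z k ∈ w.pc (P + uP k) A (C - uC k)) ∧ x - ∑ k, u k * z k ∈ F')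
    (x : X.ι →₀ CR w) (hx : In X p a n x) (hF : x ∈ TF X F) :
    ∃ z : κ → (X.ι →₀ CR w), (∀ k, In X (p + uP k) a (n - uC k) (z k)) ∧
      x - ∑ k, lmT X (u k) (z k) ∈ TF X F' := by
  obtain ⟨z, hz, hR⟩ := T_lift (κ1 := Unit) (κ2 := κ) X a (fun _ => p) (fun _ => 0)
    (fun k => p + uP k) uC
    (fun y z => ∀ β j, y () β j - ∑ k, u k * z k β j ∈ F')
    (fun β j => by
      simp only [CR.zero_apply, mul_zero, Finset.sum_const_zero, sub_zero]
      exact Submodule.zero_mem _)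
    (fun y z e h β j => by
      have e1 : (op e • y ()) β j - ∑ k, u k * (op e • z k) β j =
          ∑ l, (y () β l - ∑ k, u k * z k β l) * (e : w.Win).1 l j := by
        simp only [CR.act_apply, sub_mul, Finset.sum_sub_distrib, Finset.mul_sum, Finset.sum_mul,
          mul_assoc]
        rw [Finset.sum_comm (s := Finset.univ) (t := Finset.univ) (f := fun k l =>
          u k * (z k β l * (e : w.Win).1 l j))]
      rw [e1]
      exact Submodule.sum_mem _ fun l _ => hF'.r _ (h β l))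
    (fun y => ∀ β j, y () β j ∈ F)
    (fun m y hy hYF => by
      have h1 : ∀ β j, ∃ z : κ → w.S, (∀ k, z k ∈ w.pc (p - w.P j + uP k) (a + ab β - w.A j)
          (m - 0 - cb β - uC k)) ∧ y () β j - ∑ k, u k * z k ∈ F' := fun β j =>
        gen (hc j) (hYF β j) (hy () β j)
      choose z hz hz2 using h1
      exact ⟨fun k β j => z β j k, fun k β j => pc_cast (hz β j k) (by ring) (by ring) (by ring),
        hz2⟩)
    n (fun _ => x) (fun _ => by rw [sub_zero]; exact hx) (fun σ => hF σ)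
  refine ⟨z, hz, fun σ β j => ?_⟩
  have h2 := hR σ β j
  have e : (x - ∑ k, lmT X (u k) (z k)) σ β j = x σ β j - ∑ k, u k * z k σ β j := by
    rw [Finsupp.sub_apply, CR.sub_apply, Finsupp.finsetSum_apply, CR.sum_apply]
    rfl
  rw [e]
  exact h2

theorem sumT_apply {α : Type} (s : Finset α) (f : α → (X.ι →₀ CR w)) (σ : X.ι) (β : Bool)
    (j : w.Ob) : (∑ i ∈ s, f i) σ β j = ∑ i ∈ s, f i σ β j := by
  rw [Finsupp.finsetSum_apply, CR.sum_apply]

theorem lmT_gr' {p p' a n n' P C : ℤ} {u : w.S} (hu : u ∈ w.pc P 0 C) {x : X.ι →₀ CR w}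
    (hx : In X p' a n x) (hp : p' + P = p) (hn : n + C = n') : In X p a n' (lmT X u x) := by
  subst hp hn
  refine lmT_gr (P := -P) (by rw [neg_neg]; exact hu) ?_
  rw [show p' + P + -P = p' by ring]
  exact hx

namespace TRD

variable (T : TRD w)

theorem idl (i : ℕ) : Idl (T.Fl i) := ⟨T.Fl_l i, T.Fl_r i, T.Fl_D i⟩

/-- the row `2` from the rows `1` and `0` -/
theorem k2 (X : LCells w.dga) (a : ℤ) (hP : ∀ j, w.P j ≤ 1) (m : ℤ)
    (h1 : ∀ θ, T.T1 θ → AcQ (Yc θ 1 a X) ⊤ (TF X (T.Fl 0)) m)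
    (h0 : ∀ θ, T.T0 θ → AcQ (Yc θ 0 a X) ⊤ (TF X (T.Fl 0)) (m - 1))
    (θ : Th w) (hθ : T.T2 θ) : AcQ (Yc θ 2 a X) ⊤ (TF X (T.Fl 0)) m := by
  obtain ⟨θ', hθ', hx, θ'', hθ'', hk⟩ := T.T2x θ hθ
  refine AcQ.koszul (Y := Yc θ 2 a X) (J := TF X (T.Fl 0)) (n := m)
    (fun y hy => TF_d (T.idl 0) θ 2 a hy) (Yc θ' 1 a X) (Yc θ'' 0 a X) (TF X (T.Fl 0))
    (TF X (T.Fl 0)) (fun y hy => TF_d (T.idl 0) θ' 1 a hy)
    (fun j => lmT X (T.x j)) (fun j => lmT X (T.kk j)) ?_ ?_ ?_ ?_ ?_ ?_ ?_ ?_ ?_ ?_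
    (h1 θ' hθ') (h0 θ'' hθ'')
  · intro j n z hz
    exact lmT_gr' (T.x_mem j) (show In X 1 a n z from hz) (by norm_num) (by ring)
  · intro j n z hz
    exact lmT_gr' (T.kk_mem j) (show In X 0 a n z from hz) (by norm_num) (by ring)
  · intro j z hz σ β i
    exact T.Fl_l 0 _ (hz σ β i)
  · intro j z hz σ β i
    exact T.Fl_l 0 _ (hz σ β i)
  · intro j z
    exact comm_d (T.idl 0) θ θ' 2 1 a (T.x j) (by rw [T.x_D]; exact Submodule.zero_mem _) (hx j) z
  · intro j z
    exact comm_d (T.idl 0) θ' θ'' 1 0 a (T.kk j) (by rw [T.kk_D]; exact Submodule.zero_mem _)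
      (hk j) z
  · have xk : ∀ (z : X.ι →₀ CR w) (σ : X.ι) (β : Bool) (i : w.Ob),
        (∑ j, lmT X (T.x j) (lmT X (T.kk j) z)) σ β i ∈ T.Fl 0 := by
      intro z σ β i
      have e : (∑ j, lmT X (T.x j) (lmT X (T.kk j) z)) σ β i =
          (∑ j, T.x j * T.kk j) * z σ β i := by
        rw [sumT_apply, Finset.sum_mul]
        exact Finset.sum_congr rfl fun j _ => (mul_assoc _ _ _).symm
      rw [e]
      exact T.Fl_r 0 _ T.x_kk
    exact fun z σ β i => xk z σ β i
  · intro y hy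
    obtain ⟨z, hz, hz2⟩ := T_gen X a 2 m (fun _ => -1) (fun _ => 0) T.x ⊤ (T.Fl 0) (T.idl 0)
      (fun P => 1 ≤ P) (fun j => by have := hP j; omega)
      (fun {P A C x} hP _ hx => by
        obtain ⟨z, hz, hz2⟩ := T.x_gen hP hx
        exact ⟨z, fun k => pc_cast (hz k) (by ring) rfl (by ring), hz2⟩)
      y hy (fun _ _ _ => Submodule.mem_top)
    refine ⟨z, fun j => ?_, hz2⟩
    have := hz j
    rw [sub_zero, show (2 : ℤ) + -1 = 1 by norm_num] at this
    exact this
  · intro z hz hs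
    obtain ⟨s, hs1, hs2⟩ := T_lift (κ1 := Fin 2) (κ2 := Unit) X a (fun _ => 1) (fun _ => 0)
      (fun _ => 0) (fun _ => 0)
      (fun y s => ∀ β j i, y i β j - T.kk i * s () β j ∈ T.Fl 0)
      (fun β j i => by
        simp only [CR.zero_apply, mul_zero, sub_zero]
        exact Submodule.zero_mem _)
      (fun y s e h β j i => by
        have e1 : (op e • y i) β j - T.kk i * (op e • s ()) β j =
            ∑ l, (y i β l - T.kk i * s () β l) * (e : w.Win).1 l j := by
          simp only [CR.act_apply, sub_mul, Finset.sum_sub_distrib, Finset.mul_sum, mul_assoc]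
        rw [e1]
        exact Submodule.sum_mem _ fun l _ => T.Fl_r 0 _ (h β l i))
      (fun y => ∀ β j, ∑ i, T.x i * y i β j ∈ T.Fl 0)
      (fun n y hy hH => by
        have h1 : ∀ β j, ∃ s ∈ w.pc (2 - w.P j - 2) (a + ab β - w.A j) (n - 0 - cb β),
            ∀ i, y i β j - T.kk i * s ∈ T.Fl 0 := fun β j =>
          T.x_ker (P := 2 - w.P j) (fun i => y i β j)
            (fun i => pc_cast (hy i β j) (by ring) rfl rfl) (hH β j)
        choose s hs hs2 using h1
        exact ⟨fun _ β j => s β j, fun _ β j => pc_cast (hs β j) (by ring) rfl rfl, hs2⟩)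
      (m - 1) z (fun i => by rw [sub_zero]; exact hz i) (fun σ β j => by
        let z' : Fin 2 → (X.ι →₀ CR w) := z
        have h3 : (∑ i, lmT X (T.x i) (z' i)) σ β j ∈ T.Fl 0 := hs σ β j
        rw [sumT_apply] at h3
        exact h3)
    refine ⟨s (), ?_, fun i σ β j => hs2 σ β j i⟩
    have := hs1 ()
    rw [sub_zero] at this
    exact this
  · intro s _ hs σ β j
    exact T.x_inj (hs σ β j)

/-- the rows `0` and `1` in all degrees -/
theorem main01 (X : LCells w.dga) (a : ℤ) (hP : ∀ j, w.P j ≤ 1)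
    (h0 : ∀ θ, T.T0 θ → ∀ n, AcQ (Yc θ 0 a X) ⊤ ⊥ n)
    (h1 : ∀ θ, T.T1 θ → ∀ n, AcQ (Yc θ 1 a X) ⊤ ⊥ n) (n : ℤ) :
    (∀ θ, T.T0 θ → AcQ (Yc θ 0 a X) ⊤ (TF X (T.Fl 0)) n) ∧
      (∀ θ, T.T1 θ → AcQ (Yc θ 1 a X) ⊤ (TF X (T.Fl 0)) n) := by
  have key : ∀ N : ℕ, ∀ n : ℤ, n < T.lo + N →
      (∀ θ, T.T0 θ → AcQ (Yc θ 0 a X) ⊤ (TF X (T.Fl 0)) n) ∧
      (∀ θ, T.T1 θ → AcQ (Yc θ 1 a X) ⊤ (TF X (T.Fl 0)) n) := by
    intro N
    induction N with
    | zero =>
      intro n hn
      have hz : ∀ (θ : Th w) (p : ℤ), AcQ (Yc θ p a X) ⊤ (TF X (T.Fl 0)) n := by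
        intro θ p x hx _ _
        refine ⟨0, Submodule.zero_mem _, Submodule.mem_top, ?_⟩
        rw [map_zero, sub_zero]
        intro σ β j
        have h2 := ((mem_Ygr.1 hx) σ).1 β j
        rw [T.neg (by cases β <;> simp only [cb] <;> push_cast at hn <;> omega)] at h2
        rw [(Submodule.mem_bot K).1 h2]
        exact Submodule.zero_mem _
      exact ⟨fun θ _ => hz θ 0, fun θ _ => hz θ 1⟩
    | succ N ih =>
      intro n hn
      by_cases hn2 : n < T.lo + N
      · exact ih n hn2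
      have hn3 : n = T.lo + N := by push_cast at hn; omega
      -- one row from the lower degrees
      have step : ∀ (p : ℤ) (θ : Th w), T.T2 θ →
          (∀ m < n, AcQ (Yc θ p a X) ⊤ (TF X (T.Fl 0)) m) →
          (∀ m < n, AcQ (Yc θ (p + 1) a X) ⊤ (TF X (T.Fl 0)) m) →
          (∀ m, AcQ (Yc θ p a X) ⊤ ⊥ m) → AcQ (Yc θ p a X) ⊤ (TF X (T.Fl 0)) n := by
        intro p θ hθ hp hp1 hS
        have hfil : ∀ i, i ≤ T.r → AcQ (Yc θ p a X) (TF X (T.Fl 0)) (TF X (T.Fl i)) (n - 1) := by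
          intro i
          induction i with
          | zero => intro _; exact AcQ.refl _ _
          | succ i ihi =>
            intro hi
            refine AcQ.trans (TF_mono ?_) (TF_mono (T.anti i)) (ihi (by omega)) ?_
            · exact antitone_nat_of_succ_le T.anti (Nat.zero_le i)
            refine AcQ.copies (κ := T.κ i) (fun y hy => TF_d (T.idl (i + 1)) θ p a hy)
              (fun k => Yc θ (p + T.uP i k) a X) (fun _ => TF X (T.Fl 0))
              (fun k => (T.uC i k : ℤ)) (fun k => lmT X (T.u i k)) ?_ ?_ ?_ ?_ ?_ ?_ ?_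
            · intro k m z hz
              exact lmT_gr (T.u_mem i k) (show In X (p + T.uP i k) a m z from hz)
            · intro k z σ β j
              exact T.Fl_r i _ (T.u_F i k)
            · intro k z hz σ β j
              exact T.u_J i k (hz σ β j)
            · intro k z
              exact comm_d (T.idl (i + 1)) θ θ p (p + T.uP i k) a (T.u i k) (T.u_D i k)
                (T.u_th θ hθ i k) z
            · intro x hx hF
              exact T_gen X a p (n - 1) (T.uP i) (fun k => (T.uC i k : ℤ)) (T.u i) (T.Fl i)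
                (T.Fl (i + 1)) (T.idl (i + 1)) (fun _ => True) (fun _ => trivial)
                (fun {P A C x} _ h1 h2 => T.gen i (by omega) h1 h2) x hx hF
            · intro z hz hs k σ β j
              let z' : T.κ i → (X.ι →₀ CR w) := z
              refine T.uniq i (P := p - w.P j) (A := a + ab β - w.A j)
                (C := n - 1 - 1 - X.s σ - cb β) (fun k => z' k σ β j) (by omega) (fun k => ?_) ?_ k
              · exact pc_cast (((mem_Ygr.1 (hz k)) σ).1 β j) (by ring) rfl (by ring)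
              · have h3 : (∑ k, lmT X (T.u i k) (z' k)) σ β j ∈ T.Fl (i + 1) := hs σ β j
                rw [sumT_apply] at h3
                exact h3
            · intro k
              rcases T.uP01 i k with hk | hk
              · rw [hk, add_zero]
                exact hp _ (by omega)
              · rw [hk]
                exact hp1 _ (by omega)
        have hbot : TF X (T.Fl T.r) = ⊥ := by
          rw [T.Fr, eq_bot_iff]
          intro x hx
          rw [Submodule.mem_bot]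
          refine Finsupp.ext fun σ => CR.ext fun β j => ?_
          exact (Submodule.mem_bot K).1 (hx σ β j)
        have hJ := hfil T.r le_rfl
        rw [hbot] at hJ
        have := AcQ.quot (Y := Yc θ p a X) (F := ⊤) (F' := TF X (T.Fl 0)) (F'' := ⊥) (n := n - 1)
          le_top bot_le (by rw [sub_add_cancel]; exact hS n) hJ
        rwa [sub_add_cancel] at this
      have H : ∀ m < n, (∀ θ, T.T0 θ → AcQ (Yc θ 0 a X) ⊤ (TF X (T.Fl 0)) m) ∧
          (∀ θ, T.T1 θ → AcQ (Yc θ 1 a X) ⊤ (TF X (T.Fl 0)) m) := fun m hm => ih m (by omega)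
      constructor
      · intro θ hθ
        refine step 0 θ (T.T12 _ (T.T01 _ hθ)) (fun m hm => (H m hm).1 θ hθ) (fun m hm => ?_)
          (h0 θ hθ)
        rw [zero_add]
        exact (H m hm).2 θ (T.T01 _ hθ)
      · intro θ hθ
        refine step 1 θ (T.T12 _ hθ) (fun m hm => (H m hm).2 θ hθ) (fun m hm => ?_) (h1 θ hθ)
        rw [show (1 : ℤ) + 1 = 2 by norm_num]
        exact T.k2 X a hP m (H m hm).2 (H (m - 1) (by omega)).1 θ (T.T12 _ hθ)
  exact key (n - T.lo + 1).toNat n (by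
    have := Int.self_le_toNat (n - T.lo + 1)
    omega)

/-- **(TR)** -/
theorem main (X : LCells w.dga) (a : ℤ) (hP : ∀ j, w.P j ≤ 1)
    (h0 : ∀ θ, T.T0 θ → ∀ n, AcQ (Yc θ 0 a X) ⊤ ⊥ n)
    (h1 : ∀ θ, T.T1 θ → ∀ n, AcQ (Yc θ 1 a X) ⊤ ⊥ n) :
    (∀ θ, T.T0 θ → ∀ n, AcQ (Yc θ 0 a X) ⊤ (TF X (T.Fl 0)) n) ∧
      (∀ θ, T.T1 θ → ∀ n, AcQ (Yc θ 1 a X) ⊤ (TF X (T.Fl 0)) n) ∧
      (∀ θ, T.T2 θ → ∀ n, AcQ (Yc θ 2 a X) ⊤ (TF X (T.Fl 0)) n) := by
  have H := T.main01 X a hP h0 h1
  exact ⟨fun θ hθ n => (H n).1 θ hθ, fun θ hθ n => (H n).2 θ hθ,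
    fun θ hθ n => T.k2 X a hP n (H n).2 (H (n - 1)).1 θ hθ⟩

end TRD

end Crest.Agent.R186.TR810
end

-- ▼ part R186/TRin_772
section

/-!
Row 186 (A), helper772: the start of (TR) (306's short road).  If `X → N` is a left cell resolution
and `th : e_i A → e_j A` (left multiplication by a degree zero element) has an acyclic cone on `N`,
then it has an acyclic cone on the rows of `X`.
-/

set_option autoImplicit false
set_option linter.style.haveILetI false
set_option linter.unusedSectionVars false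

open MulOpposite

namespace Crest.Agent.R186.TRin772

open Hat827 Hat827.DGA Frame515 Res255

variable {K : Type} [Field K] {A : DGA K}

/-- the differential of the cells -/
noncomputable def dX (X : LCells A) : (X.ι →₀ A.C) →ₗ[K] (X.ι →₀ A.C) := (tG (selfR A) X).d

/-- the grading of the cells -/
noncomputable def gX (X : LCells A) (k : ℤ) : Submodule K (X.ι →₀ A.C) := (tG (selfR A) X).gr k


/-- left multiplication on the cells -/
noncomputable def lX (X : LCells A) (a : A.C) : (X.ι →₀ A.C) →ₗ[K] (X.ι →₀ A.C) :=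
  Finsupp.mapRange.linearMap (LinearMap.mulLeft K a)

@[simp] theorem lX_apply (X : LCells A) (a : A.C) (x : X.ι →₀ A.C) (σ : X.ι) :
    lX X a x σ = a * x σ := rfl

theorem lX_mul (X : LCells A) (a b : A.C) (x : X.ι →₀ A.C) : lX X a (lX X b x) = lX X (a * b) x := by
  ext σ
  simp [mul_assoc]

theorem lX_mem (X : LCells A) {a : A.C} {k l : ℤ} (ha : a ∈ A.G l) {x : X.ι →₀ A.C}
    (hx : x ∈ gX X k) : lX X a x ∈ gX X (k + l) := by
  intro σ
  obtain ⟨h1, h2⟩ := hx σ
  refine ⟨?_, ?_⟩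
  · change a * x σ ∈ A.G (k + l - X.s σ)
    have := A.mul_mem ha h1
    rwa [show l + (k - (X.s σ : ℤ)) = k + l - X.s σ by ring] at this
  · change a * x σ * X.e σ = a * x σ
    change x σ * X.e σ = x σ at h2
    rw [mul_assoc, h2]

theorem lX_mem0 (X : LCells A) {a : A.C} {k : ℤ} (ha : a ∈ A.G 0) {x : X.ι →₀ A.C}
    (hx : x ∈ gX X k) : lX X a x ∈ gX X k := by
  have := lX_mem X ha hx
  rwa [add_zero] at this

theorem d_apply (X : LCells A) (x : X.ι →₀ A.C) (τ : X.ι) :
    dX X x τ = A.D (x τ) + x.sum fun σ g => g * X.c σ τ :=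
  (twG (selfR A) X).dd_apply x τ

/-- degree zero elements are cycles -/
theorem D_zero {a : A.C} (ha : a ∈ A.G 0) : A.D a = 0 := D_neg ha (by omega)

theorem lX_d (X : LCells A) {a : A.C} (ha : a ∈ A.G 0) (x : X.ι →₀ A.C) :
    dX X (lX X a x) = lX X a (dX X x) := by
  ext τ
  rw [d_apply, lX_apply, lX_apply, d_apply, A.D_mul, D_zero ha, zero_mul, zero_add, mul_add]
  congr 1
  rw [Finsupp.sum_of_support_subset (s := x.support) _ ?_ _ (fun σ _ => zero_mul _), Finsupp.sum,
    Finset.mul_sum]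
  · refine Finset.sum_congr rfl fun σ _ => ?_
    rw [lX_apply, mul_assoc]
  · intro σ hσ
    rw [Finsupp.mem_support_iff] at hσ ⊢
    intro h
    apply hσ
    rw [lX_apply, h, mul_zero]

theorem res_ex (X : LCells A) (N : LM A) (r : LRes X N) (k : ℤ) (x : X.ι →₀ A.C) (n : N.X)
    (hx : x ∈ gX X (k - 1)) (hd : dX X x = 0) (hn : n ∈ N.gr (r.lo + k))
    (h : augL X N r.v x + N.d n = 0) :
    ∃ y ∈ gX X k, ∃ n' ∈ N.gr (r.lo + k + 1), dX X y = x ∧ n = augL X N r.v y + N.d n' :=
  r.ex k x n hx hd hn h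

theorem aug_lX (X : LCells A) (N : LM A) (v : X.ι → N.X) (a : A.C) (x : X.ι →₀ A.C) :
    augL X N v (lX X a x) = a • augL X N v x := by
  have h : augL X N v ∘ₗ lX X a = lmul N a ∘ₗ augL X N v := by
    refine Finsupp.lhom_ext fun σ b => ?_
    rw [LinearMap.comp_apply, LinearMap.comp_apply, augL_single, lmul_apply]
    have : lX X a (Finsupp.single σ b) = Finsupp.single σ (a * b) := by
      simp [lX]
    rw [this, augL_single, mul_smul]
  exact LinearMap.congr_fun h x

theorem dblN (N : LM A) (n : N.X) : n + n = 0 := by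
  have : n = (1 : A.C) • n := by rw [one_smul]
  rw [this, ← add_smul, A.two, zero_smul]

theorem dblX (X : LCells A) (x : X.ι →₀ A.C) : x + x = 0 := by
  ext σ
  exact A.two _

theorem aug_mem (X : LCells A) (N : LM A) (r : LAug X N) {k : ℤ} {x : X.ι →₀ A.C}
    (hx : x ∈ gX X k) : augL X N r.v x ∈ N.gr (r.lo + k) := by
  rw [augL_apply]
  refine Submodule.sum_mem _ fun σ _ => ?_
  have := N.smul_mem (hx σ).1 (r.v_mem σ)
  rwa [show k - (X.s σ : ℤ) + (r.lo + X.s σ) = r.lo + k by ring] at this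

theorem aug_d (X : LCells A) (N : LM A) (r : LAug X N) (x : X.ι →₀ A.C) :
    augL X N r.v (dX X x) = N.d (augL X N r.v x) := by
  have h : augL X N r.v ∘ₗ dX X = N.d ∘ₗ augL X N r.v := by
    refine Finsupp.lhom_ext fun σ b => ?_
    rw [LinearMap.comp_apply, LinearMap.comp_apply, augL_single, N.leib, r.v_d]
    have h1 : dX X (Finsupp.single σ b) = Finsupp.single σ (A.D b) +
        ∑ τ ∈ X.F (X.s σ), Finsupp.single τ (b * X.c σ τ) := (twG (selfR A) X).dd_single σ b
    rw [h1, map_add, map_sum, augL_single, Finset.smul_sum]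
    congr 1
    refine Finset.sum_congr rfl fun τ _ => ?_
    rw [augL_single, mul_smul]
  exact LinearMap.congr_fun h x

/-- **the start of (TR)** -/
theorem start {X : LCells A} {N : LM A} (r : LRes X N) {th ei ej : A.C} (hth : th ∈ A.G 0)
    (hei : ei ∈ A.G 0) (hej : ej ∈ A.G 0) (hii : ei * ei = ei) (hjj : ej * ej = ej)
    (hl : ej * th = th)
    (hN : ∀ (k : ℤ) (n n1 : N.X), n ∈ N.gr k → ei • n = n → N.d n = 0 → n1 ∈ N.gr (k + 1) →
      ej • n1 = n1 → th • n = N.d n1 →
      ∃ n' ∈ N.gr (k + 1), ei • n' = n' ∧ ∃ n1' ∈ N.gr (k + 2), ej • n1' = n1' ∧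
        n = N.d n' ∧ n1 = th • n' + N.d n1')
    (k : ℤ) (x y : X.ι →₀ A.C) (hx : x ∈ gX X k) (hxi : ∀ σ, ei * x σ = x σ)
    (hdx : dX X x = 0) (hy : y ∈ gX X (k + 1))
    (hyj : ∀ σ, ej * y σ = y σ) (hxy : lX X th x = dX X y) :
    ∃ x' ∈ gX X (k + 1), (∀ σ, ei * x' σ = x' σ) ∧
      ∃ y' ∈ gX X (k + 2), (∀ σ, ej * y' σ = y' σ) ∧
        x = dX X x' ∧ y = lX X th x' + dX X y' := by
  have hxi' : lX X ei x = x := by ext σ; exact hxi σ
  have hyj' : lX X ej y = y := by ext σ; exact hyj σ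
  have e1 : ei • augL X N r.v x = augL X N r.v x := by rw [← aug_lX, hxi']
  have e2 : ej • augL X N r.v y = augL X N r.v y := by rw [← aug_lX, hyj']
  obtain ⟨n', hn', hn'i, n1', hn1', hn1'j, h1, h2⟩ := hN (r.lo + k) (augL X N r.v x)
    (augL X N r.v y) (aug_mem X N r.toLAug hx) e1
    (by rw [← aug_d, hdx, map_zero])
    (by
      have := aug_mem X N r.toLAug hy
      rwa [← add_assoc] at this) e2
    (by rw [← aug_lX, hxy, aug_d])
  -- lift of `n'`
  obtain ⟨x0, hx0, n'', hn'', h3, h4⟩ := res_ex X N r (k + 1) x n'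
    (by rwa [add_sub_cancel_right]) hdx
    (by rwa [← add_assoc]) (by rw [h1]; exact dblN N _)
  have hx0' : lX X ei x0 ∈ gX X (k + 1) := lX_mem0 X hei hx0
  have h3' : dX X (lX X ei x0) = x := by rw [lX_d X hei, h3, hxi']
  have h4' : n' = augL X N r.v (lX X ei x0) + N.d (ei • n'') := by
    rw [aug_lX, N.leib, D_zero hei, zero_smul, zero_add, ← smul_add, ← h4, hn'i]
  -- the cycle `z`
  have hz : y + lX X th (lX X ei x0) ∈ gX X (k + 1) :=
    Submodule.add_mem _ hy (lX_mem0 X hth hx0')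
  have hdz : dX X (y + lX X th (lX X ei x0)) = 0 := by
    rw [map_add, lX_d X hth, h3', ← hxy]
    exact dblX X _
  have haz : augL X N r.v (y + lX X th (lX X ei x0)) + N.d (n1' + th • (ei • n'')) = 0 := by
    rw [map_add, h2, aug_lX, map_add N.d, N.leib th, D_zero hth, zero_smul, zero_add]
    have h5 : th • n' = th • augL X N r.v (lX X ei x0) + th • N.d (ei • n'') := by
      rw [← smul_add, ← h4']
    rw [h5]
    have h6 := dblN N (th • augL X N r.v (lX X ei x0))
    have h7 := dblN N (th • N.d (ei • n''))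
    have h8 := dblN N (N.d n1')
    calc th • augL X N r.v (lX X ei x0) + th • N.d (ei • n'') + N.d n1' +
          th • augL X N r.v (lX X ei x0) + (N.d n1' + th • N.d (ei • n''))
        = (th • augL X N r.v (lX X ei x0) + th • augL X N r.v (lX X ei x0)) +
          (th • N.d (ei • n'') + th • N.d (ei • n'')) + (N.d n1' + N.d n1') := by abel
      _ = 0 := by rw [h6, h7, h8, add_zero, add_zero]
  have hmm : n1' + th • (ei • n'') ∈ N.gr (r.lo + (k + 2)) := by
    refine Submodule.add_mem _ ?_ ?_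
    · rwa [← add_assoc]
    · have h9 := N.smul_mem hth (N.smul_mem hei hn'')
      rw [zero_add, zero_add] at h9
      rwa [show r.lo + (k + 1) + 1 = r.lo + (k + 2) by ring] at h9
  obtain ⟨y0, hy0, n3, -, h10, -⟩ := res_ex X N r (k + 2) (y + lX X th (lX X ei x0))
    (n1' + th • (ei • n'')) (by rwa [show k + 2 - 1 = k + 1 by ring]) hdz hmm haz
  have hthj : lX X ej (lX X th (lX X ei x0)) = lX X th (lX X ei x0) := by rw [lX_mul, hl]
  refine ⟨lX X ei x0, hx0', fun σ => ?_, lX X ej y0, lX_mem0 X hej hy0, fun σ => ?_, h3'.symm, ?_⟩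
  · rw [lX_apply, ← mul_assoc, hii]
  · rw [lX_apply, ← mul_assoc, hjj]
  · rw [lX_d X hej, h10, map_add, hyj', hthj]
    rw [add_comm y, ← add_assoc, dblX, zero_add]

/-- the hypothesis for an honest module in degree zero -/
theorem honest (N : LM A) (hd : ∀ n, N.d n = 0) (h0 : ∀ k : ℤ, k ≠ 0 → N.gr k = ⊥) {th ei ej : A.C}
    (hinj : ∀ n ∈ N.gr 0, ei • n = n → th • n = 0 → n = 0)
    (hsur : ∀ n ∈ N.gr 0, ej • n = n → ∃ n' ∈ N.gr 0, ei • n' = n' ∧ th • n' = n)
    (k : ℤ) (n n1 : N.X) (hn : n ∈ N.gr k) (hni : ei • n = n) (_ : N.d n = 0)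
    (hn1 : n1 ∈ N.gr (k + 1)) (hn1j : ej • n1 = n1) (h : th • n = N.d n1) :
    ∃ n' ∈ N.gr (k + 1), ei • n' = n' ∧ ∃ n1' ∈ N.gr (k + 2), ej • n1' = n1' ∧
      n = N.d n' ∧ n1 = th • n' + N.d n1' := by
  have hnz : n = 0 := by
    by_cases hk : k = 0
    · subst hk
      exact hinj n hn hni (by rw [h, hd])
    · rw [h0 k hk] at hn
      exact (Submodule.mem_bot K).1 hn
  by_cases hk : k + 1 = 0
  · rw [hk] at hn1 ⊢
    obtain ⟨n', hn', h1, h2⟩ := hsur n1 hn1 hn1j
    refine ⟨n', hn', h1, 0, Submodule.zero_mem _, smul_zero _, ?_, ?_⟩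
    · rw [hnz, hd]
    · rw [h2, map_zero, add_zero]
  · have : n1 = 0 := by
      rw [h0 _ hk] at hn1
      exact (Submodule.mem_bot K).1 hn1
    refine ⟨0, Submodule.zero_mem _, smul_zero _, 0, Submodule.zero_mem _, smul_zero _, ?_, ?_⟩
    · rw [hnz, map_zero]
    · rw [this, smul_zero, map_zero, add_zero]

end Crest.Agent.R186.TRin772
end

-- ▼ part R186/TRg_461
section

/-!
Row 186 (A), helper461: the start of (TR) of 306's short road (#34919) in 810's form.

`gamC` : `X → N` a cell resolution (255's `LRes`) over the window algebra of `w`, `o, o'` objects at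
the positions `(p, a)`, `(p, a + 1)`, the cone of `θ : e_o N → e_o' N` acyclic; then
`AcQ (Yc θ p a X) ⊤ ⊥ n` for all `n`.
`gamH` : the same for `N` in degree `0`, `θ : e_o N → e_o' N` bijective.
-/

set_option autoImplicit false
set_option linter.style.haveILetI false
set_option linter.unusedSectionVars false

open MulOpposite

namespace Crest.Agent.R186.TRg461

open Hat827 Hat827.DGA Frame515 Res255 Win810 TR810 TRin772

variable {K : Type} [Field K] {w : WD K}

/-! ### rows of the window algebra -/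

theorem mr_mem {o : w.Ob} {f : w.Ob → w.S} {c : ℤ} (h : ∀ j, f j ∈ w.q o j c) :
    (Matrix.of fun i j => if i = o then f j else 0 : Matrix w.Ob w.Ob w.S) ∈ w.Win := by
  intro i j
  change (if i = o then f j else 0) ∈ _
  split_ifs with hi
  · subst hi
    exact WD.q_le _ _ c (h j)
  · exact Submodule.zero_mem _

/-- the element of the window algebra with one row -/
def wr (o : w.Ob) (f : w.Ob → w.S) (c : ℤ) (h : ∀ j, f j ∈ w.q o j c) : w.Win :=
  ⟨Matrix.of fun i j => if i = o then f j else 0, mr_mem h⟩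

theorem wr_val (o : w.Ob) (f : w.Ob → w.S) (c : ℤ) (h : ∀ j, f j ∈ w.q o j c) (i j : w.Ob) :
    (wr o f c h).1 i j = if i = o then f j else 0 := rfl

theorem wr_G (o : w.Ob) (f : w.Ob → w.S) (c : ℤ) (h : ∀ j, f j ∈ w.q o j c) :
    wr o f c h ∈ w.G c := by
  intro i j
  rw [wr_val]
  split_ifs with hi
  · subst hi
    exact h j
  · exact Submodule.zero_mem _

theorem wr_mul (o : w.Ob) (f : w.Ob → w.S) (c : ℤ) (h : ∀ j, f j ∈ w.q o j c) (m : w.Win)
    (i j : w.Ob) : (wr o f c h * m).1 i j = if i = o then ∑ l, f l * m.1 l j else 0 := by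
  change ((wr o f c h).1 * m.1) i j = _
  rw [Matrix.mul_apply]
  split_ifs with hi
  · exact Finset.sum_congr rfl fun l _ => by rw [wr_val, if_pos hi]
  · exact Finset.sum_eq_zero fun l _ => by rw [wr_val, if_neg hi, zero_mul]

theorem ws_mul (a b : w.Ob) (s : w.S) (h : s ∈ w.E a b) (m : w.Win) (i j : w.Ob) :
    (WD.ws a b s h * m).1 i j = if a = i then s * m.1 b j else 0 := by
  change (Matrix.single a b s * m.1) i j = _
  rw [Matrix.mul_apply]
  split_ifs with hi
  · subst hi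
    rw [Finset.sum_eq_single b]
    · rw [Matrix.single_apply, if_pos ⟨rfl, rfl⟩]
    · intro l _ hl
      rw [Matrix.single_apply, if_neg (fun h => hl h.2.symm), zero_mul]
    · intro h
      exact absurd (Finset.mem_univ _) h
  · refine Finset.sum_eq_zero fun l _ => ?_
    rw [Matrix.single_apply, if_neg (fun h => hi h.1), zero_mul]

/-- the idempotent of an object -/
def we (o : w.Ob) : w.dga.C := WD.ws o o 1 (WD.q_le o o 0 (WD.q_one o))

theorem th_E (θ : Th w) {o o' : w.Ob} (hP : w.P o' = w.P o) (hA : w.A o' = w.A o + 1) :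
    θ.t ∈ w.E o' o :=
  WD.q_le o' o 0 (pc_cast θ.mem (by rw [hP]; ring) (by rw [hA]; ring) rfl)

/-- the one entry matrix of `θ` -/
def wth (θ : Th w) (o o' : w.Ob) (hP : w.P o' = w.P o) (hA : w.A o' = w.A o + 1) : w.dga.C :=
  WD.ws o' o θ.t (th_E θ hP hA)

theorem we_G (o : w.Ob) : we o ∈ w.dga.G 0 := by
  intro i j
  change Matrix.single o o (1 : w.S) i j ∈ _
  rw [Matrix.single_apply]
  split_ifs with h
  · obtain ⟨rfl, rfl⟩ := h
    exact WD.q_one _
  · exact Submodule.zero_mem _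

theorem wth_G (θ : Th w) {o o' : w.Ob} (hP : w.P o' = w.P o) (hA : w.A o' = w.A o + 1) :
    wth θ o o' hP hA ∈ w.dga.G 0 := by
  intro i j
  change Matrix.single o' o θ.t i j ∈ _
  rw [Matrix.single_apply]
  split_ifs with h
  · obtain ⟨rfl, rfl⟩ := h
    exact pc_cast θ.mem (by rw [hP]; ring) (by rw [hA]; ring) rfl
  · exact Submodule.zero_mem _

theorem we_mul (o : w.Ob) (m : w.dga.C) (i j : w.Ob) :
    ((we o * m : w.dga.C) : w.Win).1 i j = if o = i then (m : w.Win).1 o j else 0 := by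
  have h := ws_mul o o 1 (WD.q_le o o 0 (WD.q_one o)) m i j
  rw [one_mul] at h
  exact h

theorem wth_mul (θ : Th w) {o o' : w.Ob} (hP : w.P o' = w.P o) (hA : w.A o' = w.A o + 1)
    (m : w.dga.C) (i j : w.Ob) :
    ((wth θ o o' hP hA * m : w.dga.C) : w.Win).1 i j =
      if o' = i then θ.t * (m : w.Win).1 o j else 0 :=
  ws_mul o' o θ.t (th_E θ hP hA) m i j

theorem we_we (o : w.Ob) : we o * we o = we o := by
  apply Subtype.ext
  ext i j
  refine (we_mul o (we o) i j).trans ?_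
  change (if o = i then Matrix.single o o (1 : w.S) o j else 0) = Matrix.single o o (1 : w.S) i j
  rw [Matrix.single_apply, Matrix.single_apply]
  by_cases h1 : o = i <;> by_cases h2 : o = j <;> simp [h1, h2]

theorem we_wth (θ : Th w) {o o' : w.Ob} (hP : w.P o' = w.P o) (hA : w.A o' = w.A o + 1) :
    we o' * wth θ o o' hP hA = wth θ o o' hP hA := by
  apply Subtype.ext
  ext i j
  refine (we_mul o' (wth θ o o' hP hA) i j).trans ?_
  change (if o' = i then Matrix.single o' o θ.t o' j else 0) = Matrix.single o' o θ.t i j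
  rw [Matrix.single_apply, Matrix.single_apply]
  by_cases h1 : o' = i <;> by_cases h2 : o = j <;> simp [h1, h2]

/-! ### the translation -/

section tr

variable (θ : Th w) (X : LCells w.dga) {o o' : w.Ob}

theorem mem_Yc {p a k : ℤ} {x : X.ι →₀ CR w} : x ∈ (Yc θ p a X).gr k ↔
    ∀ σ, x σ ∈ grC w p a (k - X.s σ) ∧ op (X.e σ) • x σ = x σ := Iff.rfl

theorem Yc_d {p a : ℤ} (x : X.ι →₀ CR w) (τ : X.ι) (β : Bool) (j : w.Ob)
    (S : Finset X.ι) (hS : x.support ⊆ S) :
    (show X.ι →₀ CR w from (Yc θ p a X).d x) τ β j =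
      w.D (x τ β j) + tb θ.t β * x τ false j +
        ∑ σ ∈ S, ∑ l, x σ β l * (X.c σ τ : w.Win).1 l j := by
  have h := (twG (CRM θ p a) X).dd_apply' x S hS τ
  have h2 : (show X.ι →₀ CR w from (Yc θ p a X).d x) τ =
      (show CR w from (CRM θ p a).d (x τ)) + ∑ σ ∈ S, (show CR w from op (X.c σ τ) • x σ) := h
  rw [h2, CR.add_apply, CR.sum_apply]
  rfl

theorem dX_val (u : X.ι →₀ w.dga.C) (τ : X.ι) (i j : w.Ob) (S : Finset X.ι) (hS : u.support ⊆ S) :
    (dX X u τ : w.Win).1 i j = w.D ((u τ : w.Win).1 i j) +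
      ∑ σ ∈ S, ∑ l, (u σ : w.Win).1 i l * (X.c σ τ : w.Win).1 l j := by
  have h : dX X u τ = w.dga.D (u τ) + ∑ σ ∈ S, u σ * X.c σ τ :=
    (twG (selfR w.dga) X).dd_apply' u S hS τ
  let φ : w.dga.C →+ w.S :=
    { toFun := fun m => (m : w.Win).1 i j, map_zero' := rfl, map_add' := fun _ _ => rfl }
  have h2 := congrArg φ h
  rw [map_add, map_sum] at h2
  exact h2

/-- **the start of (TR), 810's form** -/
theorem gamC {N : LM w.dga} (r : LRes X N) (hP : w.P o' = w.P o) (hA : w.A o' = w.A o + 1)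
    (hN : ∀ (k : ℤ) (n n1 : N.X), n ∈ N.gr k → we o • n = n → N.d n = 0 → n1 ∈ N.gr (k + 1) →
      we o' • n1 = n1 → wth θ o o' hP hA • n = N.d n1 →
      ∃ n' ∈ N.gr (k + 1), we o • n' = n' ∧ ∃ n1' ∈ N.gr (k + 2), we o' • n1' = n1' ∧
        n = N.d n' ∧ n1 = wth θ o o' hP hA • n' + N.d n1') (n : ℤ) :
    AcQ (Yc θ (w.P o) (w.A o) X) ⊤ ⊥ n := by
  classical
  intro x hx _ hdx
  rw [Submodule.mem_bot] at hdx
  have hdx' : ∀ τ β j, w.D ((show X.ι →₀ CR w from x) τ β j) +
      tb θ.t β * (show X.ι →₀ CR w from x) τ false j +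
        ∑ σ ∈ (show X.ι →₀ CR w from x).support, ∑ l, (show X.ι →₀ CR w from x) σ β l *
          (X.c σ τ : w.Win).1 l j = 0 := by
    intro τ β j
    rw [← Yc_d θ X (p := w.P o) (a := w.A o) x τ β j _ (Finset.Subset.refl _)]
    rw [show (show X.ι →₀ CR w from (Yc θ (w.P o) (w.A o) X).d x) = 0 from hdx]
    rfl
  have hx' := (mem_Yc θ X).1 hx
  -- the two rows
  have h0 : ∀ σ j, (show X.ι →₀ CR w from x) σ false j ∈ w.q o j (n - 1 - X.s σ) := fun σ j =>
    pc_cast ((hx' σ).1 false j) rfl (by simp only [ab]; ring) (by simp only [cb]; ring)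
  have h1 : ∀ σ j, (show X.ι →₀ CR w from x) σ true j ∈ w.q o' j (n - 1 + 1 - X.s σ) := fun σ j =>
    pc_cast ((hx' σ).1 true j) (by rw [hP]) (by rw [hA]; simp only [ab])
      (by simp only [cb]; ring)
  let u : X.ι →₀ w.dga.C := Finsupp.onFinset (show X.ι →₀ CR w from x).support
    (fun σ => wr o ((show X.ι →₀ CR w from x) σ false) _ (h0 σ)) (by
      intro σ hσ
      rw [Finsupp.mem_support_iff]
      intro h
      apply hσ
      apply Subtype.ext
      ext i j
      rw [wr_val, h]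
      change (if i = o then (0 : w.S) else 0) = 0
      rw [ite_self])
  let v : X.ι →₀ w.dga.C := Finsupp.onFinset (show X.ι →₀ CR w from x).support
    (fun σ => wr o' ((show X.ι →₀ CR w from x) σ true) _ (h1 σ)) (by
      intro σ hσ
      rw [Finsupp.mem_support_iff]
      intro h
      apply hσ
      apply Subtype.ext
      ext i j
      rw [wr_val, h]
      change (if i = o' then (0 : w.S) else 0) = 0
      rw [ite_self])
  have hu : ∀ σ i j, (u σ : w.Win).1 i j =
      if i = o then (show X.ι →₀ CR w from x) σ false j else 0 := fun σ i j => rfl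
  have hv : ∀ σ i j, (v σ : w.Win).1 i j =
      if i = o' then (show X.ι →₀ CR w from x) σ true j else 0 := fun σ i j => rfl
  have us : u.support ⊆ (show X.ι →₀ CR w from x).support := Finsupp.support_onFinset_subset
  have vs : v.support ⊆ (show X.ι →₀ CR w from x).support := Finsupp.support_onFinset_subset
  have hug : u ∈ gX X (n - 1) := by
    intro σ
    refine ⟨wr_G _ _ _ (h0 σ), ?_⟩
    change u σ * X.e σ = u σ
    apply Subtype.ext
    ext i j
    have e1 : (u σ * X.e σ : w.Win).1 i j = _ := wr_mul o _ _ (h0 σ) (X.e σ) i j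
    rw [show ((u σ * X.e σ : w.dga.C) : w.Win).1 i j = _ from e1, hu]
    split_ifs with hi
    · have e2 := congrFun (congrFun (hx' σ).2 false) j
      exact e2
    · rfl
  have hvg : v ∈ gX X (n - 1 + 1) := by
    intro σ
    refine ⟨wr_G _ _ _ (h1 σ), ?_⟩
    change v σ * X.e σ = v σ
    apply Subtype.ext
    ext i j
    have e1 : (v σ * X.e σ : w.Win).1 i j = _ := wr_mul o' _ _ (h1 σ) (X.e σ) i j
    rw [show ((v σ * X.e σ : w.dga.C) : w.Win).1 i j = _ from e1, hv]
    split_ifs with hi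
    · have e2 := congrFun (congrFun (hx' σ).2 true) j
      exact e2
    · rfl
  have heu : ∀ σ, we o * u σ = u σ := by
    intro σ
    apply Subtype.ext
    ext i j
    rw [show ((we o * u σ : w.dga.C) : w.Win).1 i j = _ from we_mul o (u σ) i j, hu, hu, if_pos rfl]
    by_cases hi : o = i
    · rw [if_pos hi, if_pos hi.symm]
    · rw [if_neg hi, if_neg (fun h => hi h.symm)]
  have hev : ∀ σ, we o' * v σ = v σ := by
    intro σ
    apply Subtype.ext
    ext i j
    rw [show ((we o' * v σ : w.dga.C) : w.Win).1 i j = _ from we_mul o' (v σ) i j, hv, hv,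
      if_pos rfl]
    by_cases hi : o' = i
    · rw [if_pos hi, if_pos hi.symm]
    · rw [if_neg hi, if_neg (fun h => hi h.symm)]
  have hdu : dX X u = 0 := by
    ext τ
    apply Subtype.ext
    ext i j
    rw [dX_val X u τ i j _ us]
    by_cases hi : i = o
    · have := hdx' τ false j
      rw [show tb θ.t false = 0 from rfl, zero_mul, add_zero] at this
      simp only [hu, if_pos hi]
      exact this
    · simp only [hu, if_neg hi, zero_mul, Finset.sum_const_zero, map_zero, add_zero]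
      rfl
  have hdv : lX X (wth θ o o' hP hA) u = dX X v := by
    ext τ
    apply Subtype.ext
    ext i j
    rw [dX_val X v τ i j _ vs]
    rw [show ((lX X (wth θ o o' hP hA) u τ : w.dga.C) : w.Win).1 i j = _ from
      wth_mul θ hP hA (u τ) i j, hu, if_pos rfl]
    by_cases hi : i = o'
    · have := hdx' τ true j
      rw [show tb θ.t true = θ.t from rfl] at this
      simp only [hv, if_pos hi, if_pos hi.symm]
      have e2 : ∀ α β γ : w.S, α + β + γ = 0 → β = α + γ := by
        intro α β γ h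
        have h3 : α + γ = (α + β + γ) + β := by
          rw [show α + β + γ + β = α + γ + (β + β) by abel, w.two, add_zero]
        rw [h3, h, zero_add]
      exact e2 _ _ _ this
    · rw [if_neg (fun h => hi h.symm)]
      simp only [hv, if_neg hi, zero_mul, Finset.sum_const_zero, map_zero, add_zero]
  obtain ⟨x', hx', ex', y', hy', ey', e1, e2⟩ := start r (wth_G θ hP hA) (we_G o) (we_G o')
    (we_we o) (we_we o') (we_wth θ hP hA) hN (n - 1) u v hug heu hdu hvg hev hdv
  -- back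
  let z : X.ι →₀ CR w := Finsupp.onFinset (x'.support ∪ y'.support)
    (fun σ => (fun β j => match β with
      | false => (x' σ : w.Win).1 o j
      | true => (y' σ : w.Win).1 o' j : CR w)) (by
      intro σ hσ
      rw [Finset.mem_union, Finsupp.mem_support_iff, Finsupp.mem_support_iff]
      by_contra hc
      push Not at hc
      apply hσ
      ext β j
      cases β
      · change (x' σ : w.Win).1 o j = 0
        rw [hc.1]; rfl
      · change (y' σ : w.Win).1 o' j = 0
        rw [hc.2]; rfl)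
  have hz0 : ∀ σ j, z σ false j = (x' σ : w.Win).1 o j := fun σ j => rfl
  have hz1 : ∀ σ j, z σ true j = (y' σ : w.Win).1 o' j := fun σ j => rfl
  have zs : z.support ⊆ x'.support ∪ y'.support := Finsupp.support_onFinset_subset
  refine ⟨z, ?_, Submodule.mem_top, ?_⟩
  · refine (mem_Yc θ X).2 fun σ => ⟨fun β j => ?_, ?_⟩
    · cases β
      · rw [hz0]
        exact pc_cast ((hx' σ).1 o j) rfl (by simp only [ab]; ring) (by simp only [cb]; ring)
      · rw [hz1]
        exact pc_cast ((hy' σ).1 o' j) (by rw [hP]) (by rw [hA]; simp only [ab])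
          (by simp only [cb]; ring)
    · ext β j
      rw [CR.act_apply]
      cases β
      · have e3 : (x' σ * X.e σ : w.dga.C) = x' σ := (hx' σ).2
        have e4 : ((x' σ : w.Win).1 * (X.e σ : w.Win).1) o j = (x' σ : w.Win).1 o j :=
          congrFun (congrFun (congrArg Subtype.val e3) o) j
        rw [Matrix.mul_apply] at e4
        exact e4
      · have e3 : (y' σ * X.e σ : w.dga.C) = y' σ := (hy' σ).2
        have e4 : ((y' σ : w.Win).1 * (X.e σ : w.Win).1) o' j = (y' σ : w.Win).1 o' j :=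
          congrFun (congrFun (congrArg Subtype.val e3) o') j
        rw [Matrix.mul_apply] at e4
        exact e4
  · rw [Submodule.mem_bot, sub_eq_zero]
    change (show X.ι →₀ CR w from x) = (show X.ι →₀ CR w from (Yc θ (w.P o) (w.A o) X).d z)
    ext τ β j
    rw [Yc_d θ X z τ β j _ zs]
    cases β
    · rw [show tb θ.t false = 0 from rfl, zero_mul, add_zero]
      have e5 : (u τ : w.Win).1 o j = (dX X x' τ : w.Win).1 o j := by rw [e1]
      rw [hu, if_pos rfl, dX_val X x' τ o j _ Finset.subset_union_left] at e5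
      exact e5
    · rw [show tb θ.t true = θ.t from rfl]
      have e5 : (v τ : w.Win).1 o' j =
          (lX X (wth θ o o' hP hA) x' τ : w.Win).1 o' j + (dX X y' τ : w.Win).1 o' j := by
        rw [e2]; rfl
      rw [hv, if_pos rfl, dX_val X y' τ o' j _ Finset.subset_union_right,
        show ((lX X (wth θ o o' hP hA) x' τ : w.dga.C) : w.Win).1 o' j = _ from
          wth_mul θ hP hA (x' τ) o' j, if_pos rfl] at e5
      rw [e5]
      simp only [hz0, hz1]
      abel


end tr

end Crest.Agent.R186.TRg461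
end

-- ▼ part R186/TRinC_772
section

/-!
Row 186 (A), helper772: the concrete half of the start of (TR): the module `V_{-1}` over the window
of `R''` (and over every `A → L''`), and left multiplication by `h`, `theta_e` on its rows.
-/

set_option autoImplicit false
set_option linter.style.haveILetI false
set_option linter.unusedSectionVars false

open MulOpposite

namespace Crest.Agent.R186.TRin772

open Hat827 Hat827.DGA Frame515 Res255 Win810 Win810.WD
open Crest.Agent.R186.DefsQ830 Crest.Agent.R186.VOp220 Crest.Agent.R186.Vmod220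
open Crest.Agent.R186.Cells221

variable {K : Type} [Field K] (π : Par K)

theorem VR_D (n : ℤ) (a : (WR π).Win) (w : (VR π n).VM) : (WR π).DW a • w = 0 := by
  apply WMod.vext
  intro i
  have h : ∀ j : (WR π).Ob, (VR π n).rho (((WR π).DW a).1 i j) (w j).1 = 0 :=
    fun j => rep_D_zero π (a.1 i j) (w j).1
  rw [WMod.smul_apply, Finset.sum_congr rfl fun j _ => h j, Finset.sum_const_zero]
  rfl

/-- `V_n` as a module over the strict dg algebra `L''` -/
noncomputable def VL (n : ℤ) : LM (WR π).dga :=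
  letI i1 : Module (WR π).dga.C (VR π n).VM := inferInstanceAs (Module (WR π).Win (VR π n).VM)
  letI i2 : IsScalarTower K (WR π).dga.C (VR π n).VM :=
    inferInstanceAs (IsScalarTower K (WR π).Win (VR π n).VM)
  honL (WR π).dga (VR π n).VM
    (fun _ hk _ ha w => WMod.smul_pos (VR π n) hk ha w) (VR_D π n)


theorem VL_gr (n : ℤ) {k : ℤ} (hk : k ≠ 0) : (VL π n).gr k = ⊥ := by
  change (if k = 0 then (⊤ : Submodule K (VR π n).VM) else ⊥) = ⊥
  exact if_neg hk

theorem VL_gr0 (n : ℤ) (x : (VL π n).X) : x ∈ (VL π n).gr 0 := by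
  change (show (VR π n).VM from x) ∈ (if (0 : ℤ) = 0 then (⊤ : Submodule K (VR π n).VM) else ⊥)
  rw [if_pos rfl]
  exact Submodule.mem_top

/-- vertices -/
def ob (i : Fin 2) (b : Fin 4) : (WR π).Ob := (i, b)

/-- the component at a vertex -/
noncomputable def cp (n : ℤ) (o : (WR π).Ob) (x : (VL π n).X) : Pol K :=
  ((show (VR π n).VM from x) o).1


/-! ### multiplication by a degree zero element on the rows of `V_{-1}` -/

theorem fin2 (i : Fin 2) : i = 0 ∨ i = 1 := by fin_cases i <;> simp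

/-- the element `t` acts on `V_{-1}` at the row `1` by a nonzero scalar -/
def NZ (t : R π) : Prop := ∃ r : K, r ≠ 0 ∧ ∀ v ∈ hom K 0, rep π t v = r • v

section core

variable {i : Fin 2} {b b' : Fin 4} {t : R π} (ht : t ∈ (WR π).E (ob π i b') (ob π i b))

theorem W_zero (b : Fin 4) {v : Pol K} (hv : v ∈ (VR π (-1)).W (ob π 0 b)) : v = 0 := by
  change v ∈ hom K (-1 + ((0 : Fin 2).val : ℤ)) at hv
  rw [hom_neg (by simp)] at hv
  exact (Submodule.mem_bot K).1 hv

theorem W_one (b : Fin 4) {v : Pol K} : v ∈ (VR π (-1)).W (ob π 1 b) ↔ v ∈ hom K 0 := by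
  change v ∈ hom K (-1 + ((1 : Fin 2).val : ℤ)) ↔ _
  have : (-1 + ((1 : Fin 2).val : ℤ)) = 0 := by norm_num
  rw [this]

theorem core_inj (hs : i = 1 → NZ π t) (x : (VR π (-1)).VM)
    (hx : (WD.e (w := WR π) (ob π i b)) • x = x)
    (h0 : (ws (w := WR π) (ob π i b') (ob π i b) t ht) • x = 0) : x = 0 := by
  have hx' := ((VR π (-1)).e_smul_iff (ob π i b) x).1 hx
  apply WMod.vext
  intro l
  by_cases hl : ob π i b = l
  · subst hl
    change (x (ob π i b)).1 = 0
    rcases fin2 i with rfl | rfl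
    · exact W_zero π b (x (ob π 0 b)).2
    · obtain ⟨r, hr, hr'⟩ := hs rfl
      have h1 := congrArg (fun y : (VR π (-1)).VM => (y (ob π 1 b')).1) h0
      have h2 := (VR π (-1)).ws_smul ht x (ob π 1 b')
      rw [if_pos rfl] at h2
      have h3 : rep π t (x (ob π 1 b)).1 = 0 := h2.symm.trans h1
      rw [hr' _ ((W_one π b).1 (x (ob π 1 b)).2)] at h3
      exact (smul_eq_zero.1 h3).resolve_left hr
  · exact hx' l hl

theorem core_sur (hs : i = 1 → NZ π t) (y : (VR π (-1)).VM)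
    (hy : (WD.e (w := WR π) (ob π i b')) • y = y) :
    ∃ x : (VR π (-1)).VM, (WD.e (w := WR π) (ob π i b)) • x = x ∧
      (ws (w := WR π) (ob π i b') (ob π i b) t ht) • x = y := by
  have hy' := ((VR π (-1)).e_smul_iff (ob π i b') y).1 hy
  rcases fin2 i with rfl | rfl
  · refine ⟨0, smul_zero _, ?_⟩
    rw [smul_zero]
    apply WMod.vext
    intro l
    by_cases hl : ob π 0 b' = l
    · subst hl
      exact (W_zero π b' (y (ob π 0 b')).2).symm
    · exact (hy' l hl).symm
  · obtain ⟨r, hr, hr'⟩ := hs rfl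
    have hm : r⁻¹ • (y (ob π 1 b')).1 ∈ (VR π (-1)).W (ob π 1 b) :=
      Submodule.smul_mem _ _ ((W_one π b).2 ((W_one π b').1 (y (ob π 1 b')).2))
    refine ⟨(VR π (-1)).mkV (ob π 1 b) (r⁻¹ • (y (ob π 1 b')).1) hm, ?_, ?_⟩
    · rw [(VR π (-1)).e_smul_iff]
      intro j hj
      rw [WMod.mkV_apply, if_neg hj]
    · apply WMod.vext
      intro l
      rw [(VR π (-1)).ws_smul ht]
      by_cases hl : ob π 1 b' = l
      · subst hl
        rw [if_pos rfl, WMod.mkV_apply, if_pos rfl]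
        have h1 : rep π t (r⁻¹ • (y (ob π 1 b')).1) = r⁻¹ • (r • (y (ob π 1 b')).1) :=
          (map_smul (rep π t) r⁻¹ _).trans
            (congrArg (r⁻¹ • ·) (hr' _ ((W_one π b').1 (y (ob π 1 b')).2)))
        refine h1.trans ?_
        exact (smul_smul r⁻¹ r _).trans (by rw [inv_mul_cancel₀ hr]; exact one_smul K _)
      · rw [if_neg hl]
        exact (hy' l hl).symm

end core

/-! ### the two kinds of elements -/

theorem NZ_h : NZ π (X π .h) := by
  refine ⟨1, one_ne_zero, fun v _ => ?_⟩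
  rw [one_smul, rep_X]
  rfl

/-- `theta_e = t + g^(-e-2) h` -/
noncomputable def theta (e : ℤ) : R π := tR π + (π.g ^ (-e - 2)) • X π .h

theorem NZ_theta {e : ℤ} (he : e ≠ 0) : NZ π (theta π e) := by
  have g0 := π.g0
  refine ⟨(π.g ^ 2)⁻¹ + π.g ^ (-e - 2), ?_, fun v hv => ?_⟩
  · intro h
    have h2 : (2 : K) = 0 := π.two
    have h3 : π.g ^ (-e - 2) = (π.g ^ 2)⁻¹ := by
      have h4 : (π.g ^ 2)⁻¹ + (π.g ^ 2)⁻¹ = 0 := by rw [← two_mul, h2, zero_mul]
      exact add_left_cancel (h.trans h4.symm)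
    have h5 : π.g ^ (-e) = 1 := by
      have h6 : π.g ^ (-e) = π.g ^ (-e - 2) * π.g ^ (2 : ℤ) := by
        rw [← zpow_add₀ g0, sub_add_cancel]
      rw [h6, h3, show π.g ^ (2 : ℤ) = π.g ^ 2 from by norm_cast, inv_mul_cancel₀ (pow_ne_zero 2 g0)]
    rcases lt_trichotomy e 0 with hlt | heq | hgt
    · obtain ⟨n, hn⟩ : ∃ n : ℕ, -e = n := ⟨(-e).toNat, by omega⟩
      rw [hn, zpow_natCast] at h5
      exact π.gn n (by omega) h5
    · exact he heq
    · obtain ⟨n, hn⟩ : ∃ n : ℕ, e = n := ⟨e.toNat, by omega⟩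
      rw [hn, zpow_neg, zpow_natCast, inv_eq_one] at h5
      exact π.gn n (by omega) h5
  · have h1 : rep π (tR π) v = ((π.g⁻¹) ^ (0 + 2)) • v := by
      rw [rep_tR]
      exact TT_hom π (m := 0) (by exact_mod_cast hv)
    have h2 : rep π (X π .h) v = v := by
      rw [rep_X]
      rfl
    rw [theta, map_add, LinearMap.add_apply, h1, map_smul, LinearMap.smul_apply, h2, add_smul]
    simp


theorem h_mem : X π .h ∈ pcZ π 0 1 0 := by
  rw [show (1 : ℤ) = ((1 : ℕ) : ℤ) from rfl, show (0 : ℤ) = ((0 : ℕ) : ℤ) from rfl]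
  have := pcZ_nat π ((0 : ℕ) : ℤ) 1 0
  rw [this]
  exact PBW128.X_mem_pc π .h

/-! ### over an algebra mapping to `L''` -/

section gen

variable {A : DGA K} (h : Hm A (WR π).dga) {i : Fin 2} {b b' : Fin 4} {t : R π}
  (ht : t ∈ (WR π).E (ob π i b') (ob π i b)) {th ei ej : A.C}

/-- **the hypothesis `hN` of `start` for `V_{-1}`** -/
theorem gamN (hs : i = 1 → NZ π t) (hei : h.f ei = WD.e (w := WR π) (ob π i b))
    (hej : h.f ej = WD.e (w := WR π) (ob π i b')) (hth : h.f th = ws (w := WR π) (ob π i b') (ob π i b) t ht)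
    (k : ℤ) (n n1 : (resL h (VL π (-1))).X) (hn : n ∈ (resL h (VL π (-1))).gr k)
    (hni : ei • n = n) (hd : (resL h (VL π (-1))).d n = 0)
    (hn1 : n1 ∈ (resL h (VL π (-1))).gr (k + 1)) (hn1j : ej • n1 = n1)
    (hh : th • n = (resL h (VL π (-1))).d n1) :
    ∃ n' ∈ (resL h (VL π (-1))).gr (k + 1), ei • n' = n' ∧
      ∃ n1' ∈ (resL h (VL π (-1))).gr (k + 2), ej • n1' = n1' ∧
        n = (resL h (VL π (-1))).d n' ∧ n1 = th • n' + (resL h (VL π (-1))).d n1' := by
  refine honest (resL h (VL π (-1))) (fun _ => rfl) (fun k hk => VL_gr π (-1) hk) ?_ ?_ k n n1 hn hni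
    hd hn1 hn1j hh
  · intro x _ hx h0
    change h.f ei • (show (VL π (-1)).X from x) = x at hx
    change h.f th • (show (VL π (-1)).X from x) = 0 at h0
    rw [hei] at hx
    rw [hth] at h0
    exact core_inj π ht hs x hx h0
  · intro y _ hy
    change h.f ej • (show (VL π (-1)).X from y) = y at hy
    rw [hej] at hy
    obtain ⟨x, h1, h2⟩ := core_sur π ht hs y hy
    refine ⟨x, ?_, ?_, ?_⟩
    · exact VL_gr0 π (-1) x
    · change h.f ei • (show (VL π (-1)).X from x) = x
      rw [hei]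
      exact h1
    · change h.f th • (show (VL π (-1)).X from x) = y
      rw [hth]
      exact h2

end gen

/-! ### over `Gamma` -/

section gamma

variable (s : ℕ) (hs : 2 ≤ s)

/-- `V_n` over `Gamma` -/
noncomputable def VG (n : ℤ) : LM (SM890.Gm π s hs) := resL (SM890.HmP π s hs) (VL π n)

theorem HmP_ws (i j : (WR π).Ob) (a : (SM890.bdM π s hs).ext.S)
    (ha : a ∈ (SM890.bdM π s hs).ext.E i j) (ha' : (SM890.bdM π s hs).fst a ∈ (WR π).E i j) :
    (SM890.HmP π s hs).f (ws (w := (SM890.bdM π s hs).ext) i j a ha) =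
      ws (w := WR π) i j ((SM890.bdM π s hs).fst a) ha' := by
  apply Subtype.ext
  ext i' j'
  change (SM890.bdM π s hs).fst ((ws (w := (SM890.bdM π s hs).ext) i j a ha).1 i' j') =
    (ws (w := WR π) i j ((SM890.bdM π s hs).fst a) ha').1 i' j'
  rw [ws_apply, ws_apply]
  by_cases h : i = i' ∧ j = j'
  · exact (congrArg _ (if_pos h)).trans (if_pos h).symm
  · exact (congrArg _ (if_neg h)).trans ((map_zero _).trans (if_neg h).symm)

variable (θ : TR810.Th (SM890.bdM π s hs).ext) (i : Fin 2) {b b' : Fin 4}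

theorem th_q (hb : b'.val = b.val + 1) :
    θ.t ∈ (SM890.bdM π s hs).ext.q (ob π i b') (ob π i b) 0 := by
  have h := θ.mem
  have e1 : (SM890.bdM π s hs).ext.P (ob π i b') - (SM890.bdM π s hs).ext.P (ob π i b) = 0 := by
    change ((i.val : ℕ) : ℤ) - ((i.val : ℕ) : ℤ) = 0
    ring
  have e2 : (SM890.bdM π s hs).ext.A (ob π i b') - (SM890.bdM π s hs).ext.A (ob π i b) = 1 := by
    change ((b'.val : ℕ) : ℤ) - ((b.val : ℕ) : ℤ) = 1
    omega
  unfold WD.q
  rw [e1, e2]
  exact h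



end gamma

end Crest.Agent.R186.TRin772
end

-- ▼ part R186/ThK_763
section

/-!
# Row 186, half (A), short road, ROW2 (helper763): the `theta` and Koszul fields of 810's `TRD` on
`w = (bdM π s hs).ext` (`S = R'' ⊕ M`)

`theta e = t + g^(-e-2) h`; `theta e * x_j = g⁻¹ x_j * theta (e - 1)`; `Tk b : Th w → Prop` =
`t = c h` or `t = c theta_e`, `e ≤ b`, `c ≠ 0`; `T0 = Tk (-2)`, `T1 = Tk (-1)`, `T2 = Tk 0`.
The two-sided ideal `Fl 0` is `J ⊕ M`; all statements are about first components in `J π`.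
-/

set_option autoImplicit false

noncomputable section

namespace Crest.Agent.R186.ThK763

open Crest.Agent.R186.DefsQ830 Crest.Agent.R186.DefsQ830.Gen Crest.Agent.R186.PBW128
open Crest.Agent.R186.Win810 Crest.Agent.R186.SM890 Crest.Agent.R186.TR810
open Crest.Agent.R186.C2b362 (J)
open Crest.Agent.R186.C2b44 (kill)
open Crest.Agent.R186.Cells221 (tR)

variable {K : Type} [Field K] (π : Par K)

/-! ### `R''` -/

/-- `theta_e = t + g^(-e-2) h` -/
def theta (e : ℤ) : R π := tR π + π.g ^ (-e - 2) • X π .h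

theorem h_pcZ : X π .h ∈ pcZ π 0 1 0 := by
  have := X_mem_pc π .h
  rw [← pcZ_nat] at this
  exact this

theorem tR_pcZ : tR π ∈ pcZ π 0 1 0 := by
  have := Cells221.tR_mem π
  rw [← pcZ_nat] at this
  exact_mod_cast this

theorem x_pcZ (j : Fin 2) : X π (.x j) ∈ pcZ π 1 0 0 := by
  have := X_mem_pc π (.x j)
  rw [← pcZ_nat] at this
  exact this

theorem theta_pcZ (e : ℤ) : theta π e ∈ pcZ π 0 1 0 :=
  Submodule.add_mem _ (tR_pcZ π) (Submodule.smul_mem _ _ (h_pcZ π))

theorem D_h : Der580.D π (X π .h) = 0 := by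
  rw [Der580.D_X]
  simp [dGen]

theorem D_x (j : Fin 2) : Der580.D π (X π (.x j)) = 0 := by
  rw [Der580.D_X]
  simp [dGen]

theorem D_theta (e : ℤ) : Der580.D π (theta π e) = 0 := by
  rw [theta, map_add, map_smul, Cells221.D_tR, D_h, smul_zero, add_zero]

theorem h_x (j : Fin 2) : X π .h * X π (.x j) = X π (.x j) * X π .h := Der580.h_comm π _

/-- `t x_j = g⁻¹ x_j t` -/
theorem t_x (j : Fin 2) : tR π * X π (.x j) = π.g⁻¹ • (X π (.x j) * tR π) := by
  rw [VQ735.x_tR, smul_smul, inv_mul_cancel₀ π.g0, one_smul]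

/-- `theta_e x_j = g⁻¹ x_j theta_(e-1)` -/
theorem theta_x (e : ℤ) (j : Fin 2) :
    theta π e * X π (.x j) = X π (.x j) * (π.g⁻¹ • theta π (e - 1)) := by
  rw [theta, theta, add_mul, smul_mul_assoc, t_x, h_x, mul_smul_comm, mul_add, smul_add,
    mul_smul_comm, smul_smul]
  congr 2
  rw [show -(e - 1) - 2 = (-e - 2) + 1 by ring, zpow_add_one₀ π.g0]
  field_simp [π.g0]

theorem theta_wq (e : ℤ) (q : Wb) : theta π e * wq π q = wq π q * theta π e := by
  rw [theta, add_mul, mul_add, smul_mul_assoc, mul_smul_comm, WLF296.h_wq, WLF296.t_wq]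

theorem tau_h (t : Tor K) : tau π t (X π .h) = X π .h := by
  rw [tau_X]
  simp [tw]

theorem tau_tR (t : Tor K) : tau π t (tR π) = tR π := by
  have h0 := t.h0
  have h1 := t.h1
  simp only [tR, map_add, map_smul, map_mul, tau_X, tw, if_true,
    if_neg (show ¬ ((1 : Fin 2) = 0) by decide), one_smul, smul_mul_smul_comm,
    inv_mul_cancel₀ h0, inv_mul_cancel₀ h1]

theorem tau_theta (t : Tor K) (e : ℤ) : tau π t (theta π e) = theta π e := by
  rw [theta, map_add, map_smul, tau_tR, tau_h]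


/-! ### the extension -/

variable (s : ℕ) (hs : 2 ≤ s)

/-- the window data -/
abbrev wS : WD K := (bdM π s hs).ext

/-- inclusion of `R''` -/
abbrev il (r : R π) : (wS π s hs).S := (bdM π s hs).inl r

/-- inclusion of `M` -/
abbrev ir (m : MM π) : (wS π s hs).S := (bdM π s hs).inr m

theorem il_mul (a b : R π) : il π s hs (a * b) = il π s hs a * il π s hs b :=
  map_mul (bdM π s hs).inl a b

theorem il_zero : il π s hs 0 = 0 := map_zero (bdM π s hs).inl

theorem il_smul (c : K) (r : R π) : il π s hs (c • r) = c • il π s hs r :=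
  map_smul (bdM π s hs).inl c r

theorem il_D (r : R π) : (wS π s hs).D (il π s hs r) = il π s hs (Der580.D π r) :=
  (bdM π s hs).D_inl r

theorem il_pc {P A C : ℤ} {r : R π} (h : r ∈ pcZ π P A C) : il π s hs r ∈ (wS π s hs).pc P A C :=
  (bdM π s hs).inl_mem h

/-- first component -/
def fi : (wS π s hs).S →ₗ[K] R π := (bdM π s hs).fst.toLinearMap


theorem fi_mul (a b : (wS π s hs).S) : fi π s hs (a * b) = fi π s hs a * fi π s hs b := rfl

@[simp] theorem fi_il (r : R π) : fi π s hs (il π s hs r) = r := rfl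

@[simp] theorem fi_ir (m : MM π) : fi π s hs (ir π s hs m) = 0 := rfl


theorem fi_mem {P A C : ℤ} {z : (wS π s hs).S} (h : z ∈ (wS π s hs).pc P A C) :
    fi π s hs z ∈ pcZ π P A C := h.1

/-- `c • h`, as an element of `Th` -/
def thH (c : K) : Th (wS π s hs) where
  t := c • il π s hs (X π .h)
  mem := Submodule.smul_mem _ _ (il_pc π s hs (h_pcZ π))
  D0 := by rw [map_smul, il_D, D_h, il_zero, smul_zero]

/-- `c • theta_e`, as an element of `Th` -/
def thE (c : K) (e : ℤ) : Th (wS π s hs) where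
  t := c • il π s hs (theta π e)
  mem := Submodule.smul_mem _ _ (il_pc π s hs (theta_pcZ π e))
  D0 := by rw [map_smul, il_D, D_theta, il_zero, smul_zero]

/-- allowed elements -/
def Tk (b : ℤ) (θ : Th (wS π s hs)) : Prop :=
  ∃ c : K, c ≠ 0 ∧ (θ.t = c • il π s hs (X π .h) ∨ ∃ e : ℤ, e ≤ b ∧ θ.t = c • il π s hs (theta π e))

variable {π s hs}

theorem Tk_mono {b b' : ℤ} (h : b ≤ b') {θ : Th (wS π s hs)} (hθ : Tk π s hs b θ) :
    Tk π s hs b' θ := by
  obtain ⟨c, hc, h1 | ⟨e, he, h1⟩⟩ := hθ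
  · exact ⟨c, hc, Or.inl h1⟩
  · exact ⟨c, hc, Or.inr ⟨e, he.trans h, h1⟩⟩

theorem Tk_H (b : ℤ) {c : K} (hc : c ≠ 0) : Tk π s hs b (thH π s hs c) := ⟨c, hc, Or.inl rfl⟩

theorem Tk_E {b e : ℤ} (he : e ≤ b) {c : K} (hc : c ≠ 0) : Tk π s hs b (thE π s hs c e) :=
  ⟨c, hc, Or.inr ⟨e, he, rfl⟩⟩

/-- allowed elements commute with `wq q` -/
theorem th_wq {b : ℤ} {θ : Th (wS π s hs)} (hθ : Tk π s hs b θ) (q : Wb) :
    θ.t * il π s hs (wq π q) = il π s hs (wq π q) * θ.t := by
  obtain ⟨c, _, h1 | ⟨e, _, h1⟩⟩ := hθ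
  · rw [h1, smul_mul_assoc, mul_smul_comm, ← il_mul, ← il_mul, WLF296.h_wq]
  · rw [h1, smul_mul_assoc, mul_smul_comm, ← il_mul, ← il_mul, theta_wq]

theorem il_ir_comm {r : R π} (hr : ∀ t : Tor K, tau π t r = r) (q : Wb) :
    il π s hs r * ir π s hs (oM π q 1) = ir π s hs (oM π q 1) * il π s hs r := by
  refine ((bdM π s hs).inl_mul_inr r (oM π q 1)).trans
    (Eq.trans ?_ ((bdM π s hs).inr_mul_inl (oM π q 1) r).symm)
  have e1 : (bdM π s hs).lM r (oM π q 1) = oM π q r := by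
    have := smul_oM π q r 1
    rw [mul_one] at this
    exact this
  have e2 : (bdM π s hs).rM r (oM π q 1) = oM π q r := by
    have := op_smul_oM π q r 1
    rw [one_mul, hr] at this
    exact this
  exact congrArg (bdM π s hs).inr (e1.trans e2.symm)

/-- allowed elements commute with `o_q` -/
theorem th_oM {b : ℤ} {θ : Th (wS π s hs)} (hθ : Tk π s hs b θ) (q : Wb) :
    θ.t * ir π s hs (oM π q 1) = ir π s hs (oM π q 1) * θ.t := by
  obtain ⟨c, _, h1 | ⟨e, _, h1⟩⟩ := hθ
  · rw [h1, smul_mul_assoc, mul_smul_comm, il_ir_comm (fun t => tau_h π t)]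
  · rw [h1, smul_mul_assoc, mul_smul_comm, il_ir_comm (fun t => tau_theta π t e)]

variable (π s hs)

/-- `x_j` -/
def xS (j : Fin 2) : (wS π s hs).S := il π s hs (X π (.x j))

/-- the Koszul partners -/
def kS (j : Fin 2) : (wS π s hs).S := il π s hs (X π (.x (1 - j)))

theorem kS_zero : kS π s hs 0 = il π s hs (X π (.x 1)) := rfl
theorem kS_one : kS π s hs 1 = il π s hs (X π (.x 0)) := rfl

theorem xS_mem (j : Fin 2) : xS π s hs j ∈ (wS π s hs).pc 1 0 0 :=
  (bdM π s hs).inl_mem (x_pcZ π j)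

theorem kS_mem (j : Fin 2) : kS π s hs j ∈ (wS π s hs).pc 1 0 0 :=
  (bdM π s hs).inl_mem (x_pcZ π (1 - j))

theorem xS_D (j : Fin 2) : (wS π s hs).D (xS π s hs j) = 0 := by
  rw [xS, il_D, D_x, il_zero]

theorem kS_D (j : Fin 2) : (wS π s hs).D (kS π s hs j) = 0 := by
  rw [kS, il_D, D_x, il_zero]

theorem sum_xk : ∑ j, xS π s hs j * kS π s hs j = 0 := by
  rw [Fin.sum_univ_two, kS_zero, kS_one, xS, xS, ← il_mul, ← il_mul, Der580.r_xx]
  exact (wS π s hs).two _

variable {π s hs}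

/-- allowed elements move through `x_j` -/
theorem th_x {b : ℤ} {θ : Th (wS π s hs)} (hθ : Tk π s hs b θ) : ∃ θ' : Th (wS π s hs),
    Tk π s hs (b - 1) θ' ∧ ∀ j : Fin 2, θ.t * il π s hs (X π (.x j)) = il π s hs (X π (.x j)) * θ'.t := by
  obtain ⟨c, hc, h1 | ⟨e, he, h1⟩⟩ := hθ
  · refine ⟨thH π s hs c, Tk_H _ hc, fun j => ?_⟩
    change _ = il π s hs (X π (.x j)) * (c • il π s hs (X π .h))
    rw [h1, smul_mul_assoc, mul_smul_comm, ← il_mul, ← il_mul, h_x]
  · refine ⟨thE π s hs (c * π.g⁻¹) (e - 1), Tk_E (by omega) (mul_ne_zero hc (inv_ne_zero π.g0)),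
      fun j => ?_⟩
    change _ = il π s hs (X π (.x j)) * ((c * π.g⁻¹) • il π s hs (theta π (e - 1)))
    rw [h1, smul_mul_assoc, mul_smul_comm, ← il_mul, ← il_mul, theta_x, mul_smul_comm, il_smul,
      smul_smul]

/-- field `T2x` -/
theorem T2x {θ : Th (wS π s hs)} (hθ : Tk π s hs 0 θ) : ∃ θ' : Th (wS π s hs),
    Tk π s hs (-1) θ' ∧ (∀ j, θ.t * xS π s hs j - xS π s hs j * θ'.t = 0) ∧
    ∃ θ'' : Th (wS π s hs), Tk π s hs (-2) θ'' ∧
      ∀ j, θ'.t * kS π s hs j - kS π s hs j * θ''.t = 0 := by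
  obtain ⟨θ', h1, h2⟩ := th_x hθ
  obtain ⟨θ'', h3, h4⟩ := th_x h1
  exact ⟨θ', h1, fun j => sub_eq_zero.2 (h2 j), θ'', h3, fun j => sub_eq_zero.2 (h4 (1 - j))⟩

/-- field `x_gen`, `Fl 0 = J ⊕ M` -/
theorem x_gen {P A C : ℤ} {y : (wS π s hs).S} (hP : 1 ≤ P) (hy : y ∈ (wS π s hs).pc P A C) :
    ∃ z : Fin 2 → (wS π s hs).S, (∀ j, z j ∈ (wS π s hs).pc (P - 1) A C) ∧
      fi π s hs (y - ∑ j, xS π s hs j * z j) = 0 := by
  have h1 : fi π s hs y ∈ C2b362.pz π P A C := by
    rw [← KOS296.pcZ_eq_pz]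
    exact fi_mem π s hs hy
  obtain ⟨a, ha, b, hb, e⟩ := Kos374.xl_surZ π hP h1
  rw [← KOS296.pcZ_eq_pz] at ha hb
  refine ⟨![il π s hs a, il π s hs b], ?_, ?_⟩
  · intro j
    rcases fin2 j with rfl | rfl
    · exact il_pc π s hs ha
    · exact il_pc π s hs hb
  · rw [Fin.sum_univ_two, map_sub, map_add, fi_mul, fi_mul]
    exact sub_eq_zero.2 e

/-- field `x_ker` -/
theorem x_ker {P A C : ℤ} (z : Fin 2 → (wS π s hs).S) (hz : ∀ j, z j ∈ (wS π s hs).pc (P - 1) A C)
    (h : fi π s hs (∑ j, xS π s hs j * z j) ∈ J π) :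
    ∃ c ∈ (wS π s hs).pc (P - 2) A C, ∀ j, fi π s hs (z j - kS π s hs j * c) ∈ J π := by
  have two : ∀ r : R π, r + r = 0 := Der580.add_self π
  have neg : ∀ r : R π, -r = r := fun r => neg_eq_of_add_eq_zero_left (two r)
  rw [Fin.sum_univ_two, map_add, fi_mul, fi_mul] at h
  change X π (.x 0) * fi π s hs (z 0) + X π (.x 1) * fi π s hs (z 1) ∈ J π at h
  have h1 : fi π s hs (z 1) ∈ C2b362.pz π (P - 1) A C := by
    rw [← KOS296.pcZ_eq_pz]
    exact fi_mem π s hs (hz 1)
  have h2 : X π (.x 1) * fi π s hs (z 1) - X π (.x 0) * fi π s hs (z 0) ∈ J π := by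
    rw [sub_eq_add_neg, neg, add_comm]
    exact h
  obtain ⟨c, hc, e1, e2⟩ := Kos374.jl_ker π h1 h2
  rw [← KOS296.pcZ_eq_pz] at hc
  refine ⟨il π s hs c, ?_, ?_⟩
  · have := il_pc π s hs hc
    rwa [show P - 1 - 1 = P - 2 by ring] at this
  · intro j
    rcases fin2 j with rfl | rfl
    · rw [map_sub, fi_mul]
      exact e2
    · rw [map_sub, fi_mul]
      exact e1

/-- field `x_inj` -/
theorem x_inj {c : (wS π s hs).S} (h : fi π s hs (kS π s hs 0 * c) ∈ J π) : fi π s hs c ∈ J π := by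
  rw [kS_zero, fi_mul] at h
  exact Kos374.jl_inj π 1 h

end Crest.Agent.R186.ThK763
end
end

-- ▼ part R186/TRj_461
section

/-!
Row 186 (A), helper461: the join of (TR) (306's short road #34919) over `Gamma`.

`w = (bdM π s hs).ext`, `X → V_{-1}` a left cell resolution over `Gamma`:
* `gamG` : the rows of `Gamma` (all `θ` on the rows `(0, b)`, `θ ∈ Tk (-1)` on the rows `(1, b)`);
* `trG` : (TR) for any instance `T` of 810's `TRD`, with `T.T1 ⊆ Tk (-1)`.
-/

set_option autoImplicit false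
set_option linter.style.haveILetI false
set_option linter.unusedSectionVars false

open MulOpposite

noncomputable section

namespace Crest.Agent.R186.TRj461

open Hat827 Hat827.DGA Frame515 Res255 Win810 TR810 TRin772 TRg461
open Crest.Agent.R186.DefsQ830 Crest.Agent.R186.Vmod220 Crest.Agent.R186.VOp220
open Crest.Agent.R186.SM890
open Crest.Agent.R186.ThK763 (wS Tk)

variable {K : Type} [Field K] (π : Par K) (s : ℕ) (hs : 2 ≤ s)

variable {π s hs} in
theorem NZ_smul {t : R π} {c : K} (hc : c ≠ 0) (h : NZ π t) : NZ π (c • t) := by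
  obtain ⟨r, hr, h1⟩ := h
  refine ⟨c * r, mul_ne_zero hc hr, fun v hv => ?_⟩
  have h2 : rep π (c • t) v = c • rep π t v := by
    rw [map_smul, LinearMap.smul_apply]
  rw [h2, h1 v hv, smul_smul]

variable {π s hs} in
theorem NZ_Tk {b : ℤ} (hb : b < 0) {θ : Th (wS π s hs)} (h : Tk π s hs b θ) :
    NZ π ((bdM π s hs).fst θ.t) := by
  obtain ⟨c, hc, h1 | ⟨e, he, h1⟩⟩ := h
  · have h2 : (bdM π s hs).fst θ.t = c • X π .h := by
      rw [h1]; rfl
    rw [h2]
    exact NZ_smul hc (NZ_h π)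
  · have h2 : (bdM π s hs).fst θ.t = c • TRin772.theta π e := by
      rw [h1]; rfl
    rw [h2]
    exact NZ_smul hc (NZ_theta π (by omega))

/-- **the rows of `Gamma`** -/
theorem gamG (θ : Th (wS π s hs)) (i : Fin 2) {b b' : Fin 4} (hb : b'.val = b.val + 1)
    (hz : i = 1 → NZ π ((bdM π s hs).fst θ.t)) {X : LCells (wS π s hs).dga}
    (r : LRes X (VG π s hs (-1))) (n : ℤ) :
    AcQ (Yc θ ((i.val : ℕ) : ℤ) ((b.val : ℕ) : ℤ) X) ⊤ ⊥ n := by
  have hP : (wS π s hs).P (ob π i b') = (wS π s hs).P (ob π i b) := rfl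
  have hA : (wS π s hs).A (ob π i b') = (wS π s hs).A (ob π i b) + 1 := by
    change ((b'.val : ℕ) : ℤ) = ((b.val : ℕ) : ℤ) + 1
    omega
  have hm' : (bdM π s hs).fst θ.t ∈ (WR π).E (ob π i b') (ob π i b) :=
    WD.q_le (w := WR π) _ _ 0 ((bdM π s hs).fst_mem (th_q π s hs θ i hb))
  refine gamC θ X r (o := ob π i b) (o' := ob π i b') hP hA ?_ n
  refine gamN π (HmP π s hs) hm' hz ?_ ?_ ?_
  · exact HmP_ws π s hs _ _ _ _ _
  · exact HmP_ws π s hs _ _ _ _ _
  · exact HmP_ws π s hs _ _ _ _ _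

theorem wP_le (j : (wS π s hs).Ob) : (wS π s hs).P j ≤ 1 := by
  change ((((j : DefsQ830.Ob).1).val : ℕ) : ℤ) ≤ 1
  have := (j : DefsQ830.Ob).1.2
  omega

variable {π s hs} in
/-- **(TR) over `Gamma`**, for any instance of the algebraic input -/
theorem trG (T : TRD (wS π s hs)) (hT : ∀ θ, T.T1 θ → Tk π s hs (-1) θ)
    {X : LCells (wS π s hs).dga} (r : LRes X (VG π s hs (-1))) {b : ℕ} (hb : b < 3) :
    (∀ θ, T.T0 θ → ∀ n, AcQ (Yc θ 0 (b : ℤ) X) ⊤ (TF X (T.Fl 0)) n) ∧
      (∀ θ, T.T1 θ → ∀ n, AcQ (Yc θ 1 (b : ℤ) X) ⊤ (TF X (T.Fl 0)) n) ∧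
      (∀ θ, T.T2 θ → ∀ n, AcQ (Yc θ 2 (b : ℤ) X) ⊤ (TF X (T.Fl 0)) n) := by
  refine T.main X b (wP_le π s hs) (fun θ _ n => ?_) (fun θ hθ n => ?_)
  · exact gamG π s hs θ 0 (b := ⟨b, by omega⟩) (b' := ⟨b + 1, by omega⟩) rfl
      (fun h => absurd h (by decide)) r n
  · exact gamG π s hs θ 1 (b := ⟨b, by omega⟩) (b' := ⟨b + 1, by omega⟩) rfl
      (fun _ => NZ_Tk (by norm_num) (hT θ hθ)) r n

end Crest.Agent.R186.TRj461
end
end

-- ▼ part R186/TRx_461
section

/-!
Row 186 (A), helper461: (TR) on 448's concrete objects `XL`, `RX`.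
-/

set_option autoImplicit false
set_option linter.style.haveILetI false
set_option linter.unusedSectionVars false

open MulOpposite

noncomputable section

namespace Crest.Agent.R186.TRj461

open Hat827 Hat827.DGA Frame515 Res255 Win810 TR810
open Crest.Agent.R186.DefsQ830 Crest.Agent.R186.SM890
open Crest.Agent.R186.ThK763 (wS Tk)

variable {K : Type} [Field K] {π : Par K} {s : ℕ} {hs : 5 ≤ s}

/-- 448's resolution, in 772's letters -/
def RX' : LRes (EndV448.XL π s hs) (TRin772.VG π s (KHc302.two_le hs) (-1)) := EndV448.RX π s hs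

/-- **(TR) on 448's cells** -/
theorem trX (T : TRD (wS π s (KHc302.two_le hs)))
    (hT : ∀ θ, T.T1 θ → Tk π s (KHc302.two_le hs) (-1) θ) {b : ℕ} (hb : b < 3) :
    (∀ θ, T.T0 θ → ∀ n, AcQ (Yc θ 0 (b : ℤ) (EndV448.XL π s hs)) ⊤
        (TF (EndV448.XL π s hs) (T.Fl 0)) n) ∧
      (∀ θ, T.T1 θ → ∀ n, AcQ (Yc θ 1 (b : ℤ) (EndV448.XL π s hs)) ⊤
        (TF (EndV448.XL π s hs) (T.Fl 0)) n) ∧
      (∀ θ, T.T2 θ → ∀ n, AcQ (Yc θ 2 (b : ℤ) (EndV448.XL π s hs)) ⊤
        (TF (EndV448.XL π s hs) (T.Fl 0)) n) :=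
  trG T hT (X := EndV448.XL π s hs) RX' hb

end Crest.Agent.R186.TRj461
end
end

-- ▼ part R186/TRDj_763
section

/-!
# Row 186, half (A), short road (helper763): the INSTANCE of 810's `TRD` on
`w = (bdM π s hs).ext`, `S = R'' ⊕ M`.

`Fl i = (W-level i + 1 of R'') ⊕ (socle level i - 2 of M)`; `Fl 0 = J ⊕ M`, `Fl 5 = ⊥`; the steps are
generated by `wq q` (level `i + 1`) and by `o_q` (socle level `i - 2`).
-/

set_option autoImplicit false

noncomputable section

namespace Crest.Agent.R186.TRDj763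

open Crest.Agent.R186.DefsQ830 Crest.Agent.R186.DefsQ830.Gen Crest.Agent.R186.PBW128
open Crest.Agent.R186.Win810 Crest.Agent.R186.SM890 Crest.Agent.R186.TR810
open Crest.Agent.R186.C2b362 (pz J)
open Crest.Agent.R186.C2b44 (kill kill_h kill_x)
open Crest.Agent.R186.ThK763 Crest.Agent.R186.WLF296 Crest.Agent.R186.WLM982

variable {K : Type} [Field K] (π : Par K)

/-! ### `WLF296.Fl` is a left ideal -/

/-- left multiplication by an element of `R'` which `q`-commutes with `W` -/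
theorem lq_left' {a : R π} (ha : kill π a = a) (c : Wb → K)
    (hc : ∀ q, a * wq π q = c q • (wq π q * a)) (q : Wb) (r : R π) :
    lq π q (a * r) = c q • (a * lq π q r) := by
  have e : a * r = ∑ q, wq π q * (c q • (a * lq π q r)) := by
    conv_lhs => rw [sum_lq π r]
    rw [Finset.mul_sum]
    refine Finset.sum_congr rfl fun q _ => ?_
    rw [← mul_assoc, hc, smul_mul_assoc, mul_assoc, mul_smul_comm]
  rw [e, lq_sum π _ (fun q => by rw [map_smul, map_mul, ha, kill_lq])]

/-- an element which `q`-commutes with the letters `q`-commutes with `wq` -/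
theorem comm_wq {a : R π} (c : Y → K) (hc : ∀ b : Y, a * X π b.toGen = c b • (X π b.toGen * a)) (q : Wb) :
    ∃ c' : K, a * wq π q = c' • (wq π q * a) := by
  cases q with
  | one => exact ⟨1, by rw [wq_one, mul_one, one_mul, one_smul]⟩
  | y s => exact ⟨c (.y s), by rw [wq_y]; exact hc (.y s)⟩
  | yb s => exact ⟨c (.yb s), by rw [wq_yb]; exact hc (.yb s)⟩
  | pi =>
    refine ⟨c (.y 0) * c (.y 1), ?_⟩
    have h0 : a * X π (.y 0) = c (.y 0) • (X π (.y 0) * a) := hc (.y 0)
    have h1 : a * X π (.y 1) = c (.y 1) • (X π (.y 1) * a) := hc (.y 1)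
    rw [wq_pi, ← mul_assoc, h0, smul_mul_assoc, mul_assoc, h1, mul_smul_comm, smul_smul, mul_assoc]

theorem Fl_gen {a : R π} (ha : kill π a = a) (c : Y → K)
    (hc : ∀ b : Y, a * X π b.toGen = c b • (X π b.toGen * a)) {n : ℕ} {r : R π} (hr : r ∈ Fl π n) :
    a * r ∈ Fl π n := by
  have h := comm_wq π c hc
  choose c' hc' using h
  intro q hq
  rw [lq_left' π ha c' hc', hr q hq, mul_zero, smul_zero]

theorem lev_le (q : Wb) : lev q ≤ 2 := by cases q <;> simp [lev]

theorem Fl_Y (a : Y) {n : ℕ} {r : R π} (hr : r ∈ Fl π n) : X π a.toGen * r ∈ Fl π (n + 1) := by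
  have e : X π a.toGen * r = ∑ q, (wq π (yw a) * wq π q) * lq π q r := by
    conv_lhs => rw [sum_lq π r]
    rw [Finset.mul_sum]
    refine Finset.sum_congr rfl fun q _ => ?_
    rw [wq_yw, mul_assoc]
  rw [e]
  refine Submodule.sum_mem _ fun q _ => ?_
  by_cases h : lev q < n
  · rw [hr q h, mul_zero]; exact Submodule.zero_mem _
  · obtain ⟨c, q', h1, h2⟩ := wq_mul π (yw a) q
    rw [h1, smul_mul_assoc]
    rcases h2 with h2 | h2
    · rw [h2, zero_smul]; exact Submodule.zero_mem _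
    · refine Submodule.smul_mem _ _ (Fl_anti ?_ (wq_mem_Fl q' _))
      have : lev (yw a) = 1 := by cases a <;> rfl
      omega

/-- **the `W`-filtration of `R''` is stable under left multiplication** -/
theorem Fl_left {n : ℕ} (a : R π) : ∀ {r : R π}, r ∈ Fl π n → a * r ∈ Fl π n := by
  refine PBW128.R_ind π (P := fun a => ∀ {r : R π}, r ∈ Fl π n → a * r ∈ Fl π n) ?_ ?_ ?_ ?_ a
  · intro c r hr
    rw [Algebra.algebraMap_eq_smul_one, smul_mul_assoc, one_mul]
    exact Submodule.smul_mem _ _ hr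
  · intro g r hr
    have hE : ∀ l : E, X π l.toGen * r ∈ Fl π n := by
      intro l
      refine Fl_gen π (by cases l <;> simp [E.toGen]) (fun b => (chi π b l)⁻¹) (fun b => ?_) hr
      rw [rYE, smul_smul, inv_mul_cancel₀ (chi_ne π b l), one_smul]
    cases g with
    | y s => exact Fl_anti (Nat.le_succ n) (Fl_Y π (.y s) hr)
    | yb s => exact Fl_anti (Nat.le_succ n) (Fl_Y π (.yb s) hr)
    | h => exact Fl_h hr
    | x c =>
      intro q hq
      rw [lq_x, hr q hq, mul_zero, smul_zero]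
    | d j => exact hE (.d j)
    | f => exact hE .f
    | z j => exact hE (.z j)
    | zc => exact hE .zc
    | u t => exact hE (.u t)
    | e j => exact hE (.e j)
    | gj j => exact hE (.gj j)
    | gc => exact hE .gc
    | v j => exact hE (.v j)
  · intro a b ha hb r hr
    rw [mul_assoc]
    exact ha (hb hr)
  · intro a b ha hb r hr
    rw [add_mul]
    exact Submodule.add_mem _ (ha hr) (hb hr)

/-! ### generation and uniqueness of a step -/

/-- generation, `R''` -/
theorem Fl_step {n : ℕ} {r : R π} (hr : r ∈ Fl π n) :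
    r - ∑ q : {q : Wb // lev q = n}, wq π q.1 * lq π q.1 r ∈ Fl π (n + 1) := by
  intro q' hq'
  rw [map_sub, map_sum, sub_eq_zero]
  by_cases h : lev q' = n
  · rw [Finset.sum_eq_single (⟨q', h⟩ : {q : Wb // lev q = n})]
    · rw [lq_wq_mul π q' q' _ le_rfl, if_pos rfl, kill_lq]
    · rintro ⟨q, hq⟩ _ hne
      rw [lq_wq_mul π q q' _ (by rw [h, hq]), if_neg]
      rintro rfl
      exact hne rfl
    · intro h0; exact absurd (Finset.mem_univ _) h0
  · have h1 : lev q' < n := by omega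
    rw [hr q' h1]
    symm
    refine Finset.sum_eq_zero ?_
    rintro ⟨q, hq⟩ _
    rw [lq_wq_mul π q q' _ (by rw [hq]; omega), if_neg]
    rintro rfl
    exact h hq

/-- uniqueness, `R''` -/
theorem Fl_uniq {n : ℕ} (a : {q : Wb // lev q = n} → R π)
    (h : ∑ q : {q : Wb // lev q = n}, wq π q.1 * a q ∈ Fl π (n + 1))
    (q : {q : Wb // lev q = n}) : kill π (a q) = 0 := by
  have h1 := h q.1 (by rw [q.2]; omega)
  rw [map_sum, Finset.sum_eq_single q] at h1
  · rwa [lq_wq_mul π _ _ _ le_rfl, if_pos rfl] at h1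
  · intro q' _ hne
    rw [lq_wq_mul π _ _ _ (by rw [q.2, q'.2]), if_neg]
    intro h2
    exact hne (Subtype.ext h2.symm)
  · intro h0; exact absurd (Finset.mem_univ _) h0

/-- generation, `M` -/
theorem FM_step {n i : ℕ} (hi : n + 2 = i) {m : MM π} (hm : m ∈ FM π n) :
    m - ∑ q : {q : Wb // levM q + 2 = i}, ro π q.1 (lM π q.1 m) ∈ FM π (n + 1) := by
  intro q' hq'
  rw [map_sub, map_sum, sub_eq_zero]
  by_cases h : levM q' = n
  · rw [Finset.sum_eq_single (⟨q', by omega⟩ : {q : Wb // levM q + 2 = i})]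
    · rw [lM_ro π q' q' _ le_rfl, if_pos rfl, kill_lM]
    · rintro ⟨q, hq⟩ _ hne
      rw [lM_ro π q q' _ (by omega), if_neg]
      rintro rfl
      exact hne rfl
    · intro h0; exact absurd (Finset.mem_univ _) h0
  · have h1 : levM q' < n := by omega
    rw [hm q' h1]
    symm
    refine Finset.sum_eq_zero ?_
    rintro ⟨q, hq⟩ _
    rw [lM_ro π q q' _ (by omega), if_neg]
    rintro rfl
    omega

/-- uniqueness, `M` -/
theorem FM_uniq {i : ℕ} (a : {q : Wb // levM q + 2 = i} → R π)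
    (h : ∑ q : {q : Wb // levM q + 2 = i}, ro π q.1 (a q) ∈ FM π (i - 1))
    (q : {q : Wb // levM q + 2 = i}) : kill π (a q) = 0 := by
  have hq0 := q.2
  have h1 := h q.1 (by omega)
  rw [map_sum, Finset.sum_eq_single q] at h1
  · rwa [lM_ro π _ _ _ le_rfl, if_pos rfl] at h1
  · intro q' _ hne
    have hq1 := q'.2
    rw [lM_ro π _ _ _ (by omega), if_neg]
    intro h2
    exact hne (Subtype.ext h2.symm)
  · intro h0; exact absurd (Finset.mem_univ _) h0

/-! ### the extension -/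

variable (s : ℕ) (hs : 2 ≤ s)

/-- second component -/
def se : (wS π s hs).S →ₗ[K] MM π where
  toFun z := z.2
  map_add' _ _ := rfl
  map_smul' _ _ := rfl

theorem ext_fs {a b : (wS π s hs).S} (h1 : fi π s hs a = fi π s hs b) (h2 : se π s hs a = se π s hs b) :
    a = b := Prod.ext h1 h2

theorem se_mul (a b : (wS π s hs).S) :
    se π s hs (a * b) = fi π s hs a • se π s hs b + MulOpposite.op (fi π s hs b) • se π s hs a := rfl

theorem se_il (r : R π) : se π s hs (il π s hs r) = 0 := rfl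

theorem se_ir (m : MM π) : se π s hs (ir π s hs m) = m := rfl


theorem se_mem {P A C : ℤ} {z : (wS π s hs).S} (h : z ∈ (wS π s hs).pc P A C) :
    se π s hs z ∈ pcM π s P A C := h.2

theorem ir_pc {P A C : ℤ} {m : MM π} (h : m ∈ pcM π s P A C) : ir π s hs m ∈ (wS π s hs).pc P A C :=
  ⟨Submodule.zero_mem _, h⟩

theorem se_il_mul (r : R π) (z : (wS π s hs).S) : se π s hs (il π s hs r * z) = r • se π s hs z := by
  rw [se_mul, se_il, smul_zero, add_zero, fi_il]

theorem se_ir_mul (m : MM π) (z : (wS π s hs).S) :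
    se π s hs (ir π s hs m * z) = MulOpposite.op (fi π s hs z) • m := by
  rw [se_mul, se_ir, fi_ir, zero_smul, zero_add]

theorem fi_ir_mul (m : MM π) (z : (wS π s hs).S) : fi π s hs (ir π s hs m * z) = 0 := by
  rw [fi_mul, fi_ir, zero_mul]

/-- the filtration of `J ⊕ M` -/
def FS (i : ℕ) : Submodule K (wS π s hs).S :=
  (Fl π (i + 1)).comap (fi π s hs) ⊓ (FM π (i - 2)).comap (se π s hs)

variable {π s hs}

theorem mem_FS {i : ℕ} {z : (wS π s hs).S} :
    z ∈ FS π s hs i ↔ fi π s hs z ∈ Fl π (i + 1) ∧ se π s hs z ∈ FM π (i - 2) := Iff.rfl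

theorem mem_FS_zero {z : (wS π s hs).S} : z ∈ FS π s hs 0 ↔ fi π s hs z ∈ J π := by
  rw [mem_FS, ← mem_Fl_one]
  exact ⟨fun h => h.1, fun h => ⟨h, mem_FM_zero _⟩⟩

theorem fi_zero_of {i : ℕ} (hi : 2 ≤ i) {z : (wS π s hs).S} (hz : fi π s hs z ∈ Fl π (i + 1)) :
    fi π s hs z = 0 := Fl_three (Fl_anti (by omega) hz)

theorem FS_l (i : ℕ) (a : (wS π s hs).S) {z : (wS π s hs).S} (hz : z ∈ FS π s hs i) :
    a * z ∈ FS π s hs i := by
  rw [mem_FS] at hz ⊢
  refine ⟨?_, ?_⟩
  · rw [fi_mul]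
    exact Fl_left π _ hz.1
  · rw [se_mul]
    refine Submodule.add_mem _ (FM_left π _ hz.2) ?_
    rcases Nat.lt_or_ge i 2 with h | h
    · rw [show i - 2 = 0 by omega]; exact mem_FM_zero _
    · rw [fi_zero_of h hz.1, MulOpposite.op_zero, zero_smul]
      exact Submodule.zero_mem _

theorem FS_r (i : ℕ) (a : (wS π s hs).S) {z : (wS π s hs).S} (hz : z ∈ FS π s hs i) :
    z * a ∈ FS π s hs i := by
  rw [mem_FS] at hz ⊢
  refine ⟨?_, ?_⟩
  · rw [fi_mul]
    exact Fl_mul hz.1 _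
  · rw [se_mul]
    refine Submodule.add_mem _ ?_ (FM_right hz.2 _)
    rcases Nat.lt_or_ge i 2 with h | h
    · rw [show i - 2 = 0 by omega]; exact mem_FM_zero _
    · rw [fi_zero_of h hz.1, zero_smul]
      exact Submodule.zero_mem _

theorem FS_D (i : ℕ) {z : (wS π s hs).S} (hz : z ∈ FS π s hs i) : (wS π s hs).D z ∈ FS π s hs i :=
  ⟨Fl_D hz.1, FM_D hz.2⟩

variable (π s hs)

/-- index set of a step -/
abbrev Ka (i : ℕ) : Type := {q : Wb // lev q = i + 1} ⊕ {q : Wb // levM q + 2 = i}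

/-- generators of a step -/
def uu (i : ℕ) : Ka i → (wS π s hs).S
  | .inl q => il π s hs (wq π q.1)
  | .inr q => ir π s hs (oM π q.1 1)

/-- inner degree -/
def uP (i : ℕ) : Ka i → ℤ
  | .inl _ => 0
  | .inr _ => 1

/-- cohomological degree -/
def uC (i : ℕ) : Ka i → ℕ
  | .inl q => wC q.1.word
  | .inr q => s - wC q.1.word

theorem oM_one_eq (q : Wb) : oM π q 1 = ro π q 1 :=
  (congrArg (oM π q) (map_one (tau π (Tq π q)))).symm

theorem op_oM (q : Wb) (r : R π) : MulOpposite.op r • oM π q 1 = ro π q r := (ro_eq π q r).symm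

theorem uu_mem (i : ℕ) (k : Ka i) : uu π s hs i k ∈ (wS π s hs).pc (-uP i k) 0 (uC s i k) := by
  cases k with
  | inl q =>
    refine il_pc π s hs ?_
    change wq π q.1 ∈ pcZ π (-0) 0 (wC q.1.word : ℤ)
    have h := nf_mem_pc π (0, 0, 0, [], q.1)
    rw [← pcZ_nat] at h
    have e : nf π (0, 0, 0, [], q.1) = wq π q.1 := by simp [nf, we, wd]
    rw [e] at h
    simpa [dPx, dAx, dCx] using h
  | inr q =>
    refine ir_pc π s hs ?_
    change oM π q.1 1 ∈ pcM π s (-1) 0 ((s - wC q.1.word : ℕ) : ℤ)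
    have h2 := wC_word_le q.1
    refine mem_pcM π s q.1 (C' := 0) ?_ (by push_cast [Nat.cast_sub (h2.trans hs)]; ring)
    exact (WR π).one_mem

theorem fi_sum {i : ℕ} (z : Ka i → (wS π s hs).S) :
    fi π s hs (∑ k, uu π s hs i k * z k) =
      ∑ q : {q : Wb // lev q = i + 1}, wq π q.1 * fi π s hs (z (.inl q)) := by
  rw [map_sum, Fintype.sum_sum_type]
  have h : ∑ q : {q : Wb // levM q + 2 = i}, fi π s hs (uu π s hs i (.inr q) * z (.inr q)) = 0 :=
    Finset.sum_eq_zero fun q _ => fi_ir_mul π s hs _ _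
  rw [h, add_zero]
  rfl

theorem se_sum {i : ℕ} (z : Ka i → (wS π s hs).S) :
    se π s hs (∑ k, uu π s hs i k * z k) =
      ∑ q : {q : Wb // lev q = i + 1}, wq π q.1 • se π s hs (z (.inl q)) +
      ∑ q : {q : Wb // levM q + 2 = i}, ro π q.1 (fi π s hs (z (.inr q))) := by
  rw [map_sum, Fintype.sum_sum_type]
  congr 1
  · exact Finset.sum_congr rfl fun q _ => se_il_mul π s hs _ _
  · refine Finset.sum_congr rfl fun q _ => ?_
    exact (se_ir_mul π s hs _ _).trans (op_oM π _ _)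

theorem uu_J (i : ℕ) (k : Ka i) {z : (wS π s hs).S} (hz : z ∈ FS π s hs 0) :
    uu π s hs i k * z ∈ FS π s hs (i + 1) := by
  have hz' : kill π (fi π s hs z) = 0 := by
    rw [← lq_one]
    exact hz.1 .one (by simp [lev])
  cases k with
  | inl q =>
    have hq := lev_le q.1
    have hq' := q.2
    rw [mem_FS]
    refine ⟨?_, ?_⟩
    · change fi π s hs (il π s hs (wq π q.1) * z) ∈ Fl π (i + 1 + 1)
      rw [fi_mul, fi_il]
      intro q' h'
      rw [lq_wq_mul π q.1 q' _ (by omega)]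
      split_ifs
      · exact hz'
      · rfl
    · rw [show i + 1 - 2 = 0 by omega]
      exact mem_FM_zero _
  | inr q =>
    have hq' := q.2
    rw [mem_FS]
    refine ⟨?_, ?_⟩
    · change fi π s hs (ir π s hs (oM π q.1 1) * z) ∈ Fl π (i + 1 + 1)
      rw [fi_ir_mul]
      exact Submodule.zero_mem _
    · change se π s hs (ir π s hs (oM π q.1 1) * z) ∈ FM π (i + 1 - 2)
      rw [se_ir_mul, op_oM]
      intro q2 h'
      rw [lM_ro π q.1 q2 _ (by omega)]
      split_ifs
      · exact hz'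
      · rfl

theorem uu_F (i : ℕ) (k : Ka i) : uu π s hs i k ∈ FS π s hs i := by
  cases k with
  | inl q =>
    have hq := lev_le q.1
    have hq' := q.2
    rw [mem_FS]
    refine ⟨?_, ?_⟩
    · change wq π q.1 ∈ Fl π (i + 1)
      have := wq_mem_Fl (π := π) q.1 1
      rw [mul_one, hq'] at this
      exact this
    · rw [show i - 2 = 0 by omega]
      exact mem_FM_zero _
  | inr q =>
    have hq' := q.2
    rw [mem_FS]
    refine ⟨Submodule.zero_mem (Fl π (i + 1)), ?_⟩
    change oM π q.1 1 ∈ FM π (i - 2)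
    rw [oM_one_eq, show i - 2 = levM q.1 by omega]
    exact ro_mem_FM _ _

theorem D_one : Der580.D π 1 = 0 := by
  have := WLF296.D_wq (π := π) .one
  rwa [wq_one] at this

theorem uu_D (i : ℕ) (k : Ka i) : (wS π s hs).D (uu π s hs i k) = 0 := by
  cases k with
  | inl q =>
    change (wS π s hs).D (il π s hs (wq π q.1)) = 0
    rw [il_D, WLF296.D_wq, il_zero]
  | inr q =>
    apply ext_fs
    · change Der580.D π 0 = 0
      exact map_zero _
    · change dMM π (oM π q.1 1) = 0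
      rw [dMM_oM, D_one, map_zero]

/-! ### the instance -/

variable {π s hs}

theorem gen (i : ℕ) {P A C : ℤ} {z : (wS π s hs).S} (hz : z ∈ FS π s hs i)
    (hp : z ∈ (wS π s hs).pc P A C) :
    ∃ y : Ka i → (wS π s hs).S, (∀ k, y k ∈ (wS π s hs).pc (P + uP i k) A (C - uC s i k)) ∧
      z - ∑ k, uu π s hs i k * y k ∈ FS π s hs (i + 1) := by
  rw [mem_FS] at hz
  have h1 : fi π s hs z ∈ pz π P A C := by
    rw [← KOS296.pcZ_eq_pz]
    exact fi_mem π s hs hp
  refine ⟨fun k => match k with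
    | .inl q => il π s hs (lq π q.1 (fi π s hs z))
    | .inr q => il π s hs (lM π q.1 (se π s hs z)), ?_, ?_⟩
  · intro k
    cases k with
    | inl q =>
      refine il_pc π s hs ?_
      have h2 := lq_mem π h1 q.1
      rw [← KOS296.pcZ_eq_pz] at h2
      change _ ∈ pcZ π (P + 0) A (C - (wC q.1.word : ℤ))
      rwa [add_zero]
    | inr q =>
      refine il_pc π s hs ?_
      have h2 := lM_mem π s (se_mem π s hs hp) q.1
      rw [← KOS296.pcZ_eq_pz] at h2
      change _ ∈ pcZ π (P + 1) A (C - ((s - wC q.1.word : ℕ) : ℤ))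
      have h3 := wC_word_le q.1
      rwa [show C - ((s - wC q.1.word : ℕ) : ℤ) = C - s + wC q.1.word by
        rw [Nat.cast_sub (h3.trans hs)]; ring]
  · rw [mem_FS, map_sub, map_sub, fi_sum, se_sum]
    refine ⟨Fl_step π hz.1, ?_⟩
    have e1 : ∑ q : {q : Wb // lev q = i + 1},
        wq π q.1 • se π s hs (il π s hs (lq π q.1 (fi π s hs z))) = 0 :=
      Finset.sum_eq_zero fun q _ => by rw [se_il, smul_zero]
    change se π s hs z - (∑ q : {q : Wb // lev q = i + 1},
        wq π q.1 • se π s hs (il π s hs (lq π q.1 (fi π s hs z))) +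
      ∑ q : {q : Wb // levM q + 2 = i}, ro π q.1 (lM π q.1 (se π s hs z))) ∈ FM π (i + 1 - 2)
    rw [e1, zero_add]
    rcases Nat.lt_or_ge i 2 with h | h
    · rw [show i + 1 - 2 = 0 by omega]; exact mem_FM_zero _
    · have := FM_step π (n := i - 2) (i := i) (by omega) hz.2
      rwa [show i - 2 + 1 = i + 1 - 2 by omega] at this

theorem uniq (i : ℕ) (y : Ka i → (wS π s hs).S)
    (h : ∑ k, uu π s hs i k * y k ∈ FS π s hs (i + 1)) (k : Ka i) : y k ∈ FS π s hs 0 := by
  rw [mem_FS, fi_sum, se_sum] at h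
  rw [mem_FS_zero, KOS296.mem_J_iff_kill]
  cases k with
  | inl q => exact Fl_uniq π (fun q => fi π s hs (y (.inl q))) h.1 q
  | inr q =>
    have hq := q.2
    have e1 : ∑ q : {q : Wb // lev q = i + 1}, wq π q.1 • se π s hs (y (.inl q)) = 0 :=
      Finset.sum_eq_zero fun q _ => by
        have h1 := q.2
        have h2 := lev_le q.1
        omega
    rw [e1, zero_add] at h
    exact FM_uniq π (fun q => fi π s hs (y (.inr q)))
      (by rw [show i - 1 = i + 1 - 2 by omega]; exact h.2) q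

theorem pc_neg {P A C : ℤ} (hC : C < 0) : (wS π s hs).pc P A C = ⊥ := by
  rw [eq_bot_iff]
  intro z hz
  have h1 : fi π s hs z = 0 := by
    have h := fi_mem π s hs hz
    rw [pcZ_neg π (Or.inr hC)] at h
    exact (Submodule.mem_bot K).1 h
  have h2 : se π s hs z = 0 := by
    have h := se_mem π s hs hz
    rw [pcM_bot π s (fun q => pcZ_neg π (Or.inr (by have := wC_word_le q; omega)))] at h
    exact (Submodule.mem_bot K).1 h
  rw [Submodule.mem_bot]
  exact ext_fs _ _ _ h1 h2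

variable (π s hs)

/-- **the instance of 810's hypotheses** -/
def trd : TRD (wS π s hs) where
  lo := 0
  neg := pc_neg
  r := 5
  Fl := FS π s hs
  Fr := by
    rw [eq_bot_iff]
    intro z hz
    rw [mem_FS] at hz
    rw [Submodule.mem_bot]
    exact ext_fs _ _ _ (Fl_three (Fl_anti (by norm_num) hz.1)) (FM_three hz.2)
  anti i z hz := ⟨Fl_anti (Nat.le_succ _) hz.1, FM_anti (by omega) hz.2⟩
  Fl_l i a _ hz := FS_l i a hz
  Fl_r i a _ hz := FS_r i a hz
  Fl_D i _ hz := FS_D i hz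
  κ := Ka
  fκ i := inferInstance
  u := uu π s hs
  uP := uP
  uP01 i k := by
    cases k with
    | inl _ => exact Or.inl rfl
    | inr _ => exact Or.inr rfl
  uC := uC s
  u_mem := uu_mem π s hs
  u_F := uu_F π s hs
  u_J i k _ hz := uu_J π s hs i k hz
  u_D i k := by
    rw [uu_D]
    exact Submodule.zero_mem _
  gen i _ _ _ _ _ hz hp := gen i hz hp
  uniq i _ _ _ y _ _ h := uniq i y h
  T0 := Tk π s hs (-2)
  T1 := Tk π s hs (-1)
  T2 := Tk π s hs 0
  T01 _ h := Tk_mono (by norm_num) h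
  T12 _ h := Tk_mono (by norm_num) h
  u_th θ hθ i k := by
    have e : θ.t * uu π s hs i k = uu π s hs i k * θ.t := by
      cases k with
      | inl q => exact th_wq hθ q.1
      | inr q => exact th_oM hθ q.1
    rw [e, sub_self]
    exact Submodule.zero_mem _
  x := xS π s hs
  x_mem := xS_mem π s hs
  x_D := xS_D π s hs
  kk := kS π s hs
  kk_mem := kS_mem π s hs
  kk_D := kS_D π s hs
  x_kk := by
    rw [sum_xk]
    exact Submodule.zero_mem _
  T2x θ hθ := by
    obtain ⟨θ', h1, h2, θ'', h3, h4⟩ := T2x hθ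
    refine ⟨θ', h1, fun j => ?_, θ'', h3, fun j => ?_⟩
    · rw [h2]; exact Submodule.zero_mem _
    · rw [h4]; exact Submodule.zero_mem _
  x_gen {_ _ _ y} hP hy := by
    obtain ⟨z, h1, h2⟩ := x_gen hP hy
    refine ⟨z, h1, ?_⟩
    rw [mem_FS_zero, h2]
    exact (mem_Fl_one.1 (Submodule.zero_mem (Fl π 1)))
  x_ker z hz h := by
    obtain ⟨c, h1, h2⟩ := x_ker z hz (mem_FS_zero.1 h)
    exact ⟨c, h1, fun j => mem_FS_zero.2 (h2 j)⟩
  x_inj h := mem_FS_zero.2 (x_inj (mem_FS_zero.1 h))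

end Crest.Agent.R186.TRDj763
end
end

-- ▼ part R186/CEc_683
section

/-!
Row 186 (A) (helper683): the two structures `KH186.CE` and `KHev302.CE` are the same:
`CEc683.ev : KH186.CE w → KHev302.CE w`, and `H`, its grading, action, differential, 362's `HM` and
302's `Hrm` agree definitionally.
-/

set_option autoImplicit false

namespace Crest.Agent.R186.CEc683

open Hat827 Hat827.DGA Win810 Frame515 Adapt186

variable {K : Type} [Field K] {w : WD K}

/-- the conversion -/
def ev (E : KH186.CE w) : KHev302.CE w where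
  B := E.B
  two := E.two
  pb := E.pb
  pb_mul := E.pb_mul
  pb_neg := E.pb_neg
  nb := E.Nb
  pb_big i j P C h := E.pb_big P i j C h
  pb_fin := E.pb_fin
  prB := E.prB
  pr_same := E.prB_self
  pr_diff := fun h h' => E.prB_ne _ h h'
  DB := E.D'
  DB_mul := E.D'_mul
  DB_DB := E.D'_D'
  DB_mem := E.D'_mem
  p := E.p
  p_mem := E.p_mem
  p_D := E.p_D
  o := E.o
  s0 := E.s0
  o_mem := E.o_mem
  mul_o := E.mul_o
  o_mul := E.o_mul
  D_o := E.D_o
  p_o := E.p_o
  ka := E.κ
  oc := E.oc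
  cd := E.cd
  cd_le := E.cd_le
  cc := E.cc
  cc_mem := E.cc_mem
  mc := E.mc

variable (E : KH186.CE w)





/-- acyclicity passes from 362's `H ⊗ X` to 302's -/
theorem ac_Hrm (X : LCells w.dga) (h : Ac (tG (HB362.HM (ev E)) X)) : Ac (tG E.Hrm X) := h



end Crest.Agent.R186.CEc683
end

-- ▼ part R186/JTRc_322
section

/-!
Row 186 (A) (helper322), joint (TR) → (H), concrete part: `CEr π s hs` satisfies the hypotheses of
`JTR322.qi` for `J = ker (S → R')`, and the chain maps `thH` of 654's `XDHT` are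
quasi-isomorphisms.
-/

set_option autoImplicit false
set_option linter.style.haveILetI false
set_option linter.unusedSectionVars false
set_option linter.unusedSimpArgs false
set_option linter.unusedVariables false

open MulOpposite

namespace Crest.Agent.R186.JTR322

open Hat827 Hat827.DGA Frame515 Win810 KHev302 HB362 TR810 FamU654

variable {K : Type} [Field K]

section gen

variable {w : WD K} {E : CE w} {X : LCells w.dga}

theorem th_d (E : CE w) (θ : Th w) : E.DB (E.p θ.t) = 0 := by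
  rw [← E.p_D, θ.D0, map_zero]

/-- `QI (LUh b)` only depends on `b` -/
theorem qi_congr {p a p' a' : ℤ} {b b' : E.B} (h : b = b') (hb : b ∈ E.pb (p' - p) (a' - a) 0)
    (hd : E.DB b = 0) (hb' : b' ∈ E.pb (p' - p) (a' - a) 0) (hd' : E.DB b' = 0)
    (H : QI (LUh E X b hb hd)) : QI (LUh E X b' hb' hd') := by
  subst h
  exact H

/-- **(TR) ⇒ the chain map `θ = t + l h` of 654's family is a quasi-isomorphism** -/
theorem thQI {g : K} (T : XDHT (rowSys E X) g)
    (hsur : ∀ {P A C : ℤ} {b : E.B}, b ∈ E.pb P A C → ∃ s ∈ w.pc P A C, E.p s = b)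
    {J : Submodule K w.S} (hJ : ∀ s, s ∈ J ↔ E.p s = 0) (l : K) (p : ℤ) (a : ℕ) (θ : Th w)
    (hθ : E.p θ.t = T.t + l • T.h) (H : ∀ n, AcQ (Yc θ p a X) ⊤ (TF X J) n) :
    QI (T.thH l p a) :=
  qi_congr (a' := ((a + 1 : ℕ) : ℤ)) hθ (th_pb E θ p a) (th_d E θ) (T.mth l p a) (T.th_D l)
    (qi hsur hJ θ p a H (th_pb E θ p a) (th_d E θ))

end gen

/-! ### the concrete closing data -/

open DefsQ830 SM890 WL221 C2b44 Cells221

variable (π : Par K) (s : ℕ) (hs : 5 ≤ s)

/-- the concrete `CE` in 302's form -/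
noncomputable abbrev Ec : CE (KHc302.WG π s (KHc302.two_le hs)) := CEc683.ev (KHc302.CEr π s hs)

/-- `ker (S → R')` -/
noncomputable def JW : Submodule K (KHc302.WG π s (KHc302.two_le hs)).S :=
  LinearMap.ker (KHc302.pW π s (KHc302.two_le hs)).toLinearMap

theorem mem_JW (x : (KHc302.WG π s (KHc302.two_le hs)).S) :
    x ∈ JW π s hs ↔ (Ec π s hs).p x = 0 := Iff.rfl

/-- `x ∈ JW ↔ the first component lies in `J`` -/
theorem mem_JW_iff (x : (KHc302.WG π s (KHc302.two_le hs)).S) :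
    x ∈ JW π s hs ↔ kill π (KHc302.fR π s (KHc302.two_le hs) x) = 0 := by
  rw [mem_JW]
  change prL π (KHc302.fR π s (KHc302.two_le hs) x) = 0 ↔ _
  exact prL_eq_zero

theorem hsur {P A C : ℤ} {b : (Ec π s hs).B} (hb : b ∈ (Ec π s hs).pb P A C) :
    ∃ x ∈ (KHc302.WG π s (KHc302.two_le hs)).pc P A C, (Ec π s hs).p x = b := by
  refine ⟨(bdM π s (KHc302.two_le hs)).inl (b : RL π).1, (bdM π s _).inl_mem hb, ?_⟩
  change prL π (KHc302.fR π s (KHc302.two_le hs) ((bdM π s (KHc302.two_le hs)).inl (b : RL π).1)) = b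
  exact prL_inL b

variable {π s hs}

/-- **the final form for the concrete data** -/
theorem thQIc {X : LCells (KHc302.WG π s (KHc302.two_le hs)).dga} {g : K}
    (T : XDHT (rowSys (Ec π s hs) X) g) (l : K) (p : ℤ) (a : ℕ)
    (θ : Th (KHc302.WG π s (KHc302.two_le hs)))
    (hθ : (Ec π s hs).p θ.t = T.t + l • T.h)
    (H : ∀ n, AcQ (Yc θ p a X) ⊤ (TF X (JW π s hs)) n) : QI (T.thH l p a) :=
  thQI T (fun h => hsur π s hs h) (mem_JW π s hs) l p a θ hθ H


end Crest.Agent.R186.JTR322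
end

-- ▼ part R186/TRq_461

/-!
Row 186 (A), helper461: output of (TR) on 448's cells `XL`: the chain maps `t + l h` of 654's
letters on the rows are quasi-isomorphisms.

* `q2` : row `2`, `l = (g ^ 2)⁻¹`  (`theta_0`);
* `q1` : row `1`, `l = g⁻¹`  (`theta_(-1)`);
* `q0` : row `0`, `l = 1`  (`theta_(-2)`).
-/

set_option autoImplicit false
set_option linter.style.haveILetI false
set_option linter.unusedSectionVars false

open MulOpposite

noncomputable section

namespace Crest.Agent.R186.TRq461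

open Hat827 Hat827.DGA Frame515 Res255 Win810 TR810 KHc302 TRj461
open Crest.Agent.R186.DefsQ830 Crest.Agent.R186.SM890 Crest.Agent.R186.WL221
open Crest.Agent.R186.Cells221 (tR)
open Crest.Agent.R186.ThK763 (wS Tk thE Tk_E theta)

variable {K : Type} [Field K] (π : Par K) (s : ℕ) (hs : 5 ≤ s)

/-- 654's letters on the rows over `X` -/
abbrev TL (X : LCells (WG π s (two_le hs)).dga) :
    FamU654.XDHT (FamU654.rowSys (JTR322.Ec π s hs) X) π.g := LtR654.xdht (LtR654.lt π s hs) X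

theorem Fl0 : (TRDj763.trd π s (two_le hs)).Fl 0 = JTR322.JW π s hs := by
  ext z
  rw [JTR322.mem_JW_iff]
  exact (TRDj763.mem_FS_zero).trans (KOS296.mem_J_iff_kill π)

theorem p_thE (e : ℤ) : (JTR322.Ec π s hs).p (thE π s (two_le hs) 1 e).t =
    LtR654.tL π + (π.g ^ (-e - 2)) • LtR654.hL π := by
  change prL π (((1 : K) • (bdM π s (two_le hs)).inl (theta π e) : (wS π s (two_le hs)).S)).1 = _
  rw [one_smul]
  change prL π (tR π + π.g ^ (-e - 2) • X π .h) = _
  rw [map_add, map_smul]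
  rfl

/-- row `2`, `theta_0` -/
theorem q2 {a : ℕ} (ha : a < 3) :
    QI ((TL π s hs (EndV448.XL π s hs)).thH (π.g ^ 2)⁻¹ 2 a) := by
  refine JTR322.thQIc (TL π s hs (EndV448.XL π s hs)) _ 2 a (thE π s (two_le hs) 1 0) ?_
    fun n => ?_
  · rw [p_thE]
    have : π.g ^ (-(0 : ℤ) - 2) = (π.g ^ 2)⁻¹ := by
      rw [neg_zero, zero_sub, zpow_neg]
      norm_cast
    rw [this]
    rfl
  · rw [← Fl0]
    exact (trX (TRDj763.trd π s (two_le hs)) (fun _ h => h) ha).2.2 _
      (Tk_E le_rfl one_ne_zero) n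

/-- row `1`, `theta_(-1)` -/
theorem q1 {a : ℕ} (ha : a < 3) :
    QI ((TL π s hs (EndV448.XL π s hs)).thH π.g⁻¹ 1 a) := by
  refine JTR322.thQIc (TL π s hs (EndV448.XL π s hs)) _ 1 a (thE π s (two_le hs) 1 (-1)) ?_
    fun n => ?_
  · rw [p_thE]
    have : π.g ^ (-(-1 : ℤ) - 2) = π.g⁻¹ := by
      rw [show (-(-1 : ℤ) - 2) = -1 by norm_num, zpow_neg_one]
    rw [this]
    rfl
  · rw [← Fl0]
    exact (trX (TRDj763.trd π s (two_le hs)) (fun _ h => h) ha).2.1 _
      (Tk_E le_rfl one_ne_zero) n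

/-- row `0`, `theta_(-2)` -/
theorem q0 {a : ℕ} (ha : a < 3) :
    QI ((TL π s hs (EndV448.XL π s hs)).thH 1 0 a) := by
  refine JTR322.thQIc (TL π s hs (EndV448.XL π s hs)) _ 0 a (thE π s (two_le hs) 1 (-2)) ?_
    fun n => ?_
  · rw [p_thE]
    have : π.g ^ (-(-2 : ℤ) - 2) = 1 := by
      rw [show (-(-2 : ℤ) - 2) = 0 by norm_num, zpow_zero]
    rw [this]
    rfl
  · rw [← Fl0]
    exact (trX (TRDj763.trd π s (two_le hs)) (fun _ h => h) ha).1 _
      (Tk_E le_rfl one_ne_zero) n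

end Crest.Agent.R186.TRq461
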