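import Crest.Agent.R186.LtR_654
import Crest.Agent.R186.HBz_362

/-!
Row 186 (A), short road, leaf (H) (helper380): `Ac (TFH E X).cx` for the concrete closing data
`E = ev (CEr π s hs)` from the quasi-isomorphisms `thH (g²)⁻¹ 2 a` (`a = 0, 1, 2`) and
`thH g⁻¹ 1 a` (`a = 1, 2`).
-/

set_option autoImplicit false
set_option linter.style.haveILetI false
set_option linter.unusedSectionVars false
set_option linter.unusedTactic false

noncomputable section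

namespace Crest.Agent.R186.ZZB380

open DefsQ830 PBW128 Win810 SM890 WL221 C2b44 Cells221 KHc302 HL462 LtR654
open DefsQ830.Gen Frame515 Zig498 FamU654 HB362 ZZH380 Ex306

variable {K : Type} [Field K] (π : Par K)

/-! ### relations in `R'` -/

theorem x0d0_L : xL π 0 * dL π 0 = hL π + π.g • (dL π 0 * xL π 0) := by
  have h := congrArg (prL π) (Der580.r_x0d0 (π := π))
  simp only [map_add, map_mul, map_smul] at h
  exact h

theorem x0d1_L : xL π 0 * dL π 1 = π.g • (dL π 1 * xL π 0) := by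
  have h := congrArg (prL π) (Der580.r_x0d1 (π := π))
  simp only [map_mul, map_smul] at h
  exact h

theorem x1d0_L : xL π 1 * dL π 0 = dL π 0 * xL π 1 := by
  have h := congrArg (prL π) (Der580.r_x1d0 (π := π))
  simp only [map_mul] at h
  exact h

theorem x1d1_L : xL π 1 * dL π 1 =
    hL π + π.g • (dL π 1 * xL π 1) + (π.g - 1) • (dL π 0 * xL π 0) := by
  have h := congrArg (prL π) (Der580.r_x1d1 (π := π))
  simp only [map_add, map_mul, map_smul] at h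
  exact h

variable (s : ℕ) (hs : 5 ≤ s) (X : LCells (WG π s (two_le hs)).dga)

/-- the letters -/
abbrev TX : XDHT (rowSys (Er π s hs) X) π.g := xdht (lt π s hs) X

/-- the family -/
abbrev FX (n : ℤ) : Fam K π.g := (TX π s hs X).fam 1 n

/-- the twisted family of `H ⊗ X` -/
abbrev TT' : TF K := TFH (Er π s hs) X

variable {π s hs X}

theorem rep_hc {l l' : Cell} (h : cdeg l = cdeg l' + 1) {n : ℤ} {ζ : HH ((TT' π s hs X).U l') n}
    {u : ((TT' π s hs X).U l').X} (hu : IsRep ζ u) :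
    IsRep ((TT' π s hs X).hc n l l' ζ) ((TT' π s hs X).c l l' u) := by
  rw [(TT' π s hs X).hc_of (l := l) (l' := l')
    (show ((cdeg l : ℕ) : ℤ) = (cdeg l' : ℕ) + 1 by rw [h]; push_cast; rfl)]
  exact hu.map _ _

theorem c_dn (n : ℤ) (j : Fin 2) (y : HH ((TT' π s hs X).U none) n) :
    (TT' π s hs X).hc n (some (.d j)) none y = (FX π s hs X n).d j 0 y := by
  obtain ⟨u, hu⟩ := IsRep.ex y
  refine (rep_hc (l := some (.d j)) rfl hu).eq' (RowSys.rep_lHm _ _ hu) ?_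
  rfl

/-- entries -/
def en {p a : ℤ} (u : X.ι →₀ Row (Er π s hs) p a) (σ : X.ι) (j : (WG π s (two_le hs)).Ob) : RL π :=
  (u σ).1 j

/-! ### representatives of the operators of the family -/

section reps

variable {n : ℤ}

theorem rep_m00 {a : ℕ} {y : (FX π s hs X n).Y0 a}
    {u : X.ι →₀ Row (Er π s hs) 1 a} (hu : IsRep (X := (rowSys (Er π s hs) X).U 1 a) y u) :
    ∃ v : X.ι →₀ Row (Er π s hs) 1 ((a + 1 : ℕ) : ℤ),
      IsRep (X := (rowSys (Er π s hs) X).U 1 ((a + 1 : ℕ) : ℤ)) ((FX π s hs X n).m 0 0 a y) v ∧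
      ∀ σ j, en v σ j = xL π 0 * (dL π 0 * en u σ j) := by
  refine ⟨_, (RowSys.rep_lHm _ _ hu).add
    ((RowSys.rep_lHm _ _ (RowSys.rep_lHm _ _ hu)).smul π.g), fun σ j => ?_⟩
  change hL π * en u σ j + π.g • (dL π 0 * (xL π 0 * en u σ j)) = _
  rw [← mul_assoc (xL π 0), x0d0_L, add_mul, smul_mul_assoc, mul_assoc]

theorem rep_m01 {a : ℕ} {y : (FX π s hs X n).Y0 a}
    {u : X.ι →₀ Row (Er π s hs) 1 a} (hu : IsRep (X := (rowSys (Er π s hs) X).U 1 a) y u) :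
    ∃ v : X.ι →₀ Row (Er π s hs) 1 ((a + 1 : ℕ) : ℤ),
      IsRep (X := (rowSys (Er π s hs) X).U 1 ((a + 1 : ℕ) : ℤ)) ((FX π s hs X n).m 0 1 a y) v ∧
      ∀ σ j, en v σ j = xL π 0 * (dL π 1 * en u σ j) := by
  refine ⟨_, (RowSys.rep_lHm _ _ (RowSys.rep_lHm _ _ hu)).smul π.g, fun σ j => ?_⟩
  change π.g • (dL π 1 * (xL π 0 * en u σ j)) = _
  rw [← mul_assoc (xL π 0), x0d1_L, smul_mul_assoc, mul_assoc]

theorem rep_m10 {a : ℕ} {y : (FX π s hs X n).Y0 a}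
    {u : X.ι →₀ Row (Er π s hs) 1 a} (hu : IsRep (X := (rowSys (Er π s hs) X).U 1 a) y u) :
    ∃ v : X.ι →₀ Row (Er π s hs) 1 ((a + 1 : ℕ) : ℤ),
      IsRep (X := (rowSys (Er π s hs) X).U 1 ((a + 1 : ℕ) : ℤ)) ((FX π s hs X n).m 1 0 a y) v ∧
      ∀ σ j, en v σ j = xL π 1 * (dL π 0 * en u σ j) := by
  refine ⟨_, RowSys.rep_lHm _ _ (RowSys.rep_lHm _ _ hu), fun σ j => ?_⟩
  change dL π 0 * (xL π 1 * en u σ j) = _
  rw [← mul_assoc (xL π 1), x1d0_L, mul_assoc]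

theorem rep_m11 {a : ℕ} {y : (FX π s hs X n).Y0 a}
    {u : X.ι →₀ Row (Er π s hs) 1 a} (hu : IsRep (X := (rowSys (Er π s hs) X).U 1 a) y u) :
    ∃ v : X.ι →₀ Row (Er π s hs) 1 ((a + 1 : ℕ) : ℤ),
      IsRep (X := (rowSys (Er π s hs) X).U 1 ((a + 1 : ℕ) : ℤ)) ((FX π s hs X n).m 1 1 a y) v ∧
      ∀ σ j, en v σ j = xL π 1 * (dL π 1 * en u σ j) := by
  refine ⟨_, ((RowSys.rep_lHm _ _ hu).add
    ((RowSys.rep_lHm _ _ (RowSys.rep_lHm _ _ hu)).smul π.g)).add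
    ((RowSys.rep_lHm _ _ (RowSys.rep_lHm _ _ hu)).smul (π.g - 1)), fun σ j => ?_⟩
  change hL π * en u σ j + π.g • (dL π 1 * (xL π 1 * en u σ j)) +
    (π.g - 1) • (dL π 0 * (xL π 0 * en u σ j)) = _
  rw [← mul_assoc (xL π 1), x1d1_L, add_mul, add_mul, smul_mul_assoc, smul_mul_assoc, mul_assoc,
    mul_assoc]

end reps

/-- equality of two elements of a row complex, entrywise -/
theorem u_ext {p a : ℤ} {u v : X.ι →₀ Row (Er π s hs) p a}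
    (h : ∀ σ j, en u σ j = en v σ j) : u = v := by
  apply Finsupp.ext
  intro σ
  exact row_ext fun j => h σ j

/-! ### the entries -/

theorem c_z0d0 (n : ℤ) (y : HH ((TT' π s hs X).U (some (.d 0))) n) :
    (TT' π s hs X).hc n (some (.z 0)) (some (.d 0)) y = (FX π s hs X n).m 0 1 1 y := by
  obtain ⟨u, hu⟩ := IsRep.ex y
  obtain ⟨v, hv, hv'⟩ := rep_m01 (a := 1) hu
  refine (rep_hc (l := some (.z 0)) rfl hu).eq' hv (u_ext fun σ j => Eq.trans ?_ (hv' σ j).symm)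
  change cL π (some (.z 0)) (some (.d 0)) * en u σ j = xL π 0 * (dL π 1 * en u σ j)
  rw [cc_zd0, mul_assoc]

theorem c_z1d0 (n : ℤ) (y : HH ((TT' π s hs X).U (some (.d 0))) n) :
    (TT' π s hs X).hc n (some (.z 1)) (some (.d 0)) y = (FX π s hs X n).m 1 1 1 y := by
  obtain ⟨u, hu⟩ := IsRep.ex y
  obtain ⟨v, hv, hv'⟩ := rep_m11 (a := 1) hu
  refine (rep_hc (l := some (.z 1)) rfl hu).eq' hv (u_ext fun σ j => Eq.trans ?_ (hv' σ j).symm)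
  change cL π (some (.z 1)) (some (.d 0)) * en u σ j = xL π 1 * (dL π 1 * en u σ j)
  rw [cc_zd0, mul_assoc]

theorem c_z0d1 (n : ℤ) (y : HH ((TT' π s hs X).U (some (.d 1))) n) :
    (TT' π s hs X).hc n (some (.z 0)) (some (.d 1)) y = π.g • (FX π s hs X n).m 0 0 1 y := by
  obtain ⟨u, hu⟩ := IsRep.ex y
  obtain ⟨v, hv, hv'⟩ := rep_m00 (a := 1) hu
  refine (rep_hc (l := some (.z 0)) rfl hu).eq' (hv.smul π.g) (u_ext fun σ j =>
    Eq.trans ?_ (congrArg (π.g • ·) (hv' σ j)).symm)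
  change cL π (some (.z 0)) (some (.d 1)) * en u σ j = π.g • (xL π 0 * (dL π 0 * en u σ j))
  rw [cc_zd1, smul_mul_assoc, mul_assoc]

theorem c_z1d1 (n : ℤ) (y : HH ((TT' π s hs X).U (some (.d 1))) n) :
    (TT' π s hs X).hc n (some (.z 1)) (some (.d 1)) y = π.g • (FX π s hs X n).m 1 0 1 y := by
  obtain ⟨u, hu⟩ := IsRep.ex y
  obtain ⟨v, hv, hv'⟩ := rep_m10 (a := 1) hu
  refine (rep_hc (l := some (.z 1)) rfl hu).eq' (hv.smul π.g) (u_ext fun σ j =>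
    Eq.trans ?_ (congrArg (π.g • ·) (hv' σ j)).symm)
  change cL π (some (.z 1)) (some (.d 1)) * en u σ j = π.g • (xL π 1 * (dL π 0 * en u σ j))
  rw [cc_zd1, smul_mul_assoc, mul_assoc]

theorem c_cz0 (n : ℤ) (y : HH ((TT' π s hs X).U (some (.z 0))) n) :
    (TT' π s hs X).hc n (some .zc) (some (.z 0)) y = (FX π s hs X n).x 1 2 y := by
  obtain ⟨u, hu⟩ := IsRep.ex y
  exact (rep_hc (l := some .zc) rfl hu).eq' (RowSys.rep_lHm _ _ hu) rfl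

theorem c_cz1 (n : ℤ) (y : HH ((TT' π s hs X).U (some (.z 1))) n) :
    (TT' π s hs X).hc n (some .zc) (some (.z 1)) y = (FX π s hs X n).x 0 2 y := by
  obtain ⟨u, hu⟩ := IsRep.ex y
  exact (rep_hc (l := some .zc) rfl hu).eq' (RowSys.rep_lHm _ _ hu) rfl

theorem c_e0f (n : ℤ) (y : HH ((TT' π s hs X).U (some .f)) n) :
    (TT' π s hs X).hc n (some (.e 0)) (some .f) y = π.g ^ 2 • (FX π s hs X n).d 0 1 y := by
  obtain ⟨u, hu⟩ := IsRep.ex y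
  refine (rep_hc (l := some (.e 0)) rfl hu).eq' ((RowSys.rep_lHm _ _ hu).smul (π.g ^ 2))
    (u_ext fun σ j => ?_)
  change cL π (some (.e 0)) (some .f) * en u σ j = π.g ^ 2 • (dL π 0 * en u σ j)
  rw [cc_ef, Cells221.c0, smul_mul_assoc]

theorem c_e1f (n : ℤ) (y : HH ((TT' π s hs X).U (some .f)) n) :
    (TT' π s hs X).hc n (some (.e 1)) (some .f) y = π.g • (FX π s hs X n).d 1 1 y := by
  obtain ⟨u, hu⟩ := IsRep.ex y
  refine (rep_hc (l := some (.e 1)) rfl hu).eq' ((RowSys.rep_lHm _ _ hu).smul π.g)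
    (u_ext fun σ j => ?_)
  change cL π (some (.e 1)) (some .f) * en u σ j = π.g • (dL π 1 * en u σ j)
  rw [cc_ef, Cells221.c1, smul_mul_assoc]

theorem c_g0e0 (n : ℤ) (y : HH ((TT' π s hs X).U (some (.e 0))) n) :
    (TT' π s hs X).hc n (some (.gj 0)) (some (.e 0)) y =
      ((π.g ^ 2)⁻¹ * π.g) • (FX π s hs X n).m 0 1 2 y := by
  obtain ⟨u, hu⟩ := IsRep.ex y
  obtain ⟨v, hv, hv'⟩ := rep_m01 (a := 2) hu
  refine (rep_hc (l := some (.gj 0)) rfl hu).eq' (hv.smul _) (u_ext fun σ j =>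
    Eq.trans ?_ (congrArg (((π.g ^ 2)⁻¹ * π.g) • ·) (hv' σ j)).symm)
  change cL π (some (.gj 0)) (some (.e 0)) * en u σ j =
    ((π.g ^ 2)⁻¹ * π.g) • (xL π 0 * (dL π 1 * en u σ j))
  rw [cc_ge0, Cells221.c0, smul_mul_assoc, mul_assoc (xL π 0)]

theorem c_g0e1 (n : ℤ) (y : HH ((TT' π s hs X).U (some (.e 1))) n) :
    (TT' π s hs X).hc n (some (.gj 0)) (some (.e 1)) y =
      ((π.g ^ 2)⁻¹ * π.g ^ 3) • (FX π s hs X n).m 0 0 2 y := by
  obtain ⟨u, hu⟩ := IsRep.ex y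
  obtain ⟨v, hv, hv'⟩ := rep_m00 (a := 2) hu
  refine (rep_hc (l := some (.gj 0)) rfl hu).eq' (hv.smul _) (u_ext fun σ j =>
    Eq.trans ?_ (congrArg (((π.g ^ 2)⁻¹ * π.g ^ 3) • ·) (hv' σ j)).symm)
  change cL π (some (.gj 0)) (some (.e 1)) * en u σ j =
    ((π.g ^ 2)⁻¹ * π.g ^ 3) • (xL π 0 * (dL π 0 * en u σ j))
  rw [cc_ge1, Cells221.c0, smul_mul_assoc, mul_assoc (xL π 0)]

theorem c_g1e0 (n : ℤ) (y : HH ((TT' π s hs X).U (some (.e 0))) n) :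
    (TT' π s hs X).hc n (some (.gj 1)) (some (.e 0)) y =
      (π.g⁻¹ * π.g) • (FX π s hs X n).m 1 1 2 y := by
  obtain ⟨u, hu⟩ := IsRep.ex y
  obtain ⟨v, hv, hv'⟩ := rep_m11 (a := 2) hu
  refine (rep_hc (l := some (.gj 1)) rfl hu).eq' (hv.smul _) (u_ext fun σ j =>
    Eq.trans ?_ (congrArg ((π.g⁻¹ * π.g) • ·) (hv' σ j)).symm)
  change cL π (some (.gj 1)) (some (.e 0)) * en u σ j =
    (π.g⁻¹ * π.g) • (xL π 1 * (dL π 1 * en u σ j))
  rw [cc_ge0, Cells221.c1, smul_mul_assoc, mul_assoc (xL π 1)]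

theorem c_g1e1 (n : ℤ) (y : HH ((TT' π s hs X).U (some (.e 1))) n) :
    (TT' π s hs X).hc n (some (.gj 1)) (some (.e 1)) y =
      (π.g⁻¹ * π.g ^ 3) • (FX π s hs X n).m 1 0 2 y := by
  obtain ⟨u, hu⟩ := IsRep.ex y
  obtain ⟨v, hv, hv'⟩ := rep_m10 (a := 2) hu
  refine (rep_hc (l := some (.gj 1)) rfl hu).eq' (hv.smul _) (u_ext fun σ j =>
    Eq.trans ?_ (congrArg ((π.g⁻¹ * π.g ^ 3) • ·) (hv' σ j)).symm)
  change cL π (some (.gj 1)) (some (.e 1)) * en u σ j =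
    (π.g⁻¹ * π.g ^ 3) • (xL π 1 * (dL π 0 * en u σ j))
  rw [cc_ge1, Cells221.c1, smul_mul_assoc, mul_assoc (xL π 1)]

theorem c_gg0 (n : ℤ) (y : HH ((TT' π s hs X).U (some (.gj 0))) n) :
    (TT' π s hs X).hc n (some .gc) (some (.gj 0)) y = π.g⁻¹ • (FX π s hs X n).x 1 3 y := by
  obtain ⟨u, hu⟩ := IsRep.ex y
  refine (rep_hc (l := some .gc) rfl hu).eq' ((RowSys.rep_lHm _ _ hu).smul π.g⁻¹)
    (u_ext fun σ j => ?_)
  change cL π (some .gc) (some (.gj 0)) * en u σ j = π.g⁻¹ • (xL π 1 * en u σ j)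
  rw [cc_gg0, Cells221.c1, smul_mul_assoc]

theorem c_gg1 (n : ℤ) (y : HH ((TT' π s hs X).U (some (.gj 1))) n) :
    (TT' π s hs X).hc n (some .gc) (some (.gj 1)) y = (π.g ^ 2)⁻¹ • (FX π s hs X n).x 0 3 y := by
  obtain ⟨u, hu⟩ := IsRep.ex y
  refine (rep_hc (l := some .gc) rfl hu).eq' ((RowSys.rep_lHm _ _ hu).smul (π.g ^ 2)⁻¹)
    (u_ext fun σ j => ?_)
  change cL π (some .gc) (some (.gj 1)) * en u σ j = (π.g ^ 2)⁻¹ • (xL π 0 * en u σ j)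
  rw [cc_gg1, Cells221.c0, smul_mul_assoc]

theorem c_v0 (n : ℤ) (y : HH ((TT' π s hs X).U (some (.u 0))) n) :
    (TT' π s hs X).hc n (some (.v 0)) (some (.u 0)) y = (FX π s hs X n).th1 (π.g ^ 2)⁻¹ 1 y := by
  refine Eq.trans ?_ (XDHT.th1_eq (TX π s hs X) (π.g ^ 2)⁻¹ 1 n 1 y).symm
  obtain ⟨u, hu⟩ := IsRep.ex y
  refine (rep_hc (l := some (.v 0)) rfl hu).eq' (RowSys.rep_lHm _ _ hu) (u_ext fun σ j => ?_)
  change cL π (some (.v 0)) (some (.u 0)) * en u σ j =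
    (tL π + (π.g ^ 2)⁻¹ • hL π) * en u σ j
  rw [cc_vu]

theorem c_v1 (n : ℤ) (y : HH ((TT' π s hs X).U (some (.u 1))) n) :
    (TT' π s hs X).hc n (some (.v 1)) (some (.u 1)) y = (FX π s hs X n).th1 (π.g ^ 2)⁻¹ 2 y := by
  refine Eq.trans ?_ (XDHT.th1_eq (TX π s hs X) (π.g ^ 2)⁻¹ 1 n 2 y).symm
  obtain ⟨u, hu⟩ := IsRep.ex y
  refine (rep_hc (l := some (.v 1)) rfl hu).eq' (RowSys.rep_lHm _ _ hu) (u_ext fun σ j => ?_)
  change cL π (some (.v 1)) (some (.u 1)) * en u σ j =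
    (tL π + (π.g ^ 2)⁻¹ • hL π) * en u σ j
  rw [cc_vu]

/-! ### the end -/

theorem hc_zero (n : ℤ) (l l' : Cell) (h1 : cdeg l = cdeg l' + 1) (h2 : ZZH380.tab l l' = false) :
    (TT' π s hs X).hc n l l' = 0 := by
  refine LinearMap.ext fun y => ?_
  obtain ⟨u, hu⟩ := IsRep.ex y
  obtain ⟨hx, hd, e⟩ := rep_hc (l := l) (l' := l') h1 hu
  rw [← e]
  refine cls_eq_zero.2 ⟨0, Submodule.zero_mem _, ?_⟩
  rw [map_zero]
  symm
  refine LU_zero _ ?_ u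
  exact cc_zero π l l' h1 h2

set_option maxHeartbeats 8000000 in
theorem q1 (n : ℤ) (hg1 : π.g ≠ 1)
    (B0 : Function.Bijective ((FX π s hs X n).th1 (π.g ^ 2)⁻¹ 0))
    (B1 : Function.Bijective ((FX π s hs X n).th1 (π.g ^ 2)⁻¹ 1))
    (C1 : Function.Bijective ((FX π s hs X n).th0 π.g⁻¹ 1)) :
    Q4 ((TT' π s hs X).hc n (some (.d 0)) none) ((TT' π s hs X).hc n (some (.d 1)) none)
      ((TT' π s hs X).hc n (some (.z 0)) (some (.d 0)))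
      ((TT' π s hs X).hc n (some (.z 0)) (some (.d 1)))
      ((TT' π s hs X).hc n (some (.z 1)) (some (.d 0)))
      ((TT' π s hs X).hc n (some (.z 1)) (some (.d 1)))
      ((TT' π s hs X).hc n (some .zc) (some (.z 0)))
      ((TT' π s hs X).hc n (some .zc) (some (.z 1))) :=
  (Q4.of_fam (FX π s hs X n) π.g0 hg1 π.two 0
    (fun y hy => B0.1 (hy.trans (map_zero _).symm)) B0.2
    (fun y hy => B1.1 (hy.trans (map_zero _).symm)) B1.2
    (fun y hy => C1.1 (hy.trans (map_zero _).symm)) C1.2).congr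
    (c_dn n 0) (c_dn n 1) (c_z0d0 n) (c_z0d1 n) (c_z1d0 n) (c_z1d1 n) (c_cz0 n) (c_cz1 n)

set_option maxHeartbeats 8000000 in
theorem q2 (n : ℤ) (hg1 : π.g ≠ 1)
    (B1 : Function.Bijective ((FX π s hs X n).th1 (π.g ^ 2)⁻¹ 1))
    (B2 : Function.Bijective ((FX π s hs X n).th1 (π.g ^ 2)⁻¹ 2))
    (C2 : Function.Bijective ((FX π s hs X n).th0 π.g⁻¹ 2)) :
    Q4 ((TT' π s hs X).hc n (some (.e 0)) (some .f)) ((TT' π s hs X).hc n (some (.e 1)) (some .f))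
      ((TT' π s hs X).hc n (some (.gj 0)) (some (.e 0)))
      ((TT' π s hs X).hc n (some (.gj 0)) (some (.e 1)))
      ((TT' π s hs X).hc n (some (.gj 1)) (some (.e 0)))
      ((TT' π s hs X).hc n (some (.gj 1)) (some (.e 1)))
      ((TT' π s hs X).hc n (some .gc) (some (.gj 0)))
      ((TT' π s hs X).hc n (some .gc) (some (.gj 1))) :=
  (Q4.of_fam' (FX π s hs X n) π.g0 hg1 π.two 1
    (fun y hy => B1.1 (hy.trans (map_zero _).symm)) B1.2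
    (fun y hy => B2.1 (hy.trans (map_zero _).symm)) B2.2
    (fun y hy => C2.1 (hy.trans (map_zero _).symm)) C2.2).congr
    (c_e0f n) (c_e1f n) (c_g0e0 n) (c_g0e1 n) (c_g1e0 n) (c_g1e1 n) (c_gg0 n) (c_gg1 n)

variable (π s hs X)

/-- **(H): the twisted family of `H ⊗ X` is acyclic** -/
theorem acTF (hg1 : π.g ≠ 1)
    (B : ∀ a : ℕ, a ≤ 2 → QI ((TX π s hs X).thH (π.g ^ 2)⁻¹ 2 a))
    (C : ∀ a : ℕ, 1 ≤ a → a ≤ 2 → QI ((TX π s hs X).thH π.g⁻¹ 1 a)) : Ac (TFH (Er π s hs) X).cx := by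
  have hB : ∀ (n : ℤ) (a : ℕ), a ≤ 2 → Function.Bijective ((FX π s hs X n).th1 (π.g ^ 2)⁻¹ a) :=
    fun n a ha => XDHT.th1_bij (TX π s hs X) _ 1 n a (B a ha)
  have hC : ∀ (n : ℤ) (a : ℕ), 1 ≤ a → a ≤ 2 → Function.Bijective ((FX π s hs X n).th0 π.g⁻¹ a) :=
    fun n a h1 ha => XDHT.th0_bij (TX π s hs X) _ 1 n a (C a h1 ha)
  refine (TFH (Er π s hs) X).ac_of_H fun m n => ?_
  refine ex16 (Yc := fun l => HH ((TT' π s hs X).U l) n) (fun l l' => (TT' π s hs X).hc n l l')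
    (hc_zero n) (q1 n hg1 (hB n 0 (by norm_num)) (hB n 1 (by norm_num)) (hC n 1 le_rfl (by norm_num)))
    (q2 n hg1 (hB n 1 (by norm_num)) (hB n 2 le_rfl) (hC n 2 (by norm_num) le_rfl)) ?_ ?_ m
  · have h := hB n 1 (by norm_num)
    have e : ∀ y, (TT' π s hs X).hc n (some (.v 0)) (some (.u 0)) y = _ := c_v0 n
    exact (funext e : ⇑((TT' π s hs X).hc n (some (.v 0)) (some (.u 0))) = _) ▸ h
  · have h := hB n 2 le_rfl
    have e : ∀ y, (TT' π s hs X).hc n (some (.v 1)) (some (.u 1)) y = _ := c_v1 n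
    exact (funext e : ⇑((TT' π s hs X).hc n (some (.v 1)) (some (.u 1))) = _) ▸ h

/-- **(H)** -/
theorem ac_HM (hg1 : π.g ≠ 1)
    (B : ∀ a : ℕ, a ≤ 2 → QI ((TX π s hs X).thH (π.g ^ 2)⁻¹ 2 a))
    (C : ∀ a : ℕ, 1 ≤ a → a ≤ 2 → QI ((TX π s hs X).thH π.g⁻¹ 1 a)) :
    Ac (tG (HM (Er π s hs)) X) := HX_ac (acTF π s hs X hg1 B C)

/-- **(H) in the names of the skeleton** -/
theorem ac_Hrm (hg1 : π.g ≠ 1)
    (B : ∀ a : ℕ, a ≤ 2 → QI ((TX π s hs X).thH (π.g ^ 2)⁻¹ 2 a))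
    (C : ∀ a : ℕ, 1 ≤ a → a ≤ 2 → QI ((TX π s hs X).thH π.g⁻¹ 1 a)) :
    Ac (tG (CEr π s hs).Hrm X) := CEbr247.ac_H (ac_HM π s hs X hg1 B C)

end Crest.Agent.R186.ZZB380
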