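import Crest.Agent.R186.EndF_448
import Crest.Agent.R186.EndB_448
import Crest.Agent.R186.ZZB_380
import Crest.Agent.R186.TRq_461
import Crest.Agent.R186.FinD_988
import Crest.Agent.R186.AcIff_492
import Crest.Agent.R186.C2b_468
import Crest.Agent.R186.TLW_890
import Crest.Agent.R186.KHc_302
import Crest.Agent.R186.C2W_655
import Crest.Agent.R186.WLM_982
import Crest.Agent.R186.C2pp_655
import Crest.Agent.R186.FWI_226
import Crest.Agent.R186.FinV_988
import Crest.Agent.R186.DSq5_384_Mg
import Crest.Agent.R186.MW_890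
import Crest.Agent.R186.Dual_560
import Crest.Agent.R186.KHr_302
import Crest.Agent.R186.SExt_44
import Crest.Agent.R186.WinA_810
import Crest.Agent.R186.Res_255
import Crest.Agent.R186.PBWr_128
import Crest.Agent.R186.PBWgr_128
import Crest.Agent.R186.WLF_296
import Crest.Agent.R186.KVc_186
import Crest.Agent.R186.SMp_890
import Crest.Agent.R186.C1x_134
import Crest.Agent.R186.C1Q_611
import Crest.Agent.R186.C1b_328

-- ▼ part R186/EndC_560
section

/-!
Row 186, half (A), tail (helper560): `EndF448.null_F` at the parameters `TopA226.par0` over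
`k0 = Frac F₂[x₀, x₁, x₂]`, `s = 5`, and the five conclusions S0280, S0282 ... S0285 from the
three open literals `HM`, `PH`, `HD`.
-/

set_option autoImplicit false

open CategoryTheory Crest Crest.AlgebraR

namespace Crest.Agent.R186.EndC560

open Crest.Agent.R186 Spine700

universe u

/-- `5 ≤ 5` -/
theorem h55 : 5 ≤ 5 := le_refl 5

/-- **the three open literals at `par0`, `s = 5`** -/
structure Open3 : Prop where
  hM : EndF448.HM TopA226.par0 5 h55
  hH : EndB448.PH TopA226.par0 5 h55
  hD : ∀ hV : EndB448.PV TopA226.par0 5 h55, EndF448.HD hV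

/-- **the null pair over the ground field** -/
theorem nullA (h : Open3) : Nonempty (Spine700.Null.{0, 0} Spine700.k0) :=
  EndF448.null_F h.hM h.hH h.hD


end Crest.Agent.R186.EndC560
end

-- ▼ part R186/Hfin_654
section

/-!
Row 186 (A), short road of helper306 (helper654): **(H)**, 448's Prop `PH`, from 461's
quasi-isomorphisms (TR) and 380's sixteen cells.
-/

set_option autoImplicit false
set_option linter.style.haveILetI false

noncomputable section

namespace Crest.Agent.R186.Hfin654

open DefsQ830 KHc302 HB362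

variable {K : Type} [Field K] (π : Par K) (s : ℕ) (hs : 5 ≤ s)

theorem g_ne_one : π.g ≠ 1 := by
  have h := π.gn 1 one_pos
  rwa [pow_one] at h

/-- **(H)** -/
theorem ph : EndB448.PH π s hs :=
  ZZB380.ac_Hrm π s hs _ (g_ne_one π) (fun _ ha => TRq461.q2 π s hs (by omega))
    (fun _ _ ha => TRq461.q1 π s hs (by omega))

end Crest.Agent.R186.Hfin654
end
end

-- ▼ part R186/SqF_124
section

/-!
Row 186 (A), helper124: the square.  From
(c0) right cells `Y` of `D(M)` (a resolution), (c1) `Y ⊗ M → D(L'')`, (c2) `Y ⊗ KK → D(H)`,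
(kt) `X → KK`, all with acyclic cone, the map `gD : D(Γ) ⊗ X → D(H)` is a quasi-isomorphism.
-/

set_option autoImplicit false
set_option linter.style.haveILetI false
set_option linter.unusedSectionVars false

open MulOpposite

namespace Crest.Agent.R186.SqF124

open Hat827 Frame515 Res255 ConeHyp462 Adapt186 FinV988 FinD988 AcIff492

variable {K : Type} [Field K]

/-! ### two out of three -/



/-! ### `KK` as a left dg module -/

section yl

variable {A : DGA K} (I : In A)

/-- the left action -/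
noncomputable abbrev yAct : Module A.C I.Y where
  smul a y := I.L a y
  one_smul y := I.L_one y
  mul_smul a b y := I.L_mul a b y
  smul_zero a := map_zero _
  smul_add a := map_add _
  add_smul a b y := by
    change I.L (a + b) y = _
    rw [map_add]
    rfl
  zero_smul y := by
    change I.L 0 y = 0
    rw [map_zero]
    rfl

/-- `KK` as a left dg module -/
noncomputable def yL : LM A :=
  letI i1 : Module A.C I.Y := yAct I
  { X := I.Y
    gr := I.gr.G
    d := I.dY
    d_mem := fun h => I.dY_deg h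
    d_d := I.dYY
    act := i1
    tower := ⟨fun r a y => by
      change I.L (r • a) y = r • I.L a y
      rw [map_smul]
      rfl⟩
    smul_mem := fun {k l a y} ha hy => by
      have := I.L_deg ha hy
      rwa [add_comm] at this
    leib := fun a y => by
      change I.dY (I.L a y) = I.L (A.D a) y + I.L a (I.dY y)
      rw [I.L_D]
      have h : I.L a (I.dY y) + I.L a (I.dY y) = 0 := by
        rw [← LinearMap.add_apply, ← map_add, A.two, map_zero, LinearMap.zero_apply]
      rw [add_assoc, h, add_zero] }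










variable {I}



end yl

/-! ### the second map -/

section second

variable {A : DGA K} {X : LCells A} {N : LM A}

/-- `(Y ⊗ A) ⊗ X → Y ⊗ N` -/
noncomputable def f2 (Y : RCells A) (S : LAug X N) :
    (tG (tQ Y (selfB A)) X).X →ₗ[K] (tY Y N).X :=
  (mY Y S).F ∘ₗ (asc Y (selfB A) X).toLinearMap








end second

/-! ### the square -/

section square

variable {A : DGA K} {I : In A} {X : PCells A}




end square

end Crest.Agent.R186.SqF124
end

-- ▼ part R186/C2j_468
section

/-!
Row 186 (A), helper468: (iii) in helper124's letters (`SqF124.c2m`, `FinD988.DZc`).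
-/

set_option autoImplicit false
set_option linter.style.haveILetI false
set_option linter.unusedSectionVars false

open MulOpposite

namespace Crest.Agent.R186.C2j468

open Hat827 Hat827.DGA Frame515 Res255 FWI226 FinV988 FinD988 SqF124 C2s468 Adapt186

variable {K : Type} [Field K]

section gen

variable {A B : DGA K} (h : Hm B A) (I : In A)

/-- `H` as a complex -/
def HG : GC K where
  X := I.Z
  gr := I.gs.G
  d := I.dZ
  d_mem := fun h => I.dZ_deg h
  d_d := I.dZZ

variable {M : LM B} (pm : A.C →ₗ[K] M.X) {S : WEl B} (T : C2D S M (resL h (yL I)) (HG I))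
  (hev : ∀ (x : I.Y) (z : I.Z), T.ev x z = pm (I.ev x z)) {Y : RCells B} (R : RRes Y (DR M))
  (v : Y.ι → (DR (selfL A)).X)
  (hv : ∀ σ (a : A.C), (show A.C →ₗ[K] K from v σ) a = (show M.X →ₗ[K] K from R.v σ) (pm a))



end gen

section inst

variable (π : DefsQ830.Par K) (s : ℕ) (hs : 5 ≤ s)



end inst

end Crest.Agent.R186.C2j468
end

-- ▼ part R186/C2M_655
section

/-!
Row 186, half (A), leaf A.C1 (helper655): (c2''), the left `W`-structure of helper890's bimodule
`M` in helper982's coordinates `m = ∑ q, ro q (lM q m)`: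

`X a • ro q r = dk a q • ro (dt a q) r`, `wq pi • m = ro one (lM pi m)`, and the operators
`sM a`, `uM a` with `m = ∑ a, sM a (X a • m) + ro one (lM one m)`,
`X a • m = uM a (wq pi • m) + ro one (lM (yq a) m)`.
-/

set_option autoImplicit false
set_option linter.style.haveILetI false
set_option linter.unusedSectionVars false

noncomputable section

open MulOpposite

namespace Crest.Agent.R186.C2M655

open Crest.Agent.R186.DefsQ830 Crest.Agent.R186.PBW128 Crest.Agent.R186.SM890
open Crest.Agent.R186.C2b362 (pz)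
open Crest.Agent.R186.C2b44 (kill kill_kill)
open Crest.Agent.R186.WLM982
open Crest.Agent.R186.C2W655 (yq dy dpi dpi_eq wC_y wC_yb sum_Wb sum_Y wq_yq yq_inj yq_ne_one
  yq_ne_pi)

variable {K : Type} [Field K] (π : Par K)

theorem oM_one (q : Wb) : oM π q 1 = (oo K q : N K) := by
  change repM π 1 (oo K q) = oo K q
  rw [map_one, Module.End.one_apply]

theorem smul_oo (a : Y) (q : Wb) :
    X π a.toGen • oM π q 1 = dk π a q • oM π (dt a q) 1 := by
  rw [oM_one, oM_one]
  change repM π (X π a.toGen) (oo K q) = dk π a q • oo K (dt a q)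
  rw [repM_Y, oo, opD_bv, sc_nil, one_mul]
  rfl

/-- left action of a `W`-letter -/
theorem Y_ro (a : Y) (q : Wb) (r : R π) :
    X π a.toGen • ro π q r = dk π a q • ro π (dt a q) r := by
  rw [ro_eq, smul_comm, smul_oo, ro_eq, smul_comm]

/-- left action of `pi` -/
theorem pi_ro (q : Wb) (r : R π) :
    wq π .pi • ro π q r = if q = .pi then ro π .one r else 0 := by
  rw [wq_pi, mul_smul]
  have h1 : X π (.y 1) • ro π q r = dk π (.y 1) q • ro π (dt (.y 1) q) r := Y_ro π (.y 1) q r
  have h0 : ∀ q, X π (.y 0) • ro π q r = dk π (.y 0) q • ro π (dt (.y 0) q) r :=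
    fun q => Y_ro π (.y 0) q r
  rw [h1, smul_comm, h0]
  cases q with
  | one => simp [dk]
  | y s => rcases fin2 s with rfl | rfl <;> simp [dk, dt]
  | yb s => simp [dk]
  | pi => simp [dk, dt]

/-- the second part of `X a • m` -/
def eM' (a : Y) (m : MM π) : MM π :=
  match a with
  | .y s => if s = 0 then π.p • ro π (.y 1) (lM π .pi m) else ro π (.y 0) (lM π .pi m)
  | .yb _ => 0

theorem Y_m (a : Y) (m : MM π) :
    X π a.toGen • m = ro π .one (lM π (yq a) m) + eM' π a m := by
  conv_lhs => rw [sum_lM π m]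
  rw [Finset.smul_sum, sum_Wb]
  simp only [Y_ro]
  cases a with
  | y s =>
    rcases fin2 s with rfl | rfl
    · simp [dk, dt, yq, eM']
    · simp [dk, dt, yq, eM']
  | yb s =>
    rcases fin2 s with rfl | rfl
    · simp [dk, dt, yq, eM']
    · simp [dk, dt, yq, eM']

theorem pi_m (m : MM π) : wq π .pi • m = ro π .one (lM π .pi m) := by
  conv_lhs => rw [sum_lM π m]
  rw [Finset.smul_sum, sum_Wb]
  simp [pi_ro]

theorem lM_ro' (q q' : Wb) (q0 : Wb) (m : MM π) :
    lM π q' (ro π q (lM π q0 m)) = if q' = q then lM π q0 m else 0 :=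
  lM_ro_of π q q' (kill_lM π q0 m)

theorem lM_one_Y (a : Y) (m : MM π) : lM π .one (X π a.toGen • m) = lM π (yq a) m := by
  rw [Y_m, map_add, lM_ro', if_pos rfl]
  cases a with
  | y s =>
    rcases fin2 s with rfl | rfl
    · simp [eM', lM_ro']
    · simp [eM', lM_ro']
  | yb s => simp [eM']

theorem lM_y0_y1 (m : MM π) : lM π (.y 0) (X π (Y.y 1).toGen • m) = lM π .pi m := by
  rw [Y_m, map_add, lM_ro', if_neg (by simp)]
  simp [eM', lM_ro']

/-- the operators `s_a` -/
def sM : Y → MM π →ₗ[K] MM π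
  | .y s => if s = 0 then ro π (.y 0) ∘ₗ lM π .one else
      ro π (.y 1) ∘ₗ lM π .one + ro π .pi ∘ₗ lM π (.y 0)
  | .yb s => ro π (.yb s) ∘ₗ lM π .one

/-- the operators `u_a` -/
def uM : Y → MM π →ₗ[K] MM π
  | .y s => if s = 0 then π.p • (ro π (.y 1) ∘ₗ lM π .one) else ro π (.y 0) ∘ₗ lM π .one
  | .yb _ => 0

/-- **(c1)** -/
theorem sum_sM (m : MM π) : m = ∑ a, sM π a (X π a.toGen • m) + ro π .one (lM π .one m) := by
  rw [sum_Y]
  have e0 : sM π (.y 0) (X π (Y.y 0).toGen • m) = ro π (.y 0) (lM π (.y 0) m) := by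
    simp only [sM, if_true, LinearMap.comp_apply, lM_one_Y]; rfl
  have e1 : sM π (.y 1) (X π (Y.y 1).toGen • m) =
      ro π (.y 1) (lM π (.y 1) m) + ro π .pi (lM π .pi m) := by
    simp only [sM, show ((1 : Fin 2) = 0) = False from by simp, if_false, LinearMap.add_apply,
      LinearMap.comp_apply, lM_one_Y, lM_y0_y1]; rfl
  have e2 : ∀ s, sM π (.yb s) (X π (Y.yb s).toGen • m) = ro π (.yb s) (lM π (.yb s) m) := by
    intro s
    simp only [sM, LinearMap.comp_apply, lM_one_Y]; rfl
  rw [e0, e1, e2, e2]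
  conv_lhs => rw [sum_lM π m, sum_Wb]
  abel

/-- **(c2)** -/
theorem Y_uM (a : Y) (m : MM π) :
    X π a.toGen • m = uM π a (wq π .pi • m) + ro π .one (lM π (yq a) m) := by
  rw [Y_m, pi_m, add_comm]
  congr 1
  cases a with
  | y s =>
    rcases fin2 s with rfl | rfl
    · simp [eM', uM, lM_ro']
    · simp [eM', uM, lM_ro']
  | yb s => simp [eM', uM]

/-- **(c4)** -/
theorem Y_ro_yq (a b : Y) (r : R π) :
    X π b.toGen • ro π (yq a) r = if b = a then ro π .one r else 0 := by
  rw [Y_ro]
  cases a with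
  | y s =>
    cases b with
    | y t =>
      rcases fin2 s with rfl | rfl <;> rcases fin2 t with rfl | rfl <;> simp [dk, dt, yq]
    | yb t => simp [dk, yq]
  | yb s =>
    cases b with
    | y t => rcases fin2 t with rfl | rfl <;> simp [dk, yq]
    | yb t =>
      rcases fin2 s with rfl | rfl <;> rcases fin2 t with rfl | rfl <;> simp [dk, dt, yq]

theorem pi_ro_yq (a : Y) (r : R π) : wq π .pi • ro π (yq a) r = 0 := by
  rw [pi_ro, if_neg (yq_ne_pi a)]

theorem pi_ro_pi (r : R π) : wq π .pi • ro π .pi r = ro π .one r := by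
  rw [pi_ro, if_pos rfl]

/-! ### degrees -/

variable (s : ℕ)

theorem wC_one : wC (Wb.one).word = 0 := by simp [wC, Wb.word]


theorem rolM_mem (q q' : Wb) {P A C C' : ℤ} {m : MM π} (hm : m ∈ pcM π s P A C)
    (h : C' = C + wC q'.word - wC q.word) : ro π q (lM π q' m) ∈ pcM π s P A C' := by
  refine ro_mem π s q ?_
  have h2 := lM_mem π s hm q'
  rwa [show C - s + (wC q'.word : ℤ) = C' - s + wC q.word by rw [h]; ring] at h2

theorem sM_mem (a : Y) {P A C : ℤ} {m : MM π} (hm : m ∈ pcM π s P A C) :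
    sM π a m ∈ pcM π s P A (C - dy a) := by
  cases a with
  | y t =>
    rcases fin2 t with rfl | rfl
    · exact rolM_mem π s (.y 0) .one hm (by rw [wC_y, wC_one]; push_cast; ring)
    · refine Submodule.add_mem _ (rolM_mem π s (.y 1) .one hm (by
        rw [wC_y, wC_one]; push_cast; ring)) (rolM_mem π s .pi (.y 0) hm ?_)
      rw [wC_y, show wC Wb.pi.word = dy (.y 0) + dy (.y 1) from dpi_eq]
      push_cast; ring
  | yb t => exact rolM_mem π s (.yb t) .one hm (by rw [wC_yb, wC_one]; push_cast; ring)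

theorem uM_mem (a : Y) {P A C : ℤ} {m : MM π} (hm : m ∈ pcM π s P A C) :
    uM π a m ∈ pcM π s P A (C + dy a - dpi) := by
  cases a with
  | y t =>
    rcases fin2 t with rfl | rfl
    · refine Submodule.smul_mem _ _ (rolM_mem π s (.y 1) .one hm ?_)
      rw [wC_y, wC_one, dpi_eq]
      push_cast; ring
    · refine rolM_mem π s (.y 0) .one hm ?_
      rw [wC_y, wC_one, dpi_eq]
      push_cast; ring
  | yb t => exact Submodule.zero_mem _

end Crest.Agent.R186.C2M655
end
private theorem rz_0e61a06d6f : type_of% @_root_.Crest.Agent.R186.C2M655.eM'.eq_1 := @_root_.Crest.Agent.R186.C2M655.eM'.eq_1 -- L63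
private theorem rz_486c7a2673 : type_of% @_root_.Crest.Agent.R186.C2M655.sM.eq_1 := @_root_.Crest.Agent.R186.C2M655.sM.eq_1 -- L106
private theorem rz_e00a79ffc9 : type_of% @_root_.Crest.Agent.R186.C2M655.uM.eq_1 := @_root_.Crest.Agent.R186.C2M655.uM.eq_1 -- L112
end

-- ▼ part R186/C2G_226
section

/-!
Row 186, half (A), leaf A.C1 (helper226): the instance `WG` of helper655's `C2pp_655` for
`G = DR N` (functionals on a left module `N` over `A`), `G' = DR N'` (functionals on a left module
`N'` over `A'`), where `i : N' → N` is the inclusion of the part killed by `W_+`; and right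
`W`-freeness (`FWI226.RFree`) of `DR N`.
-/

set_option autoImplicit false
set_option linter.style.haveILetI false
set_option linter.unusedSectionVars false

open MulOpposite

namespace Crest.Agent.R186.C2G226

open Hat827 Hat827.DGA Frame515 Res255 C2pp655 FinV988

variable {K : Type} [Field K] {A A' : DGA K}

/-- the left module `N` is cofree over `W`, with socle `N'` -/
structure WN {ι : Type} [Fintype ι] (y : ι → A.C) (δ : ι → ℕ) (pi : A.C) (δp : ℕ) (pr : Hm A A')
    (N : LM A) (N' : LM A') where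
  i : N'.X →ₗ[K] N.X
  i_d : ∀ z, i (N'.d z) = N.d (i z)
  i_smul : ∀ (a : A.C) (z : N'.X), i (pr.f a • z) = a • i z
  i_mem : ∀ {k : ℤ} {z : N'.X}, z ∈ N'.gr k → i z ∈ N.gr k
  r : N.X →ₗ[K] N'.X
  r_mem : ∀ {k : ℤ} {n : N.X}, n ∈ N.gr k → r n ∈ N'.gr k
  r_i : ∀ z, r (i z) = z
  P : PrL N
  s : ι → N.X →ₗ[K] N.X
  s_mem : ∀ g {k : ℤ} {n : N.X}, n ∈ N.gr k → s g n ∈ N.gr (k - δ g)
  u : ι → N.X →ₗ[K] N.X
  u_mem : ∀ g {k : ℤ} {n : N.X}, n ∈ N.gr k → u g n ∈ N.gr (k + δ g - δp)
  hs : ∀ n : N.X, ∃ z, n = ∑ g, s g (y g • n) + i z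
  hu : ∀ g (n : N.X), ∃ z, y g • n = u g (pi • n) + i z
  hp : ∀ n : N.X, ∃ z, pi • n = i z
  f1 : ∀ g z, ∃ m : N.X, y g • m = i z ∧ (∀ g', g' ≠ g → y g' • m = 0) ∧ pi • m = 0
  f2 : ∀ z, ∃ m : N.X, pi • m = i z

section

variable {ι : Type} [Fintype ι] {y : ι → A.C} {δ : ι → ℕ} {pi : A.C} {δp : ℕ} {pr : Hm A A'}
  {N : LM A} {N' : LM A'} (V : WN y δ pi δp pr N N')

/-- evaluation of a sum -/
theorem dev_smul (a : A.C) (f : (DR N).X) (z : N.X) :
    dev N z (op a • f) = dev N (a • z) f := rfl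

theorem dev_add (f : (DR N).X) (z z' : N.X) : dev N (z + z') f = dev N z f + dev N z' f :=
  map_add (show N.X →ₗ[K] K from f) z z'

theorem dev_zero (f : (DR N).X) : dev N 0 f = 0 := map_zero (show N.X →ₗ[K] K from f)

theorem dev_sum {κ : Type} (S : Finset κ) (z : κ → N.X) (f : (DR N).X) :
    dev N (∑ j ∈ S, z j) f = ∑ j ∈ S, dev N (z j) f :=
  map_sum (show N.X →ₗ[K] K from f) z S

/-- functional composed with an operator -/
noncomputable def pre (t : N.X →ₗ[K] N.X) (f : (DR N).X) : (DR N).X :=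
  (show N.X →ₗ[K] K from f) ∘ₗ t

theorem dev_pre (t : N.X →ₗ[K] N.X) (f : (DR N).X) (z : N.X) : dev N z (pre t f) = dev N (t z) f := rfl

/-- restriction of functionals to the socle -/
noncomputable def resq : (DR N).X →ₗ[K] (DR N').X where
  toFun f := (show N.X →ₗ[K] K from f) ∘ₗ V.i
  map_add' _ _ := rfl
  map_smul' _ _ := rfl

theorem dev_resq (f : (DR N).X) (z : N'.X) : dev N' z (resq V f) = dev N (V.i z) f := rfl

theorem resq_zero {f : (DR N).X} (h : resq V f = 0) (z : N'.X) : dev N (V.i z) f = 0 := by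
  rw [← dev_resq V f z, h, map_zero]

theorem resq_of {f : (DR N).X} (h : ∀ z : N'.X, dev N (V.i z) f = 0) : resq V f = 0 :=
  DR_ext fun z => by rw [dev_resq, h, map_zero]

theorem hW' {k : ℤ} {f : (DR N).X} (h0 : resq V f = 0) (hf : f ∈ (DR N).gr k) :
    ∃ c : ι → (DR N).X, (∀ g, c g ∈ (DR N).gr (k - δ g)) ∧ f = ∑ g, op (y g) • c g := by
  refine ⟨fun g => pre (V.s g) f, fun g l z hz hl => hf _ (V.s g z) (V.s_mem g hz) (by omega),
    DR_ext fun n => ?_⟩
  rw [map_sum]
  obtain ⟨z, hz⟩ := V.hs n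
  calc dev N n f = dev N (∑ g, V.s g (y g • n) + V.i z) f := by rw [← hz]
    _ = ∑ g, dev N (V.s g (y g • n)) f := by
      rw [dev_add, resq_zero V h0, add_zero, dev_sum]
    _ = _ := rfl


theorem fr1' (c : ι → (DR N).X) (h : ∃ x : (DR N).X, ∑ g, op (y g) • c g = op pi • x) (g : ι) :
    resq V (c g) = 0 := by
  classical
  obtain ⟨x, hx⟩ := h
  refine resq_of V fun z => ?_
  obtain ⟨m, h1, h2, h3⟩ := V.f1 g z
  have h := congrArg (dev N m) hx
  rw [map_sum, Finset.sum_eq_single g] at h
  · rw [dev_smul, h1, dev_smul, h3, dev_zero] at h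
    exact h
  · intro g' _ hg'
    rw [dev_smul, h2 g' hg', dev_zero]
  · intro hg
    exact absurd (Finset.mem_univ g) hg

theorem fr2' (c : (DR N).X) (hc : op pi • c = 0) : resq V c = 0 := by
  refine resq_of V fun z => ?_
  obtain ⟨m, hm⟩ := V.f2 z
  have h := congrArg (dev N m) hc
  rw [dev_smul, hm, map_zero] at h
  exact h

end

/-- **the instance of helper655's `WG`** -/
noncomputable def wgOf {pr : Hm A A'} {ι : Type} [Fintype ι] (W : WA pr ι) {N : LM A} {N' : LM A'}
    (V : WN W.y W.δ W.pi W.δp pr N N') : WG W (DR N) (DR N') where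
  q := resq V
  q_mem {k f} hf := fun l z hz hl => hf l (V.i z) (V.i_mem hz) hl
  q_d f := DR_ext fun z => by
    rw [dev_resq, dev_d, dev_d, dev_resq, V.i_d]
  q_smul a f := DR_ext fun z => by
    rw [dev_resq, dev_smul, dev_smul, dev_resq, V.i_smul]
  lo := -V.P.hi
  low k hk f hf := dr_zero V.P hf (by omega)
  lift {k b} hb := by
    refine ⟨(show N'.X →ₗ[K] K from b) ∘ₗ V.r, fun l z hz hl => hb l (V.r z) (V.r_mem hz) hl,
      DR_ext fun z => ?_⟩
    change (show N'.X →ₗ[K] K from b) (V.r (V.i z)) = dev N' z b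
    rw [V.r_i]
    rfl
  hW {k f} h0 hf := hW' V h0 hf
  yW {k f} g h0 hf := by
    refine ⟨pre (V.u g) f, fun l z hz hl => hf _ (V.u g z) (V.u_mem g hz) (by omega),
      DR_ext fun n => ?_⟩
    obtain ⟨z, hz⟩ := V.hu g n
    rw [dev_smul, dev_smul, dev_pre, hz, dev_add, resq_zero V h0, add_zero]
  piW f h0 := DR_ext fun n => by
    obtain ⟨z, hz⟩ := V.hp n
    rw [dev_smul, hz, resq_zero V h0, map_zero]
  fr1 c h g := fr1' V c h g
  fr2 c hc := fr2' V c hc


/-! ### right cell modules -/







end Crest.Agent.R186.C2G226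
end

-- ▼ part R186/C2N_655
section

/-!
Row 186, half (A), leaf A.C1 (helper655): (c2''), the instance `WN` of helper226 for helper890's
window `MW π s hs` and its socle `tLW π s`, and **(c2'') itself**:

`c2M (R : RRes Y (DM π s hs)) : RRes (pushR (prHm π) Y) (DtL π s)`.
-/

set_option autoImplicit false
set_option linter.style.haveILetI false
set_option linter.unusedSectionVars false

noncomputable section

open MulOpposite

namespace Crest.Agent.R186.C2N655

open Crest.Agent.R186 Crest.Agent.R186.DefsQ830 Crest.Agent.R186.PBW128 Crest.Agent.R186.SM890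
open Hat827 Win810 Frame515 Res255 FinV988 Core890
open Crest.Agent.R186.C2b44 (kill kill_kill)
open Crest.Agent.R186.WLM982 (ro lM kill_lM ro_apply)
open Crest.Agent.R186.C2W655 (yq dy dpi yW piW)
open Crest.Agent.R186.C2M655
open Crest.Agent.R186.C2pp655 (WA WG)
open Crest.Agent.R186.C2G226 (WN wgOf)
open Crest.Agent.R186.WL221 (RL WL)

variable {K : Type} [Field K] (π : Par K) (s : ℕ) (hs : 2 ≤ s)

/-! ### entrywise operators -/

theorem ent_E (f : MM π →ₗ[K] MM π) (l : ℤ)
    (hf : ∀ (P A C : ℤ) (m : MM π), m ∈ pcM π s P A C → f m ∈ pcM π s P A (C + l))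
    {i j : Ob} {m : MM π} (hm : m ∈ E (tbOf (bdM π s hs)) i j) :
    f m ∈ E (tbOf (bdM π s hs)) i j := by
  have h : E (tbOf (bdM π s hs)) i j ≤ (E (tbOf (bdM π s hs)) i j).comap f := by
    refine iSup_le fun k x hx => ?_
    refine q_le_E (tbOf (bdM π s hs)) i j (k + l) ?_
    exact (le_of_eq (q_tbOf (bdM π s hs) i j (k + l)).symm)
      (hf _ _ _ _ ((le_of_eq (q_tbOf (bdM π s hs) i j k)) hx))
  exact h hm

/-- entrywise operator on the window of `M` -/
def entW (f : MM π →ₗ[K] MM π) (l : ℤ)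
    (hf : ∀ (P A C : ℤ) (m : MM π), m ∈ pcM π s P A C → f m ∈ pcM π s P A (C + l)) :
    (MW π s hs).X →ₗ[K] (MW π s hs).X where
  toFun m := (⟨fun i j => f (m.1 i j), fun i j => ent_E π s hs f l hf (m.2 i j)⟩ :
    Xs (tbOf (bdM π s hs)))
  map_add' z z' := by
    apply Subtype.ext
    funext i j
    exact map_add f _ _
  map_smul' c z := by
    apply Subtype.ext
    funext i j
    exact map_smul f _ _

theorem entW_mem (f : MM π →ₗ[K] MM π) (l : ℤ)
    (hf : ∀ (P A C : ℤ) (m : MM π), m ∈ pcM π s P A C → f m ∈ pcM π s P A (C + l)) {k : ℤ}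
    {m : (MW π s hs).X} (hm : m ∈ (MW π s hs).gr k) :
    entW π s hs f l hf m ∈ (MW π s hs).gr (k + l) :=
  (mem_grM (bdM π s hs)).2 fun i j => hf _ _ _ _ ((mem_grM (bdM π s hs)).1 hm i j)

/-- entries -/
def eM (m : (MW π s hs).X) (i j : Ob) : MM π := m.1 i j

variable {π s hs}

theorem eM_ext {m n : (MW π s hs).X} (h : ∀ i j, eM π s hs m i j = eM π s hs n i j) : m = n := by
  apply Subtype.ext
  funext i j
  exact h i j

theorem eM_add (m n : (MW π s hs).X) (i j : Ob) :
    eM π s hs (m + n) i j = eM π s hs m i j + eM π s hs n i j := rfl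


theorem eM_sum (f : Y → (MW π s hs).X) (i j : Ob) :
    eM π s hs (∑ a, f a) i j = ∑ a, eM π s hs (f a) i j := by
  let φ : (MW π s hs).X →+ MM π :=
    { toFun := fun m => eM π s hs m i j
      map_zero' := rfl
      map_add' := fun _ _ => rfl }
  exact map_sum φ f Finset.univ


theorem eM_dgw (a : R π) (c : ℤ) (ha : a ∈ (WR π).pc 0 0 c) (m : (MW π s hs).X) (i j : Ob) :
    eM π s hs ((show (WR π).dga.C from C2W655.dgw (WR π) a c ha) • m) i j =
      repM π a (eM π s hs m i j) := by
  have h1 : eM π s hs ((show (WR π).dga.C from C2W655.dgw (WR π) a c ha) • m) i j =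
      ∑ l : Ob, repM π (Matrix.diagonal (fun _ : Ob => a) i l) (eM π s hs m l j) := rfl
  rw [h1, Finset.sum_eq_single i]
  · rw [Matrix.diagonal_apply_eq]
  · intro l _ hl
    rw [Matrix.diagonal_apply_ne _ (Ne.symm hl), map_zero]
    rfl
  · intro h
    exact absurd (Finset.mem_univ i) h

theorem eM_yW (a : Y) (m : (MW π s hs).X) (i j : Ob) :
    eM π s hs ((show (WR π).dga.C from yW π a) • m) i j = X π a.toGen • eM π s hs m i j :=
  eM_dgw _ _ _ m i j

theorem eM_piW (m : (MW π s hs).X) (i j : Ob) :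
    eM π s hs ((show (WR π).dga.C from piW π) • m) i j = wq π .pi • eM π s hs m i j :=
  eM_dgw _ _ _ m i j

theorem ro_one (r : R π) : ro π .one r = soc π r := by
  rw [ro_apply, tau_one_eq]

/-- `soc (lM q m)` as an element of the image of the socle, entrywise -/
theorem exists_soc (q : Wb) (m : (MW π s hs).X) :
    ∃ z : (tLW π s).X, ∀ i j, eM π s hs (socW π s hs z) i j = ro π .one (lM π q (eM π s hs m i j)) := by
  have hmem : ∀ (P A C : ℤ) (m : MM π), m ∈ pcM π s P A C →
      (ro π .one ∘ₗ lM π q) m ∈ pcM π s P A (C + wC q.word) := fun P A C m hm =>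
    rolM_mem π s .one q hm (by rw [wC_one]; push_cast; ring)
  refine ⟨retW π s hs (entW π s hs (ro π .one ∘ₗ lM π q) (wC q.word) hmem m), fun i j => ?_⟩
  change socE π (retE π (ro π .one (lM π q (eM π s hs m i j)))) = _
  have h : ro π .one (lM π q (eM π s hs m i j)) =
      socE π (⟨lM π q (eM π s hs m i j), kill_lM π q _⟩ : RL π) := ro_one _
  rw [h, retE_socE]

theorem eM_socW (z : (tLW π s).X) (i j : Ob) :
    eM π s hs (socW π s hs z) i j = ro π .one (show RL π from z.1 i j).1 := (ro_one _).symm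

/-- entries `ro q z` -/
theorem exists_ro (q : Wb) (z : (tLW π s).X) :
    ∃ m : (MW π s hs).X, ∀ i j, eM π s hs m i j = ro π q (show RL π from z.1 i j).1 := by
  have hmem : ∀ (P A C : ℤ) (m : MM π), m ∈ pcM π s P A C →
      (ro π q ∘ₗ lM π .one) m ∈ pcM π s P A (C + -(wC q.word : ℤ)) := fun P A C m hm =>
    rolM_mem π s q .one hm (by rw [wC_one]; push_cast; ring)
  refine ⟨entW π s hs (ro π q ∘ₗ lM π .one) (-(wC q.word : ℤ)) hmem (socW π s hs z),
    fun i j => ?_⟩
  change ro π q (lM π .one (eM π s hs (socW π s hs z) i j)) = _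
  rw [eM_socW, WLM982.lM_ro_of π .one .one (show RL π from z.1 i j).2, if_pos rfl]

variable (π s hs)

/-- `s_a` in the window -/
def sW (a : Y) : (MW π s hs).X →ₗ[K] (MW π s hs).X :=
  entW π s hs (sM π a) (-(dy a : ℤ)) fun P A C m hm => by
    rw [← sub_eq_add_neg]; exact sM_mem π s a hm

/-- `u_a` in the window -/
def uW (a : Y) : (MW π s hs).X →ₗ[K] (MW π s hs).X :=
  entW π s hs (uM π a) ((dy a : ℤ) - dpi) fun P A C m hm => by
    rw [← add_sub_assoc]; exact uM_mem π s a hm

/-- **the window of `M` is cofree over `W` with socle `tL`** -/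
def wnM : WN (C2W655.waR π).y (C2W655.waR π).δ (C2W655.waR π).pi (C2W655.waR π).δp
    (C2W655.prHm π) (MW π s hs).toLM (tLW π s).toLM where
  i := socW π s hs
  i_d := socW_d
  i_smul := socW_l
  i_mem := socW_mem
  r := retW π s hs
  r_mem := retW_mem
  r_i := retW_socW π s hs
  P := prLM π s hs
  s := sW π s hs
  s_mem a {k n} hn := by
    have := entW_mem π s hs (sM π a) (-(dy a : ℤ)) (fun P A C m hm => by
      rw [← sub_eq_add_neg]; exact sM_mem π s a hm) hn
    rwa [← sub_eq_add_neg] at this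
  u := uW π s hs
  u_mem a {k n} hn := by
    have := entW_mem π s hs (uM π a) ((dy a : ℤ) - dpi) (fun P A C m hm => by
      rw [← add_sub_assoc]; exact uM_mem π s a hm) hn
    rwa [← add_sub_assoc] at this
  hs n := by
    obtain ⟨z, hz⟩ := exists_soc (π := π) (s := s) (hs := hs) .one n
    refine ⟨z, eM_ext fun i j => ?_⟩
    refine (sum_sM π (eM π s hs n i j)).trans ?_
    refine Eq.trans (congrArg₂ (· + ·) ?_ (hz i j).symm) (eM_add _ _ i j).symm
    refine Eq.trans (Finset.sum_congr rfl fun a _ => ?_)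
      (eM_sum (fun a => sW π s hs a ((show (WR π).dga.C from yW π a) • n)) i j).symm
    exact congrArg (sM π a) (eM_yW a n i j).symm
  hu a n := by
    obtain ⟨z, hz⟩ := exists_soc (π := π) (s := s) (hs := hs) (yq a) n
    refine ⟨z, eM_ext fun i j => ?_⟩
    refine (eM_yW a n i j).trans ((Y_uM π a (eM π s hs n i j)).trans ?_)
    refine Eq.trans (congrArg₂ (· + ·) ?_ (hz i j).symm) (eM_add _ _ i j).symm
    exact congrArg (uM π a) (eM_piW n i j).symm
  hp n := by
    obtain ⟨z, hz⟩ := exists_soc (π := π) (s := s) (hs := hs) .pi n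
    refine ⟨z, eM_ext fun i j => ?_⟩
    exact (eM_piW n i j).trans ((pi_m π (eM π s hs n i j)).trans (hz i j).symm)
  f1 a z := by
    obtain ⟨m, hm⟩ := exists_ro (π := π) (s := s) (hs := hs) (yq a) z
    refine ⟨m, eM_ext fun i j => ?_, fun b hb => eM_ext fun i j => ?_, eM_ext fun i j => ?_⟩
    · refine (eM_yW a m i j).trans ?_
      rw [hm, Y_ro_yq, if_pos rfl, eM_socW]
    · refine (eM_yW b m i j).trans ?_
      rw [hm, Y_ro_yq, if_neg hb]
      rfl
    · refine (eM_piW m i j).trans ?_
      rw [hm, pi_ro_yq]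
      rfl
  f2 z := by
    obtain ⟨m, hm⟩ := exists_ro (π := π) (s := s) (hs := hs) .pi z
    refine ⟨m, eM_ext fun i j => ?_⟩
    refine (eM_piW m i j).trans ?_
    rw [hm, pi_ro_pi, eM_socW]

/-- the instance `WG` -/
def wgM : WG (C2W655.waR π) (DM π s hs) (DtL π s) := wgOf (C2W655.waR π) (wnM π s hs)


/-- **(c2'')** -/
def c2M {Y : RCells (WR π).dga} (R : RRes Y (DM π s hs)) :
    RRes (pushR (C2W655.prHm π) Y) (DtL π s) :=
  C2pp655.c2pp (C2W655.waR π) (wgM π s hs) R



end Crest.Agent.R186.C2N655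
end
end

-- ▼ part R186/C2fin_468
section

/-!
Row 186 (A), helper468: (iii) on the concrete objects, from a `C2D` over any `WEl` with
`pi = C2W655.piW π`.
-/

set_option autoImplicit false
set_option linter.style.haveILetI false
set_option linter.unusedSectionVars false

noncomputable section

open MulOpposite

namespace Crest.Agent.R186.C2fin468

open Hat827 Hat827.DGA Frame515 Res255 FWI226 FinV988 FinD988 SqF124 C2s468 C2b468 C2j468 Adapt186
open Win810 SM890 KHc302

variable {K : Type} [Field K] (π : DefsQ830.Par K) (s : ℕ) (hs : 5 ≤ s)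

/-- the input -/
abbrev Inp (S : WEl (WR π).dga) : Type 1 := C2D S (MW π s (two_le hs)).toLM
  (resL (HmI π s (two_le hs)) (yL (CEr π s hs).toIn)) (HG (CEr π s hs).toIn)

variable {π s hs} {S : WEl (WR π).dga} (hS : S.pi = C2W655.piW π) (T : Inp π s hs S)

include hS in
/-- **(iii) over `L''`** -/
theorem c3 {Y : RCells (WR π).dga} (R : RRes Y (DM π s (two_le hs))) (k : ℤ) :
    AcIff492.CE (tY Y (resL (HmI π s (two_le hs)) (yL (CEr π s hs).toIn)))
      (Dual560.GCd (HG (CEr π s hs).toIn)) R.lo k (pmap T R) :=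
  c2w (C2W655.waR π) hS R (C2N655.wgM π s (two_le hs)) T k



end Crest.Agent.R186.C2fin468
end
end

-- ▼ part R186/HDf_186
section

/-!
Row 186 (A), leaf hD (helper186): `HD` of helper448's `EndF_448` from helper611's `C1` and
helper468's data `C2D`.
-/

set_option autoImplicit false
set_option linter.style.haveILetI false
set_option linter.unusedSectionVars false

noncomputable section

open MulOpposite

namespace Crest.Agent.R186.HD186

open Hat827 Hat827.DGA Frame515 TB143 Res255 Adapt186 ConeHyp462 FinV988 FinD988 DSq384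
open Win810 DefsQ830 SM890 KH186 SemiFree515 EndA448 EndV448 EndB448 EndF448 KHc186 SqI186

variable {K : Type} [Field K] {π : Par K} {s : ℕ} {hs : 5 ≤ s}

/-- **`HD` from a resolution of `D(M)`** (dual `DR`) and (d), (f) -/
theorem HD_ofDR (hV : PV π s hs) {Y : RCells (WR π).dga} (R : RRes Y (DR (SG π s hs).M.toLM))
    (h1 : QI ((VF.ofDR R.toRAug).pm (SG π s hs).b1))
    (h3 : QI ((VF.ofDR R.toRAug).pm ((SG π s hs).bβ (IG π s hs)))) : HD hV :=
  HD_of3 hV _ (b0R_qi (SG π s hs) R) h1 h3

/-- **(d)** from helper611's `C1` -/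
theorem h1_of {Y : RCells (WR π).dga} (R : RRes Y (DM π s (KHc302.two_le hs)))
    (hc : C1Q611.C1 π s (KHc302.two_le hs) R) :
    QI ((VF.ofDR (M := (SG π s hs).M.toLM) R.toRAug).pm (SG π s hs).b1) :=
  b1_qi_of (SG π s hs) (show RAug Y (DR (SG π s hs).M.toLM) from R.toRAug) hc

variable {S : FWI226.WEl (WR π).dga} (hS : S.pi = C2W655.piW π) (T : C2fin468.Inp π s hs S)
  (hev : ∀ (x : (KHc302.CEr π s hs).toIn.Y) (z : (KHc302.CEr π s hs).toIn.Z),
      T.ev x z = sndW (bdM π s (KHc302.two_le hs)) ((KHc302.CEr π s hs).toIn.ev x z))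

include hS hev in
/-- **(f)** from helper468's `C2D` -/
theorem h3_of {Y : RCells (WR π).dga} (R : RRes Y (DM π s (KHc302.two_le hs))) :
    QI ((VF.ofDR (M := (SG π s hs).M.toLM) R.toRAug).pm ((SG π s hs).bβ (IG π s hs))) := by
  refine bβ_qi_of' (SG π s hs) (I := IG π s hs)
    (show RAug Y (DR (SG π s hs).M.toLM) from R.toRAug) (C2s468.pmap T R) ?_
    (C2fin468.c3 hS T R)
  intro κ y z
  refine (C2s468.pmap_single T R κ y z).trans ?_
  rw [hev]
  rfl

include hS hev in
/-- **`HD` from (c1) and the `C2D` data** -/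
theorem HD_of_C1 (hV : PV π s hs) {Y : RCells (WR π).dga}
    (R : RRes Y (DM π s (KHc302.two_le hs))) (hc : C1Q611.C1 π s (KHc302.two_le hs) R) : HD hV :=
  HD_ofDR hV (show RRes Y (DR (SG π s hs).M.toLM) from R) (h1_of R hc) (h3_of hS T hev R)

end Crest.Agent.R186.HD186
end
end

-- ▼ part R186/C2h_302
section

/-!
Row 186 (A), line (c2) (helper302): the `H`-part of helper468's `C2D` over the concrete closing data:
`evC : KK → H → M`, `ev_l`, `ev_D`, `ev_deg`, `H0`, `H1`, `H2`, bounded projections of `H`.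
-/

set_option autoImplicit false
set_option linter.style.haveILetI false
set_option linter.unusedSectionVars false

noncomputable section

open MulOpposite

namespace Crest.Agent.R186.C2h302

open DefsQ830 PBW128 Win810 SM890 WL221 C2b44 Cells221 KH186 KHc302 Frame515 Res255 Core890

variable {K : Type} [Field K] (π : Par K)

/-! ### `pi` on `M`, and the socle -/

theorem oM_one_eq (q : Wb) : oM π q 1 = (oo K q : MM π) := by
  rw [oM_apply, map_one]
  rfl

theorem pi_oM_pi : wq π .pi • oM π .pi 1 = soc π 1 := by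
  have h : repM π (wq π .pi) (oo K .pi) = oo K .one := by
    rw [C1R808.repM_wq]
    simp [C1R808.dk2, C1R808.dt2]
  have h1 := oM_one_eq π .pi
  have h2 := oM_one_eq π .one
  rw [h1]
  exact h.trans h2.symm

theorem pi_oM_ne {q : Wb} (hq : q ≠ .pi) : wq π .pi • oM π q 1 = 0 := by
  have h : repM π (wq π .pi) (oo K q) = 0 := by
    rw [C1R808.repM_wq]
    simp [C1R808.dk2, hq]
  rw [oM_one_eq π q]
  exact h

theorem pi_ro (q : Wb) (r : R π) :
    wq π .pi • WLM982.ro π q r = if q = .pi then soc π r else 0 := by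
  rw [WLM982.ro_eq, smul_comm]
  split_ifs with h
  · subst h
    rw [pi_oM_pi]
    change rho π r (soc π 1) = _
    rw [soc_right, one_mul]
  · rw [pi_oM_ne π h]
    exact smul_zero _

/-- **`pi` maps `M` onto the socle** -/
theorem pi_smul (m : MM π) : wq π .pi • m = soc π (WLM982.lM π .pi m) := by
  conv_lhs => rw [WLM982.sum_lM π m, Finset.smul_sum]
  rw [Finset.sum_eq_single Wb.pi]
  · rw [pi_ro, if_pos rfl]
  · intro q _ hq
    rw [pi_ro, if_neg hq]
  · intro h
    exact absurd (Finset.mem_univ _) h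

theorem soc_zero {b : RL π} (h : soc π b.1 = 0) : b = 0 := by
  have h1 := WLM982.cM_oM_kill π .one .one b.1
  rw [if_pos rfl, kill_val] at h1
  change WLM982.cM π .one (soc π b.1) = b.1 at h1
  rw [h, map_zero] at h1
  exact Subtype.ext h1.symm

theorem lM_pcL (s : ℕ) {P A C : ℤ} {m : MM π} (hm : m ∈ pcM π s P A C) :
    prL π (WLM982.lM π .pi m) ∈ pcL π (P + 1) A (C - s + C2W655.dpi) := by
  refine prL_mem ?_
  rw [KOS296.pcZ_eq_pz]
  exact WLM982.lM_mem π s hm .pi

theorem ro_pcM (s : ℕ) {P A C : ℤ} {b : RL π} (hb : b ∈ pcL π P A C) :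
    WLM982.ro π .pi b.1 ∈ pcM π s (P - 1) A (C + s - C2W655.dpi) := by
  refine WLM982.ro_mem π s .pi ?_
  rw [← KOS296.pcZ_eq_pz, show P - 1 + 1 = P by ring,
    show C + s - (C2W655.dpi : ℤ) - s + (wC Wb.pi.word : ℕ) = C by
      change C + s - (wC Wb.pi.word : ℕ) - s + (wC Wb.pi.word : ℕ) = C
      ring]
  exact hb

/-! ### entries -/

section ev

variable {s : ℕ} {hs : 5 ≤ s}

/-- entries of `M` -/
def enM {h : 2 ≤ s} (m : (MW π s h).X) (i j : DefsQ830.Ob) : MM π := m.1 i j

/-- entries of `KK` -/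
def enK (x : (CEr π s hs).KK) (i : DefsQ830.Ob) (c : Cell) : RL π := x.1 i c

/-- entries of `H` -/
def enH (η : (CEr π s hs).H) (c : Cell) (j : DefsQ830.Ob) : RL π := η.1 c j

variable {π}

theorem enM_ext {h : 2 ≤ s} {m n : (MW π s h).X} (h : ∀ i j, enM π m i j = enM π n i j) :
    m = n := by
  apply Subtype.ext
  funext i j
  exact h i j

theorem enH_ext {m n : (CEr π s hs).H} (h : ∀ i j, enH π m i j = enH π n i j) : m = n := by
  apply Subtype.ext
  funext i j
  exact h i j

theorem act_apply {h : 2 ≤ s} (a : (WR π).dga.C) (m : (MW π s h).X) (i j : DefsQ830.Ob) :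
    enM π (a • m) i j =
      ∑ l : DefsQ830.Ob, repM π (C2W655.en (show (WR π).Win from a) i l) (enM π m l j) := rfl

variable (π) in
theorem en_piW (i l : DefsQ830.Ob) :
    C2W655.en (C2W655.piW π) i l = if i = l then wq π .pi else 0 :=
  Matrix.diagonal_apply (n := DefsQ830.Ob) (fun _ => wq π .pi) i l

variable (π) in
theorem en_e (o i l : DefsQ830.Ob) :
    C2W655.en (WD.e (w := WR π) o) i l = if o = i ∧ o = l then (1 : R π) else 0 :=
  Matrix.single_apply (n := DefsQ830.Ob) (m := DefsQ830.Ob) o o (1 : R π) i l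

/-- `pi` in the dg algebra -/
abbrev piA (π : Par K) : (WR π).dga.C := C2W655.piW π

/-- the idempotents in the dg algebra -/
abbrev eA (π : Par K) (o : DefsQ830.Ob) : (WR π).dga.C := WD.e (w := WR π) o

theorem pi_act {h : 2 ≤ s} (m : (MW π s h).X) (i j : DefsQ830.Ob) :
    enM π (piA π • m) i j = soc π (WLM982.lM π .pi (enM π m i j)) := by
  rw [act_apply, Finset.sum_eq_single i]
  · have h : C2W655.en (show (WR π).Win from piA π) i i = wq π .pi :=
      (en_piW π i i).trans (if_pos rfl)
    rw [h]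
    exact pi_smul π _
  · intro l _ hl
    have h : C2W655.en (show (WR π).Win from piA π) i l = 0 :=
      (en_piW π i l).trans (if_neg (Ne.symm hl))
    rw [h, map_zero]
    rfl
  · intro h
    exact absurd (Finset.mem_univ _) h

theorem e_act {h : 2 ≤ s} (o : DefsQ830.Ob) (m : (MW π s h).X) (i j : DefsQ830.Ob) :
    enM π (eA π o • m) i j = if i = o then enM π m i j else 0 := by
  rw [act_apply]
  by_cases hi : i = o
  · subst hi
    rw [if_pos rfl, Finset.sum_eq_single i]
    · have h : C2W655.en (show (WR π).Win from eA π i) i i = 1 :=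
        (en_e π i i i).trans (if_pos ⟨rfl, rfl⟩)
      rw [h, map_one]
      rfl
    · intro l _ hl
      have h : C2W655.en (show (WR π).Win from eA π i) i l = 0 :=
        (en_e π i i l).trans (if_neg (fun h' => hl h'.2.symm))
      rw [h, map_zero]
      rfl
    · intro h
      exact absurd (Finset.mem_univ _) h
  · rw [if_neg hi]
    refine Finset.sum_eq_zero fun l _ => ?_
    have h : C2W655.en (show (WR π).Win from eA π o) i l = 0 :=
      (en_e π o i l).trans (if_neg (fun h' => hi h'.1.symm))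
    rw [h, map_zero]
    rfl

/-! ### the evaluation with values in `M` -/

variable (π s hs) in
/-- the evaluation -/
def evC : (CEr π s hs).KK →ₗ[K] (CEr π s hs).H →ₗ[K] (MW π s (two_le hs)).X :=
  LinearMap.compr₂ (CE.evK (E := CEr π s hs)) (sndW (bdM π s (two_le hs)))

theorem evC_apply (x : (CEr π s hs).KK) (η : (CEr π s hs).H) (i j : DefsQ830.Ob) :
    enM π (evC π s hs x η) i j = soc π (∑ c : Cell, enK π x i c * enH π η c j : RL π).1 := rfl

theorem inrW_evC (x : (CEr π s hs).KK) (η : (CEr π s hs).H) :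
    inrW (bdM π s (two_le hs)) (evC π s hs x η) = CE.evK x η := by
  refine (eq_inrW (bdM π s (two_le hs)) ?_).symm
  apply Subtype.ext
  ext i j
  rfl

theorem evC_l (a : (WR π).dga.C) (x : (CEr π s hs).KK) (η : (CEr π s hs).H) :
    evC π s hs ((CEr π s hs).L ((HmI π s (two_le hs)).f a) x) η = a • evC π s hs x η := by
  apply inrW_inj (bdM π s (two_le hs))
  rw [inrW_evC]
  refine (CE.evK_l (E := CEr π s hs) ((HmI π s (two_le hs)).f a) x η).trans ?_
  refine Eq.trans ?_ (inlH_mul_inrW (bdM π s (two_le hs)) a _)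
  rw [inrW_evC]
  rfl

theorem evC_D (x : (CEr π s hs).KK) (η : (CEr π s hs).H) :
    (MW π s (two_le hs)).d (evC π s hs x η) =
      evC π s hs ((CEr π s hs).dY x) η + evC π s hs x (CE.dH η) := by
  apply inrW_inj (bdM π s (two_le hs))
  rw [inrW_d, map_add, inrW_evC, inrW_evC, inrW_evC]
  exact CE.evK_D x η

theorem evC_deg {k l : ℤ} {x : (CEr π s hs).KK} {η : (CEr π s hs).H}
    (hx : x ∈ (CEr π s hs).gr.G k) (hη : η ∈ (CEr π s hs).gs.G l) :
    evC π s hs x η ∈ (MW π s (two_le hs)).gr (k + l) := by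
  apply mem_of_inrW (bdM π s (two_le hs))
  rw [inrW_evC]
  exact CE.evK_deg hx hη

/-! ### generators -/

/-- matrix units of `KK` -/
def IsU (u : Cell → (CEr π s hs).KK) : Prop :=
  ∀ (c : Cell) (i : DefsQ830.Ob) (c' : Cell),
    enK π (u c) i c' = if i = WL221.oc c ∧ c' = c then (1 : RL π) else 0

theorem evC_u {u : Cell → (CEr π s hs).KK} (hu : IsU u) (c : Cell) (η : (CEr π s hs).H)
    (i j : DefsQ830.Ob) :
    enM π (evC π s hs (u c) η) i j = if i = WL221.oc c then soc π (enH π η c j).1 else 0 := by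
  rw [evC_apply]
  by_cases hi : i = WL221.oc c
  · rw [if_pos hi]
    have h : (∑ c' : Cell, enK π (u c) i c' * enH π η c' j : RL π) = enH π η c j := by
      rw [Finset.sum_eq_single c]
      · rw [hu, if_pos ⟨hi, rfl⟩, one_mul]
      · intro c' _ hc
        rw [hu, if_neg (fun h => hc h.2), zero_mul]
      · intro h
        exact absurd (Finset.mem_univ _) h
    rw [h]
  · rw [if_neg hi]
    have h : (∑ c' : Cell, enK π (u c) i c' * enH π η c' j : RL π) = 0 := by
      refine Finset.sum_eq_zero fun c' _ => ?_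
      rw [hu, if_neg (fun h => hi h.1), zero_mul]
    rw [h]
    exact map_zero (soc π)

/-- **`H0`** -/
theorem H0 {u : Cell → (CEr π s hs).KK} (hu : IsU u) (η : (CEr π s hs).H)
    (h : ∀ c, evC π s hs (u c) η = 0) : η = 0 := by
  refine enH_ext fun c j => ?_
  have h1 : enM π (evC π s hs (u c) η) (WL221.oc c) j = 0 := by
    rw [h c]
    rfl
  rw [evC_u hu, if_pos rfl] at h1
  exact soc_zero π h1

/-- the entries of `H` -/
theorem ro_E {c : Cell} {j : DefsQ830.Ob} (η : (CEr π s hs).H) :
    WLM982.ro π .pi (enH π η c j).1 ∈ E (tbOf (bdM π s (two_le hs))) (WL221.oc c) j := by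
  have key : (CEr π s hs).EB ((WG π s (two_le hs)).P (WL221.oc c) -
      (WG π s (two_le hs)).P j + 1) ((WG π s (two_le hs)).A (WL221.oc c) -
      (WG π s (two_le hs)).A j) ≤ (E (tbOf (bdM π s (two_le hs))) (WL221.oc c) j).comap
      (WLM982.ro π .pi ∘ₗ (RL π).val.toLinearMap) := by
    refine iSup_le fun C => ?_
    intro b hb
    have h1 := ro_pcM π s (b := b) hb
    rw [add_sub_cancel_right] at h1
    refine q_le_E (tbOf (bdM π s (two_le hs))) (WL221.oc c) j (C + s - C2W655.dpi) ?_
    have h2 := q_tbOf (bdM π s (two_le hs)) (WL221.oc c) j (C + s - C2W655.dpi)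
    exact h2.symm ▸ h1
  exact key (η.2 c j)

/-- a lift of the row `c` of `η` -/
def lft (c : Cell) (η : (CEr π s hs).H) : (MW π s (two_le hs)).X :=
  ⟨fun (i : DefsQ830.Ob) (j : DefsQ830.Ob) =>
      if i = WL221.oc c then WLM982.ro π .pi (enH π η c j).1 else 0, by
    intro (i : DefsQ830.Ob) (j : DefsQ830.Ob)
    by_cases hi : i = WL221.oc c
    · subst hi
      change (if WL221.oc c = WL221.oc c then WLM982.ro π .pi (enH π η c j).1 else 0) ∈ _
      rw [if_pos rfl]
      exact ro_E η
    · change (if i = WL221.oc c then WLM982.ro π .pi (enH π η c j).1 else (0 : MM π)) ∈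
        E (tbOf (bdM π s (two_le hs))) i j
      rw [if_neg hi]
      exact Submodule.zero_mem _⟩

theorem enM_lft (c : Cell) (η : (CEr π s hs).H) (i j : DefsQ830.Ob) :
    enM π (lft c η) i j = if i = WL221.oc c then WLM982.ro π .pi (enH π η c j).1 else 0 := rfl

/-- **`H2`** -/
theorem H2 {u : Cell → (CEr π s hs).KK} (hu : IsU u) (c : Cell) (η : (CEr π s hs).H) :
    ∃ m : (MW π s (two_le hs)).X, evC π s hs (u c) η = piA π • m := by
  refine ⟨lft c η, enM_ext fun i j => ?_⟩
  rw [evC_u hu, pi_act, enM_lft]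
  by_cases hi : i = WL221.oc c
  · rw [if_pos hi, if_pos hi, WLM982.lM_ro_of π _ _ (kill_val _), if_pos rfl]
  · rw [if_neg hi, if_neg hi, map_zero, map_zero]

/-- one row -/
def rw1 (c : Cell) (m : (MW π s (two_le hs)).X) (c' : Cell) (j : DefsQ830.Ob) : RL π :=
  if c' = c then prL π (WLM982.lM π .pi (enM π m (WL221.oc c) j)) else 0

theorem rw1_mem {k : ℤ} {c : Cell} {m : (MW π s (two_le hs)).X}
    (hm : m ∈ (MW π s (two_le hs)).gr (k + cdeg c - C2W655.dpi)) (c' : Cell) (j : DefsQ830.Ob) :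
    rw1 (hs := hs) c m c' j ∈
      (CEr π s hs).pb ((WG π s (two_le hs)).P (WL221.oc c') - (WG π s (two_le hs)).P j + 1)
        ((WG π s (two_le hs)).A (WL221.oc c') - (WG π s (two_le hs)).A j)
        (k - s + cdeg c') := by
  unfold rw1
  split_ifs with h
  · subst h
    have h1 := lM_pcL π s ((mem_grM (bdM π s (two_le hs))).1 hm (WL221.oc c') j)
    rw [show k + (cdeg c' : ℤ) - (C2W655.dpi : ℕ) - s + (C2W655.dpi : ℕ) =
      k - s + cdeg c' by ring] at h1
    exact h1
  · exact Submodule.zero_mem _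

/-- **`H1`** -/
theorem H1 {u : Cell → (CEr π s hs).KK} (hu : IsU u) (k : ℤ) (c : Cell)
    (m : (MW π s (two_le hs)).X) (hm : m ∈ (MW π s (two_le hs)).gr (k + cdeg c - C2W655.dpi)) :
    ∃ η ∈ (CEr π s hs).gs.G k,
      evC π s hs (u c) η = eA π (WL221.oc c) • piA π • m ∧
      ∀ c', c' ≠ c → evC π s hs (u c') η = 0 := by
  let η : (CEr π s hs).H := ⟨rw1 (hs := hs) c m, fun c' j =>
    (CEr π s hs).pb_le _ _ _ (rw1_mem hm c' j)⟩
  have hη : ∀ c' j, enH π η c' j = rw1 (hs := hs) c m c' j := fun _ _ => rfl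
  refine ⟨η, CE.mem_gs.2 fun c' j => rw1_mem hm c' j, ?_, ?_⟩
  · refine enM_ext fun i j => ?_
    rw [evC_u hu, e_act, pi_act]
    by_cases hi : i = WL221.oc c
    · rw [if_pos hi, if_pos hi, hη]
      subst hi
      unfold rw1
      rw [if_pos rfl, prL_val, soc_kill]
    · rw [if_neg hi, if_neg hi]
  · intro c' hc
    refine enM_ext fun i j => ?_
    rw [evC_u hu, hη]
    unfold rw1
    rw [if_neg hc]
    split_ifs
    · exact map_zero (soc π)
    · rfl

variable (π s hs) in
/-- **bounded projections of `H`** -/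
def PH : Dual560.Pr (CEr π s hs).Hrm.toGC where
  pi k := (CEr π s hs).gs.pr k
  mem k x := (CEr π s hs).gs.pr_mem k x
  same {k x} hx := (CEr π s hs).gs.mem_G.1 hx
  ne {k l x} h hx := by
    have h1 : (CEr π s hs).gs.pr l x = x := (CEr π s hs).gs.mem_G.1 hx
    have h2 := (CEr π s hs).gs.pr_ne l k x h
    rw [h1] at h2
    exact h2
  lo := 0
  hi := (CEr π s hs).gs.N
  sum x := by
    have h1 := (CEr π s hs).gs.total x
    refine Eq.trans ?_ h1
    rw [← Finset.sum_range (fun k => (CEr π s hs).gs.pr (k : ℤ) x)]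
    refine Finset.sum_bij' (fun k _ => k.toNat) (fun k _ => (k : ℤ)) ?_ ?_ ?_ ?_ ?_
    · intro k hk
      rw [Finset.mem_Icc] at hk
      rw [Finset.mem_range]
      omega
    · intro k hk
      rw [Finset.mem_range] at hk
      rw [Finset.mem_Icc]
      omega
    · intro k hk
      rw [Finset.mem_Icc] at hk
      exact Int.toNat_of_nonneg hk.1
    · intro k _
      exact Int.toNat_natCast k
    · intro k hk
      rw [Finset.mem_Icc] at hk
      rw [Int.toNat_of_nonneg hk.1]
      rfl
  fin k := by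
    change Module.Finite K ((CEr π s hs).gs.G k)
    infer_instance

end ev

end Crest.Agent.R186.C2h302
end
end

-- ▼ part R186/C2k_122
section

/-!
Row 186, half (A), leaf A.C2s (helper122): the part `KK` of helper468's `C2D`.

General: `B : BD w` a bimodule over window data, `E : KH186.CE B.ext`; `KKr B E : LM w.dga` = the
cell module `KK` restricted along `w.dga → B.ext.dga`; generators `u c`, idempotents
`ec c = WD.e (oc c)`, lifted matrix `cw c c'`, and K1, K2, K3 (concrete form: `C2kc_122`).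
-/

set_option autoImplicit false
set_option linter.style.haveILetI false
set_option linter.unusedSectionVars false

noncomputable section

namespace Crest.Agent.R186.C2k122

open Hat827 Win810 Win810.WD Frame515 Res255 KH186 SExt44

variable {K : Type} [Field K]

section general

variable {w : WD K} (B : BD w) (E : KH186.CE B.ext)

/-- `R'' → Γ → R'` -/
def qB : w.S →ₐ[K] E.B := E.p.comp B.inl


/-- the inclusion `L'' → Γ` -/
def hI : Hm w.dga B.ext.dga where
  f := B.inlW
  mem h := B.inlW_mem h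
  D a := B.inlW_D a


/-- the action of `L''` on `KK` -/
def aL (a : w.Win) (x : E.KK) : E.KK := E.L (B.inlW a) x


/-- position of a cell -/
def oo (c : E.κ) : w.Ob := E.oc c

theorem one_pb : (1 : E.B) ∈ E.pb 0 0 0 := by
  have := E.p_mem B.ext.one_mem
  rwa [map_one] at this

/-- generators -/
def u (c : E.κ) : E.KK :=
  ⟨fun i c' => if (show w.Ob from i) = oo B E c ∧ c' = c then 1 else 0, fun i c' => by
    change (if (show w.Ob from i) = oo B E c ∧ c' = c then (1 : E.B) else 0) ∈ _
    split_ifs with h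
    · obtain ⟨h1, rfl⟩ := h
      have h2 : i = E.oc c' := h1
      subst h2
      exact E.pb_le _ _ 0 (CE.pb_cast (one_pb B E) (sub_self _).symm (sub_self _).symm rfl)
    · exact Submodule.zero_mem _⟩

variable {B E}

/-- entries of an element of `KK`, indexed by `w.Ob` -/
def at' (x : E.KK) (i : w.Ob) (c : E.κ) : E.B := x.1 i c

theorem ext' {x y : E.KK} (h : ∀ (i : w.Ob) (c : E.κ), at' x i c = at' y i c) : x = y := by
  apply Subtype.ext
  funext i c
  exact h i c

theorem u_apply (c : E.κ) (i : w.Ob) (c' : E.κ) :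
    at' (u B E c) i c' = if i = oo B E c ∧ c' = c then 1 else 0 := rfl

theorem u_mem' (c : E.κ) : u B E c ∈ E.gr.G (E.cd c) := by
  rw [CE.mem_gr]
  intro i c'
  change (if (show w.Ob from i) = oo B E c ∧ c' = c then (1 : E.B) else 0) ∈ _
  split_ifs with h
  · obtain ⟨h1, rfl⟩ := h
    have h2 : i = E.oc c' := h1
    subst h2
    exact CE.pb_cast (one_pb B E) (sub_self _).symm (sub_self _).symm (sub_self _).symm
  · exact Submodule.zero_mem _

theorem aL_apply (a : w.Win) (x : E.KK) (i : w.Ob) (c : E.κ) :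
    at' (aL B E a x) i c = ∑ j : w.Ob, qB B E (a.1 i j) * at' x j c := rfl

theorem aL_u (a : w.Win) (c : E.κ) (i : w.Ob) (c' : E.κ) :
    at' (aL B E a (u B E c)) i c' = if c' = c then qB B E (a.1 i (oo B E c)) else 0 := by
  rw [aL_apply]
  by_cases h : c' = c
  · subst h
    rw [if_pos rfl, Finset.sum_eq_single (oo B E c')]
    · rw [u_apply, if_pos ⟨rfl, rfl⟩, mul_one]
    · intro j _ hj
      rw [u_apply, if_neg (fun h0 => hj h0.1), mul_zero]
    · intro h0
      exact absurd (Finset.mem_univ _) h0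
  · rw [if_neg h]
    refine Finset.sum_eq_zero fun j _ => ?_
    rw [u_apply, if_neg (fun h0 => h h0.2), mul_zero]

variable (B E)

/-- idempotents -/
def ec (c : E.κ) : w.Win := WD.e (oo B E c)

variable {B E}

theorem ec_mem (c : E.κ) : ec B E c ∈ w.G 0 := WD.e_mem _

theorem ec_idem (c : E.κ) : ec B E c * ec B E c = ec B E c := WD.e_mul_e _

theorem ec_apply (c : E.κ) (i j : w.Ob) :
    (ec B E c).1 i j = if oo B E c = i ∧ oo B E c = j then 1 else 0 := by
  unfold ec WD.e
  rw [WD.ws_apply]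

theorem aL_ec (c : E.κ) : aL B E (ec B E c) (u B E c) = u B E c := by
  apply ext'
  intro i c'
  rw [aL_u, u_apply, ec_apply]
  by_cases h : c' = c
  · subst h
    by_cases h1 : i = oo B E c'
    · rw [if_pos rfl, if_pos ⟨h1.symm, rfl⟩, map_one, if_pos ⟨h1, rfl⟩]
    · rw [if_pos rfl, if_neg (fun h0 => h1 h0.1.symm), map_zero, if_neg (fun h0 => h1 h0.1)]
  · rw [if_neg h, if_neg (fun h0 => h h0.2)]

/-- an element of the algebra supported in the column `c` -/
theorem col_ec {a : w.Win} {c : E.κ} :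
    a * ec B E c = a ↔ ∀ i j : w.Ob, oo B E c ≠ j → a.1 i j = 0 := WD.col_iff _ _

theorem at_sum {ι : Type} (s : Finset ι) (f : ι → E.KK) (i : w.Ob) (c : E.κ) :
    at' (∑ a ∈ s, f a : E.KK) i c = ∑ a ∈ s, at' (f a) i c := by
  unfold at'
  rw [AddSubmonoidClass.coe_finsetSum, Finset.sum_apply, Finset.sum_apply]

theorem sum_aL_u (a : E.κ → w.Win) (i : w.Ob) (c' : E.κ) :
    at' (∑ c, aL B E (a c) (u B E c)) i c' = qB B E ((a c').1 i (oo B E c')) := by
  rw [at_sum]
  simp only [aL_u]
  rw [Finset.sum_ite_eq, if_pos (Finset.mem_univ _)]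

/-- pieces of `R'` lift, and the matrix of the cells lifts -/
structure Lf (B : BD w) (E : KH186.CE B.ext) where
  sur : ∀ {P A C : ℤ} {b : E.B}, b ∈ E.pb P A C → ∃ r ∈ w.pc P A C, qB B E r = b
  c0 : E.κ → E.κ → w.S
  c0_mem : ∀ c c', c0 c c' ∈ w.q (oo B E c) (oo B E c') ((E.cd c : ℤ) - E.cd c' - 1)
  c0_q : ∀ c c', qB B E (c0 c c') = E.cc c c'

variable (F : Lf B E)

/-- **K1** -/
theorem K1' (F : Lf B E) {k : ℤ} {x : E.KK} (hx : x ∈ E.gr.G k) :
    ∃ a : E.κ → w.Win, (∀ c, a c ∈ w.G (k - E.cd c) ∧ a c * ec B E c = a c) ∧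
      x = ∑ c, aL B E (a c) (u B E c) := by
  rw [CE.mem_gr] at hx
  have h : ∀ (c : E.κ) (i : w.Ob), ∃ r : w.S, r ∈ w.q i (oo B E c) (k - E.cd c) ∧
      qB B E r = at' x i c := fun c i => F.sur (hx i c)
  choose r hr hr' using h
  refine ⟨fun c => WD.mkCol (oo B E c) (r c) fun i => WD.q_le _ _ _ (hr c i),
    fun c => ⟨?_, ?_⟩, ?_⟩
  · intro i j
    rw [WD.mkCol_apply]
    split_ifs with h
    · subst h
      exact hr c i
    · exact Submodule.zero_mem _
  · rw [col_ec]
    intro i j hj
    rw [WD.mkCol_apply, if_neg hj]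
  · apply ext'
    intro i c
    rw [sum_aL_u (fun c => WD.mkCol (oo B E c) (r c) fun i => WD.q_le _ _ _ (hr c i)) i c,
      WD.mkCol_apply, if_pos rfl, hr']

/-- **K2**, entries -/
theorem K2' {a : E.κ → w.Win} (ha : ∀ c, a c * ec B E c = a c)
    (h : ∑ c, aL B E (a c) (u B E c) = 0) (c : E.κ) (i j : w.Ob) : qB B E ((a c).1 i j) = 0 := by
  by_cases hj : oo B E c = j
  · subst hj
    rw [← sum_aL_u a i c, h]
    rfl
  · rw [col_ec.1 (ha c) i j hj, map_zero]

/-- **K3**, entries -/
theorem K3' {a : w.Win} (h : ∀ i j, qB B E (a.1 i j) = 0) (c : E.κ) :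
    aL B E a (u B E c) = 0 := by
  apply ext'
  intro i c'
  rw [aL_u, h, ite_self]
  rfl

/-- the lifted matrix of the cells -/
def cw (F : Lf B E) (c c' : E.κ) : w.Win :=
  WD.ws (oo B E c) (oo B E c') (F.c0 c c') (WD.q_le _ _ _ (F.c0_mem c c'))

theorem cw_mem (c c' : E.κ) : cw F c c' ∈ w.G ((E.cd c : ℤ) - E.cd c' - 1) :=
  WD.ws_mem_G' (F.c0_mem c c') _

theorem cw_apply (c c' : E.κ) (i j : w.Ob) :
    (cw F c c').1 i j = if oo B E c = i ∧ oo B E c' = j then F.c0 c c' else 0 :=
  WD.ws_apply _ _ _ _ _ _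

theorem cw_left (c c' : E.κ) : ec B E c * cw F c c' = cw F c c' := by
  apply Subtype.ext
  ext i j : 2
  unfold ec
  rw [WD.e_mul_apply]
  split_ifs with h
  · rfl
  · rw [cw_apply, if_neg (fun h0 => h h0.1)]

theorem cw_right (c c' : E.κ) : cw F c c' * ec B E c' = cw F c c' := by
  apply Subtype.ext
  ext i j : 2
  unfold ec
  rw [WD.mul_e_apply]
  split_ifs with h
  · rfl
  · rw [cw_apply, if_neg (fun h0 => h h0.2)]

theorem D'_one : E.D' 1 = 0 := by
  have h := E.D'_mul 1 1
  rw [mul_one, one_mul, mul_one] at h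
  rw [h]
  exact E.two _

theorem dY_at (x : E.KK) (i : w.Ob) (c : E.κ) :
    at' (E.dY x) i c = E.D' (at' x i c) + ∑ c', at' x i c' * E.cc c' c := rfl

/-- **the differential of the generators** -/
theorem u_d' (c : E.κ) : E.dY (u B E c) = ∑ c', aL B E (cw F c c') (u B E c') := by
  apply ext'
  intro i c'
  rw [sum_aL_u (fun c' => cw F c c') i c', cw_apply, dY_at]
  have h1 : E.D' (at' (u B E c) i c') = 0 := by
    rw [u_apply]
    split_ifs
    · exact D'_one
    · exact map_zero _
  rw [h1, zero_add]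
  by_cases h : i = oo B E c
  · rw [if_pos ⟨h.symm, rfl⟩, F.c0_q, Finset.sum_eq_single c]
    · rw [u_apply, if_pos ⟨h, rfl⟩, one_mul]
    · intro b _ hb
      rw [u_apply, if_neg (fun h0 => hb h0.2), zero_mul]
    · intro h0
      exact absurd (Finset.mem_univ _) h0
  · rw [if_neg (fun h0 => h h0.1.symm), map_zero]
    refine Finset.sum_eq_zero fun b _ => ?_
    rw [u_apply, if_neg (fun h0 => h h0.1), zero_mul]


end general

end Crest.Agent.R186.C2k122
end
end

-- ▼ part R186/PBWl_128
section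

/-!
Row 186 (A), helper128: the LEFT normal form of `R''`:
`nfl (i,j,k,w,q) = w_q * (x_0^i x_1^j h^k * word)` is a `K`-basis, `W` acts on the left through the
left regular representation, components `lc q r` with `r = ∑ q, w_q * lc q r`, gradings.
-/

set_option autoImplicit false
set_option linter.unusedSectionVars false

noncomputable section

namespace Crest.Agent.R186.PBW128

open Crest.Agent.R186.DefsQ830

variable {K : Type} [Field K]

/-- the factor in `w_q · x_0^i x_1^j h^k w = scq • nf` -/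
def scq (π : Par K) (q : Wb) (i j : ℕ) (w : List E) : K :=
  match q with
  | .one => 1
  | .y s => sc π (.y s) i j w
  | .yb s => sc π (.yb s) i j w
  | .pi => sc π (.y 1) i j w * sc π (.y 0) i j w

/-- the left normal elements -/
def nfl (π : Par K) (ν : Ix) : R π :=
  wq π ν.2.2.2.2 * nf π (ν.1, ν.2.1, ν.2.2.1, ν.2.2.2.1, .one)

theorem nfl_eq (π : Par K) (i j k : ℕ) (w : List E) (q : Wb) :
    nfl π (i, j, k, w, q) = scq π q i j w • nf π (i, j, k, w, q) := by
  cases q with
  | one => simp [nfl, scq, wq_one]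
  | y s =>
    have := Ynf π (.y s) i j k w .one
    simp only [nfl, scq, wq_y]
    rw [show wk π (.y s) .one = 1 from rfl, mul_one] at this
    exact this
  | yb s =>
    have := Ynf π (.yb s) i j k w .one
    simp only [nfl, scq, wq_yb]
    rw [show wk π (.yb s) .one = 1 from rfl, mul_one] at this
    exact this
  | pi =>
    have h1 := Ynf π (.y 1) i j k w .one
    have h0 := Ynf π (.y 0) i j k w (.y 1)
    rw [show wk π (.y 1) .one = 1 from rfl, mul_one, show wt (.y 1) .one = .y 1 from rfl] at h1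
    rw [show wk π (.y 0) (.y 1) = 1 from rfl, mul_one, show wt (.y 0) (.y 1) = .pi from rfl] at h0
    simp only [nfl, scq, wq_pi]
    change X π (.y 1) * _ = _ at h1
    change X π (.y 0) * _ = _ at h0
    rw [mul_assoc, h1, mul_smul_comm, h0, smul_smul]

theorem sc_ne (π : Par K) (a : Y) (i j : ℕ) (w : List E) : sc π a i j w ≠ 0 := by
  have hg := π.g0
  have h0 : π.c 0 ≠ 0 := by simp [Par.c, hg]
  have h1 : π.c 1 ≠ 0 := by simp [Par.c, hg]
  unfold sc
  refine mul_ne_zero (mul_ne_zero (pow_ne_zero _ (inv_ne_zero h0)) (pow_ne_zero _ (inv_ne_zero h1))) ?_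
  apply List.prod_ne_zero
  intro h
  obtain ⟨l, -, hl⟩ := List.mem_map.1 h
  exact chi_ne π a l hl

theorem scq_ne (π : Par K) (q : Wb) (i j : ℕ) (w : List E) : scq π q i j w ≠ 0 := by
  cases q with
  | one => exact one_ne_zero
  | y s => exact sc_ne π _ i j w
  | yb s => exact sc_ne π _ i j w
  | pi => exact mul_ne_zero (sc_ne π _ i j w) (sc_ne π _ i j w)

/-- **the left PBW basis** -/
def basisl (π : Par K) : Module.Basis Ix K (R π) :=
  (basis π).isUnitSMul (w := fun ν => scq π ν.2.2.2.2 ν.1 ν.2.1 ν.2.2.2.1)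
    (fun _ => (scq_ne π _ _ _ _).isUnit)

@[simp] theorem basisl_apply (π : Par K) (ν : Ix) : basisl π ν = nfl π ν := by
  obtain ⟨i, j, k, w, q⟩ := ν
  rw [basisl, Module.Basis.isUnitSMul_apply, basis_apply, nfl_eq]


/-- the span of the normal elements without `W`-part -/
def R1 (π : Par K) : Submodule K (R π) := Submodule.span K (nf π '' {ν | ν.2.2.2.2 = .one})

/-- the `q`-component of an element, from the left -/
def lc (π : Par K) (q : Wb) : R π →ₗ[K] R π :=
  (Finsupp.linearCombination K (fun ν : Ix =>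
    if ν.2.2.2.2 = q then nf π (ν.1, ν.2.1, ν.2.2.1, ν.2.2.2.1, .one) else 0)) ∘ₗ
      (basisl π).repr.toLinearMap

theorem lc_nfl (π : Par K) (q : Wb) (i j k : ℕ) (w : List E) (q' : Wb) :
    lc π q (nfl π (i, j, k, w, q')) = if q' = q then nf π (i, j, k, w, .one) else 0 := by
  rw [lc, LinearMap.comp_apply, LinearEquiv.coe_coe, ← basisl_apply, Module.Basis.repr_self,
    Finsupp.linearCombination_single, one_smul]

theorem lc_mem (π : Par K) (q : Wb) (r : R π) : lc π q r ∈ R1 π := by
  have h : (⊤ : Submodule K (R π)) ≤ (R1 π).comap (lc π q) := by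
    rw [← (basisl π).span_eq, Submodule.span_le]
    rintro _ ⟨⟨i, j, k, w, q'⟩, rfl⟩
    rw [basisl_apply, SetLike.mem_coe, Submodule.mem_comap, lc_nfl]
    split_ifs
    · exact Submodule.subset_span ⟨(i, j, k, w, .one), rfl, rfl⟩
    · exact Submodule.zero_mem _
  exact h Submodule.mem_top

/-- **the left decomposition** -/
theorem sum_lc (π : Par K) (r : R π) : ∑ q, wq π q * lc π q r = r := by
  have h : (∑ q, (LinearMap.mulLeft K (wq π q)) ∘ₗ lc π q) = LinearMap.id := by
    refine (basisl π).ext fun ν => ?_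
    obtain ⟨i, j, k, w, q'⟩ := ν
    rw [basisl_apply, LinearMap.sum_apply, LinearMap.id_apply, Finset.sum_eq_single q']
    · rw [LinearMap.comp_apply, lc_nfl, if_pos rfl]
      rfl
    · intro q _ hq
      rw [LinearMap.comp_apply, lc_nfl, if_neg (Ne.symm hq), map_zero]
    · intro h
      exact absurd (Finset.mem_univ _) h
  have := LinearMap.congr_fun h r
  rw [LinearMap.sum_apply] at this
  exact this

/-- on `w_q * r1` the components are the obvious ones -/
theorem lc_wq_mul (π : Par K) (q q' : Wb) {r : R π} (hr : r ∈ R1 π) :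
    lc π q (wq π q' * r) = if q' = q then r else 0 := by
  have h : R1 π ≤ LinearMap.eqLocus ((lc π q) ∘ₗ (LinearMap.mulLeft K (wq π q')))
      (if q' = q then LinearMap.id else 0) := by
    rw [R1, Submodule.span_le]
    rintro _ ⟨⟨i, j, k, w, q1⟩, rfl, rfl⟩
    show lc π q (nfl π (i, j, k, w, q')) = _
    rw [lc_nfl]
    split_ifs
    · rfl
    · rfl
  have := h hr
  rw [LinearMap.mem_eqLocus] at this
  rw [show lc π q (wq π q' * r) = ((lc π q) ∘ₗ (LinearMap.mulLeft K (wq π q'))) r from rfl, this]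
  split_ifs
  · rfl
  · rfl

/-- uniqueness of the left decomposition -/
theorem lc_sum (π : Par K) (f : Wb → R π) (hf : ∀ q, f q ∈ R1 π) (q : Wb) :
    lc π q (∑ q', wq π q' * f q') = f q := by
  rw [map_sum, Finset.sum_eq_single q]
  · rw [lc_wq_mul π q q (hf q), if_pos rfl]
  · intro q' _ h
    rw [lc_wq_mul π q q' (hf q'), if_neg h]
  · intro h
    exact absurd (Finset.mem_univ _) h




/-! ### gradings -/




end Crest.Agent.R186.PBW128
end
private theorem rz_9091abed32 : type_of% @_root_.Crest.Agent.R186.PBW128.scq.eq_1 := @_root_.Crest.Agent.R186.PBW128.scq.eq_1 -- L22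
end

-- ▼ part R186/PBWlD_128
section

/-!
Row 186 (A), helper128: the differential in the LEFT normal form of `R''`.
`D (w_q r) = w_q D r`; `del q = lc q ∘ D`; `D r = ∑ q, w_q * del q r`; `D` in left components;
`D^2 = 0` in left components; degrees; right linearity over `R1 = R'`.
-/

set_option autoImplicit false
set_option linter.unusedSectionVars false

noncomputable section

namespace Crest.Agent.R186.PBW128

open Crest.Agent.R186.DefsQ830
open Crest.Agent.R186.Der580 (D D_X D_mul D_one D_D)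
open Crest.Agent.R186.C2b44 (kill kill_nf kill_kill)

variable {K : Type} [Field K]







/-! ### `R1 = R'` as a subalgebra, components are right `R'`-linear -/

theorem kill_of_mem (π : Par K) {r : R π} (hr : r ∈ R1 π) : kill π r = r := by
  have h : R1 π ≤ LinearMap.eqLocus (kill π).toLinearMap LinearMap.id := by
    rw [R1, Submodule.span_le]
    rintro _ ⟨ν, hν, rfl⟩
    show kill π (nf π ν) = nf π ν
    rw [kill_nf]
    exact if_pos hν
  exact h hr

theorem lc_one (π : Par K) (r : R π) : lc π .one r = kill π r := by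
  conv_rhs => rw [← sum_lc π r]
  rw [map_sum, Finset.sum_eq_single .one]
  · rw [wq_one, one_mul, kill_of_mem π (lc_mem π _ r)]
  · intro q _ hq
    rw [map_mul, C2b44.kill_wq, if_neg hq, zero_mul]
  · intro h; exact absurd (Finset.mem_univ _) h

theorem mem_R1_iff (π : Par K) {r : R π} : r ∈ R1 π ↔ kill π r = r := by
  constructor
  · exact kill_of_mem π
  · intro h
    rw [← h, ← lc_one]
    exact lc_mem π _ r






/-- helper296's components are the same -/
theorem lc_eq_lq (π : Par K) (q : Wb) (r : R π) : lc π q r = WLF296.lq π q r := by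
  have h := WLF296.sum_lq π r
  conv_lhs => rw [h]
  rw [lc_sum π _ (fun q => (mem_R1_iff π).2 (WLF296.kill_lq π q r))]

/-! ### structure constants of `W` -/










/-! ### the differential in left components -/

/-- `δ_q = lc q ∘ D` -/
def del (π : Par K) (q : Wb) : R π →ₗ[K] R π := lc π q ∘ₗ D π








/-! ### degrees -/

theorem lc_mem_pz (π : Par K) {P A C : ℤ} {r : R π} (hr : r ∈ C2b362.pz π P A C) (q : Wb) :
    lc π q r ∈ C2b362.pz π P A (C - wC q.word) := by
  rw [lc_eq_lq]
  exact WLF296.lq_mem π hr q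


theorem lc_mem_pcZ (π : Par K) {P A C : ℤ} {r : R π} (hr : r ∈ Win810.pcZ π P A C) (q : Wb) :
    lc π q r ∈ Win810.pcZ π P A (C - wC q.word) := by
  rw [KOS296.pcZ_eq_pz] at hr ⊢
  exact lc_mem_pz π hr q



end Crest.Agent.R186.PBW128
end
end

-- ▼ part R186/C2kc_122
section

/-!
Row 186, half (A), leaf A.C2s (helper122): the part `KK` of helper468's `C2D`, concrete:
`E = KHc186.CEr π s hs`, `A = (WR π).dga`, `pi = C2W655.piW π`, `KK = KKc π s hs`.
-/

set_option autoImplicit false
set_option linter.style.haveILetI false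
set_option linter.unusedSectionVars false

noncomputable section

namespace Crest.Agent.R186.C2k122

open Hat827 Win810 Frame515 Res255 KH186 SExt44
open DefsQ830 PBW128 C2b44 Cells221 WL221 SM890 KHc186 C2W655 C1R808

variable {K : Type} [Field K] (π : Par K)

/-! ### `wq pi` -/

theorem nf_mul_pi (i j k : ℕ) (w : List E) (q : Wb) :
    nf π (i, j, k, w, q) * wq π .pi = if q = .one then nf π (i, j, k, w, .pi) else 0 := by
  rw [mul_pi_eq, zc_nf]
  split_ifs with h
  · exact (SM890.nf_eq π i j k w .pi).symm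
  · rw [zero_mul]

/-- **`wq pi` is normal** -/
theorem mul_pi_nor (r : R π) : r * wq π .pi = wq π .pi * lc π .pi (r * wq π .pi) := by
  refine WLF296.ext_nf π (φ := LinearMap.mulRight K (wq π .pi))
    (ψ := LinearMap.mulLeft K (wq π .pi) ∘ₗ lc π .pi ∘ₗ LinearMap.mulRight K (wq π .pi)) ?_ r
  intro i j k w q
  change nf π (i, j, k, w, q) * wq π .pi =
    wq π .pi * lc π .pi (nf π (i, j, k, w, q) * wq π .pi)
  rw [nf_mul_pi]
  split_ifs with h
  · rw [lc_eq_lq, WLF296.lq_nf, if_pos rfl, mul_smul_comm, WLF296.wq_nf, smul_smul,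
      inv_mul_cancel₀ (WLF296.sg'_ne π .pi i j w), one_smul]
  · rw [map_zero, mul_zero]

theorem mul_pi_zero (r : R π) : r * wq π .pi = 0 ↔ kill π r = 0 := by
  rw [kill_eq_zc]
  constructor
  · intro h
    rw [← zc_pi_mul_pi, h, map_zero]
  · intro h
    rw [mul_pi_eq, h, zero_mul]

/-! ### window form -/

variable {π}

/-- entries -/
theorem mul_piW_zero {a : (WR π).Win} : a * piW π = 0 ↔ ∀ i j, prL π (en a i j) = 0 := by
  constructor
  · intro h i j
    rw [prL_eq_zero, ← mul_pi_zero, ← en_mul_piW, h, en_zero]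
  · intro h
    refine en_ext fun i j => ?_
    rw [en_mul_piW, en_zero, mul_pi_zero, ← prL_eq_zero]
    exact h i j

theorem e_piW (o : DefsQ830.Ob) :
    WD.e (w := WR π) o * piW π = piW π * WD.e (w := WR π) o := by
  refine en_ext fun i j => ?_
  rw [en_mul_piW, en_piW_mul]
  have h : en (WD.e (w := WR π) o) i j = if o = i ∧ o = j then 1 else 0 :=
    WD.ws_apply (w := WR π) _ _ _ _ _ _
  rw [h]
  split_ifs
  · rw [one_mul, mul_one]
  · rw [zero_mul, mul_zero]

/-- **normality in the window** -/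
theorem nor_piW (a : (WR π).Win) : ∃ a' : (WR π).Win, a * piW π = piW π * a' := by
  have h : ∀ i j : DefsQ830.Ob, lc π .pi (en a i j * wq π .pi) ∈ (WR π).E i j := by
    intro i j
    have key : (WR π).E i j ≤ ((WR π).E i j).comap
        (lc π .pi ∘ₗ LinearMap.mulRight K (wq π .pi)) := by
      refine iSup_le fun C => ?_
      intro r hr
      refine WD.q_le (w := WR π) i j C ?_
      have h1 : (show R π from r) * wq π .pi ∈ pcZ π (((WR π).P i - (WR π).P j) + 0)
          (((WR π).A i - (WR π).A j) + 0) (C + (dpi : ℕ)) := pcZ_mul π hr (pi_mem π)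
      have h2 := lc_mem_pcZ π h1 .pi
      rw [add_zero, add_zero, show C + ((dpi : ℕ) : ℤ) - (wC Wb.pi.word : ℕ) = C by
        rw [show dpi = wC Wb.pi.word from rfl]; ring] at h2
      exact h2
    exact key (a.2 i j)
  refine ⟨⟨Matrix.of fun i j => lc π .pi (en a i j * wq π .pi), h⟩, en_ext fun i j => ?_⟩
  rw [en_mul_piW, en_piW_mul]
  exact mul_pi_nor π (en a i j)

/-! ### the data of the cells -/

variable (π) (s : ℕ) (hs : 5 ≤ s)



theorem c0_mem_q (c c' : Cell) :
    c0 π c c' ∈ (WR π).q (oc c) (oc c') ((cdeg c : ℤ) - cdeg c' - 1) := by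
  change c0 π c c' ∈ pcZ π ((((oc c).1.val : ℕ) : ℤ) - (((oc c').1.val : ℕ) : ℤ))
    ((((oc c).2.val : ℕ) : ℤ) - (((oc c').2.val : ℕ) : ℤ)) _
  rw [oc_P, oc_P, oc_A, oc_A, show (1 + cP c - (1 + cP c')) = cP c - cP c' by ring]
  exact c0_mem π c c'




/-- idempotents -/
def ecc (c : Cell) : (WR π).dga.C := WD.e (w := WR π) (oc c)


variable {π s hs}


theorem ecc_mem (c : Cell) : ecc π c ∈ (WR π).dga.G 0 := WD.e_mem (w := WR π) _

theorem ecc_idem (c : Cell) : ecc π c * ecc π c = ecc π c := WD.e_mul_e (w := WR π) _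


theorem ecc_pi (c : Cell) : ecc π c * (show (WR π).dga.C from piW π) =
    (show (WR π).dga.C from piW π) * ecc π c := e_piW _








theorem norc (a : (WR π).dga.C) : ∃ a' : (WR π).dga.C,
    a * (show (WR π).dga.C from piW π) = (show (WR π).dga.C from piW π) * a' := nor_piW a

end Crest.Agent.R186.C2k122
end
end

-- ▼ part R186/C2T_371
section

/-!
Row 186, half (A), (c2) (helper371): the joint instance of helper468's `C2D` on the concrete objects
(`KK` part: helper122, `H` part: helper302), and (iii) with no hypothesis left.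
-/

set_option autoImplicit false
set_option linter.style.haveILetI false
set_option linter.unusedSectionVars false

noncomputable section

open MulOpposite

namespace Crest.Agent.R186.C2T371

open Hat827 Hat827.DGA Frame515 Res255 FinV988 FinD988 SqF124 C2s468 C2b468 C2j468 Adapt186
open DefsQ830 PBW128 C2b44 Cells221 WL221 C2W655 Win810 SM890 KHc302

variable {K : Type} [Field K] (π : DefsQ830.Par K) (s : ℕ) (hs : 5 ≤ s)

/-- the lift of the coefficients of the cells -/
def LF : C2k122.Lf (bdM π s (two_le hs)) (CEr π s hs) where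
  sur hb := pcL_lift hb
  c0 := c0 π
  c0_mem := C2k122.c0_mem_q π
  c0_q _ _ := rfl

/-- generators of `KK` -/
def u (c : Cell) : (CEr π s hs).KK := C2k122.u (bdM π s (two_le hs)) (CEr π s hs) c

theorem isU : C2h302.IsU (u π s hs) := fun _ _ _ => rfl

/-- **the instance** -/
def c2d : C2fin468.Inp π s hs (welR π) where
  ev := C2h302.evC π s hs
  ev_l := C2h302.evC_l
  ev_D := C2h302.evC_D
  ev_deg := C2h302.evC_deg
  ka := Cell
  cd := cdeg
  u := u π s hs
  u_mem c := C2k122.u_mem' (B := bdM π s (two_le hs)) (E := CEr π s hs) c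
  ec := C2k122.ecc π
  ec_mem := C2k122.ecc_mem
  ec_idem := C2k122.ecc_idem
  ec_u c := C2k122.aL_ec (B := bdM π s (two_le hs)) (E := CEr π s hs) c
  ec_pi := C2k122.ecc_pi
  cc := C2k122.cw (LF π s hs)
  cc_mem c c' := C2k122.cw_mem (LF π s hs) c c'
  cc_l c c' := C2k122.cw_left (LF π s hs) c c'
  cc_r c c' := C2k122.cw_right (LF π s hs) c c'
  u_d c := C2k122.u_d' (LF π s hs) c
  K1 hx := C2k122.K1' (LF π s hs) hx
  K2 _ ha h c := C2k122.mul_piW_zero.2 fun i j =>
    C2k122.K2' (B := bdM π s (two_le hs)) (E := CEr π s hs) ha h c i j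
  K3 _ c h := C2k122.K3' (B := bdM π s (two_le hs)) (E := CEr π s hs)
    (C2k122.mul_piW_zero.1 h) c
  nor := C2k122.norc
  H0 η h := C2h302.H0 (isU π s hs) η h
  H1 k c m hm := C2h302.H1 (isU π s hs) k c m hm
  H2 c η := C2h302.H2 (isU π s hs) c η
  PM := prLM π s (two_le hs)
  PH := C2h302.PH π s hs

/-- **(iii) over `L''`** -/
theorem c3 {Y : RCells (WR π).dga} (R : RRes Y (DM π s (two_le hs))) (k : ℤ) :
    AcIff492.CE (tY Y (resL (HmI π s (two_le hs)) (yL (CEr π s hs).toIn)))
      (Dual560.GCd (HG (CEr π s hs).toIn)) R.lo k (pmap (c2d π s hs) R) :=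
  C2fin468.c3 rfl (c2d π s hs) R k


end Crest.Agent.R186.C2T371
end
end

-- ▼ part R186/C1n_154
section

/-!
Row 186 (A), leaf (c1) (helper154), entries: the components `muE q : M → R'` of `M = ⊕_q R' · o_q`
against the left normal form `R'' = ⊕_q wq q * R'`.
-/

set_option autoImplicit false
set_option linter.unusedSimpArgs false

noncomputable section

namespace Crest.Agent.R186.C1N154

open Crest.Agent.R186.DefsQ830 Crest.Agent.R186.PBW128 Crest.Agent.R186.SM890
open Crest.Agent.R186.WL221 Crest.Agent.R186.C2b44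
open Crest.Agent.R186.WLF296 (lev lq)

variable {K : Type} [Field K] (π : Par K)

/-- linear order on the six letters -/
def ix : Wb → ℕ
  | .one => 0
  | .y s => 1 + s.1
  | .yb s => 3 + s.1
  | .pi => 5

/-- the six letters -/
def le : ℕ → Wb
  | 0 => .one
  | 1 => .y 0
  | 2 => .y 1
  | 3 => .yb 0
  | 4 => .yb 1
  | _ => .pi

theorem ix_le {j : ℕ} (hj : j < 6) : ix (le j) = j := by
  have : j = 0 ∨ j = 1 ∨ j = 2 ∨ j = 3 ∨ j = 4 ∨ j = 5 := by omega
  rcases this with rfl | rfl | rfl | rfl | rfl | rfl <;> rfl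

theorem le_ix (q : Wb) : le (ix q) = q := by
  cases q with
  | one => rfl
  | y s => rcases fin2 s with rfl | rfl <;> rfl
  | yb s => rcases fin2 s with rfl | rfl <;> rfl
  | pi => rfl

theorem ix_lt (q : Wb) : ix q < 6 := by
  cases q with
  | one => simp [ix]
  | y s => have := s.2; simp only [ix]; omega
  | yb s => have := s.2; simp only [ix]; omega
  | pi => simp [ix]


theorem lev_mono {q q' : Wb} (h : ix q ≤ ix q') : lev q ≤ lev q' := by
  rcases q with _ | s | s | _ <;> rcases q' with _ | s' | s' | _ <;>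
    simp only [ix, lev] at * <;> omega

theorem sum_ix {V : Type*} [AddCommMonoid V] (f : Wb → V) :
    ∑ q, f q = ∑ j ∈ Finset.range 6, f (le j) := by
  rw [C2W655.sum_Wb]
  simp only [Finset.sum_range_succ, Finset.sum_range_zero, zero_add, le]

/-- the table -/
theorem tab6 (w q q' : Wb) (h : ix q' ≤ ix q) (hd : C1R808.dk2 π w q' ≠ 0)
    (ht : C1R808.dt2 w q' = q) : w = .one ∧ q' = q := by
  cases w with
  | one => exact ⟨rfl, ht⟩
  | y s =>
    exfalso
    subst ht
    rcases fin2 s with rfl | rfl <;> rcases q' with _ | s' | s' | _ <;>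
      (try rcases fin2 s' with rfl | rfl) <;>
      simp [C1R808.dk2, C1R808.dt2, dk, dt, ix] at hd h
  | yb s =>
    exfalso
    subst ht
    rcases fin2 s with rfl | rfl <;> rcases q' with _ | s' | s' | _ <;>
      (try rcases fin2 s' with rfl | rfl) <;>
      simp [C1R808.dk2, C1R808.dt2, dk, dt, ix] at hd h
  | pi =>
    exfalso
    subst ht
    rcases q' with _ | s' | s' | _ <;> (try rcases fin2 s' with rfl | rfl) <;>
      simp [C1R808.dk2, C1R808.dt2, dk, dt, ix] at hd h

/-- the diagonal table -/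
theorem tab7 (q q' : Wb) (h : ix q' ≤ ix q) :
    C1R808.dk2 π q q' = if q' = q then 1 else 0 := by
  rcases q with _ | s | s | _ <;> rcases q' with _ | s' | s' | _ <;>
    (try rcases fin2 s with rfl | rfl) <;> (try rcases fin2 s' with rfl | rfl) <;>
    simp [C1R808.dk2, dk, ix] at h ⊢

theorem dt_self (q : Wb) : C1R808.dt2 q q = .one := by
  rcases q with _ | s | s | _ <;> (try rcases fin2 s with rfl | rfl) <;>
    simp [C1R808.dt2, dt]

/-- the components of `M` in `R''` -/
def mcM (q : Wb) : MM π →ₗ[K] R π := (C1R808.mc π q : N K →ₗ[K] R π)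

/-- **the components of `M`** in `R'` -/
def muE (q : Wb) : MM π →ₗ[K] RL π := (prL π).toLinearMap ∘ₗ mcM π q

variable {π}

theorem val_Z0 (z : RL π) : z.1 ∈ C1R808.Z0 π := by
  have h : kill π z.1 = z.1 := z.2
  rw [← h, C2W655.kill_eq_zc]
  exact C1R808.zc_mem π _ _

theorem kill_Z0 {r : R π} (h : r ∈ C1R808.Z0 π) : kill π r = r := by
  rw [C2W655.kill_eq_zc, C1R808.zc_Z0 π .one h, if_pos rfl]

theorem muE_val (q : Wb) (m : MM π) : (muE π q m).1 = mcM π q m :=
  kill_Z0 (C1R808.mc_mem π q m)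

theorem sum_muE (m : MM π) : ∑ q, oM π q (muE π q m).1 = m := by
  simp only [muE_val]
  exact C1R808.mc_sum π m

/-- components of `r · o_q'` up to the level of `q'` -/
theorem muE_oM (q q' : Wb) (h : ix q' ≤ ix q) (r : R π) :
    muE π q (oM π q' r) = if q' = q then prL π r else 0 := by
  have e : (C1R808.mc π q) (repM π r (oo K q')) = if q' = q then C1R808.zc π .one r else 0 := by
    rw [C1R808.repM_eq, map_sum, Finset.sum_eq_single .one]
    · rw [map_smul, C1R808.mc_repM π q _ (C1R808.zc_mem π _ r)]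
      change (1 : K) • (if q' = q then _ else _) = _
      rw [one_smul]
    · intro w _ hw
      rw [map_smul, C1R808.mc_repM π q _ (C1R808.zc_mem π _ r)]
      by_cases hd : C1R808.dk2 π w q' = 0
      · rw [hd, zero_smul]
      by_cases ht : C1R808.dt2 w q' = q
      · exact absurd (tab6 π w q q' h hd ht).1 hw
      · rw [if_neg ht, smul_zero]
    · intro h; exact absurd (Finset.mem_univ _) h
  change prL π ((C1R808.mc π q) (repM π r (oo K q'))) = _
  rw [e]
  split_ifs
  · rw [← C2W655.kill_eq_zc, prL_kill]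
  · exact map_zero _

theorem muE_oM' (q q' : Wb) (z : RL π) :
    muE π q (oM π q' z.1) = if q' = q then z else 0 := by
  change prL π ((C1R808.mc π q) (repM π z.1 (oo K q'))) = _
  rw [C1R808.mc_repM π q q' (val_Z0 z)]
  split_ifs
  · exact prL_inL z
  · exact map_zero _

theorem eq_zero_of_muE {m : MM π} (h : ∀ q, muE π q m = 0) : m = 0 := by
  rw [← sum_muE m]
  refine Finset.sum_eq_zero fun q _ => ?_
  rw [h q]
  exact map_zero _

/-- left action on the leading component -/
theorem muE_rep (q : Wb) (a : R π) {m : MM π} (h : ∀ q', ix q < ix q' → muE π q' m = 0) :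
    muE π q (repM π a m : MM π) = prL π a * muE π q m := by
  have e : (repM π a m : MM π) = ∑ q', oM π q' (a * (muE π q' m).1) := by
    conv_lhs => rw [← sum_muE m]
    refine (map_sum (repM π a) _ _).trans ?_
    exact Finset.sum_congr rfl fun q' _ => smul_oM π q' a _
  rw [e, map_sum, Finset.sum_eq_single q]
  · rw [muE_oM q q le_rfl, if_pos rfl, map_mul, prL_inL]
  · intro q' _ hq
    by_cases hi : ix q' ≤ ix q
    · rw [muE_oM q q' hi, if_neg hq]
    · rw [h q' (by omega)]
      change muE π q (oM π q' (a * 0)) = 0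
      rw [mul_zero, map_zero, map_zero]
  · intro h; exact absurd (Finset.mem_univ _) h

/-- differential on the leading component -/
theorem muE_D (q : Wb) {m : MM π} (h : ∀ q', ix q < ix q' → muE π q' m = 0) :
    muE π q (dMM π m) = DL π (muE π q m) := by
  have e : dMM π m = ∑ q', oM π q' (Der580.D π (muE π q' m).1) := by
    conv_lhs => rw [← sum_muE m]
    rw [map_sum]
    exact Finset.sum_congr rfl fun q' _ => dMM_oM π q' _
  rw [e, map_sum, Finset.sum_eq_single q]
  · rw [muE_oM q q le_rfl, if_pos rfl, DL_apply]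
  · intro q' _ hq
    by_cases hi : ix q' ≤ ix q
    · rw [muE_oM q q' hi, if_neg hq]
    · rw [h q' (by omega)]
      change muE π q (oM π q' (Der580.D π 0)) = 0
      rw [map_zero, map_zero, map_zero]
  · intro h; exact absurd (Finset.mem_univ _) h

/-- degrees -/
theorem wC_lev_tab (w q q' : Wb) (hd : C1R808.dk2 π w q' ≠ 0) (ht : C1R808.dt2 w q' = q) :
    wC w.word + wC q.word = wC q'.word := by
  subst ht
  rcases w with _ | s | s | _ <;> rcases q' with _ | s' | s' | _ <;>
    (try rcases fin2 s with rfl | rfl) <;> (try rcases fin2 s' with rfl | rfl) <;>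
    simp [C1R808.dk2, C1R808.dt2, dk, dt, Wb.word, wC, Gen.dC] at hd ⊢

theorem muE_mem (s : ℕ) (q : Wb) {P A C : ℤ} {m : MM π} (hm : m ∈ pcM π s P A C) :
    muE π q m ∈ pcL π (P + 1) A (C - s + wC q.word) := by
  refine pcM_ind π s (Q := (pcL π (P + 1) A (C - s + wC q.word)).comap (muE π q)) ?_ hm
  intro q' t ht
  change prL π ((C1R808.mc π q) (repM π t (oo K q'))) ∈ pcL π (P + 1) A (C - s + wC q.word)
  refine prL_mem ?_
  rw [C1R808.repM_eq, map_sum]
  refine Submodule.sum_mem _ fun w _ => ?_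
  rw [map_smul, C1R808.mc_repM π q _ (C1R808.zc_mem π _ t)]
  by_cases hd : C1R808.dk2 π w q' = 0
  · rw [hd, zero_smul]; exact Submodule.zero_mem _
  refine Submodule.smul_mem _ _ ?_
  split_ifs with h
  · have h1 := wC_lev_tab w q q' hd h
    have h2 := C1R808.zc_pcZ π w ht
    have e : (C - s + wC q'.word : ℤ) - wC w.word = C - s + wC q.word := by
      rw [← h1]; push_cast; ring
    rwa [e] at h2
  · exact Submodule.zero_mem _

theorem oM_mem (s : ℕ) (q : Wb) {P A C : ℤ} {z : RL π}
    (hz : z ∈ pcL π (P + 1) A (C - s + wC q.word)) : oM π q z.1 ∈ pcM π s P A C :=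
  mem_pcM π s q hz (by ring)

/-! ### the right action of `wq` -/

variable (π)

/-- `tau (Tq q) (wq q) = sg q • wq q` -/
def sgq (t : Tor K) : Wb → K
  | .one => 1
  | .y s => tw t (.y s)
  | .yb s => tw t (.yb s)
  | .pi => tw t (.y 0) * tw t (.y 1)

theorem tau_wq (t : Tor K) (q : Wb) : tau π t (wq π q) = sgq t q • wq π q := by
  cases q with
  | one => rw [wq_one, map_one]; simp [sgq]
  | y s => rw [wq_y, tau_X]; rfl
  | yb s => rw [wq_yb, tau_X]; rfl
  | pi => rw [wq_pi, map_mul, tau_X, tau_X, smul_mul_smul_comm]; rfl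

/-- the unit of the layer `q` -/
def ct (q : Wb) : K := sgq (Tq π q) q

theorem ct_ne (q : Wb) : ct π q ≠ 0 := by
  cases q with
  | one => exact one_ne_zero
  | y s => exact SM890.tw_ne (Tq π (.y s)) (.y s)
  | yb s => exact SM890.tw_ne (Tq π (.yb s)) (.yb s)
  | pi => exact mul_ne_zero (SM890.tw_ne (Tq π .pi) (.y 0)) (SM890.tw_ne (Tq π .pi) (.y 1))

variable {π}

theorem rho_wq (q : Wb) {m : MM π} (h : ∀ q', ix q < ix q' → muE π q' m = 0) (x : R π) :
    (rho π (wq π q * x) m : MM π) = ct π q • soc π ((muE π q m).1 * x) := by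
  have e : (rho π (wq π q) m : MM π) = ct π q • soc π (muE π q m).1 := by
    conv_lhs => rw [← sum_muE m]
    refine (map_sum (rho π (wq π q)) _ _).trans ?_
    rw [Finset.sum_eq_single q]
    · refine (op_smul_oM π q (wq π q) _).trans ?_
      rw [tau_wq, mul_smul_comm, map_smul]
      change _ • repM π ((muE π q m).1 * wq π q) (oo K q) = _
      rw [map_mul, Module.End.mul_apply, C1R808.repM_wq, tab7 π q q le_rfl, if_pos rfl, one_smul,
        dt_self]
      rfl
    · intro q' _ hq
      by_cases hi : ix q' ≤ ix q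
      · refine (op_smul_oM π q' (wq π q) _).trans ?_
        rw [tau_wq, mul_smul_comm, map_smul]
        change _ • repM π ((muE π q' m).1 * wq π q) (oo K q') = _
        rw [map_mul, Module.End.mul_apply, C1R808.repM_wq, tab7 π q q' hi, if_neg hq, zero_smul,
          map_zero]
        exact smul_zero _
      · rw [h q' (by omega)]
        change rho π (wq π q) (oM π q' 0) = _
        rw [map_zero]
        exact map_zero (rho π (wq π q))
    · intro h; exact absurd (Finset.mem_univ _) h
  refine (rho_mul π (wq π q) x m).trans ?_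
  refine (congrArg (rho π x) e).trans ?_
  refine (map_smul (rho π x) _ _).trans ?_
  exact congrArg (fun y : MM π => ct π q • y) (soc_right π x _)

end Crest.Agent.R186.C1N154
end
private theorem rz_5d70efaa20 : type_of% @_root_.Crest.Agent.R186.C1N154.ix.eq_1 := @_root_.Crest.Agent.R186.C1N154.ix.eq_1 -- L24
private theorem rz_7c12516bf4 : type_of% @_root_.Crest.Agent.R186.C1N154.le.eq_1 := @_root_.Crest.Agent.R186.C1N154.le.eq_1 -- L31
private theorem rz_2c0d5b78c3 : type_of% @_root_.Crest.Agent.R186.C1N154.sgq.eq_1 := @_root_.Crest.Agent.R186.C1N154.sgq.eq_1 -- L233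
end

-- ▼ part R186/C1w_154
section

/-!
Row 186 (A), leaf (c1) (helper154), windows: the instance of helper134's `Lay` for
`M` against `L''`, with layers `tL` against `L`.

`lay π s hs R : Lay Y (MW π s hs).toLM (resL (prHm π) (tLW π s).toLM) L'' L`.
-/

set_option autoImplicit false
set_option linter.style.haveILetI false
set_option linter.unusedSectionVars false

noncomputable section

open MulOpposite

namespace Crest.Agent.R186.C1W154

open Hat827 Win810 Win810.WD Frame515 Res255 WBM163 FinV988 Core890 SExt44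
open Crest.Agent.R186.DefsQ830 Crest.Agent.R186.PBW128 Crest.Agent.R186.SM890
open Crest.Agent.R186.WL221 Crest.Agent.R186.C2b44 Crest.Agent.R186.C1N154 C1x134
open Crest.Agent.R186.WLF296 (lev lq)

variable {K : Type} [Field K]

/-! ### pairings from functionals -/

section pair

variable {A A' : DGA K} (h : Hm A A')

/-- `(z, l) ↦ v (z l)` -/
def pf {X : Type} [AddCommGroup X] [Module K X] [Module A.Cᵐᵒᵖ X] [IsScalarTower K A.Cᵐᵒᵖ X]
    (v : X →ₗ[K] K) : X →ₗ[K] A.C →ₗ[K] K where
  toFun n :=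
    { toFun := fun a => v (op a • n)
      map_add' := fun a b => by rw [op_add, add_smul, map_add]
      map_smul' := fun c a => by
        rw [op_smul, smul_assoc, map_smul, RingHom.id_apply] }
  map_add' n n' := by
    ext a
    change v (op a • (n + n')) = v (op a • n) + v (op a • n')
    rw [smul_add, map_add]
  map_smul' c n := by
    ext a
    change v (op a • (c • n)) = c • v (op a • n)
    rw [smul_comm, map_smul]

end pair

variable (π : Par K) (s : ℕ) (hs : 2 ≤ s)

/-! ### the `M` side -/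

theorem muE_E {i j : Ob} {m : MM π} (q : Wb) (hm : m ∈ E (tbOf (bdM π s hs)) i j) :
    muE π q m ∈ E (tLT π s) i j := by
  have h : E (tbOf (bdM π s hs)) i j ≤ (E (tLT π s) i j).comap (muE π q) := by
    refine iSup_le fun k x hx => ?_
    refine q_le_E (tLT π s) i j (k + wC q.word) ?_
    have h1 := muE_mem s q ((le_of_eq (q_tbOf (bdM π s hs) i j k)) hx)
    rw [show (k - s + wC q.word : ℤ) = k + wC q.word - s by ring] at h1
    exact (le_of_eq (q_tLT π s i j (k + wC q.word)).symm) h1
  exact h hm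

theorem oM_E {i j : Ob} {z : RL π} (q : Wb) (hz : z ∈ E (tLT π s) i j) :
    oM π q z.1 ∈ E (tbOf (bdM π s hs)) i j := by
  have h : E (tLT π s) i j ≤
      (E (tbOf (bdM π s hs)) i j).comap (oM π q ∘ₗ (RL π).val.toLinearMap) := by
    refine iSup_le fun k x hx => ?_
    refine q_le_E (tbOf (bdM π s hs)) i j (k - wC q.word) ?_
    have h1 := (le_of_eq (q_tLT π s i j k)) hx
    refine (le_of_eq (q_tbOf (bdM π s hs) i j (k - wC q.word)).symm) (oM_mem s q ?_)
    rw [show (k - wC q.word - s + wC q.word : ℤ) = k - s by ring]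
    exact h1
  exact h hz

/-- components of `M` -/
def muW (q : Wb) : (MW π s hs).X →ₗ[K] (tLW π s).X where
  toFun m := (⟨fun i j => muE π q (m.1 i j), fun i j => muE_E π s hs q (m.2 i j)⟩ : Xs (tLT π s))
  map_add' z z' := by
    apply Subtype.ext
    funext i j
    exact map_add (muE π q) _ _
  map_smul' c z := by
    apply Subtype.ext
    funext i j
    exact map_smul (muE π q) _ _

/-- `z ↦ z · o_q` -/
def nuW (q : Wb) : (tLW π s).X →ₗ[K] (MW π s hs).X where
  toFun z := (⟨fun i j => oM π q (show RL π from z.1 i j).1, fun i j => oM_E π s hs q (z.2 i j)⟩ :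
    Xs (tbOf (bdM π s hs)))
  map_add' z z' := by
    apply Subtype.ext
    funext i j
    exact map_add (oM π q ∘ₗ (RL π).val.toLinearMap) _ _
  map_smul' c z := by
    apply Subtype.ext
    funext i j
    exact map_smul (oM π q ∘ₗ (RL π).val.toLinearMap) _ _


variable {π s hs}

theorem muW_eq_zero {q : Wb} {m : (MW π s hs).X} :
    muW π s hs q m = 0 ↔ ∀ i j, muE π q (m.1 i j) = 0 :=
  ⟨fun h i j => congrFun (congrFun (congrArg Subtype.val h) i) j,
    fun h => Subtype.ext (funext fun i => funext fun j => h i j)⟩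

theorem muW_mem (q : Wb) {k : ℤ} {m : (MW π s hs).X} (hm : m ∈ (MW π s hs).gr k) :
    muW π s hs q m ∈ (tLW π s).gr (k + wC q.word) :=
  mem_grtL.2 fun i j => by
    have h1 := muE_mem s q ((mem_grM (bdM π s hs)).1 hm i j)
    rw [show (k - s + wC q.word : ℤ) = k + wC q.word - s by ring] at h1
    exact h1

theorem nuW_mem (q : Wb) {k : ℤ} {z : (tLW π s).X} (hz : z ∈ (tLW π s).gr k) :
    nuW π s hs q z ∈ (MW π s hs).gr (k - wC q.word) :=
  (mem_grM (bdM π s hs)).2 fun i j => by
    refine oM_mem s q ?_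
    rw [show (k - wC q.word - s + wC q.word : ℤ) = k - s by ring]
    exact mem_grtL.1 hz i j

theorem muW_nuW (q : Wb) (z : (tLW π s).X) : muW π s hs q (nuW π s hs q z) = z := by
  apply Subtype.ext
  funext i j
  exact (muE_oM' q q _).trans (if_pos rfl)

theorem muW_nuW' {q q' : Wb} (h : q' ≠ q) (z : (tLW π s).X) :
    muW π s hs q (nuW π s hs q' z) = 0 := by
  apply Subtype.ext
  funext i j
  exact (muE_oM' q q' _).trans (if_neg h)

theorem eq_zero_of_muW {m : (MW π s hs).X} (h : ∀ q, muW π s hs q m = 0) : m = 0 := by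
  apply Subtype.ext
  funext i j
  exact eq_zero_of_muE fun q => muW_eq_zero.1 (h q) i j

theorem muW_smul (q : Wb) (a : (WR π).dga.C) {m : (MW π s hs).X}
    (h : ∀ q', ix q < ix q' → muW π s hs q' m = 0) :
    muW π s hs q (a • m) = (prHm π).f a • muW π s hs q m := by
  apply Subtype.ext
  funext i j
  refine (map_sum (muE π q) (fun l : Ob => (repM π ((show (WR π).Win from a).1 i l)
    (m.1 l j) : MM π)) Finset.univ).trans ?_
  exact Finset.sum_congr rfl fun l _ => muE_rep q _ fun q' hq' => muW_eq_zero.1 (h q' hq') l j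

theorem muW_d (q : Wb) {m : (MW π s hs).X} (h : ∀ q', ix q < ix q' → muW π s hs q' m = 0) :
    muW π s hs q ((MW π s hs).d m) = (tLW π s).d (muW π s hs q m) := by
  apply Subtype.ext
  funext i j
  exact muE_D q fun q' hq' => muW_eq_zero.1 (h q' hq') i j

/-! ### the `L''` side -/

variable (π)

/-- entries of `lam` -/
def laE (q : Wb) : R π →ₗ[K] RL π := ct π q • ((prL π).toLinearMap ∘ₗ lq π q)

/-- entries of `rho` -/
def rhE (q : Wb) : RL π →ₗ[K] R π :=
  (ct π q)⁻¹ • ((LinearMap.mulLeft K (wq π q)) ∘ₗ (RL π).val.toLinearMap)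

theorem laE_apply (q : Wb) (r : R π) : laE π q r = ct π q • prL π (lq π q r) := rfl
theorem rhE_apply (q : Wb) (z : RL π) : rhE π q z = (ct π q)⁻¹ • (wq π q * z.1) := rfl

variable {π}

theorem laE_mem (q : Wb) {P A C : ℤ} {r : R π} (hr : r ∈ pcZ π P A C) :
    laE π q r ∈ pcL π P A (C - wC q.word) := by
  rw [laE_apply]
  refine Submodule.smul_mem _ _ (prL_mem ?_)
  rw [KOS296.pcZ_eq_pz] at hr ⊢
  exact WLF296.lq_mem π hr q

theorem wq_pcZ (q : Wb) : wq π q ∈ pcZ π 0 0 (wC q.word) := by
  have h := C2b44.nf_mem_pcZ π (0, 0, 0, [], q) (P := 0) (A := 0) (C := (wC q.word : ℤ))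
    rfl rfl (by simp [dCx])
  have e : nf π (0, 0, 0, [], q) = wq π q := by simp [nf, we_nil]
  rwa [e] at h

theorem rhE_mem (q : Wb) {P A C : ℤ} {z : RL π} (hz : z ∈ pcL π P A C) :
    rhE π q z ∈ pcZ π P A (C + wC q.word) := by
  rw [rhE_apply]
  refine Submodule.smul_mem _ _ ?_
  have h := pcZ_mul π (wq_pcZ q) hz
  rwa [zero_add, zero_add, add_comm] at h

theorem laE_rhE (q q' : Wb) (z : RL π) : laE π q (rhE π q' z) = if q' = q then z else 0 := by
  rw [laE_apply, rhE_apply, map_smul, WLF296.lq_wq π q' q z.2, map_smul]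
  by_cases h : q = q'
  · subst h
    rw [if_pos rfl, if_pos rfl, prL_inL, smul_smul, mul_inv_cancel₀ (ct_ne π q), one_smul]
  · rw [if_neg h, if_neg (Ne.symm h), map_zero, smul_zero, smul_zero]

theorem laE_D_rhE (q q' : Wb) (h : ix q ≤ ix q') (z : RL π) :
    laE π q (Der580.D π (rhE π q' z)) = if q' = q then DL π z else 0 := by
  have e : Der580.D π (wq π q' * z.1) = wq π q' * Der580.D π z.1 := by
    rw [Der580.D_mul, WLF296.D_wq, zero_mul, zero_add]
  rw [laE_apply, rhE_apply, map_smul, e, map_smul, WLF296.lq_wq_mul π q' q _ (lev_mono h),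
    map_smul]
  by_cases hq : q = q'
  · subst hq
    rw [if_pos rfl, if_pos rfl, prL_kill, smul_smul, mul_inv_cancel₀ (ct_ne π q), one_smul,
      DL_apply]
  · rw [if_neg hq, if_neg (Ne.symm hq), map_zero, smul_zero, smul_zero]

theorem sum_rhE (r : R π) : ∑ q, rhE π q (laE π q r) = r := by
  conv_rhs => rw [WLF296.sum_lq π r]
  refine Finset.sum_congr rfl fun q _ => ?_
  rw [laE_apply, map_smul, rhE_apply, smul_smul, mul_inv_cancel₀ (ct_ne π q), one_smul, prL_val,
    WLF296.kill_lq]

variable (π)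

/-- components of `L''` -/
def laW (q : Wb) : (WR π).Win →ₗ[K] (WL π).Win where
  toFun r := ⟨Matrix.of fun i j => laE π q (r.1 i j), fun i j => by
    have h : (WR π).E i j ≤ ((WL π).E i j).comap (laE π q) := by
      refine iSup_le fun k x hx => ?_
      exact WD.q_le (w := WL π) i j (k - wC q.word) (laE_mem q hx)
    exact h (r.2 i j)⟩
  map_add' z z' := by
    apply Subtype.ext
    ext i j : 2
    exact map_add (laE π q) _ _
  map_smul' c z := by
    apply Subtype.ext
    ext i j : 2
    exact map_smul (laE π q) _ _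

/-- the layer `wq q * L` -/
def rhW (q : Wb) : (WL π).Win →ₗ[K] (WR π).Win where
  toFun r := ⟨Matrix.of fun i j => rhE π q (r.1 i j), fun i j => by
    have h : (WL π).E i j ≤ ((WR π).E i j).comap (rhE π q) := by
      refine iSup_le fun k x hx => ?_
      exact WD.q_le (w := WR π) i j (k + wC q.word) (rhE_mem q hx)
    exact h (r.2 i j)⟩
  map_add' z z' := by
    apply Subtype.ext
    ext i j : 2
    exact map_add (rhE π q) _ _
  map_smul' c z := by
    apply Subtype.ext
    ext i j : 2
    exact map_smul (rhE π q) _ _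


variable {π}

theorem laW_mem (q : Wb) {k : ℤ} {r : (WR π).Win} (hr : r ∈ (WR π).G k) :
    laW π q r ∈ (WL π).G (k - wC q.word) := fun i j => laE_mem q (hr i j)

theorem rhW_mem (q : Wb) {k : ℤ} {r : (WL π).Win} (hr : r ∈ (WL π).G k) :
    rhW π q r ∈ (WR π).G (k + wC q.word) := fun i j => rhE_mem q (hr i j)

theorem laW_rhW (q q' : Wb) (r : (WL π).Win) :
    laW π q (rhW π q' r) = if q' = q then r else 0 := by
  by_cases hq : q' = q
  · rw [if_pos hq]
    apply Subtype.ext
    ext i j : 2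
    exact (laE_rhE q q' _).trans (if_pos hq)
  · rw [if_neg hq]
    apply Subtype.ext
    ext i j : 2
    exact (laE_rhE q q' _).trans (if_neg hq)

theorem laW_D_rhW (q q' : Wb) (h : ix q ≤ ix q') (r : (WL π).Win) :
    laW π q ((WR π).DW (rhW π q' r)) = if q' = q then (WL π).DW r else 0 := by
  by_cases hq : q' = q
  · rw [if_pos hq]
    apply Subtype.ext
    ext i j : 2
    exact (laE_D_rhE q q' h _).trans (if_pos hq)
  · rw [if_neg hq]
    apply Subtype.ext
    ext i j : 2
    exact (laE_D_rhE q q' h _).trans (if_neg hq)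

theorem sum_rhW (r : (WR π).Win) : ∑ q, rhW π q (laW π q r) = r := by
  apply Subtype.ext
  ext i j : 2
  let ev : (WR π).Win →ₗ[K] (WR π).S :=
    { toFun := fun x => x.1 i j
      map_add' := fun _ _ => rfl
      map_smul' := fun _ _ => rfl }
  exact (map_sum ev (fun q => rhW π q (laW π q r)) Finset.univ).trans (sum_rhE (π := π) (r.1 i j))

/-! ### the pairing -/

theorem rho_rhE (q : Wb) {m : MM π} (h : ∀ q', ix q < ix q' → muE π q' m = 0) (z : RL π) :
    (rho π (rhE π q z) m : MM π) = socE π (muE π q m * z) := by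
  have e := rho_wq q h z.1
  have e2 : rho π (rhE π q z) = (ct π q)⁻¹ • rho π (wq π q * z.1) := by
    rw [rhE_apply, map_smul]
  refine (congrArg (fun f : N K →ₗ[K] N K => (f m : MM π)) e2).trans ?_
  change (ct π q)⁻¹ • (rho π (wq π q * z.1) m : MM π) = _
  refine (congrArg (fun y : MM π => (ct π q)⁻¹ • y) e).trans ?_
  exact inv_smul_smul₀ (ct_ne π q) _

theorem op_rhW_smul (q : Wb) {m : (MW π s hs).X}
    (h : ∀ q', ix q < ix q' → muW π s hs q' m = 0) (r : (WL π).Win) :
    (op (show (WR π).dga.C from rhW π q r) • m : (MW π s hs).X) =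
      socW π s hs (op (show (WL π).dga.C from r) • muW π s hs q m) := by
  apply Subtype.ext
  funext i j
  change (∑ l : Ob, (rho π (rhE π q (r.1 l j)) (m.1 i l) : MM π)) =
    socE π (∑ l : Ob, muE π q (m.1 i l) * (show RL π from r.1 l j))
  rw [map_sum]
  exact Finset.sum_congr rfl fun l _ =>
    rho_rhE q (fun q' hq' => muW_eq_zero.1 (h q' hq') i l) (show RL π from r.1 l j)

/-! ### the layers -/

section lay

variable {Y : RCells (WR π).dga} (R : RAug Y (DM π s hs))

/-- the functional of a cell -/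
def vf (σ : Y.ι) : (MW π s hs).X →ₗ[K] K := (show (MW π s hs).X →ₗ[K] K from R.v σ)

theorem vf_d (σ : Y.ι) (m : (MW π s hs).X) :
    vf R σ ((MW π s hs).d m) = ∑ τ ∈ Y.F (Y.s σ), vf R τ (Y.c τ σ • m) := by
  have h := congrArg (dev (MW π s hs).toLM m) (R.v_d σ)
  rw [dev_d, map_sum] at h
  exact h


/-- its restriction to the socle -/
def wf (σ : Y.ι) : (tLW π s).X →ₗ[K] K := vf R σ ∘ₗ socW π s hs

theorem wf_d (σ : Y.ι) (z : (tLW π s).X) :
    wf R σ ((tLW π s).d z) = ∑ τ ∈ Y.F (Y.s σ), wf R τ ((prHm π).f (Y.c τ σ) • z) := by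
  change vf R σ (socW π s hs ((tLW π s).d z)) = _
  rw [socW_d, vf_d]
  refine Finset.sum_congr rfl fun τ _ => ?_
  change _ = vf R τ (socW π s hs ((prHm π).f (Y.c τ σ) • z))
  rw [socW_l]

/-- the pairing of `M` with `L''` -/
def pM (σ : Y.ι) : (MW π s hs).X →ₗ[K] (WR π).dga.C →ₗ[K] K :=
  pf (A := (WR π).dga) (vf R σ)

theorem pM_apply (σ : Y.ι) (m : (MW π s hs).X) (a : (WR π).dga.C) :
    pM R σ m a = vf R σ (op a • m) := rfl

theorem pM_d (σ : Y.ι) (n : (MW π s hs).X) (a : (WR π).dga.C) :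
    pM R σ ((MW π s hs).d n) a + pM R σ n ((WR π).dga.D a) =
      ∑ τ ∈ Y.F (Y.s σ), pM R τ (Y.c τ σ • n) a := by
  simp only [pM_apply]
  rw [← map_add, add_comm, ← (MW π s hs).leibR, vf_d]
  refine Finset.sum_congr rfl fun τ _ => ?_
  rw [smul_comm]

/-- the pairing of `tL` with `L` -/
def pT (σ : Y.ι) : (tLW π s).X →ₗ[K] (WL π).dga.C →ₗ[K] K :=
  pf (A := (WL π).dga) (wf R σ)

theorem pT_apply (σ : Y.ι) (m : (tLW π s).X) (a : (WL π).dga.C) :
    pT R σ m a = wf R σ (op a • m) := rfl

theorem pT_d (σ : Y.ι) (n : (tLW π s).X) (a : (WL π).dga.C) :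
    pT R σ ((tLW π s).d n) a + pT R σ n ((WL π).dga.D a) =
      ∑ τ ∈ Y.F (Y.s σ), pT R τ ((prHm π).f (Y.c τ σ) • n) a := by
  simp only [pT_apply]
  rw [← map_add, add_comm, ← (tLW π s).leibR, wf_d]
  refine Finset.sum_congr rfl fun τ _ => ?_
  rw [smul_comm]

/-- 134's pairing of `M` with `L''` -/
def PM : Pa Y (MW π s hs).toLM (selfL (WR π).dga).toGC where
  lo := R.lo
  f σ := pM R σ
  f_d σ {_ _ n a} _ _ := pM_d R σ n a

/-- 134's pairing of `tL` with `L` -/
def PT : Pa Y (resL (prHm π) (tLW π s).toLM) (selfL (WL π).dga).toGC where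
  lo := R.lo
  f σ := pT R σ
  f_d σ {_ _ n a} _ _ := pT_d R σ n a


theorem pM_rho (σ : Y.ι) (q : Wb) {m : (MW π s hs).X}
    (h : ∀ q', ix q < ix q' → muW π s hs q' m = 0) (r : (WL π).Win) :
    pM R σ m (rhW π q r) = pT R σ (muW π s hs q m) r :=
  congrArg (vf R σ) (op_rhW_smul q h r)


/-- from the ℕ-indexed form of "all higher components vanish" -/
theorem high {j : ℕ} (hj : j < 6) {m : (MW π s hs).X}
    (h : ∀ i < 6, j < i → muW π s hs (le i) m = 0) (q' : Wb) (hq : ix (le j) < ix q') :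
    muW π s hs q' m = 0 := by
  rw [ix_le hj] at hq
  have h1 := h (ix q') (ix_lt q') hq
  rwa [le_ix] at h1

theorem le_ne {i j : ℕ} (hi : i < 6) (hj : j < 6) (h : i ≠ j) : le i ≠ le j := by
  intro h'
  apply h
  rw [← ix_le hi, h', ix_le hj]

/-- **134's layers** -/
def lay : Lay Y (MW π s hs).toLM (resL (prHm π) (tLW π s).toLM) (selfL (WR π).dga).toGC
    (selfL (WL π).dga).toGC where
  P := PM R
  P0 := PT R
  r := 6
  μ j := muW π s hs (le j)
  ν j := nuW π s hs (le j)
  lam j := laW π (le j)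
  rho j := rhW π (le j)
  c j := -(wC (le j).word : ℤ)
  e j := wC (le j).word
  hlo i _ := by
    change R.lo = R.lo + -(wC (le i).word : ℤ) + wC (le i).word
    ring
  μ_mem j _ {k n} hn := by
    rw [sub_neg_eq_add]
    exact muW_mem (le j) hn
  ν_mem j _ {k n} hn := nuW_mem (le j) hn
  zero {k n} _ h := eq_zero_of_muW fun q => by
    have h1 := h (ix q) (ix_lt q)
    rwa [le_ix] at h1
  μ_smul j hj {k l a n} _ _ h := muW_smul (le j) a (high hj h)
  μ_d j hj {k n} _ h := muW_d (le j) (high hj h)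
  μ_ν j _ {k n} _ := muW_nuW (le j) n
  μ_ν' j hj i hi hij {k n} _ := muW_nuW' (le_ne hj hi (by omega)) n
  lam_mem j _ {k s} hs := laW_mem (le j) hs
  rho_mem j _ {k s} hs := rhW_mem (le j) hs
  sum {k x} _ := ((sum_ix (fun q => rhW π q (laW π q x))).symm.trans (sum_rhW x)).symm
  lam_rho j _ {k x} _ := (laW_rhW (le j) (le j) x).trans (if_pos rfl)
  lam_d j _ {k x} _ := (laW_D_rhW (le j) (le j) le_rfl x).trans (if_pos rfl)
  lam_d' j hj i hij {k x} _ := by
    have hi : i < 6 := by omega
    refine (laW_D_rhW (le i) (le j) ?_ x).trans (if_neg (le_ne hj hi (by omega)))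
    rw [ix_le hi, ix_le hj]
    exact hij.le
  f_rho σ j hj {k l n x} _ _ h := pM_rho R σ (le j) (high hj h) x

/-- **step (2) of (c1)** -/
theorem ex_of_socle (h2 : (2 : K) = 0) (h : (PT R).Ex) : (PM R).Ex := (lay R).ex h2 h

end lay

end Crest.Agent.R186.C1W154
end
end

-- ▼ part R186/C1Z_154
section

/-!
Row 186 (A), leaf (c1), last line (helper154): `C1Q611.C1 π s hs R` from 328's Koszul data of `tL`.
-/

set_option autoImplicit false
set_option linter.unusedSectionVars false

noncomputable section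

open MulOpposite

namespace Crest.Agent.R186.C1Z154

open Hat827 Win810 Win810.WD Frame515 Res255 FinV988 Core890 C1x134 C1P611 C1b328
open Crest.Agent.R186.DefsQ830 Crest.Agent.R186.SM890 Crest.Agent.R186.WL221
open Crest.Agent.R186.C1W154

variable {K : Type} [Field K]

/-! ### the pairing `Y ⊗ A → D(T)` of a resolution is exact -/

section gen

variable {A : DGA K} {T : BM A A} {Y : RCells A}

/-- 328's functionals of an augmentation -/
def fn (R : RAug Y (DR T.toLM)) : Fn Y T where
  lo := R.lo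
  v σ := (show T.X →ₗ[K] K from R.v σ)
  v_d σ x := by
    have h := congrArg (dev T.toLM x) (R.v_d σ)
    rw [dev_d, map_sum] at h
    exact h

theorem off_L (R : RAug Y (DR T.toLM)) : Off (Z := T.toLM) (paL (fn R)) := by
  intro σ k l n z hn hz hne
  have h := T.smul_mem hn hz
  exact R.v_mem σ _ _ h (by
    intro h0
    apply hne
    change k + l + R.lo + Y.s σ = 0
    omega)

theorem evD_L (R : RAug Y (DR T.toLM)) :
    evD (Z := T.toLM) (paL (fn R)) = augR Y (DR T.toLM) R.v := by
  refine Finsupp.lhom_ext fun σ a => ?_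
  refine DR_ext fun z => ?_
  exact ((paL (fn R)).ev_single σ a z).trans
    (congrArg (dev T.toLM z) (augR_single Y (DR T.toLM) R.v σ (show A.C from a))).symm

/-- **exactness of `Y ⊗ A → D(T)`** -/
theorem ex_L (R : RRes Y (DR T.toLM)) (Q : PrL T.toLM) : (paL (fn R.toRAug)).Ex :=
  fun k => ex_of_ce (Z := T.toLM) (paL (fn R.toRAug)) (off_L R.toRAug) Q (by
    rw [evD_L]
    exact R.ex k)

/-- **(beta)** for a bimodule with Koszul data -/
theorem ex_T (Z : Kz A T) (R : RRes Y (DR T.toLM)) (Q : PrL T.toLM) (h2 : (2 : K) = 0) :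
    (paT (fn R.toRAug)).Ex := C1b328.beta (fn R.toRAug) Z h2 (ex_L R Q)

end gen

/-! ### (c1) -/

variable (π : Par K) (s : ℕ) (hs : 2 ≤ s) {Y : RCells (WR π).dga}

/-- (beta) for `tL`, in the form of the layers -/
theorem pt_ex (Z : Kz (WL π).dga (tLW π s)) (R : RRes Y (DM π s hs)) :
    (PT R.toRAug).Ex :=
  ex_T (Y := pushR (SM890.prHm π) Y) Z (C2N655.c2M π s hs R) (prLtL π s) π.two

/-- **(c1)**, 134's form -/
theorem pm_ex (Z : Kz (WL π).dga (tLW π s)) (R : RRes Y (DM π s hs)) :
    (PM R.toRAug).Ex := ex_of_socle R.toRAug π.two (pt_ex π s hs Z R)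

/-- **(c1)** from 328's Koszul data -/
theorem c1_of_kz (Z : Kz (WL π).dga (tLW π s)) (R : RRes Y (DM π s hs)) :
    C1Q611.C1 π s hs R :=
  (ex_iff_ce (Z := selfL (WR π).dga) (C1Q611.paOf (MW π s hs) R.toRAug)
    (C1Q611.paOf_off (MW π s hs) R.toRAug) (FinD988.prlSelf (GrP44.grR π))).1
    (pm_ex π s hs Z R)

end Crest.Agent.R186.C1Z154
end
end

-- ▼ part R186/HDz_186
section

/-!
Row 186 (A), leaf hD (helper186): `HD` of helper448's `EndF_448` from (c1), and from helper328's
Koszul data on `tL`.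
-/

set_option autoImplicit false
set_option linter.style.haveILetI false
set_option linter.unusedSectionVars false

noncomputable section

open MulOpposite

namespace Crest.Agent.R186.HD186

open Hat827 Hat827.DGA Frame515 Res255 FinV988
open Win810 DefsQ830 SM890 WL221 EndB448 EndF448

variable {K : Type} [Field K] {π : Par K} {s : ℕ} {hs : 5 ≤ s}

/-- **`HD` from (c1)** -/
theorem HD_of_c1 (hc : ∀ (Y : RCells (WR π).dga) (R : RRes Y (DM π s (KHc302.two_le hs))),
    R.lo = -(8 + (s : ℤ)) → (∀ σ, Y.e σ = 1) → C1Q611.C1 π s (KHc302.two_le hs) R)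
    (hV : PV π s hs) : HD hV := by
  obtain ⟨Y, R, h1, h2⟩ := exists_resDM π s (KHc302.two_le hs)
  exact HD_of_C1 rfl (C2T371.c2d π s hs) (fun _ _ => rfl) hV R (hc Y R h1 h2)

/-- **`HD` from the Koszul data on `tL`** -/
theorem HD_of_kz (Z : C1b328.Kz (WL π).dga (tLW π s)) (hV : PV π s hs) : HD hV :=
  HD_of_c1 (fun _ R _ _ => C1Z154.c1_of_kz π s (KHc302.two_le hs) Z R) hV

end Crest.Agent.R186.HD186
end
end

-- ▼ part R186/NulA_700

/-!
Row 186, half (A), tail (helper700): the null pair over `k0` from the two last open terms,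
`HM` (or `PV`) and helper328's Koszul data `Kz`.
-/

set_option autoImplicit false

namespace Crest.Agent.R186.NulA700

open Crest.Agent.R186 EndC560 SM890 WL221

/-- the null pair from `HM` and `Kz` -/
theorem nul_of (hM : EndF448.HM TopA226.par0 5 h55)
    (Z : C1b328.Kz (WL TopA226.par0).dga (tLW TopA226.par0 5)) :
    Nonempty (Spine700.Null.{0, 0} Spine700.k0) :=
  EndC560.nullA ⟨hM, Hfin654.ph _ _ _, HD186.HD_of_kz Z⟩


end Crest.Agent.R186.NulA700
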