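import Crest.Agent.R186.TB2_143

/-!
Row 186 (helper143): morphisms of dg modules, and what they do after tensoring with cells.
-/

set_option autoImplicit false
set_option linter.style.haveILetI false
set_option linter.unusedSectionVars false

open MulOpposite

namespace Crest.Agent.R186.TB143

open Frame515 Hat827

variable {K : Type} [Field K] {A B : DGA K}

theorem LM.two (N : LM A) (x : N.X) : x + x = 0 := by
  have h : x = (1 : A.C) • x := by rw [one_smul]
  rw [h, ← add_smul, A.two, zero_smul]

theorem RM.two (G : RM A) (x : G.X) : x + x = 0 := by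
  have h : x = op (1 : A.C) • x := by rw [op_one, one_smul]
  rw [h, ← add_smul, ← op_add, A.two, op_zero, zero_smul]

/-- morphisms of left modules -/
structure LMHom (N N' : LM A) extends GCHom N.toGC N'.toGC where
  smul : ∀ (a : A.C) (x : N.X), f (a • x) = a • f x

/-- morphisms of right modules -/
structure RMHom (G G' : RM A) extends GCHom G.toGC G'.toGC where
  smul : ∀ (a : A.C) (x : G.X), f (op a • x) = op a • f x

/-- morphisms of bimodules -/
structure BMHom (P P' : BM A B) extends GCHom P.toGC P'.toGC where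
  smul : ∀ (a : A.C) (x : P.X), f (a • x) = a • f x
  smulR : ∀ (b : B.C) (x : P.X), f (op b • x) = op b • f x

/-- as a morphism of left modules -/
def BMHom.toL {P P' : BM A B} (f : BMHom P P') : LMHom P.toLM P'.toLM where
  toGCHom := f.toGCHom
  smul := f.smul


/-- short exact sequences of left modules -/
structure LSES (N N' N'' : LM A) extends SES N.toGC N'.toGC N''.toGC where
  smul_i : ∀ (a : A.C) (x : N.X), i.f (a • x) = a • i.f x
  smul_p : ∀ (a : A.C) (x : N'.X), p.f (a • x) = a • p.f x

/-- short exact sequences of right modules -/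
structure RSES (G G' G'' : RM A) extends SES G.toGC G'.toGC G''.toGC where
  smul_i : ∀ (a : A.C) (x : G.X), i.f (op a • x) = op a • i.f x
  smul_p : ∀ (a : A.C) (x : G'.X), p.f (op a • x) = op a • p.f x

/-- composition of morphisms of left modules -/
def LMHom.comp {N N' N'' : LM A} (g : LMHom N' N'') (f : LMHom N N') : LMHom N N'' where
  toGCHom := TB143.comp g.toGCHom f.toGCHom
  smul a x := by
    show g.f (f.f (a • x)) = a • g.f (f.f x)
    rw [f.smul, g.smul]

/-- composition of morphisms of right modules -/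
def RMHom.comp {G G' G'' : RM A} (g : RMHom G' G'') (f : RMHom G G') : RMHom G G'' where
  toGCHom := TB143.comp g.toGCHom f.toGCHom
  smul a x := by
    show g.f (f.f (op a • x)) = op a • g.f (f.f x)
    rw [f.smul, g.smul]

/-! ### `Y ⊗ -` -/

section left

variable (Y : RCells A) {N N' N'' : LM A}

/-- twisting data of `Y ⊗ f` -/
noncomputable def twYhom (f : LMHom N N') : TwHom (twY Y N) (twY Y N') where
  φ := f.toGCHom
  j := Equiv.refl Y.ι
  hs _ := rfl
  hp σ x := f.smul (Y.e σ) x
  hm σ τ x := f.smul (Y.c τ σ) x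

/-- `Y ⊗ f` -/
noncomputable def tYmap (f : LMHom N N') : GCHom (tY Y N) (tY Y N') := (twYhom Y f).map

theorem tYmap_apply (f : LMHom N N') (x : Y.ι →₀ N.X) (τ : Y.ι) :
    (show Y.ι →₀ N'.X from (tYmap Y f).f x) τ = f.f (x τ) := (twYhom Y f).lin_apply x τ





end left

/-! ### `- ⊗ X` -/

section right

variable (X : LCells A) {G G' G'' : RM A}

/-- twisting data of `f ⊗ X` -/
noncomputable def twGhom (f : RMHom G G') : TwHom (twG G X) (twG G' X) where
  φ := f.toGCHom
  j := Equiv.refl X.ι
  hs _ := rfl
  hp σ x := f.smul (X.e σ) x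
  hm σ τ x := f.smul (X.c σ τ) x

/-- `f ⊗ X` -/
noncomputable def tGmap (f : RMHom G G') : GCHom (tG G X) (tG G' X) := (twGhom X f).map



/-- **`- ⊗ X` preserves quasi-isomorphisms** -/
theorem tG_qi {f : RMHom G G'} (h : QI f.toGCHom) : QI (tGmap X f) :=
  (twGhom X f).qi (RM.two G) h

/-- `G ⊗ X` acyclic iff `G' ⊗ X` acyclic -/
theorem tG_ac_iff {f : RMHom G G'} (h : QI f.toGCHom) : Ac (tG G X) ↔ Ac (tG G' X) :=
  QI.ac (tG_qi X h)


end right

end Crest.Agent.R186.TB143
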