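import Crest.Agent.R186.Cells1_221
import Crest.Agent.R186.C2b_362
import Crest.Agent.R186.C2b_44
import Crest.Agent.R186.KOSZ_296
import Crest.Agent.R186.RW2_171
import Crest.Agent.R186.CEbr_247
import Crest.Agent.R186.KVc_186
import Crest.Agent.R186.TB3_143
import Crest.Agent.R186.RW1_171
import Crest.Agent.R186.LtR_654

-- ▼ part R186/RC_171
section

/-!
# Row 186 (A), short road (306 #34919), helper171: the sixteen RIGHT cells of `DV_{-2}`, table

`D l = Σ_l' l' * rcf l' l + ryp l` (first letter split off), `ryp l ∈ J = R'' W_+`,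
`D (rcf l'' l) + Σ_l' rcf l'' l' * rcf l' l = ryc l'' l ∈ J`, degrees; total table `rct` over
`Cell = Option E` (`rct none (some l) = l`), `rct_mc`.
-/

set_option autoImplicit false

namespace Crest.Agent.R186.Name171

open Crest.Agent.R186.VOp220 Crest.Agent.R186.DefsQ830 Crest.Agent.R186.Vmod220
open Crest.Agent.R186.Der580 Crest.Agent.R186.Cells221
open Crest.Agent.R186.PBW128 (E)
open Crest.Agent.R186.C2b362 (J pz mul_pz D_pz pz_cast mem_pz_nat mul_Y_mem_J left_J right_J D_J yp_mem_J cA cdeg_some cP_some)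

variable {K : Type} [Field K] (π : Par K)

/-- the coefficient of the FIRST letter `l'` in `D l` -/
def rcf : E → E → R π
  | .d i, .z j => if i = 0 then (π.c j * π.g) • (X π (.d 1) * X π (.x j))
      else π.c j • (X π (.d 0) * X π (.x j))
  | .z i, .zc => if i = 0 then π.c 1 • X π (.x 1) else π.c 0 • X π (.x 0)
  | .f, .zc => X π .h
  | .d i, .e j => if i = j then π.c j • X π .f else 0
  | .f, .e j => X π (.d j)
  | .z i, .gj j => if i = j then π.cz j • X π .f else 0
  | .f, .gj j => X π (.z j)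
  | .d i, .gj j => if i = 0 then (π.c j * π.g ^ 3) • (X π (.e 1) * X π (.x j))
      else (π.c j * π.g) • (X π (.e 0) * X π (.x j))
  | .e i, .gj j => if i = 0 then (π.c j * π.g) • (X π (.d 1) * X π (.x j))
      else π.c j • (X π (.d 0) * X π (.x j))
  | .zc, .gc => X π .f
  | .f, .gc => X π .zc
  | .gj i, .gc => if i = 0 then π.c 1 • X π (.x 1) else π.c 0 • X π (.x 0)
  | .u i, .gc => if i = 0 then π.p • X π (.u 1) else X π (.u 0)
  | .u i, .v s => if i = s then tR π + X π .h else 0
  | .d i, .v s => (π.g - 1) • (X π (.x i) * X π (.u s))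
  | _, _ => 0

/-- the curvature of `rcf` -/
def ryc : E → E → R π
  | .u i, .gc => if i = 0 then π.p • (hR π 1 * X π (.y 1)) else hR π 0 * X π (.y 0)
  | .d i, .v s => (π.g - 1) • (X π (.x i) * (hR π s * X π (.y s)))
  | _, _ => 0

set_option maxHeartbeats 4000000 in
/-- `D l = Σ_l' l' * rcf l' l + yp l` -/
theorem D_rE (l : E) : D π (X π l.toGen) = ∑ l', X π l'.toGen * rcf π l' l + yp π l := by
  have : CharP K 2 := CharTwo.of_one_ne_zero_of_two_eq_zero one_ne_zero π.two
  have g0 := π.g0
  have p0 := π.p0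
  rw [D_X, sumE]
  cases l with
  | d j => simp [E.toGen, dGen, rcf, yp]
  | f => simp [E.toGen, dGen, rcf, yp]
  | z j =>
    revert j
    fin2 <;> (simp [E.toGen, dGen, rcf, yp, mk_L, rF]; idR)
  | zc => simp [E.toGen, dGen, rcf, yp, mk_L]; idR
  | u s =>
    revert s
    fin2 <;> simp [E.toGen, dGen, rcf, yp, hs, hR, mk_L]
  | e j =>
    revert j
    fin2 <;> (simp [E.toGen, dGen, rcf, yp, mk_L]; abel)
  | gj j =>
    revert j
    fin2 <;> (simp [E.toGen, dGen, rcf, yp, mk_L, rhoF]; idR)
  | gc => simp [E.toGen, dGen, rcf, yp, mk_L]; idR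
  | v s =>
    revert s
    fin2 <;> (simp [E.toGen, dGen, rcf, yp, mk_L, tF, tR, hs, hR]; idR)


/-- expansion of `Σ_l' rcf l'' l' * rcf l' l` -/
macro "rfx" : tactic => `(tactic| (
  rw [sumE]
  simp only [rcf, ryc, if_true, if_false, one_ne_zero, zero_ne_one, zero_mul, mul_zero, add_zero,
    zero_add, map_zero, map_smul, map_add, D_mul, D_X, D_tR, dGen, mk_L, map_mul, smul_zero, hs_zero,
    hs_one, tR, hR]))

set_option maxHeartbeats 16000000 in
/-- `D (rcf l'' l) + Σ_l' rcf l'' l' * rcf l' l = ryc l'' l` -/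
theorem rcf_rcf (l'' l : E) : D π (rcf π l'' l) + ∑ l', rcf π l'' l' * rcf π l' l = ryc π l'' l := by
  have : CharP K 2 := CharTwo.of_one_ne_zero_of_two_eq_zero one_ne_zero π.two
  have g0 := π.g0
  have p0 := π.p0
  cases l with
  | d j => cases l'' <;> simp [rcf, ryc]
  | f => cases l'' <;> simp [rcf, ryc]
  | u j => cases l'' <;> simp [rcf, ryc]
  | z j =>
    revert j
    cases l'' with
    | f => fin2 <;> rfx
    | zc => fin2 <;> rfx
    | gc => fin2 <;> rfx
    | d i => revert i; fin2 <;> rfx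
    | z i => revert i; fin2 <;> rfx
    | u i => revert i; fin2 <;> rfx
    | e i => revert i; fin2 <;> rfx
    | gj i => revert i; fin2 <;> rfx
    | v i => revert i; fin2 <;> rfx
  | zc =>
    cases l'' with
    | f => rfx
    | zc => rfx
    | gc => rfx
    | d i => revert i; fin2 <;> rfx <;> idR
    | z i => revert i; fin2 <;> rfx
    | u i => revert i; fin2 <;> rfx
    | e i => revert i; fin2 <;> rfx
    | gj i => revert i; fin2 <;> rfx
    | v i => revert i; fin2 <;> rfx
  | e j =>
    revert j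
    cases l'' with
    | f => fin2 <;> rfx
    | zc => fin2 <;> rfx
    | gc => fin2 <;> rfx
    | d i => revert i; fin2 <;> rfx
    | z i => revert i; fin2 <;> rfx
    | u i => revert i; fin2 <;> rfx
    | e i => revert i; fin2 <;> rfx
    | gj i => revert i; fin2 <;> rfx
    | v i => revert i; fin2 <;> rfx
  | gj j =>
    revert j
    cases l'' with
    | f => fin2 <;> rfx <;> (simp only [rF, map_add, map_mul, map_smul, mk_L]; idR)
    | zc => fin2 <;> rfx
    | gc => fin2 <;> rfx
    | d i => revert i; fin2 <;> rfx <;> idR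
    | z i => revert i; fin2 <;> rfx <;> idR
    | u i => revert i; fin2 <;> rfx
    | e i => revert i; fin2 <;> rfx
    | gj i => revert i; fin2 <;> rfx
    | v i => revert i; fin2 <;> rfx
  | gc =>
    cases l'' with
    | f => rfx; idR
    | zc => rfx
    | gc => rfx
    | d i => revert i; fin2 <;> rfx <;> idR
    | z i => revert i; fin2 <;> rfx <;> idR
    | u i => revert i; fin2 <;> rfx <;> idR
    | e i => revert i; fin2 <;> rfx <;> idR
    | gj i => revert i; fin2 <;> rfx
    | v i => revert i; fin2 <;> rfx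
  | v j =>
    revert j
    cases l'' with
    | f => fin2 <;> rfx
    | zc => fin2 <;> rfx
    | gc => fin2 <;> rfx
    | d i => revert i; fin2 <;> rfx <;> idR
    | z i => revert i; fin2 <;> rfx
    | u i => revert i; fin2 <;> rfx
    | e i => revert i; fin2 <;> rfx
    | gj i => revert i; fin2 <;> rfx
    | v i => revert i; fin2 <;> rfx


theorem ryc_mem_J (l'' l : E) : ryc π l'' l ∈ J π := by
  cases l'' with
  | u i =>
    cases l with
    | gc =>
      simp only [ryc]
      split_ifs
      · exact Submodule.smul_mem _ _ (mul_Y_mem_J _ (.y 1))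
      · exact mul_Y_mem_J _ (.y 0)
    | _ => exact Submodule.zero_mem _
  | d i =>
    cases l with
    | v s => exact Submodule.smul_mem _ _ (left_J _ (mul_Y_mem_J _ (.y s)))
    | _ => exact Submodule.zero_mem _
  | _ => exact Submodule.zero_mem _

/-- the table of the sixteen RIGHT cells: `d e_τ = Σ_σ e_σ * rct σ τ`; `rct none (some l) = l` -/
def rct : Cell → Cell → R π
  | _, none => 0
  | none, some l => X π l.toGen
  | some l', some l => rcf π l' l

/-- Maurer-Cartan modulo `J` -/
theorem rct_mc (σ τ : Cell) : D π (rct π σ τ) + ∑ ρ, rct π σ ρ * rct π ρ τ ∈ J π := by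
  cases τ with
  | none =>
    have h : ∀ ρ : Cell, rct π ρ none = 0 := fun ρ => by cases ρ <;> rfl
    simp only [h, map_zero, mul_zero, Finset.sum_const_zero, add_zero]; exact Submodule.zero_mem _
  | some l =>
    rw [Fintype.sum_option]
    cases σ with
    | none =>
      simp only [rct, zero_mul, zero_add]
      rw [D_rE, add_right_comm, add_self, zero_add]
      exact yp_mem_J l
    | some l' =>
      simp only [rct, zero_mul, zero_add]
      rw [rcf_rcf]
      exact ryc_mem_J π l' l

/-- the differential on `⊕_σ e_σ R''`, coordinates `y σ` -/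
def dY : (Cell → R π) →ₗ[K] (Cell → R π) :=
  LinearMap.pi fun σ => (D π) ∘ₗ (LinearMap.proj σ) +
    ∑ τ, (LinearMap.mulLeft K (rct π σ τ)) ∘ₗ (LinearMap.proj τ)

theorem dY_apply (y : Cell → R π) (σ : Cell) : dY π y σ = D π (y σ) + ∑ τ, rct π σ τ * y τ := by
  simp [dY]

theorem dY_none (y : Cell → R π) :
    dY π y none = D π (y none) + ∑ l : E, X π l.toGen * y (some l) := by
  rw [dY_apply, Fintype.sum_option]
  simp [rct]

theorem dY_dY (y : Cell → R π) (σ : Cell) : dY π (dY π y) σ ∈ J π := by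
  have e : dY π (dY π y) σ = ∑ ρ, (D π (rct π σ ρ) + ∑ τ, rct π σ τ * rct π τ ρ) * y ρ := by
    rw [dY_apply, dY_apply, map_add, D_D, zero_add, map_sum]
    simp only [D_mul, dY_apply, add_mul, Finset.sum_add_distrib, mul_add, Finset.sum_mul,
      Finset.mul_sum]
    have h1 : ∑ τ, ∑ ρ, rct π σ τ * (rct π τ ρ * y ρ) = ∑ ρ, ∑ τ, rct π σ τ * rct π τ ρ * y ρ := by
      rw [Finset.sum_comm]
      simp only [mul_assoc]
    rw [h1]
    have h2 := add_self π (∑ τ, rct π σ τ * D π (y τ))
    rw [add_assoc, ← add_assoc (∑ τ, rct π σ τ * D π (y τ)), h2, zero_add]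
  rw [e]
  exact Submodule.sum_mem _ fun ρ _ => right_J (rct_mc π σ ρ) _

/-! ### degrees -/

theorem X_pz (a : Gen) : X π a ∈ pz π a.dP a.dA a.dC := mem_pz_nat.mpr (X_mem_pc π a)

theorem X2_pz (a b : Gen) : X π a * X π b ∈ pz π (a.dP + b.dP) (a.dA + b.dA) (a.dC + b.dC) :=
  mul_pz (X_pz π a) (X_pz π b)

theorem tR_pz : tR π ∈ pz π 0 1 0 := mem_pz_nat.mpr (tR_mem π)

theorem rcf_mem (l' l : E) : rcf π l' l ∈ pz π (l.toGen.dP - l'.toGen.dP)
    (l.toGen.dA - l'.toGen.dA) (l.toGen.dC - l'.toGen.dC - 1) := by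
  cases l with
  | z j =>
    cases l' with
    | d i =>
      simp only [rcf]
      split_ifs
      · exact Submodule.smul_mem _ _ (pz_cast (X2_pz π (.d 1) (.x j)) rfl rfl rfl)
      · exact Submodule.smul_mem _ _ (pz_cast (X2_pz π (.d 0) (.x j)) rfl rfl rfl)
    | _ => exact Submodule.zero_mem _
  | zc =>
    cases l' with
    | z i =>
      simp only [rcf]
      split_ifs
      · exact Submodule.smul_mem _ _ (pz_cast (X_pz π (.x 1)) rfl rfl rfl)
      · exact Submodule.smul_mem _ _ (pz_cast (X_pz π (.x 0)) rfl rfl rfl)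
    | f => exact pz_cast (X_pz π .h) rfl rfl rfl
    | _ => exact Submodule.zero_mem _
  | e j =>
    cases l' with
    | d i =>
      simp only [rcf]
      split_ifs
      · exact Submodule.smul_mem _ _ (pz_cast (X_pz π .f) rfl rfl rfl)
      · exact Submodule.zero_mem _
    | f => exact pz_cast (X_pz π (.d j)) rfl rfl rfl
    | _ => exact Submodule.zero_mem _
  | gj j =>
    cases l' with
    | z i =>
      simp only [rcf]
      split_ifs
      · exact Submodule.smul_mem _ _ (pz_cast (X_pz π .f) rfl rfl rfl)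
      · exact Submodule.zero_mem _
    | f => exact pz_cast (X_pz π (.z j)) rfl rfl rfl
    | d i =>
      simp only [rcf]
      split_ifs
      · exact Submodule.smul_mem _ _ (pz_cast (X2_pz π (.e 1) (.x j)) rfl rfl rfl)
      · exact Submodule.smul_mem _ _ (pz_cast (X2_pz π (.e 0) (.x j)) rfl rfl rfl)
    | e i =>
      simp only [rcf]
      split_ifs
      · exact Submodule.smul_mem _ _ (pz_cast (X2_pz π (.d 1) (.x j)) rfl rfl rfl)
      · exact Submodule.smul_mem _ _ (pz_cast (X2_pz π (.d 0) (.x j)) rfl rfl rfl)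
    | _ => exact Submodule.zero_mem _
  | gc =>
    cases l' with
    | zc => exact pz_cast (X_pz π .f) rfl rfl rfl
    | f => exact pz_cast (X_pz π .zc) rfl rfl rfl
    | gj i =>
      simp only [rcf]
      split_ifs
      · exact Submodule.smul_mem _ _ (pz_cast (X_pz π (.x 1)) rfl rfl rfl)
      · exact Submodule.smul_mem _ _ (pz_cast (X_pz π (.x 0)) rfl rfl rfl)
    | u i =>
      rcases f2 i with rfl | rfl
      · exact Submodule.smul_mem _ _ (pz_cast (X_pz π (.u 1)) rfl rfl rfl)
      · exact pz_cast (X_pz π (.u 0)) rfl rfl rfl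
    | _ => exact Submodule.zero_mem _
  | v s =>
    cases l' with
    | u i =>
      by_cases h : i = s
      · subst h
        simp only [rcf, if_true]
        refine Submodule.add_mem _ (pz_cast (tR_pz π) ?_ ?_ ?_) (pz_cast (X_pz π .h) ?_ ?_ ?_) <;>
          simp [E.toGen, Gen.dP, Gen.dA, Gen.dC] <;> ring
      · simp only [rcf, if_neg h]; exact Submodule.zero_mem _
    | d i =>
      refine Submodule.smul_mem _ _ (pz_cast (X2_pz π (.x i) (.u s)) ?_ ?_ ?_) <;>
          simp [E.toGen, Gen.dP, Gen.dA, Gen.dC] <;> ring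
    | _ => exact Submodule.zero_mem _
  | d j => cases l' <;> exact Submodule.zero_mem _
  | f => cases l' <;> exact Submodule.zero_mem _
  | u s => cases l' <;> exact Submodule.zero_mem _

/-- degrees of the total table -/
theorem rct_mem (σ τ : Cell) : rct π σ τ ∈ pz π (cP τ - cP σ) (cA τ - cA σ)
    ((cdeg τ : ℤ) - cdeg σ - 1) := by
  cases τ with
  | none =>
    have h : rct π σ none = 0 := by cases σ <;> rfl
    rw [h]; exact Submodule.zero_mem _
  | some l =>
    cases σ with
    | none =>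
      refine pz_cast (X_pz π l.toGen) ?_ ?_ ?_
      · rw [cP_some]; show l.toGen.dP = l.toGen.dP - 0; ring
      · show (l.toGen.dA : ℤ) = (l.toGen.dA : ℤ) - 0; ring
      · rw [cdeg_some]; show (l.toGen.dC : ℤ) = (l.toGen.dC : ℤ) + 1 - (0 : ℕ) - 1; push_cast; ring
    | some l' =>
      refine pz_cast (rcf_mem π l' l) ?_ rfl ?_
      · rw [cP_some, cP_some]
      · rw [cdeg_some, cdeg_some]; ring

end Crest.Agent.R186.Name171
private theorem rz_a7c0285f11 : type_of% @_root_.Crest.Agent.R186.Name171.rcf.eq_1 := @_root_.Crest.Agent.R186.Name171.rcf.eq_1 -- L24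
private theorem rz_c4d23efc81 : type_of% @_root_.Crest.Agent.R186.Name171.rct.eq_1 := @_root_.Crest.Agent.R186.Name171.rct.eq_1 -- L186
private theorem rz_b411b390aa : type_of% @_root_.Crest.Agent.R186.Name171.ryc.eq_1 := @_root_.Crest.Agent.R186.Name171.ryc.eq_1 -- L46
end

-- ▼ part R186/RCk_171
section

/-!
# Row 186 (A), short road, helper171: table of the right cells, `kill` form
-/

set_option autoImplicit false

namespace Crest.Agent.R186.Name171

open Crest.Agent.R186.VOp220 Crest.Agent.R186.DefsQ830 Crest.Agent.R186.Vmod220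
open Crest.Agent.R186.Der580 Crest.Agent.R186.Cells221 Crest.Agent.R186.C2b44
open Crest.Agent.R186.PBW128 (E)

variable {K : Type} [Field K] (π : Par K)

theorem kill_rcf (l' l : E) : kill π (rcf π l' l) = rcf π l' l := by
  cases l <;> cases l' <;> simp only [rcf, map_zero] <;>
    (try split_ifs) <;> simp [kill_tR]

theorem kill_ryc (l' l : E) : kill π (ryc π l' l) = 0 := by
  cases l <;> cases l' <;> simp only [ryc, map_zero] <;>
    (try split_ifs) <;> simp

theorem kill_rct (σ τ : Cell) : kill π (rct π σ τ) = rct π σ τ := by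
  cases τ with
  | none =>
    have h : rct π σ none = 0 := by cases σ <;> rfl
    rw [h, map_zero]
  | some l =>
    cases σ with
    | none => exact kill_E π l
    | some l' => exact kill_rcf π l' l

/-- Maurer-Cartan after `kill` -/
theorem rct_mc_kill (σ τ : Cell) :
    kill π (D π (rct π σ τ)) + ∑ ρ, rct π σ ρ * rct π ρ τ = 0 := by
  cases τ with
  | none =>
    have h : ∀ ρ : Cell, rct π ρ none = 0 := fun ρ => by cases ρ <;> rfl
    simp only [h, map_zero, mul_zero, Finset.sum_const_zero, add_zero]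
  | some l =>
    have e : ∑ ρ, rct π σ ρ * rct π ρ (some l) = kill π (∑ ρ, rct π σ ρ * rct π ρ (some l)) := by
      rw [map_sum]
      refine Finset.sum_congr rfl fun ρ _ => ?_
      rw [map_mul, kill_rct, kill_rct]
    rw [e, ← map_add, Fintype.sum_option]
    cases σ with
    | none =>
      simp only [rct, zero_mul, zero_add]
      rw [D_rE, add_right_comm, add_self, zero_add]
      exact kill_yp π l
    | some l' =>
      simp only [rct, zero_mul, zero_add]
      rw [rcf_rcf]
      exact kill_ryc π l' l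

end Crest.Agent.R186.Name171
end

-- ▼ part R186/CR_989
section

/-!
Row 186, half (A), short road (helper306 #34919), right cells, EXACTNESS (helper989):
the sixteen RIGHT cells (table `rct`, `dY` of RC_171) resolve `DV_{-2} = R'/(E R')` modulo
`J = R'' W_+`.

`slr l r` = right factor of the first letter `l`, `s0r r` = the part without letters (`splitr`,
`slr_mem`), `sum_X_mul_J` (uniqueness mod `J`), `chi` = coefficient of `h^A` in `R'/(E R')`
(`chi_mul`, `chi_J`, ..), `exr_mod` (`0 < C`), `exr0_mod` (`C = 0`, `P ≤ 0`), `gen_chi`.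
-/

set_option autoImplicit false

noncomputable section

namespace Crest.Agent.R186.CR989

open Crest.Agent.R186.DefsQ830 Crest.Agent.R186.Cells221
open Crest.Agent.R186.Der580 (D D_mul D_X D_D add_self)
open Crest.Agent.R186.PBW128 (E Y Wb N Ix bv dPx dAx dCx ext_bv we we_nil we_cons wq wq_one NS map_NS
  bv_mem_NS comm_h)
open Crest.Agent.R186.C2b362 (pz J NZ mem_NZ mem_pz mem_pz_nat mem_J pz_neg left_J right_J D_J D_pz
  mul_pz pz_cast cA cdeg_some cP_some)
open Crest.Agent.R186.C2b44 (kill kill_x kill_h kill_kill kill_E kill_we kill_wq)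
open Crest.Agent.R186.KOS296
open Crest.Agent.R186.Name171 (rct dY dY_apply dY_none dY_dY)

variable {K : Type} [Field K] (π : Par K)

/-! ### first letter of the right normal form -/

/-- add a first letter -/
def cn (l : E) (ν : Ix) : Ix := (ν.1, ν.2.1, ν.2.2.1, l :: ν.2.2.2.1, ν.2.2.2.2)

theorem cn_inj (l : E) : Function.Injective (cn l) := by
  rintro ⟨i, j, k, w, q⟩ ⟨i', j', k', w', q'⟩ h
  simp only [cn, Prod.mk.injEq, List.cons.injEq, true_and] at h
  simp [h]

variable (K) in
/-- left multiplication by a letter in the right normal form -/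
def opl (l : E) : N K →ₗ[K] N K := Finsupp.lmapDomain K K (cn l)

variable (K) in
/-- the right factor of the first letter -/
def dv (l : E) : N K →ₗ[K] N K := Finsupp.lcomapDomain (cn l) (cn_inj l)

theorem dv_apply (l : E) (n : N K) (ν : Ix) : dv K l n ν = n (cn l ν) := rfl

theorem opl_bv (l : E) (i j k : ℕ) (w : List E) (q : Wb) :
    opl K l (bv K i j k w q) = bv K i j k (l :: w) q := by
  simp [opl, bv, cn]

theorem opl_cn (l : E) (n : N K) (ν : Ix) : opl K l n (cn l ν) = n ν :=
  Finsupp.mapDomain_apply (cn_inj l) n ν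

theorem opl_ne (l l' : E) (h : l ≠ l') (n : N K) (ν : Ix) : opl K l n (cn l' ν) = 0 := by
  apply Finsupp.mapDomain_of_notMem_range
  rintro ⟨μ, hμ⟩
  apply h
  have := congrArg (fun ν : Ix => ν.2.2.2.1) hμ
  simp only [cn, List.cons.injEq] at this
  exact this.1

theorem opl_nil (l : E) (n : N K) (i j k : ℕ) (q : Wb) : opl K l n (i, j, k, [], q) = 0 := by
  apply Finsupp.mapDomain_of_notMem_range
  rintro ⟨μ, hμ⟩
  have := congrArg (fun ν : Ix => ν.2.2.2.1) hμ
  simp [cn] at this

variable (K) in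
/-- the part without letters -/
def n0 : N K →ₗ[K] N K where
  toFun n := Finsupp.filter (fun ν : Ix => ν.2.2.2.1 = []) n
  map_add' a b := by
    ext ν
    rw [Finsupp.add_apply, Finsupp.filter_apply, Finsupp.filter_apply, Finsupp.filter_apply]
    split_ifs <;> simp
  map_smul' r a := by
    ext ν
    rw [Finsupp.smul_apply, Finsupp.filter_apply, Finsupp.filter_apply]
    split_ifs <;> simp

theorem n0_apply (n : N K) (ν : Ix) : n0 K n ν = if ν.2.2.2.1 = [] then n ν else 0 := by
  show Finsupp.filter _ n ν = _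
  rw [Finsupp.filter_apply]

theorem decompr (n : N K) : n = n0 K n + ∑ l, opl K l (dv K l n) := by
  ext ⟨i, j, k, w, q⟩
  rw [Finsupp.add_apply, Finsupp.finsetSum_apply, n0_apply]
  cases w with
  | nil =>
    rw [if_pos rfl, Finset.sum_eq_zero, add_zero]
    intro l _
    exact opl_nil l _ i j k q
  | cons l w =>
    rw [if_neg (by simp), zero_add, Finset.sum_eq_single l]
    · exact (opl_cn l (dv K l n) (i, j, k, w, q)).symm
    · intro l' _ hl'
      exact opl_ne l' l hl' _ (i, j, k, w, q)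
    · intro h
      exact absurd (Finset.mem_univ _) h

theorem nr_cons (l : E) (i j k : ℕ) (w : List E) (q : Wb) :
    X π l.toGen * nr π (i, j, k, w, q) = nr π (i, j, k, l :: w, q) := by
  simp only [nr, we_cons, ← mul_assoc]
  rw [((comm_h π l.toGen).pow_left k).eq]

theorem Th_opl (l : E) (n : N K) : Th π (opl K l n) = X π l.toGen * Th π n := by
  have : Th π ∘ₗ opl K l = LinearMap.mulLeft K (X π l.toGen) ∘ₗ Th π := by
    apply ext_bv
    intro i j k w q
    rw [LinearMap.comp_apply, opl_bv, Th_bv, LinearMap.comp_apply, Th_bv, LinearMap.mulLeft_apply,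
      nr_cons]
  exact LinearMap.congr_fun this n

/-- the right normal form as an equivalence -/
def ThE : N K ≃ₗ[K] R π := LinearEquiv.ofBijective (Th π)
  ⟨fun a b hab => sub_eq_zero.1 (Th_inj π (by rw [map_sub, hab, sub_self])),
    fun r => Th_surj π r⟩

/-- right coordinates -/
def er : R π →ₗ[K] N K := (ThE π).symm.toLinearMap

@[simp] theorem Th_er (r : R π) : Th π (er π r) = r := (ThE π).apply_symm_apply r
@[simp] theorem er_Th (n : N K) : er π (Th π n) = n := (ThE π).symm_apply_apply n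

/-- the right factor of the first letter `l` -/
def slr (l : E) : R π →ₗ[K] R π := Th π ∘ₗ dv K l ∘ₗ er π

/-- the part without letters -/
def s0r : R π →ₗ[K] R π := Th π ∘ₗ n0 K ∘ₗ er π

theorem splitr (r : R π) : r = s0r π r + ∑ l, X π l.toGen * slr π l r := by
  conv_lhs => rw [← Th_er π r, decompr (er π r), map_add, map_sum]
  simp only [Th_opl]
  rfl

/-! ### `kill` in right coordinates -/

variable (K) in
/-- the part without `W`-letters -/
def n1 : N K →ₗ[K] N K where
  toFun n := Finsupp.filter (fun ν : Ix => ν.2.2.2.2 = Wb.one) n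
  map_add' a b := by
    ext ν
    rw [Finsupp.add_apply, Finsupp.filter_apply, Finsupp.filter_apply, Finsupp.filter_apply]
    split_ifs <;> simp
  map_smul' r a := by
    ext ν
    rw [Finsupp.smul_apply, Finsupp.filter_apply, Finsupp.filter_apply]
    split_ifs <;> simp

theorem n1_apply (n : N K) (ν : Ix) : n1 K n ν = if ν.2.2.2.2 = Wb.one then n ν else 0 := by
  show Finsupp.filter _ n ν = _
  rw [Finsupp.filter_apply]

theorem n1_bv (i j k : ℕ) (w : List E) (q : Wb) :
    n1 K (bv K i j k w q) = if q = Wb.one then bv K i j k w q else 0 := by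
  ext ν
  rw [n1_apply]
  by_cases h : q = Wb.one
  · rw [if_pos h]
    split_ifs with h2
    · rfl
    · rw [PBW128.bv_apply, if_neg]
      rintro rfl
      exact h2 h
  · rw [if_neg h]
    split_ifs with h2
    · rw [PBW128.bv_apply, if_neg]
      · rfl
      · rintro rfl
        exact h h2
    · rfl

theorem kill_Th (n : N K) : kill π (Th π n) = Th π (n1 K n) := by
  have : (kill π).toLinearMap ∘ₗ Th π = Th π ∘ₗ n1 K := by
    apply ext_bv
    intro i j k w q
    rw [LinearMap.comp_apply, LinearMap.comp_apply, Th_bv, n1_bv]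
    show kill π _ = _
    simp only [nr, map_mul, map_pow, kill_h, kill_x, kill_we, kill_wq]
    split_ifs with h
    · subst h
      rw [Th_bv]
      simp only [nr, wq_one]
    · rw [map_zero, mul_zero, zero_mul, zero_mul]
  exact LinearMap.congr_fun this n


/-- the letters are left regular and independent -/
theorem sum_X_mul {a : E → R π} (h : ∑ l, X π l.toGen * a l = 0) (l : E) : a l = 0 := by
  have h2 : ∑ l, opl K l (er π (a l)) = 0 := by
    apply Th_inj π
    rw [map_sum]
    simp only [Th_opl, Th_er]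
    exact h
  have h3 : er π (a l) = 0 := by
    ext ν
    have h4 := DFunLike.congr_fun h2 (cn l ν)
    rw [Finsupp.finsetSum_apply, Finset.sum_eq_single l] at h4
    · rw [opl_cn] at h4
      exact h4
    · intro l' _ hl'
      exact opl_ne l' l hl' _ ν
    · intro h
      exact absurd (Finset.mem_univ _) h
  rw [← Th_er π (a l), h3, map_zero]

/-- **uniqueness modulo `J`** -/
theorem sum_X_mul_J {a : E → R π} (h : ∑ l, X π l.toGen * a l ∈ J π) (l : E) : a l ∈ J π := by
  rw [mem_J_iff_kill, map_sum] at h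
  simp only [map_mul, kill_E] at h
  rw [mem_J_iff_kill]
  exact sum_X_mul π h l

/-! ### degrees -/

variable {π} in
theorem er_mem {P A C : ℤ} {r : R π} (hr : r ∈ pz π P A C) : er π r ∈ NZ K P A C := by
  rcases pz_cases π hr with rfl | ⟨A', C', rfl, rfl⟩
  · rw [map_zero]; exact Submodule.zero_mem _
  · obtain ⟨n, hn, rfl⟩ := exists_Th π (mem_pz_nat.1 hr)
    rw [er_Th, mem_NZ]
    intro ν hν
    obtain ⟨h1, h2, h3⟩ := PBW128.mem_NS_iff.1 hn ν hν
    exact ⟨h1, by exact_mod_cast h2, by exact_mod_cast h3⟩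

theorem Th_NZ {P A C : ℤ} {n : N K} (hn : n ∈ NZ K P A C) : Th π n ∈ pz π P A C := by
  have : NZ K P A C ≤ (pz π P A C).comap (Th π) := by
    rw [NZ, Finsupp.supported_eq_span_single, Submodule.span_le]
    rintro _ ⟨⟨i, j, k, w, q⟩, ⟨rfl, h2, h3⟩, rfl⟩
    show Th π (bv K i j k w q) ∈ pz π _ A C
    rw [Th_bv, ← h2, ← h3]
    exact mem_pz_nat.2 (nr_mem_pc π (i, j, k, w, q))
  exact this hn

theorem slr_mem (l : E) {P A C : ℤ} {r : R π} (hr : r ∈ pz π P A C) :
    slr π l r ∈ pz π (P - l.toGen.dP) (A - l.toGen.dA) (C - l.toGen.dC) := by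
  apply Th_NZ
  rw [mem_NZ]
  intro ν hν
  rw [LinearMap.comp_apply, dv_apply] at hν
  obtain ⟨h1, h2, h3⟩ := mem_NZ.1 (er_mem hr) _ hν
  refine ⟨?_, ?_, ?_⟩
  · rw [← h1]; simp [dPx, cn]; ring
  · rw [← h2]; simp [dAx, cn]; ring
  · rw [← h3]; simp [dCx, cn]; ring

/-- the degrees of a monomial without letters -/
theorem deg_nil {ν : Ix} (hw : ν.2.2.2.1 = []) (hq : ν.2.2.2.2 = Wb.one) :
    dPx ν = ν.1 + ν.2.1 ∧ dAx ν = ν.2.2.1 ∧ dCx ν = 0 := by
  obtain ⟨i, j, k, w, q⟩ := ν
  simp only at hw hq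
  subst hw hq
  simp [dPx, dAx, dCx, Wb.word, wC]

theorem kill_s0r (r : R π) : kill π (s0r π r) = Th π (n1 K (n0 K (er π r))) := kill_Th π _

theorem n1n0_apply (n : N K) (ν : Ix) :
    n1 K (n0 K n) ν = if ν.2.2.2.1 = [] ∧ ν.2.2.2.2 = Wb.one then n ν else 0 := by
  rw [n1_apply, n0_apply]
  by_cases h1 : ν.2.2.2.1 = [] <;> by_cases h2 : ν.2.2.2.2 = Wb.one <;> simp [h1, h2]

theorem s0r_mem_J {P A C : ℤ} (h : 0 < C ∨ P < 0) {r : R π} (hr : r ∈ pz π P A C) :
    s0r π r ∈ J π := by
  rw [mem_J_iff_kill, kill_s0r]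
  have : n1 K (n0 K (er π r)) = 0 := by
    ext ν
    rw [n1n0_apply]
    split_ifs with h1
    · by_contra h2
      obtain ⟨e1, e2, e3⟩ := mem_NZ.1 (er_mem hr) ν h2
      obtain ⟨d1, d2, d3⟩ := deg_nil h1.1 h1.2
      omega
    · rfl
  rw [this, map_zero]

/-! ### the character of `DV_{-2}` -/

/-- coefficient of `h^A` in `R'/(E R')` (sum over `A`) -/
def chi : R π →ₗ[K] K :=
  (Finsupp.linearCombination K (fun ν : Ix =>
    if ν.1 = 0 ∧ ν.2.1 = 0 ∧ ν.2.2.2.1 = [] ∧ ν.2.2.2.2 = Wb.one then (1 : K) else 0)) ∘ₗ er π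

theorem chi_Th_bv (i j k : ℕ) (w : List E) (q : Wb) : chi π (Th π (bv K i j k w q)) =
    if i = 0 ∧ j = 0 ∧ w = [] ∧ q = Wb.one then 1 else 0 := by
  rw [chi, LinearMap.comp_apply, er_Th]
  simp [bv]

theorem chi_kill (r : R π) : chi π (kill π r) = chi π r := by
  have : chi π ∘ₗ Th π ∘ₗ n1 K = chi π ∘ₗ Th π := by
    apply ext_bv
    intro i j k w q
    rw [LinearMap.comp_apply, LinearMap.comp_apply, LinearMap.comp_apply, n1_bv, chi_Th_bv]
    split_ifs with h1 h2 h2
    · rw [chi_Th_bv, if_pos h2]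
    · rw [chi_Th_bv, if_neg h2]
    · exact absurd h2.2.2.2 h1
    · rw [map_zero, map_zero]
  have h := LinearMap.congr_fun this (er π r)
  simp only [LinearMap.comp_apply, Th_er] at h
  rw [← h, ← kill_Th, Th_er]

theorem chi_J {r : R π} (hr : r ∈ J π) : chi π r = 0 := by
  rw [← chi_kill, (mem_J_iff_kill π).1 hr, map_zero]

theorem chi_E_mul (l : E) (r : R π) : chi π (X π l.toGen * r) = 0 := by
  have : chi π ∘ₗ Th π ∘ₗ opl K l = 0 := by
    apply ext_bv
    intro i j k w q
    rw [LinearMap.comp_apply, LinearMap.comp_apply, opl_bv, chi_Th_bv, if_neg (by simp)]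
    rfl
  have h := LinearMap.congr_fun this (er π r)
  simp only [LinearMap.comp_apply, Th_opl, Th_er, LinearMap.zero_apply] at h
  exact h

variable (K) in
/-- multiplication by `h` in right coordinates -/
def oph : N K →ₗ[K] N K := Finsupp.lmapDomain K K (fun ν : Ix => (ν.1, ν.2.1, ν.2.2.1 + 1, ν.2.2.2.1, ν.2.2.2.2))

theorem oph_bv (i j k : ℕ) (w : List E) (q : Wb) : oph K (bv K i j k w q) = bv K i j (k + 1) w q := by
  simp [oph, bv]

theorem Th_oph (n : N K) : Th π (oph K n) = X π .h * Th π n := by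
  have : Th π ∘ₗ oph K = LinearMap.mulLeft K (X π .h) ∘ₗ Th π := by
    apply ext_bv
    intro i j k w q
    rw [LinearMap.comp_apply, oph_bv, Th_bv, LinearMap.comp_apply, Th_bv, LinearMap.mulLeft_apply]
    simp only [nr, pow_succ', mul_assoc]
  exact LinearMap.congr_fun this n

theorem chi_h_mul (r : R π) : chi π (X π .h * r) = chi π r := by
  have : chi π ∘ₗ Th π ∘ₗ oph K = chi π ∘ₗ Th π := by
    apply ext_bv
    intro i j k w q
    rw [LinearMap.comp_apply, LinearMap.comp_apply, LinearMap.comp_apply, oph_bv, chi_Th_bv, chi_Th_bv]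
  have h := LinearMap.congr_fun this (er π r)
  simp only [LinearMap.comp_apply, Th_oph, Th_er] at h
  exact h

theorem chi_hpow_mul (k : ℕ) (r : R π) : chi π (X π .h ^ k * r) = chi π r := by
  induction k with
  | zero => rw [pow_zero, one_mul]
  | succ k ih => rw [pow_succ', mul_assoc, chi_h_mul, ih]

theorem chi_one : chi π 1 = 1 := by
  have h : Th π (bv K 0 0 0 [] Wb.one) = 1 := by
    rw [Th_bv]; simp [nr, we_nil, wq_one]
  rw [← h, chi_Th_bv, if_pos ⟨rfl, rfl, rfl, rfl⟩]

theorem chi_hpow (k : ℕ) : chi π (X π .h ^ k) = 1 := by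
  have := chi_hpow_mul π k 1
  rwa [mul_one, chi_one] at this

/-- degree `(0, A, 0)`: the part without letters is `chi r * h^A` -/
theorem kill_s0r_eq {A : ℕ} {r : R π} (hr : r ∈ pz π 0 A 0) :
    kill π (s0r π r) = chi π r • X π .h ^ A := by
  have hc : chi π r = er π r (0, 0, A, [], Wb.one) := by
    have h2 : NZ K 0 A 0 ≤ LinearMap.ker ((Finsupp.linearCombination K (fun ν : Ix =>
        if ν.1 = 0 ∧ ν.2.1 = 0 ∧ ν.2.2.2.1 = [] ∧ ν.2.2.2.2 = Wb.one then (1 : K) else 0)) -
        (Finsupp.lapply (0, 0, A, [], Wb.one) : N K →ₗ[K] K)) := by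
      rw [NZ, Finsupp.supported_eq_span_single, Submodule.span_le]
      rintro _ ⟨⟨i, j, k, w, q⟩, ⟨h1, h2, h3⟩, rfl⟩
      show _ - _ = (0 : K)
      rw [Finsupp.linearCombination_single, Finsupp.lapply_apply, Finsupp.single_apply]
      by_cases h4 : i = 0 ∧ j = 0 ∧ w = [] ∧ q = Wb.one
      · obtain ⟨rfl, rfl, rfl, rfl⟩ := h4
        have hk : k = A := by
          have := (deg_nil (ν := (0, 0, k, [], Wb.one)) rfl rfl).2.1
          rw [this] at h2
          exact_mod_cast h2
        subst hk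
        simp
      · rw [if_neg h4, if_neg]
        · simp
        · intro h5
          apply h4
          simp only [Prod.mk.injEq] at h5
          exact ⟨h5.1, h5.2.1, h5.2.2.2.1, h5.2.2.2.2⟩
    have h3 := h2 (er_mem hr)
    rw [LinearMap.mem_ker, LinearMap.sub_apply, sub_eq_zero] at h3
    exact h3
  rw [kill_s0r, hc]
  have h1 : n1 K (n0 K (er π r)) = er π r (0, 0, A, [], Wb.one) • bv K 0 0 A [] Wb.one := by
    ext ν
    rw [n1n0_apply, Finsupp.smul_apply, PBW128.bv_apply]
    by_cases h : ν = (0, 0, A, [], Wb.one)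
    · subst h
      simp
    · have h5 : (if (0, 0, A, [], Wb.one) = ν then (1 : K) else 0) = 0 := if_neg (Ne.symm h)
      have h6 : (if ν.2.2.2.1 = [] ∧ ν.2.2.2.2 = Wb.one then er π r ν else 0) = 0 := by
        split_ifs with h1
        · by_contra h2
          obtain ⟨e1, e2, e3⟩ := mem_NZ.1 (er_mem hr) ν h2
          obtain ⟨d1, d2, d3⟩ := deg_nil h1.1 h1.2
          apply h
          obtain ⟨i, j, k, w, q⟩ := ν
          simp only at h1 d1 d2
          have : i = 0 ∧ j = 0 ∧ k = A := by omega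
          simp [this, h1]
        · rfl
      rw [h6]
      first
      | (rw [if_neg h, smul_zero])
      | (rw [if_neg (Ne.symm h), smul_zero])
  rw [h1, map_smul, Th_bv]
  simp [nr, we_nil, wq_one]

/-! ### exactness -/

theorem exr_core {P A C : ℤ} (x : Cell → R π)
    (hx : ∀ σ, x σ ∈ pz π (P - cP σ) (A - cA σ) (C - cdeg σ))
    (h : ∀ σ, dY π x σ ∈ J π) (h0 : s0r π (x none) ∈ J π) :
    ∃ y : Cell → R π, y none = 0 ∧ (∀ σ, y σ ∈ pz π (P - cP σ) (A - cA σ) (C + 1 - cdeg σ)) ∧
      ∀ σ, x σ - dY π y σ ∈ J π := by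
  set y : Cell → R π := fun σ => match σ with
    | none => 0
    | some l => slr π l (x none) with hy
  have hy0 : y none = 0 := rfl
  have hyl : ∀ l, y (some l) = slr π l (x none) := fun l => rfl
  refine ⟨y, hy0, ?_, ?_⟩
  · intro σ
    cases σ with
    | none => rw [hy0]; exact Submodule.zero_mem _
    | some l =>
      rw [hyl]
      refine pz_cast (slr_mem π l (hx none)) ?_ ?_ ?_
      · rw [cP_some]; simp [cP]
      · simp [cA]
      · rw [cdeg_some]; simp only [cdeg]; push_cast; ring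
  · set x' : Cell → R π := x - dY π y with hx'
    have hc : ∀ σ, dY π x' σ ∈ J π := by
      intro σ
      rw [hx', map_sub]
      exact Submodule.sub_mem _ (h σ) (dY_dY π y σ)
    have h1 : x' none = s0r π (x none) := by
      rw [hx', Pi.sub_apply, dY_none, hy0, map_zero, zero_add]
      simp only [hyl]
      have e := splitr π (x none)
      rw [sub_eq_iff_eq_add]
      exact e
    have h2 : x' none ∈ J π := by rw [h1]; exact h0
    have h3 : ∑ l : E, X π l.toGen * x' (some l) ∈ J π := by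
      have := hc none
      rw [dY_none] at this
      have h4 := Submodule.sub_mem _ this (D_J h2)
      rwa [add_sub_cancel_left] at h4
    intro σ
    cases σ with
    | none => exact h2
    | some l => exact sum_X_mul_J π (a := fun l => x' (some l)) h3 l

/-- **exactness of the right cells in positive degrees** -/
theorem exr_mod {P A C : ℤ} (hC : 0 < C ∨ P < 0) (x : Cell → R π)
    (hx : ∀ σ, x σ ∈ pz π (P - cP σ) (A - cA σ) (C - cdeg σ))
    (h : ∀ σ, dY π x σ ∈ J π) :
    ∃ y : Cell → R π, y none = 0 ∧ (∀ σ, y σ ∈ pz π (P - cP σ) (A - cA σ) (C + 1 - cdeg σ)) ∧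
      ∀ σ, x σ - dY π y σ ∈ J π := by
  refine exr_core π x hx h (s0r_mem_J π (P := P - cP none) (A := A - cA none)
    (C := C - cdeg none) ?_ (hx none))
  simpa [cP, cdeg] using hC

/-- **exactness of the right cells in degree zero** (kernel of the augmentation `chi`) -/
theorem exr0_mod {A : ℤ} (x : Cell → R π)
    (hx : ∀ σ, x σ ∈ pz π (0 - cP σ) (A - cA σ) (0 - cdeg σ))
    (h : ∀ σ, dY π x σ ∈ J π) (h0 : chi π (x none) = 0) :
    ∃ y : Cell → R π, y none = 0 ∧ (∀ σ, y σ ∈ pz π (0 - cP σ) (A - cA σ) (0 + 1 - cdeg σ)) ∧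
      ∀ σ, x σ - dY π y σ ∈ J π := by
  refine exr_core π x hx h ?_
  have hn := hx none
  have hn' : x none ∈ pz π 0 A 0 := by simpa [cP, cA, cdeg] using hn
  by_cases hA : A < 0
  · rw [pz_neg (Or.inl hA) hn', map_zero]; exact Submodule.zero_mem _
  · obtain ⟨a, rfl⟩ := Int.eq_ofNat_of_zero_le (not_lt.mp hA)
    rw [mem_J_iff_kill, kill_s0r_eq π hn', h0, zero_smul]

/-- generation: `h^A` has character `1` -/
theorem gen_chi (A : ℕ) : X π .h ^ A ∈ pz π 0 A 0 ∧ chi π (X π .h ^ A) = 1 := by
  refine ⟨?_, chi_hpow π A⟩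
  have h := Th_NZ π (P := 0) (A := A) (C := 0) (n := bv K 0 0 A [] Wb.one)
    (Finsupp.single_mem_supported K _ ⟨by simp [dPx], by simp [dAx], by simp [dCx, Wb.word, wC]⟩)
  rw [Th_bv] at h
  simpa [nr, we_nil, wq_one] using h

/-- the character is multiplicative on `P ≤ 0` -/
theorem chi_mul {P A C : ℤ} (hP : P ≤ 0) {r : R π} (hr : r ∈ pz π P A C) (s : R π) :
    chi π (r * s) = chi π r * chi π s := by
  have key : ∀ r s : R π, chi π (r * s) = chi π (kill π (s0r π r) * kill π s) := by
    intro r s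
    rw [← chi_kill, map_mul]
    conv_lhs => rw [splitr π r, map_add, map_sum, add_mul, Finset.sum_mul, map_add, map_sum]
    rw [Finset.sum_eq_zero, add_zero]
    intro l _
    rw [show kill π (X π l.toGen * slr π l r) = X π l.toGen * kill π (slr π l r) by
      rw [map_mul, kill_E], mul_assoc, chi_E_mul]
  by_cases h : 0 < C ∨ P < 0
  · have h0 := (mem_J_iff_kill π).1 (s0r_mem_J π h hr)
    have h1 : chi π r = 0 := by
      have := key r 1
      rwa [mul_one, h0, zero_mul, map_zero] at this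
    rw [key, h0, zero_mul, map_zero, h1, zero_mul]
  · push Not at h
    have hP0 : P = 0 := le_antisymm hP h.2
    subst hP0
    rcases pz_cases π hr with rfl | ⟨a, c, rfl, rfl⟩
    · rw [zero_mul, map_zero, zero_mul]
    · have hc : c = 0 := by
        have := h.1
        omega
      subst hc
      have hr' : r ∈ pz π 0 a 0 := by simpa using hr
      rw [key, kill_s0r_eq π hr', smul_mul_assoc, map_smul, chi_hpow_mul, chi_kill, smul_eq_mul]



end Crest.Agent.R186.CR989
end
end

-- ▼ part R186/RW3_171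
section

/-!
Row 186 (A), short road (helper171): the sixteen right cells over `R'` and the concrete character:
`tot → DV_{-2}` is a quasi-isomorphism of right dg modules over `Γ`.
-/

set_option autoImplicit false
set_option linter.style.haveILetI false
set_option linter.unusedSectionVars false

noncomputable section

namespace Crest.Agent.R186.RW171

open Crest.Agent.R186.DefsQ830 Crest.Agent.R186.Cells221 Crest.Agent.R186.Name171
open Crest.Agent.R186.CR989 Crest.Agent.R186.WL221 Crest.Agent.R186.Win810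
open Crest.Agent.R186.C2b362 (J pz mem_J pz_cast D_J left_J right_J cA cdeg_some cP_some mem_NZ
  D_pz yp_mem_J)
open Crest.Agent.R186.C2b44 (kill kill_kill kill_D)
open Crest.Agent.R186.KOS296 (pcZ_eq_pz mem_J_iff_kill)
open Crest.Agent.R186.Der580 (D D_mul)
open Crest.Agent.R186.PBW128 (E)
open KHev302 Frame515 HB362 Hat827

variable {K : Type} [Field K] (π : Par K)

/-! ### the matrix over `R'` -/

/-- the table over `R'` -/
def mR (σ τ : Cell) : RL π := ⟨rct π σ τ, kill_rct π σ τ⟩

theorem mR_val (σ τ : Cell) : (mR π σ τ : R π) = rct π σ τ := rfl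

theorem mR_mem (σ τ : Cell) : mR π σ τ ∈ pcL π (cP τ - cP σ) (cA τ - cA σ)
    ((cdeg τ : ℤ) - cdeg σ - 1) := by
  rw [mem_pcL, pcZ_eq_pz]
  exact rct_mem π σ τ

theorem mR_mc (σ τ : Cell) : DL π (mR π σ τ) + ∑ ρ, mR π σ ρ * mR π ρ τ = 0 := by
  apply Subtype.ext
  rw [Subalgebra.coe_add, AddSubmonoidClass.coe_finsetSum]
  exact rct_mc_kill π σ τ

theorem mR_none (σ : Cell) : mR π σ none = 0 := by
  apply Subtype.ext
  rw [mR_val]
  cases σ <;> rfl

/-! ### the character -/

theorem chi_ne {P A C : ℤ} (h : P ≠ 0 ∨ C ≠ 0) {r : R π} (hr : r ∈ pz π P A C) :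
    chi π r = 0 := by
  rw [chi, LinearMap.comp_apply, Finsupp.linearCombination_apply, Finsupp.sum]
  refine Finset.sum_eq_zero fun ν hν => ?_
  obtain ⟨e1, _, e3⟩ := mem_NZ.1 (er_mem hr) ν (Finsupp.mem_support_iff.1 hν)
  rw [if_neg, smul_zero]
  rintro ⟨h1, h2, h3, h4⟩
  obtain ⟨d1, _, d3⟩ := deg_nil h3 h4
  rw [h1, h2] at d1
  omega

theorem chi_D {A C : ℤ} {r : R π} (hr : r ∈ pz π 0 A C) : chi π (D π r) = 0 := by
  by_cases hC : C - 1 = 0
  · have h0 := s0r_mem_J π (Or.inl (by omega : 0 < C)) hr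
    conv_lhs => rw [splitr π r, map_add, map_sum, map_add, map_sum]
    rw [chi_J π (D_J h0), zero_add]
    refine Finset.sum_eq_zero fun l _ => ?_
    rw [D_mul, map_add, chi_E_mul, add_zero, D_rE, add_mul, Finset.sum_mul, map_add, map_sum]
    rw [chi_J π (right_J (yp_mem_J l) _), add_zero]
    exact Finset.sum_eq_zero fun l' _ => by rw [mul_assoc, chi_E_mul]
  · exact chi_ne π (Or.inr hC) (D_pz hr)

/-- the character on `R'` -/
def chL : RL π →ₗ[K] K := (chi π) ∘ₗ (RL π).val.toLinearMap

theorem chL_apply (b : RL π) : chL π b = chi π b.1 := rfl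

theorem chL_ne {P A C : ℤ} (h : P ≠ 0 ∨ C ≠ 0) {b : RL π} (hb : b ∈ pcL π P A C) :
    chL π b = 0 := by
  rw [mem_pcL, pcZ_eq_pz] at hb
  exact chi_ne π h hb

theorem chL_D {A C : ℤ} {b : RL π} (hb : b ∈ pcL π 0 A C) : chL π (DL π b) = 0 := by
  rw [mem_pcL, pcZ_eq_pz] at hb
  rw [chL_apply, DL_val, chi_kill]
  exact chi_D π hb

theorem chL_mul {P A C : ℤ} (hP : P ≤ 0) {a : RL π} (ha : a ∈ pcL π P A C) (b : RL π) :
    chL π (a * b) = chL π a * chL π b := by
  rw [mem_pcL, pcZ_eq_pz] at ha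
  exact chi_mul π hP ha b.1

theorem chL_EB {P A : ℤ} (hP : P ≠ 0) {b : RL π} (hb : b ∈ ⨆ C : ℤ, pcL π P A C) :
    chL π b = 0 := by
  have key : (⨆ C : ℤ, pcL π P A C) ≤ LinearMap.ker (chL π) :=
    iSup_le fun C x hx => by
      rw [LinearMap.mem_ker]
      exact chL_ne π (Or.inl hP) hx
  exact LinearMap.mem_ker.1 (key hb)

theorem chL_mulE {P A : ℤ} (hP : P ≤ 0) {a : RL π} (ha : a ∈ ⨆ C : ℤ, pcL π P A C) (b : RL π) :
    chL π (a * b) = chL π a * chL π b := by
  have key : (⨆ C : ℤ, pcL π P A C) ≤ LinearMap.ker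
      ((chL π) ∘ₗ (LinearMap.mulRight K b) - (chL π b) • (chL π)) :=
    iSup_le fun C x hx => by
      rw [LinearMap.mem_ker, LinearMap.sub_apply, LinearMap.comp_apply, LinearMap.mulRight_apply,
        LinearMap.smul_apply, chL_mul π hP hx, smul_eq_mul, mul_comm, sub_self]
  have h := LinearMap.mem_ker.1 (key ha)
  rw [LinearMap.sub_apply, LinearMap.comp_apply, LinearMap.mulRight_apply,
    LinearMap.smul_apply, smul_eq_mul, sub_eq_zero, mul_comm (chL π b)] at h
  exact h

theorem chL_DE {A : ℤ} {b : RL π} (hb : b ∈ ⨆ C : ℤ, pcL π 0 A C) : chL π (DL π b) = 0 := by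
  have key : (⨆ C : ℤ, pcL π 0 A C) ≤ LinearMap.ker ((chL π) ∘ₗ (DL π)) :=
    iSup_le fun C x hx => by
      rw [LinearMap.mem_ker, LinearMap.comp_apply]
      exact chL_D π hx
  exact LinearMap.mem_ker.1 (key hb)

/-- `h ^ A` in `R'` -/
def hL (A : ℤ) : RL π := prL π (X π .h ^ A.toNat)

theorem hL_val (A : ℤ) : (hL π A : R π) = X π .h ^ A.toNat := by
  rw [hL, prL_val, map_pow, C2b44.kill_h]

theorem hL_mem {A : ℤ} (hA : 0 ≤ A) : hL π A ∈ pcL π 0 A 0 := by
  rw [mem_pcL, pcZ_eq_pz, hL_val]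
  have := (gen_chi π A.toNat).1
  rwa [Int.toNat_of_nonneg hA] at this

theorem hL_chi (A : ℤ) : chL π (hL π A) = 1 := by
  rw [chL_apply, hL_val]
  exact chi_hpow π _

theorem hL_D {A : ℤ} (hA : 0 ≤ A) : DL π (hL π A) = 0 := by
  have h := pcL_D (hL_mem π hA)
  rw [pcL_neg (Or.inr (by norm_num)), Submodule.mem_bot] at h
  exact h

/-! ### exactness over `R'` -/

theorem exL {P A k : ℤ} (hP : P ≤ 0) (hk : 0 ≤ k) (y : Cell → RL π)
    (hy : ∀ σ, y σ ∈ pcL π (P - cP σ) (A - cA σ) (k - cdeg σ))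
    (hd : ∀ σ, DL π (y σ) + ∑ τ, mR π σ τ * y τ = 0) (h0 : k = 0 → chL π (y none) = 0) :
    ∃ z : Cell → RL π, (∀ σ, z σ ∈ pcL π (P - cP σ) (A - cA σ) (k + 1 - cdeg σ)) ∧
      ∀ σ, y σ = DL π (z σ) + ∑ τ, mR π σ τ * z τ := by
  have hy' : ∀ σ, (y σ : R π) ∈ pz π (P - cP σ) (A - cA σ) (k - cdeg σ) := fun σ => by
    have := hy σ
    rwa [mem_pcL, pcZ_eq_pz] at this
  have hJ : ∀ σ, dY π (fun c => (y c : R π)) σ ∈ J π := fun σ => by
    rw [mem_J_iff_kill, dY_apply, map_add, map_sum]
    have h := congrArg (fun b : RL π => (b : R π)) (hd σ)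
    simp only [Subalgebra.coe_add, AddSubmonoidClass.coe_finsetSum] at h
    refine Eq.trans ?_ h
    rw [DL_val]
    congr 1
    refine Finset.sum_congr rfl fun τ _ => ?_
    rw [map_mul, kill_rct, kill_val]
    rfl
  have key : ∃ z : Cell → R π, (∀ σ, z σ ∈ pz π (P - cP σ) (A - cA σ) (k + 1 - cdeg σ)) ∧
      ∀ σ, (y σ : R π) - dY π z σ ∈ J π := by
    by_cases hc : 0 < k ∨ P < 0
    · obtain ⟨z, _, h1, h2⟩ := exr_mod π hc (fun c => (y c : R π)) hy' hJ
      exact ⟨z, h1, h2⟩
    · push Not at hc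
      obtain rfl : k = 0 := le_antisymm hc.1 hk
      obtain rfl : P = 0 := le_antisymm hP hc.2
      obtain ⟨z, _, h1, h2⟩ := exr0_mod π (fun c => (y c : R π)) hy' hJ (h0 rfl)
      exact ⟨z, h1, h2⟩
  obtain ⟨z, h1, h2⟩ := key
  refine ⟨fun σ => prL π (z σ), fun σ => prL_mem (by rw [pcZ_eq_pz]; exact h1 σ), fun σ => ?_⟩
  apply Subtype.ext
  have h := (mem_J_iff_kill π).1 (h2 σ)
  rw [map_sub, sub_eq_zero, kill_val, dY_apply, map_add, map_sum] at h
  rw [Subalgebra.coe_add, AddSubmonoidClass.coe_finsetSum, h, DL_prL]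
  congr 1
  refine Finset.sum_congr rfl fun τ _ => ?_
  rw [map_mul, kill_rct]
  rfl

/-! ### the concrete system and its character -/

variable (s : ℕ) (hs : 5 ≤ s)

/-- the closing data of `Γ` -/
abbrev Ee : CE (KHc186.wG π s hs) := CEbr247.ev (KHc186.CEr π s hs)

/-- **the sixteen right cells** -/
def rsc : RS (Ee π s hs) where
  κ := Cell
  p c := -cP c
  a c := 3 - cA c
  r c := cdeg c
  m := mR π
  m_mem c c' := by
    have h := mR_mem π c c'
    change mR π c c' ∈ pcL π (-cP c - -cP c') (3 - cA c - (3 - cA c')) ((cdeg c' : ℤ) - cdeg c - 1)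
    rwa [show -cP c - -cP c' = cP c' - cP c by ring,
      show 3 - cA c - (3 - cA c') = cA c' - cA c by ring]
  mc := mR_mc π

theorem cP_le (c : Cell) : cP c ≤ 0 := by
  cases c with
  | none => exact le_refl _
  | some l => cases l <;> simp [cP]

/-- the character of `DV_{-2}` -/
def chr : Chr (rsc π s hs) where
  o := none
  ro := rfl
  r_nn c := Int.natCast_nonneg _
  no c := mR_none π c
  P_le j := by
    change -(0 : ℤ) ≤ (((show DefsQ830.Ob from j).1.val : ℕ) : ℤ)
    omega
  A_le j := by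
    have := (show DefsQ830.Ob from j).2.2
    change (((show DefsQ830.Ob from j).2.val : ℕ) : ℤ) ≤ 3 - 0
    omega
  p_le c := by
    have := cP_le c
    change -(0 : ℤ) ≤ -cP c
    omega
  χ := chL π
  χ_P hb hP := chL_EB π hP hb
  χ_C hb hC := chL_ne π (Or.inr hC) hb
  χ_mul {_ _ _ _ _ b} ha _ hP := chL_mulE π hP ha b
  χ_one := chi_one π
  χ_D hb := chL_DE π hb
  χ_m c := by
    change chL π (mR π none c) = 0
    cases c with
    | none => rw [mR_none, map_zero]
    | some l =>
      rw [chL_apply, mR_val]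
      have := chi_E_mul π l 1
      rwa [mul_one] at this
  η := hL π
  η_mem A hA := hL_mem π hA
  η_χ A _ := hL_chi π A
  η_D A hA := hL_D π hA
  ex j k y hk hy hd h0 := by
    obtain ⟨z, h1, h2⟩ := exL π (P := -(((show DefsQ830.Ob from j).1.val : ℕ) : ℤ))
      (A := 3 - (((show DefsQ830.Ob from j).2.val : ℕ) : ℤ)) (k := k) (by omega) hk y
      (fun σ => by
        have h := hy σ
        change y σ ∈ pcL π (-cP σ - (((show DefsQ830.Ob from j).1.val : ℕ) : ℤ))
          (3 - cA σ - (((show DefsQ830.Ob from j).2.val : ℕ) : ℤ)) (k - cdeg σ) at h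
        rwa [show -cP σ - (((show DefsQ830.Ob from j).1.val : ℕ) : ℤ) =
            -(((show DefsQ830.Ob from j).1.val : ℕ) : ℤ) - cP σ by ring,
          show 3 - cA σ - (((show DefsQ830.Ob from j).2.val : ℕ) : ℤ) =
            3 - (((show DefsQ830.Ob from j).2.val : ℕ) : ℤ) - cA σ by ring] at h) hd h0
    refine ⟨z, fun σ => ?_, h2⟩
    have h := h1 σ
    change z σ ∈ pcL π (-cP σ - (((show DefsQ830.Ob from j).1.val : ℕ) : ℤ))
      (3 - cA σ - (((show DefsQ830.Ob from j).2.val : ℕ) : ℤ)) (k + 1 - cdeg σ)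
    rwa [show -cP σ - (((show DefsQ830.Ob from j).1.val : ℕ) : ℤ) =
        -(((show DefsQ830.Ob from j).1.val : ℕ) : ℤ) - cP σ by ring,
      show 3 - cA σ - (((show DefsQ830.Ob from j).2.val : ℕ) : ℤ) =
        3 - (((show DefsQ830.Ob from j).2.val : ℕ) : ℤ) - cA σ by ring]



end Crest.Agent.R186.RW171
end
end

-- ▼ part R186/RW4_171
section

/-!
Row 186 (A), short road (helper171): `DV_{-2} ⊗ X` acyclic iff the total complex of the sixteen right
cells with values in the row complexes is.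
-/

set_option autoImplicit false
set_option linter.style.haveILetI false
set_option linter.unusedSectionVars false

noncomputable section

namespace Crest.Agent.R186.RW171

open Crest.Agent.R186.DefsQ830 Win810 KHev302 Frame515 HB362 Hat827 TB143

variable {K : Type} [Field K]

/-- the augmentation as a morphism of right dg modules -/
def Chr.avM {w : WD K} {E : CE w} {S : RS E} (T : Chr S) : RMHom (tot S) T.DV where
  toGCHom := T.avH
  smul a y := T.av_R a y

/-- `tot ⊗ X` and `DV ⊗ X` -/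
theorem Chr.ac_iff {w : WD K} {E : CE w} {S : RS E} (T : Chr S) (X : LCells w.dga) :
    Ac (tG (tot S) X) ↔ Ac (tG T.DV X) :=
  tG_ac_iff X (f := T.avM) T.avQI

variable (π : Par K) (s : ℕ) (hs : 5 ≤ s)


end Crest.Agent.R186.RW171
end
end

-- ▼ part R186/RS_982
section

/-!
Row 186 (A), right cells (helper982, for helper625): the concrete system of right cells
`RSc π s hs : RW171.RS (Er π s hs)` over the rows of `R'` (171's table `rct`), and its table in
654's letters.
-/

set_option autoImplicit false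
set_option linter.style.haveILetI false

noncomputable section

namespace Crest.Agent.R186.RS982

open DefsQ830 PBW128 Win810 SM890 WL221 Cells221 KHc302 LtR654
open C2b362 (cA)

variable {K : Type} [Field K] (π : Par K)

/-- table of the right cells in `R'` -/
def rm (c c' : Cell) : RL π := prL π (Name171.rct π c c')

theorem pz_pcZ (P A C : ℤ) : C2b362.pz π P A C = pcZ π P A C := C2b362.pz_eq P A C

theorem rm_mem (c c' : Cell) : rm π c c' ∈ pcL π (-cP c - -cP c') ((3 - cA c) - (3 - cA c'))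
    ((cdeg c' : ℤ) - cdeg c - 1) := by
  have h := Name171.rct_mem π c c'
  rw [pz_pcZ] at h
  have h' := prL_mem h
  have h1 : -cP c - -cP c' = cP c' - cP c := by ring
  have h2 : (3 - cA c) - (3 - cA c') = cA c' - cA c := by ring
  rw [h1, h2]
  exact h'

theorem rm_mc (c c' : Cell) : WL221.DL π (rm π c c') + ∑ c'', rm π c c'' * rm π c'' c' = 0 := by
  have h := congrArg (prL π) (Name171.rct_mc_kill π c c')
  rw [map_zero, map_add, map_sum, prL_kill] at h
  rw [← h]
  congr 1
  · exact DL_prL _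
  · exact Finset.sum_congr rfl fun c'' _ => (map_mul (prL π) _ _).symm

variable (s : ℕ) (hs : 5 ≤ s)

/-- **the right cells of `DV_{-2}`** -/
def RSc : RW171.RS (Er π s hs) where
  κ := Cell
  p c := -cP c
  a c := 3 - cA c
  r c := cdeg c
  m := rm π
  m_mem := rm_mem π
  mc := rm_mc π

/-! ### the table in 654's letters -/

section table


theorem rm_d1z (j : Fin 2) : rm π (some (.d 1)) (some (.z j)) = π.c j • (dL π 0 * xL π j) := by
  change prL π (π.c j • (X π (.d 0) * X π (.x j))) = _
  rw [map_smul, map_mul]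
  rfl

theorem rm_d0z (j : Fin 2) : rm π (some (.d 0)) (some (.z j)) =
    (π.c j * π.g) • (dL π 1 * xL π j) := by
  change prL π ((π.c j * π.g) • (X π (.d 1) * X π (.x j))) = _
  rw [map_smul, map_mul]
  rfl

theorem rm_z1zc : rm π (some (.z 1)) (some .zc) = π.c 0 • xL π 0 := by
  change prL π (π.c 0 • X π (.x 0)) = _
  rw [map_smul]
  rfl

theorem rm_z0zc : rm π (some (.z 0)) (some .zc) = π.c 1 • xL π 1 := by
  change prL π (π.c 1 • X π (.x 1)) = _
  rw [map_smul]
  rfl



theorem rm_e1g (j : Fin 2) : rm π (some (.e 1)) (some (.gj j)) = π.c j • (dL π 0 * xL π j) := by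
  change prL π (π.c j • (X π (.d 0) * X π (.x j))) = _
  rw [map_smul, map_mul]
  rfl

theorem rm_e0g (j : Fin 2) : rm π (some (.e 0)) (some (.gj j)) =
    (π.c j * π.g) • (dL π 1 * xL π j) := by
  change prL π ((π.c j * π.g) • (X π (.d 1) * X π (.x j))) = _
  rw [map_smul, map_mul]
  rfl

theorem rm_g1gc : rm π (some (.gj 1)) (some .gc) = π.c 0 • xL π 0 := by
  change prL π (π.c 0 • X π (.x 0)) = _
  rw [map_smul]
  rfl

theorem rm_g0gc : rm π (some (.gj 0)) (some .gc) = π.c 1 • xL π 1 := by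
  change prL π (π.c 1 • X π (.x 1)) = _
  rw [map_smul]
  rfl

theorem rm_uv (i : Fin 2) : rm π (some (.u i)) (some (.v i)) = tL π + hL π := by
  change prL π (if i = i then tR π + X π .h else 0) = _
  rw [if_pos rfl, map_add]
  rfl

theorem rm_none (c : Cell) : rm π c none = 0 := by
  change prL π (Name171.rct π c none) = 0
  have h : Name171.rct π c none = 0 := by cases c <;> rfl
  rw [h, map_zero]

/-- the other entries between adjacent levels vanish (`ZZH380.tab b a` = the list above) -/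
theorem rm_zero (a b : Cell) (h1 : cdeg b = cdeg a + 1) (h2 : ZZH380.tab b a = false) :
    rm π a b = 0 := by
  have key : Name171.rct π a b = 0 := by
    rcases b with _ | l
    · cases a <;> rfl
    rcases a with _ | l'
    · exfalso
      cases l <;> simp [ZZH380.tab, cdeg] at h1 h2 <;> omega
    · cases l <;> cases l' <;> first
        | rfl
        | (exfalso; simp [ZZH380.tab] at h2; done)
        | (exfalso; simp only [cdeg] at h1; omega)
        | skip
      all_goals
        rename_i i j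
        have h3 : ¬ (i = j) := fun h => by
          subst h
          simp [ZZH380.tab] at h2
        have h4 : ¬ (j = i) := fun h => h3 h.symm
        simp [Name171.rct, Name171.rcf, h4]
  change prL π (Name171.rct π a b) = 0
  rw [key, map_zero]

end table

end Crest.Agent.R186.RS982
end
end

-- ▼ part R186/RW5_171

/-!
Row 186 (A), short road (helper171): the character of `DV_{-2}` over the official closing data
(`Er π s hs = CEbr247.ev (KHc302.CEr π s hs)`, 982's `RSc`), `DV_{-2}` as a right dg module over `Γ`,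
`tot (RSc) → DV_{-2}` and `Ac (tot ⊗ X) ↔ Ac (DV_{-2} ⊗ X)`.
-/

set_option autoImplicit false
set_option linter.style.haveILetI false
set_option linter.unusedSectionVars false

noncomputable section

namespace Crest.Agent.R186.RW171

open Crest.Agent.R186.DefsQ830 Crest.Agent.R186.Cells221 Crest.Agent.R186.Name171
open Crest.Agent.R186.CR989 Crest.Agent.R186.WL221 Crest.Agent.R186.Win810
open Crest.Agent.R186.C2b362 (cA)
open KHev302 Frame515 HB362 Hat827 TB143 KHc302 LtR654 RS982

variable {K : Type} [Field K] (π : Par K) (s : ℕ) (hs : 5 ≤ s)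

theorem rm_eq (c c' : Cell) : rm π c c' = mR π c c' := Subtype.ext (kill_rct π c c')

theorem rm_eq' : rm π = mR π := funext fun c => funext fun c' => rm_eq π c c'

theorem chL_rm (c : Cell) : chL π (rm π none c) = 0 := by
  rw [rm_eq]
  exact (chr π 5 le_rfl).χ_m c

theorem exS {P A k : ℤ} (hP : P ≤ 0) (hk : 0 ≤ k) (y : Cell → RL π)
    (hy : ∀ σ, y σ ∈ pcL π (P - cP σ) (A - cA σ) (k - cdeg σ))
    (hd : ∀ σ, DL π (y σ) + ∑ τ, rm π σ τ * y τ = 0) (h0 : k = 0 → chL π (y none) = 0) :
    ∃ z : Cell → RL π, (∀ σ, z σ ∈ pcL π (P - cP σ) (A - cA σ) (k + 1 - cdeg σ)) ∧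
      ∀ σ, y σ = DL π (z σ) + ∑ τ, rm π σ τ * z τ := by
  rw [rm_eq'] at hd ⊢
  exact exL π hP hk y hy hd h0

theorem exS' (j : DefsQ830.Ob) (k : ℤ) (y : Cell → RL π) (hk : 0 ≤ k)
    (hy : ∀ c, y c ∈ pcL π (-cP c - ((j.1.val : ℕ) : ℤ)) (3 - cA c - ((j.2.val : ℕ) : ℤ))
      (k - cdeg c))
    (hd : ∀ c, DL π (y c) + ∑ c', rm π c c' * y c' = 0) (h0 : k = 0 → chL π (y none) = 0) :
    ∃ z : Cell → RL π, (∀ c, z c ∈ pcL π (-cP c - ((j.1.val : ℕ) : ℤ))
      (3 - cA c - ((j.2.val : ℕ) : ℤ)) (k + 1 - cdeg c)) ∧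
      ∀ c, y c = DL π (z c) + ∑ c', rm π c c' * z c' := by
  have e1 : ∀ c, -cP c - ((j.1.val : ℕ) : ℤ) = -((j.1.val : ℕ) : ℤ) - cP c := fun c => by ring
  have e2 : ∀ c, 3 - cA c - ((j.2.val : ℕ) : ℤ) = 3 - ((j.2.val : ℕ) : ℤ) - cA c := fun c => by ring
  simp only [e1, e2] at hy ⊢
  exact exS π (by omega) hk y hy hd h0

/-- the character of `DV_{-2}`, official data -/
def chs : Chr (RSc π s hs) where
  o := none
  ro := rfl
  r_nn c := Int.natCast_nonneg _
  no c := rm_none π c
  P_le j := by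
    change -(0 : ℤ) ≤ (((show DefsQ830.Ob from j).1.val : ℕ) : ℤ)
    omega
  A_le j := by
    have := (show DefsQ830.Ob from j).2.2
    change (((show DefsQ830.Ob from j).2.val : ℕ) : ℤ) ≤ 3 - 0
    omega
  p_le c := by
    have := cP_le c
    change -(0 : ℤ) ≤ -cP c
    omega
  χ := chL π
  χ_P hb hP := chL_EB π hP hb
  χ_C hb hC := chL_ne π (Or.inr hC) hb
  χ_mul {_ _ _ _ _ b} ha _ hP := chL_mulE π hP ha b
  χ_one := chi_one π
  χ_D hb := chL_DE π hb
  χ_m c := chL_rm π c
  η := hL π
  η_mem A hA := hL_mem π hA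
  η_χ A _ := hL_chi π A
  η_D A hA := hL_D π hA
  ex j k y hk hy hd h0 := exS' π j k y hk hy hd h0

/-- **`DV_{-2}` as a right dg module over `Γ`**, official data -/
def DVs : RM (WG π s (two_le hs)).dga := (chs π s hs).DV



/-- **`DV_{-2} ⊗ X` is acyclic iff the right cell complex is** -/
theorem dvs_ac (X : LCells (WG π s (two_le hs)).dga) :
    Ac (tG (tot (RSc π s hs)) X) ↔ Ac (tG (DVs π s hs) X) :=
  (chs π s hs).ac_iff X



end Crest.Agent.R186.RW171
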