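import Crest.Agent.R186.V2q_510
import Crest.Agent.R186.VHM_429_Mg
import Crest.Agent.R186.EndF_448
import Crest.Agent.R186.ColM_790
import Crest.Agent.R186.ColB_921
import Crest.Agent.R186.KOSZ_296
import Crest.Agent.R186.ColB_790
import Crest.Agent.R186.EndV_448
import Crest.Agent.R186.VEnd_701
import Crest.Agent.R186.ColHC_977
import Crest.Agent.R186.Cells_221
import Crest.Agent.R186.RW1_171
import Crest.Agent.R186.HBz_362
import Crest.Agent.R186.FamU_654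
import Crest.Agent.R186.JTR_322
import Crest.Agent.R186.RW5_171
import Crest.Agent.R186.TRq_461
import Crest.Agent.R186.C1b_328
import Crest.Agent.R186.C1Q_611
import Crest.Agent.R186.KosJ_374
import Crest.Agent.R186.NulA_700

-- ▼ part R186/HMj_510
section

/-!
Row 186, half (A) (helper510): the join of (V) = `EndF448.HM` from `Ac (DV_{-2} ⊗ XL)` and the
columns of `Y ⊗ M`.
-/

set_option autoImplicit false
set_option linter.style.haveILetI false
set_option linter.unusedSectionVars false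

noncomputable section

namespace Crest.Agent.R186.HMj510

open Hat827 Win810 DefsQ830 Frame515 Res255 RW171 V2c510 V2p510 V2q510 KHc302 WL221 TB143 Col921
open ColAd977 EndF448 EndP448 EndV448 FinV988

variable {K : Type} [Field K] (π : Par K) (s : ℕ) (hs : 5 ≤ s)

/-- **`HM` from its two inputs** -/
theorem HM_of_HB (hP : Ac (tG (A := Gam π s hs) (DVs π s hs) (XL π s hs)))
    (hB : ∀ (Y : RCells (WR π).dga) (R : RRes Y (DR (V2 π))), R.lo = 0 → (∀ σ, Y.e σ = 1) →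
      ∀ n, VT339.HB (wdatG π s (two_le hs) (three_le s hs)) (tQ Y (extG π s hs).M) n) :
    HM π s hs := by
  intro Y R h1 h2
  exact ac_of_HB π s hs hP (hB Y R h1 h2)



end Crest.Agent.R186.HMj510
end
end

-- ▼ part R186/ColE_439
section

/-!
Row 186 (A), leaf V3 (helper439, second hand of 925): the `R''` side of 921's `Dat`: the layers
`J / J²`-ish, `copR n : Cop RB J RB (FR n) (FR (n+1)) 0` by right multiplication with `wq q`, and the
right Koszul structure `kzR : Kz RB J`.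
-/

set_option autoImplicit false
set_option linter.style.haveILetI false
set_option linter.unusedSectionVars false

open MulOpposite

namespace Crest.Agent.R186.ColE439

open Hat827 Hat827.DGA Frame515 Res255 Win810 TR810 Col921 ColB790
open DefsQ830 DefsQ830.Gen PBW128 SM890 C2b362 C1R808
open Crest.Agent.R186.ColM790 (lev RB MB FM copM lev_one)
open Crest.Agent.R186.C2b44 (kill)

variable {K : Type} [Field K] (π : Par K)

theorem wk2_lev (w q : Wb) (h : wk2 π w q ≠ 0) : lev (wt2 w q) = lev w + lev q := by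
  cases w with
  | one => cases q <;> simp [wt2, lev]
  | y a =>
    rcases fin2 a with rfl | rfl <;> cases q with
    | one => simp [wt2, lev]
    | y b => simp [wt2, lev]
    | yb b => simp [wk2] at h
    | pi => simp [wk2] at h
  | yb a => cases q <;> simp_all [wk2, wt2, lev]
  | pi => cases q <;> simp_all [wk2, wt2, lev]

/-- coordinates of `r * wq q` -/
theorem zc_RR (q q' : Wb) (r : R π) : zc π q' (r * wq π q) =
    ∑ w, wk2 π w q • (if wt2 w q = q' then zc π w r else 0) := by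
  have e : r * wq π q = ∑ w, wk2 π w q • (zc π w r * wq π (wt2 w q)) := by
    conv_lhs => rw [← zc_sum π r]
    rw [Finset.sum_mul]
    refine Finset.sum_congr rfl fun w _ => ?_
    rw [mul_assoc, wq_mul_wq, mul_smul_comm]
  rw [e, map_sum]
  refine Finset.sum_congr rfl fun w _ => ?_
  rw [map_smul, zc_mul_wq π q' (wt2 w q) (zc_mem π w r)]

theorem zc_RR_lo {q q' : Wb} (h : lev q' < lev q) (r : R π) : zc π q' (r * wq π q) = 0 := by
  rw [zc_RR]
  refine Finset.sum_eq_zero fun w _ => ?_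
  by_cases hk : wk2 π w q = 0
  · rw [hk, zero_smul]
  · rw [if_neg, smul_zero]
    intro he
    have := wk2_lev π w q hk
    rw [he] at this
    omega

theorem zc_RR_eq {q q' : Wb} (h : lev q' = lev q) (r : R π) :
    zc π q' (r * wq π q) = if q = q' then zc π .one r else 0 := by
  rw [zc_RR, Finset.sum_eq_single Wb.one]
  · have e1 : wk2 π Wb.one q = 1 := by cases q <;> rfl
    have e2 : wt2 Wb.one q = q := by cases q <;> rfl
    rw [e1, e2, one_smul]
  · intro w _ hw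
    by_cases hk : wk2 π w q = 0
    · rw [hk, zero_smul]
    · rw [if_neg, smul_zero]
      intro he
      have h2 := wk2_lev π w q hk
      rw [he] at h2
      exact hw (lev_one (by omega))
  · intro hh
    exact absurd (Finset.mem_univ _) hh

theorem zc_RR_J {q q' : Wb} (h : lev q' ≤ lev q) {r : R π} (hr : r ∈ J π) :
    zc π q' (r * wq π q) = 0 := by
  rcases Nat.lt_or_ge (lev q') (lev q) with h1 | h1
  · exact zc_RR_lo π h1 r
  · rw [zc_RR_eq π (le_antisymm h h1), (mem_J_iff_zc π).1 hr, ite_self]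

/-- **the filtration of `R''` by the `W`-degree** -/
def FR (n : ℕ) : Submodule K (R π) where
  carrier := {r | ∀ q, lev q < n → zc π q r = 0}
  zero_mem' := fun q _ => map_zero (zc π q)
  add_mem' := by
    intro a b ha hb q hq
    rw [map_add, ha q hq, hb q hq, add_zero]
  smul_mem' := by
    intro r a ha q hq
    rw [map_smul, ha q hq, smul_zero]


theorem mem_FR_one {r : R π} : r ∈ FR π 1 ↔ r ∈ J π := by
  rw [mem_J_iff_zc]
  constructor
  · intro h
    exact h .one (by simp [lev])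
  · intro h q hq
    have : q = .one := lev_one (by omega)
    rw [this]
    exact h

theorem FR_one : FR π 1 = J π := Submodule.ext fun _ => mem_FR_one π

theorem FR_three : FR π 3 = ⊥ := by
  rw [eq_bot_iff]
  intro r hr
  rw [Submodule.mem_bot, ← zc_sum π r]
  refine Finset.sum_eq_zero fun q _ => ?_
  rw [hr q (by cases q <;> simp [lev]), zero_mul]

theorem FR_anti {n m : ℕ} (h : n ≤ m) : FR π m ≤ FR π n := fun _ hx q hq => hx q (by omega)

theorem RR_FR (q : Wb) {n : ℕ} (h : n ≤ lev q) (r : R π) : r * wq π q ∈ FR π n :=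
  fun _ hq => zc_RR_lo π (lt_of_lt_of_le hq h) r

theorem FR_smul {n : ℕ} (a : R π) {r : R π} (hr : r ∈ FR π n) : a * r ∈ FR π n := by
  rw [← zc_sum π r, Finset.mul_sum]
  refine Submodule.sum_mem _ fun q _ => ?_
  by_cases hq : lev q < n
  · rw [hr q hq, zero_mul, mul_zero]
    exact Submodule.zero_mem _
  · rw [← mul_assoc]
    exact RR_FR π q (not_lt.1 hq) _

theorem FR_d {n : ℕ} {r : R π} (hr : r ∈ FR π n) : Der580.D π r ∈ FR π n := by
  rw [← zc_sum π r, map_sum]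
  refine Submodule.sum_mem _ fun q _ => ?_
  rw [RW_D π]
  by_cases hq : lev q < n
  · rw [hr q hq, map_zero, zero_mul]
    exact Submodule.zero_mem _
  · exact RR_FR π q (not_lt.1 hq) _

theorem stR (n : ℕ) : Stab (RB π) (FR π n) where
  smul a _ hb := FR_smul π a hb
  d hb := FR_d π hb

theorem wq_pcZ (q : Wb) : wq π q ∈ pcZ π 0 0 (wC q.word) := by
  have h1 : wq π q ∈ pc π (wP q.word) (wA q.word) (wC q.word) :=
    Submodule.subset_span ⟨q.word, rfl, rfl, rfl, rfl⟩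
  rw [wP_word, wA_word] at h1
  have e : Win810.pcZ π 0 ((0 : ℕ) : ℤ) ((wC q.word : ℕ) : ℤ) = pc π 0 0 (wC q.word) := by
    rw [KOS296.pcZ_eq_pz, C2b362.pz_eq]
    simp
  have e2 := e ▸ h1
  simpa using e2

/-- right multiplication by `wq q` -/
noncomputable def uR (q : Wb) : LH (RB π) (RB π) 0 (wC q.word) where
  f := LinearMap.mulRight K (wq π q)
  smul a b := mul_assoc a b _
  comm b := RW_D π b q
  mem {P A C b} hb := by
    have h := pcZ_mul π (show b ∈ pcZ π P A C from hb) (wq_pcZ π q)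
    rw [add_zero A] at h
    exact h

theorem uniqR (n : ℕ) (z : {q : Wb // lev q = n} → R π)
    (hz : ∑ k, z k * wq π k.1 ∈ FR π (n + 1)) (q : {q : Wb // lev q = n}) : z q ∈ J π := by
  refine (mem_J_iff_zc π).2 ?_
  have h := hz q.1 (by rw [q.2]; omega)
  rw [map_sum, Finset.sum_eq_single q] at h
  · rw [zc_RR_eq π rfl, if_pos rfl] at h
    exact h
  · intro k _ hk
    rw [zc_RR_eq π (q.2.trans k.2.symm), if_neg]
    intro he
    exact hk (Subtype.ext he)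
  · intro hh
    exact absurd (Finset.mem_univ _) hh

theorem genR (n : ℕ) {P A C : ℤ} {x : R π} (hx : x ∈ FR π n) (hxP : x ∈ pcZ π P A C) :
    ∃ z : {q : Wb // lev q = n} → R π, (∀ q, z q ∈ pcZ π (P - 0) A (C - (wC q.1.word : ℤ))) ∧
      x - ∑ q, z q * wq π q.1 ∈ FR π (n + 1) := by
  refine ⟨fun q => C1R808.zc π q.1 x, fun q => ?_, fun q' hq' => ?_⟩
  · have h := zc_pcZ π q.1 hxP
    rw [sub_zero]
    exact h
  · rw [map_sub, map_sum]
    rcases Nat.lt_or_ge (lev q') n with h1 | h1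
    · rw [hx q' h1, Finset.sum_eq_zero, sub_zero]
      intro q _
      exact zc_RR_lo π (by rw [q.2]; exact h1) _
    · have h2 : lev q' = n := by omega
      rw [Finset.sum_eq_single (⟨q', h2⟩ : {q : Wb // lev q = n})]
      · rw [zc_mul_wq π q' q' (zc_mem π q' x), if_pos rfl, sub_self]
      · intro q _ hq
        rw [zc_mul_wq π q' q.1 (zc_mem π q.1 x), if_neg]
        intro he
        exact hq (Subtype.ext he)
      · intro hh
        exact absurd (Finset.mem_univ _) hh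

/-- **the layers of `R''`** -/
noncomputable def copR (n : ℕ) : Cop (RB π) (J π) (RB π) (FR π n) (FR π (n + 1)) 0 where
  κ := {q : Wb // lev q = n}
  uC q := wC q.1.word
  u q := uR π q.1
  st := stR π (n + 1)
  u_F q z := RR_FR π q.1 (by rw [q.2]) z
  u_J q z hz := fun q' hq' => zc_RR_J π (by rw [q.2]; omega) hz
  gen hx hxP := genR π n hx hxP
  uniq z hz q := uniqR π n z hz q

/-! ### Koszul -/

theorem x_pcZ (j : Fin 2) : X π (.x j) ∈ pcZ π 1 0 0 := by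
  have := X_mem_pc π (.x j)
  rw [← pcZ_nat] at this
  exact this

theorem D_x (j : Fin 2) : Der580.D π (X π (.x j)) = 0 := by
  rw [Der580.D_X]
  simp [dGen]

theorem D_mul_x (j : Fin 2) (b : R π) :
    Der580.D π (b * X π (.x j)) = Der580.D π b * X π (.x j) := by
  rw [Der580.D_mul, D_x, mul_zero, add_zero]

/-- right multiplication by `x_j` -/
noncomputable def xR (j : Fin 2) : LH (RB π) (RB π) 1 0 where
  f := LinearMap.mulRight K (X π (.x j))
  smul a b := mul_assoc a b _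
  comm b := D_mul_x π j b
  mem {P A C b} hb := by
    have h := pcZ_mul π (show b ∈ pcZ π P A C from hb) (x_pcZ π j)
    rw [add_zero A] at h
    exact h

theorem J_x (j : Fin 2) {z : R π} (hz : z ∈ J π) : z * X π (.x j) ∈ J π := by
  rw [KOS296.mem_J_iff_kill] at hz ⊢
  rw [map_mul, hz, zero_mul]

theorem xkR (z : R π) : ∑ j : Fin 2, z * X π (.x (1 - j)) * X π (.x j) ∈ J π := by
  rw [Fin.sum_univ_two]
  have e : z * X π (.x (1 - 0)) * X π (.x 0) + z * X π (.x (1 - 1)) * X π (.x 1) = 0 := by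
    change z * X π (.x 1) * X π (.x 0) + z * X π (.x 0) * X π (.x 1) = 0
    rw [mul_assoc, mul_assoc, Der580.r_xx, Der580.add_self]
  rw [e]
  exact Submodule.zero_mem _

theorem genK {P A C : ℤ} {y : R π} (hP : 1 ≤ P) (hy : y ∈ pcZ π P A C) :
    ∃ z : Fin 2 → R π, (∀ j, z j ∈ pcZ π (P - 1) A C) ∧ y - ∑ j, z j * X π (.x j) ∈ J π := by
  rw [KOS296.pcZ_eq_pz] at hy
  obtain ⟨a, ha, b, hb, e⟩ := KOS296.xr_surZ π hP hy
  rw [← KOS296.pcZ_eq_pz] at ha hb
  refine ⟨![a, b], ?_, ?_⟩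
  · intro j
    rcases fin2 j with rfl | rfl
    · exact ha
    · exact hb
  · rw [Fin.sum_univ_two]
    change y - (a * X π (.x 0) + b * X π (.x 1)) ∈ J π
    rw [e, sub_self]
    exact Submodule.zero_mem _

theorem kerK {P A C : ℤ} (z : Fin 2 → R π) (hz : ∀ j, z j ∈ pcZ π P A C)
    (h : ∑ j, z j * X π (.x j) ∈ J π) :
    ∃ c ∈ pcZ π (P - 1) A C, ∀ j : Fin 2, z j - c * X π (.x (1 - j)) ∈ J π := by
  have two : ∀ r : R π, r + r = 0 := Der580.add_self π
  have neg : ∀ r : R π, -r = r := fun r => neg_eq_of_add_eq_zero_left (two r)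
  rw [Fin.sum_univ_two] at h
  have h1 := hz 1
  rw [KOS296.pcZ_eq_pz] at h1
  have h2 : z 1 * X π (.x 1) - z 0 * X π (.x 0) ∈ J π := by
    rw [sub_eq_add_neg, neg, add_comm]
    exact h
  obtain ⟨c, hc, e1, e2⟩ := KOS296.jr_ker π h1 h2
  rw [← KOS296.pcZ_eq_pz] at hc
  refine ⟨c, hc, ?_⟩
  intro j
  rcases fin2 j with rfl | rfl
  · exact e2
  · exact e1

theorem stJ : Stab (RB π) (J π) := by
  have h := stR π 1
  rw [FR_one] at h
  exact h

/-- **right Koszul structure** -/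
noncomputable def kzR : Kz (RB π) (J π) where
  x := xR π
  kk j := xR π (1 - j)
  st := stJ π
  x_J j _ hz := J_x π j hz
  k_J j _ hz := J_x π (1 - j) hz
  xk z := xkR π z
  gen hP hy := genK π hP hy
  ker z hz h := kerK π z hz h
  inj h := KOS296.jr_inj π 1 h

/-! ### the instance -/

/-- the layer `J / FR 2` -/
noncomputable def copR1 : Cop (RB π) (J π) (RB π) (J π) (FR π 2) 0 where
  κ := {q : Wb // lev q = 1}
  uC q := wC q.1.word
  u q := uR π q.1
  st := stR π 2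
  u_F q z := (mem_FR_one π).1 (RR_FR π q.1 (by rw [q.2]) z)
  u_J q z hz := fun q' hq' => zc_RR_J π (by rw [q.2]; omega) hz
  gen hx hxP := genR π 1 ((mem_FR_one π).2 hx) hxP
  uniq z hz q := uniqR π 1 z hz q

/-- **921's `Dat` for `R''` and `M`** -/
noncomputable def dat (s : ℕ) : Dat (RB π) (MB π s) where
  neg hC := pcZ_neg π (Or.inr hC)
  J := J π
  F1 := FR π 2
  F2 := FR π 3
  hJ := (FR_anti π (by omega)).trans (FR_one π).le
  hF2 := FR_three π
  c1 := copR1 π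
  c2 := copR π 2
  n1 k := Int.natCast_nonneg (wC k.1.word)
  n2 k := Int.natCast_nonneg (wC k.1.word)
  kz := kzR π
  G0 := FM π 3
  G1 := FM π 2
  G2 := FM π 1
  G3 := FM π 0
  hG0 := ColM790.FM_three π
  hG3 := ColM790.FM_zero π
  g1 := ColM790.FM_mono π (by omega)
  g2 := ColM790.FM_mono π (by omega)
  m1 := copM π s 2
  m2 := copM π s 1
  m3 := copM π s 0

end Crest.Agent.R186.ColE439
end

-- ▼ part R186/ColBC_790
section

/-!
Row 186 (A), leaf V3 (helper790): cones of a central element on columns.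

* `ac_cone` : acyclicity of the columns of the cone of `θ` from the elementwise statement;
* `of_ac_cone` : the converse;
* `baseC` : the base of the column induction for the cone.
-/

set_option autoImplicit false
set_option linter.style.haveILetI false
set_option linter.unusedSectionVars false

open MulOpposite

namespace Crest.Agent.R186.ColBC790

open Hat827 Hat827.DGA Frame515 Res255 Win810 TR810 Col921 ColS790 ColB790

variable {K : Type} [Field K] {w : WD K}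


section

variable {Y : RCells w.dga} {B B' : LB w}

theorem cm_smul' (f : B.B →ₗ[K] B'.B) (hs : ∀ (a : w.S) (b : B.B), f (a • b) = a • f b)
    (m : w.dga.C) (v : Cv B) : cm f (m • v) = m • cm f v := by
  ext i
  rw [cm_apply, Cv.act_apply, Cv.act_apply, map_sum]
  exact Finset.sum_congr rfl fun l _ => hs _ _

/-- the differential of an entrywise map -/
theorem mp_dg (f g : B.B →ₗ[K] B'.B) (hs : ∀ (a : w.S) (b : B.B), f (a • b) = a • f b)
    (hd : ∀ b : B.B, B'.d (f b) = f (B.d b) + g b) (p a p' a' : ℤ) (x : Y.ι →₀ Cv B) :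
    (Sc Y B' p' a').d (mp Y f x) = mp Y f ((Sc Y B p a).d x) + mp Y g x := by
  refine Finsupp.ext fun τ => ?_
  have hs' : (mp Y f x).support ⊆ x.support := by
    intro σ hσ
    rw [Finsupp.mem_support_iff] at hσ ⊢
    intro h0
    apply hσ
    rw [mp_apply', h0, map_zero]
  have e1 := Sc_d (Y := Y) (B := B') p' a' (mp Y f x) x.support hs' τ
  have e2 := Sc_d (Y := Y) (B := B) p a x x.support (Finset.Subset.refl _) τ
  refine (show (show Y.ι →₀ Cv B' from (Sc Y B' p' a').d (mp Y f x)) τ =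
    mp Y f (show Y.ι →₀ Cv B from (Sc Y B p a).d x) τ + mp Y g x τ from ?_)
  rw [e1, mp_apply' f (show Y.ι →₀ Cv B from (Sc Y B p a).d x) τ, e2, map_add, map_sum]
  have e3 : dc B' (mp Y f x τ) = cm f (dc B (x τ)) + mp Y g x τ := by
    ext i
    rw [dc_apply, Cv.add_apply, mp_apply, mp_apply, cm_apply, dc_apply]
    exact hd _
  have e4 : ∑ σ ∈ x.support, Y.c τ σ • mp Y f x σ = ∑ σ ∈ x.support, cm f (Y.c τ σ • x σ) := by
    refine Finset.sum_congr rfl fun σ _ => ?_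
    rw [mp_apply', cm_smul' f hs]
  rw [e3, e4]
  abel

theorem mp_gr' (f : B.B →ₗ[K] B'.B) (hs : ∀ (a : w.S) (b : B.B), f (a • b) = a • f b)
    {p a k p' a' k' : ℤ}
    (hm : ∀ (i : w.Ob) (c : ℤ) (b : B.B), b ∈ B.pb (w.P i - p) (w.A i - a) (k - c) →
      f b ∈ B'.pb (w.P i - p') (w.A i - a') (k' - c))
    {x : Y.ι →₀ Cv B} (hx : x ∈ (Sc Y B p a).gr k) : mp Y f x ∈ (Sc Y B' p' a').gr k' := by
  rw [mem_Sc] at hx ⊢
  intro σ
  refine ⟨fun i => ?_, ?_⟩
  · rw [mp_apply]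
    exact hm i _ _ ((hx σ).1 i)
  · rw [mp_apply', ← cm_smul' f hs, (hx σ).2]

theorem mp_comp {B'' : LB w} (f : B.B →ₗ[K] B'.B) (g : B'.B →ₗ[K] B''.B) (x : Y.ι →₀ Cv B) :
    mp Y g (mp Y f x) = mp Y (g ∘ₗ f) x := by
  refine Finsupp.ext fun σ => ?_
  ext i
  rw [mp_apply, mp_apply, mp_apply]
  rfl

theorem mp_addf (f g : B.B →ₗ[K] B'.B) (x : Y.ι →₀ Cv B) :
    mp Y (f + g) x = mp Y f x + mp Y g x := by
  refine Finsupp.ext fun σ => ?_
  ext i
  rw [Finsupp.add_apply, Cv.add_apply, mp_apply, mp_apply, mp_apply]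
  rfl

theorem mp_zf (x : Y.ι →₀ Cv B) : mp Y (0 : B.B →ₗ[K] B'.B) x = 0 := by
  refine Finsupp.ext fun σ => ?_
  ext i
  rw [mp_apply]
  rfl


/-- multiplication by `θ` on the module -/
def tL (B : LB w) (θ : Ce w) : B.B →ₗ[K] B.B where
  toFun b := θ.t • b
  map_add' := smul_add _
  map_smul' _ _ := smul_comm _ _ _




variable (B) in
/-- first injection -/
def i1 (θ : Ce w) : B.B →ₗ[K] (B.cone θ).B := LinearMap.inl K B.B B.B
variable (B) in
/-- second injection -/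
def i2 (θ : Ce w) : B.B →ₗ[K] (B.cone θ).B := LinearMap.inr K B.B B.B
variable (B) in
/-- first projection -/
def p1 (θ : Ce w) : (B.cone θ).B →ₗ[K] B.B := LinearMap.fst K B.B B.B
variable (B) in
/-- second projection -/
def p2 (θ : Ce w) : (B.cone θ).B →ₗ[K] B.B := LinearMap.snd K B.B B.B

theorem d_i1 (θ : Ce w) (p a p' a' : ℤ) (x : Y.ι →₀ Cv B) :
    (Sc Y (B.cone θ) p a).d (mp Y (i1 B θ) x) =
      mp Y (i1 B θ) ((Sc Y B p' a').d x) + mp Y (i2 B θ) (mp Y (tL B θ) x) := by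
  rw [mp_dg (i1 B θ) (i2 B θ ∘ₗ tL B θ) (fun a b => ?_) (fun b => ?_) p' a' p a x, mp_comp]
  · refine Prod.ext rfl ?_
    change (0 : B.B) = a • 0
    rw [smul_zero]
  · refine Prod.ext ?_ ?_
    · change B.d b = B.d b + 0
      rw [add_zero]
    · change θ.t • b + B.d 0 = 0 + θ.t • b
      rw [map_zero, add_zero, zero_add]

theorem d_i2 (θ : Ce w) (p a p' a' : ℤ) (x : Y.ι →₀ Cv B) :
    (Sc Y (B.cone θ) p a).d (mp Y (i2 B θ) x) = mp Y (i2 B θ) ((Sc Y B p' a').d x) := by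
  rw [mp_dg (i2 B θ) 0 (fun a b => ?_) (fun b => ?_) p' a' p a x, mp_zf, add_zero]
  · refine Prod.ext ?_ rfl
    change (0 : B.B) = a • 0
    rw [smul_zero]
  · refine Prod.ext ?_ ?_
    · change B.d 0 = 0 + 0
      rw [map_zero, add_zero]
    · change θ.t • (0 : B.B) + B.d b = B.d b + 0
      rw [smul_zero, add_zero, zero_add]

theorem d_p1 (θ : Ce w) (p a p' a' : ℤ) (x : Y.ι →₀ Cv (B.cone θ)) :
    (Sc Y B p' a').d (mp Y (p1 B θ) x) = mp Y (p1 B θ) ((Sc Y (B.cone θ) p a).d x) := by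
  rw [mp_dg (p1 B θ) 0 (fun a b => rfl) (fun b => ?_) p a p' a' x, mp_zf, add_zero]
  change B.d b.1 = B.d b.1 + 0
  rw [add_zero]

theorem d_p2 (θ : Ce w) (p a p' a' : ℤ) (x : Y.ι →₀ Cv (B.cone θ)) :
    (Sc Y B p' a').d (mp Y (p2 B θ) x) =
      mp Y (p2 B θ) ((Sc Y (B.cone θ) p a).d x) + mp Y (tL B θ) (mp Y (p1 B θ) x) := by
  rw [mp_dg (p2 B θ) (tL B θ ∘ₗ p1 B θ) (fun a b => rfl) (fun b => ?_) p a p' a' x, mp_comp]
  change B.d b.2 = (θ.t • b.1 + B.d b.2) + θ.t • b.1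
  rw [add_comm (θ.t • b.1), add_assoc, B.two, add_zero]

theorem split (θ : Ce w) (x : Y.ι →₀ Cv (B.cone θ)) :
    x = mp Y (i1 B θ) (mp Y (p1 B θ) x) + mp Y (i2 B θ) (mp Y (p2 B θ) x) := by
  rw [mp_comp, mp_comp, ← mp_addf]
  refine Finsupp.ext fun σ => ?_
  refine Cv.ext fun i => ?_
  rw [mp_apply]
  refine Prod.ext ?_ ?_
  · change (x σ i).1 = (x σ i).1 + 0
    rw [add_zero]
  · change (x σ i).2 = 0 + (x σ i).2
    rw [zero_add]



theorem i1_gr (θ : Ce w) {p a k : ℤ} {x : Y.ι →₀ Cv B} (hx : x ∈ (Sc Y B p (a + 1)).gr (k - 1)) :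
    mp Y (i1 B θ) x ∈ (Sc Y (B.cone θ) p a).gr k := by
  refine mp_gr' (i1 B θ) (fun a b => ?_) (fun i c b hb => ?_) hx
  · refine Prod.ext rfl ?_
    change (0 : B.B) = a • 0
    rw [smul_zero]
  · exact ⟨B.cast hb rfl (by ring) (by ring), Submodule.zero_mem _⟩

theorem i2_gr (θ : Ce w) {p a k : ℤ} {x : Y.ι →₀ Cv B} (hx : x ∈ (Sc Y B p a).gr k) :
    mp Y (i2 B θ) x ∈ (Sc Y (B.cone θ) p a).gr k := by
  refine mp_gr' (i2 B θ) (fun a b => ?_) (fun i c b hb => ?_) hx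
  · refine Prod.ext ?_ rfl
    change (0 : B.B) = a • 0
    rw [smul_zero]
  · exact ⟨Submodule.zero_mem _, hb⟩

theorem p1_gr (θ : Ce w) {p a k : ℤ} {x : Y.ι →₀ Cv (B.cone θ)}
    (hx : x ∈ (Sc Y (B.cone θ) p a).gr k) :
    mp Y (p1 B θ) x ∈ (Sc Y B p (a + 1)).gr (k - 1) :=
  mp_gr' (p1 B θ) (fun _ _ => rfl) (fun _ _ _ hb => B.cast hb.1 rfl (by ring) (by ring)) hx

theorem p2_gr (θ : Ce w) {p a k : ℤ} {x : Y.ι →₀ Cv (B.cone θ)}
    (hx : x ∈ (Sc Y (B.cone θ) p a).gr k) :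
    mp Y (p2 B θ) x ∈ (Sc Y B p a).gr k :=
  mp_gr' (p2 B θ) (fun _ _ => rfl) (fun _ _ _ hb => hb.2) hx

/-- **the columns of the cone are acyclic if multiplication by `θ` is a quasi-isomorphism** -/
theorem ac_cone (θ : Ce w) (p a : ℤ)
    (H : ∀ (k : ℤ) (x y : Y.ι →₀ Cv B), x ∈ (Sc Y B p (a + 1)).gr k →
      (Sc Y B p (a + 1)).d x = 0 → y ∈ (Sc Y B p a).gr (k + 1) →
      mp Y (tL B θ) x = (Sc Y B p a).d y →
      ∃ x' ∈ (Sc Y B p (a + 1)).gr (k + 1), ∃ y' ∈ (Sc Y B p a).gr (k + 2),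
        x = (Sc Y B p (a + 1)).d x' ∧ y = mp Y (tL B θ) x' + (Sc Y B p a).d y') :
    Ac (Sc Y (B.cone θ) p a) := by
  intro k x hx hdx
  let X : Y.ι →₀ Cv (B.cone θ) := x
  have h1 : (Sc Y B p (a + 1)).d (mp Y (p1 B θ) X) = 0 := by
    rw [d_p1 θ p a p (a + 1) X, show (Sc Y (B.cone θ) p a).d X = 0 from hdx]
    exact map_zero _
  have h2 : (Sc Y B p a).d (mp Y (p2 B θ) X) = mp Y (tL B θ) (mp Y (p1 B θ) X) := by
    rw [d_p2 θ p a p a X, show (Sc Y (B.cone θ) p a).d X = 0 from hdx]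
    exact (congrArg (· + _) (map_zero (mp Y (p2 B θ)))).trans (zero_add _)
  obtain ⟨x', hx', y', hy', e1, e2⟩ := H (k - 1) (mp Y (p1 B θ) X) (mp Y (p2 B θ) X)
    (p1_gr θ hx) h1 (by rw [sub_add_cancel]; exact p2_gr θ hx) h2.symm
  refine ⟨mp Y (i1 B θ) x' + mp Y (i2 B θ) y', Submodule.add_mem _ (i1_gr θ ?_) (i2_gr θ ?_), ?_⟩
  · rwa [sub_add_cancel, ← add_sub_cancel_right k 1] at hx'
  · rwa [show k - 1 + 2 = k + 1 by ring] at hy'
  · refine (map_add _ _ _).trans ?_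
    rw [d_i1 θ p a p (a + 1) x', d_i2 θ p a p a y']
    refine Eq.trans ?_ (split θ X).symm
    rw [add_assoc]
    refine congrArg₂ (· + ·) ?_ ?_
    · exact congrArg (mp Y (i1 B θ)) e1.symm
    · rw [← map_add]
      exact congrArg (mp Y (i2 B θ)) e2.symm


end

/-- **base of the column induction for the cone** -/
theorem baseC {Y : RCells w.dga} {o o' : w.Ob} (θ : Ce w) {G : RM w.dga} (r : RRes Y G)
    (hP : w.P o' = w.P o) (hA : w.A o' + 1 = w.A o)
    (hN : ∀ (k : ℤ) (n n1 : G.X), n ∈ G.gr k → op (we o) • n = n → G.d n = 0 → n1 ∈ G.gr (k + 1) →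
      op (we o') • n1 = n1 → op (wth θ.toTh o o' hP hA) • n = G.d n1 →
      ∃ n' ∈ G.gr (k + 1), op (we o) • n' = n' ∧ ∃ n1' ∈ G.gr (k + 2), op (we o') • n1' = n1' ∧
        n = G.d n' ∧ n1 = op (wth θ.toTh o o' hP hA) • n' + G.d n1') :
    Ac (Sc Y ((selfLB w).cone θ) (w.P o') (w.A o')) := by
  have hh : ∀ x : Y.ι →₀ Cv (selfLB w), mp Y (tL (selfLB w) θ) x = hF Y θ.t x := by
    intro x
    refine Finsupp.ext fun σ => ?_
    ext i
    rw [hF_apply, mp_apply]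
    exact θ.comm _
  refine ac_cone θ _ _ fun k x y hx hdx hy hxy => ?_
  rw [hP, hA] at hx
  rw [hh] at hxy
  obtain ⟨x', hx', y', hy', e1, e2⟩ := base θ.toTh r hP hA hN k x y hx hdx hy hxy
  refine ⟨x', ?_, y', hy', e1, ?_⟩
  · rw [hP, hA]
    exact hx'
  · rw [hh]
    exact e2

end Crest.Agent.R186.ColBC790
end

-- ▼ part R186/ColG_790
section

/-!
Row 186 (A), leaf V3 (helper790): the bases of the column induction for `Y → D V_{-1}`.

* `hC π : Ce (WR π)` : the central cycle `h`;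
* `g0`, `g1` : columns of the right module `D V_{-1} = DR (V2 π)`;
* `base_r`, `base_c` : the columns `(0, b)` of `R''` and of the cone of `h` at `(0, b)`, `(1, b)`.
-/

set_option autoImplicit false
set_option linter.style.haveILetI false
set_option linter.unusedSectionVars false

open MulOpposite

namespace Crest.Agent.R186.ColG790

open Hat827 Hat827.DGA Frame515 Res255 Win810 TR810 Col921 ColS790 ColB790 ColBC790
open DefsQ830 DefsQ830.Gen PBW128 FinV988 EndV448 VEnd701 VOp220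

variable {K : Type} [Field K] (π : Par K)

theorem h_pcZ : X π .h ∈ pcZ π 0 1 0 := by
  have := X_mem_pc π .h
  rw [← pcZ_nat] at this
  exact this

theorem D_h : Der580.D π (X π .h) = 0 := by
  rw [Der580.D_X]
  simp [dGen]

/-- **the central cycle `h`** -/
noncomputable def hC : Ce (WR π) where
  t := X π .h
  mem := h_pcZ π
  D0 := D_h π
  comm s := Der580.h_comm π s


/-- a matrix unit acting as the identity of the constants -/
theorem ws_V {b b' : Fin 4} (a : (WR π).S) (ha : a ∈ (WR π).E (ob π 1 b) (ob π 1 b'))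
    (h1 : (VR π (-1)).rho a = 1) (v : VM π) :
    (WD.ws (w := WR π) (ob π 1 b) (ob π 1 b') a ha) • v = co b' v • u π b := by
  apply (VR π (-1)).vext
  intro l
  refine ((VR π (-1)).ws_smul _ _ l).trans ?_
  change (if ob π 1 b = l then ((VR π (-1)).rho a) (en v 1 b') else 0)
    = co b' v • (if ob π 1 b = l then mon K 0 0 else 0)
  rw [h1]
  by_cases h2 : ob π 1 b = l
  · rw [if_pos h2, if_pos h2]
    exact v1 v b'
  · rw [if_neg h2, if_neg h2]
    exact (smul_zero _).symm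

/-- a matrix unit starting at `(0, b')` acts by zero -/
theorem ws_V0 {o : (WR π).Ob} {b' : Fin 4} (a : (WR π).S) (ha : a ∈ (WR π).E o (ob π 0 b'))
    (v : VM π) : (WD.ws (w := WR π) o (ob π 0 b') a ha) • v = 0 := by
  apply (VR π (-1)).vext
  intro l
  refine ((VR π (-1)).ws_smul _ _ l).trans ?_
  change (if o = l then ((VR π (-1)).rho a) (en v 0 b') else 0) = 0
  rw [v0]
  have e : ((VR π (-1)).rho a) (show (VR π (-1)).V from (0 : Pol K)) = 0 :=
    map_zero ((VR π (-1)).rho a)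
  split_ifs
  · exact e
  · rfl

theorem we_V (b : Fin 4) (v : VM π) :
    (show VM π from (we (ob π 1 b) : (WR π).dga.C) • v) = co b v • u π b :=
  ws_V π (1 : R π) _ (map_one _) v

theorem we_V0 (b : Fin 4) (v : VM π) :
    (show VM π from (we (ob π 0 b) : (WR π).dga.C) • v) = 0 :=
  ws_V0 π (1 : R π) _ v

theorem hPo (i : Fin 2) (b : Fin 3) : (WR π).P (ob π i b.castSucc) = (WR π).P (ob π i b.succ) := rfl

theorem hAo (i : Fin 2) (b : Fin 3) :
    (WR π).A (ob π i b.castSucc) + 1 = (WR π).A (ob π i b.succ) := by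
  change (((b.castSucc : Fin 4).val : ℕ) : ℤ) + 1 = (((b.succ : Fin 4).val : ℕ) : ℤ)
  rw [Fin.val_succ, Fin.val_castSucc]
  push_cast
  ring

theorem wth_V (b : Fin 3) (v : VM π) :
    (show VM π from (wth (hC π).toTh (ob π 1 b.succ) (ob π 1 b.castSucc) (hPo π 1 b) (hAo π 1 b) :
      (WR π).dga.C) • v) = co b.castSucc v • u π b.succ :=
  ws_V π (X π .h) _ (by
    have h := rep_h_pow (π := π) 1
    rwa [pow_one] at h) v

/-- the right module `D V_{-1}` -/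
noncomputable abbrev GV : RM (WR π).dga := DR (V2 π)

theorem GV_smul (a : (WR π).dga.C) (f : (GV π).X) (z : VM π) :
    (show (V2 π).X →ₗ[K] K from op a • f) z =
      (show (V2 π).X →ₗ[K] K from f) (show (V2 π).X from (show VM π from a • z)) := rfl

theorem GV_ext {f g : (GV π).X} (h : ∀ z : VM π, (show (V2 π).X →ₗ[K] K from f) z =
    (show (V2 π).X →ₗ[K] K from g) z) : f = g := LinearMap.ext h

theorem GV_d (f : (GV π).X) : (GV π).d f = 0 := by
  refine GV_ext π fun z => ?_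
  have e : (V2 π).d (show (V2 π).X from z) = 0 := (deg0_V2 π).d _
  refine (congrArg (show (V2 π).X →ₗ[K] K from f) e).trans ?_
  exact map_zero (show (V2 π).X →ₗ[K] K from f)

theorem GV_gr {k : ℤ} (hk : k ≠ 0) : (GV π).gr k = ⊥ := by
  rw [eq_bot_iff]
  intro f hf
  rw [Submodule.mem_bot]
  refine GV_ext π fun z => ?_
  exact hf 0 z ((deg0_V2 π).top z) (by omega)

theorem GV_gr0 (f : (GV π).X) : f ∈ (GV π).gr 0 := by
  intro l z hz hl
  have : z = 0 := (deg0_V2 π).bot hz (by omega)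
  rw [this]
  exact map_zero (show (V2 π).X →ₗ[K] K from f)

/-- **the columns `(0, b)` of `D V_{-1}` vanish** -/
theorem g0 (b : Fin 4) (f : (GV π).X) (h : op (we (ob π 0 b)) • f = f) : f = 0 := by
  refine GV_ext π fun z => ?_
  have h1 := congrArg (fun g : (GV π).X => (show (V2 π).X →ₗ[K] K from g) z) h
  refine h1.symm.trans ((GV_smul π _ f z).trans ?_)
  rw [show (show VM π from (we (ob π 0 b) : (WR π).dga.C) • z) = 0 from we_V0 π b z]
  exact map_zero (show (V2 π).X →ₗ[K] K from f)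

/-- the functional `z ↦ f (co (b + 1) z • u b)` -/
noncomputable def tr (b : Fin 3) (f : (GV π).X) : (GV π).X :=
  show (V2 π).X →ₗ[K] K from
  { toFun := fun z => (show (V2 π).X →ₗ[K] K from f)
      (show (V2 π).X from (co (π := π) b.succ (show VM π from z) • u π b.castSucc))
    map_add' := fun z z' => by
      rw [← map_add]
      refine congrArg _ ?_
      change co (π := π) b.succ ((show VM π from z) + (show VM π from z')) • u π b.castSucc = _
      rw [map_add, add_smul]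
      rfl
    map_smul' := fun r z => by
      rw [RingHom.id_apply, ← map_smul]
      refine congrArg _ ?_
      change co (π := π) b.succ (r • (show VM π from z)) • u π b.castSucc = _
      rw [map_smul, smul_assoc]
      rfl }

theorem tr_apply (b : Fin 3) (f : (GV π).X) (z : VM π) :
    (show (V2 π).X →ₗ[K] K from tr π b f) z = (show (V2 π).X →ₗ[K] K from f)
      (show (V2 π).X from (co (π := π) b.succ z • u π b.castSucc)) := rfl

/-- **the cone of `h` on the columns `(1, b + 1) → (1, b)` of `D V_{-1}`** -/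
theorem g1 (b : Fin 3) (k : ℤ) (n n1 : (GV π).X) (hn : n ∈ (GV π).gr k)
    (hni : op (we (ob π 1 b.succ)) • n = n) (hd : (GV π).d n = 0) (hn1 : n1 ∈ (GV π).gr (k + 1))
    (hn1j : op (we (ob π 1 b.castSucc)) • n1 = n1)
    (h : op (wth (hC π).toTh (ob π 1 b.succ) (ob π 1 b.castSucc) (hPo π 1 b) (hAo π 1 b)) • n =
      (GV π).d n1) :
    ∃ n' ∈ (GV π).gr (k + 1), op (we (ob π 1 b.succ)) • n' = n' ∧ ∃ n1' ∈ (GV π).gr (k + 2),
      op (we (ob π 1 b.castSucc)) • n1' = n1' ∧ n = (GV π).d n' ∧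
      n1 = op (wth (hC π).toTh (ob π 1 b.succ) (ob π 1 b.castSucc) (hPo π 1 b) (hAo π 1 b)) • n' +
        (GV π).d n1' := by
  refine honestR (GV π) (GV_d π) (fun k hk => GV_gr π hk) ?_ ?_ k n n1 hn hni hd hn1 hn1j h
  · intro f _ hf h0
    refine GV_ext π fun z => ?_
    have h1 := congrArg (fun g : (GV π).X => (show (V2 π).X →ₗ[K] K from g) z) hf
    refine h1.symm.trans ((GV_smul π _ f z).trans ?_)
    rw [show (show VM π from (we (ob π 1 b.succ) : (WR π).dga.C) • z) = co b.succ z • u π b.succ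
      from we_V π b.succ z]
    have h2 := congrArg (fun g : (GV π).X => (show (V2 π).X →ₗ[K] K from g) (u π b.castSucc)) h0
    have h3 := (GV_smul π _ f (u π b.castSucc)).symm.trans h2
    rw [wth_V π b (u π b.castSucc), co_u, if_pos rfl, one_smul] at h3
    refine (map_smul (show (V2 π).X →ₗ[K] K from f) _ _).trans ?_
    refine (congrArg (co b.succ z • ·) h3).trans ?_
    exact smul_zero _
  · intro f _ hf
    refine ⟨tr π b f, GV_gr0 π _, ?_, ?_⟩
    · refine GV_ext π fun z => ?_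
      refine (GV_smul π _ (tr π b f) z).trans ?_
      rw [show (show VM π from (we (ob π 1 b.succ) : (WR π).dga.C) • z) = co b.succ z • u π b.succ
        from we_V π b.succ z]
      refine (tr_apply π b f _).trans ((tr_apply π b f z).symm ▸ ?_)
      refine congrArg (show (V2 π).X →ₗ[K] K from f) ?_
      change co b.succ (co b.succ z • u π b.succ) • u π b.castSucc = co b.succ z • u π b.castSucc
      rw [map_smul, co_u, if_pos rfl, smul_eq_mul, mul_one]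
    · refine GV_ext π fun z => ?_
      refine (GV_smul π _ (tr π b f) z).trans ?_
      rw [wth_V π b z]
      refine (tr_apply π b f _).trans ?_
      have h1 := congrArg (fun g : (GV π).X => (show (V2 π).X →ₗ[K] K from g) z) hf
      refine Eq.trans ?_ h1
      refine Eq.trans ?_ (GV_smul π _ f z).symm
      rw [show (show VM π from (we (ob π 1 b.castSucc) : (WR π).dga.C) • z) =
        co b.castSucc z • u π b.castSucc from we_V π b.castSucc z]
      refine congrArg (show (V2 π).X →ₗ[K] K from f) ?_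
      change co b.succ (co b.castSucc z • u π b.succ) • u π b.castSucc =
        co b.castSucc z • u π b.castSucc
      rw [map_smul, co_u, if_pos rfl, smul_eq_mul, mul_one]

/-- the cone hypothesis on row `0` -/
theorem g0c (b : Fin 3) (k : ℤ) (n n1 : (GV π).X) (_ : n ∈ (GV π).gr k)
    (hni : op (we (ob π 0 b.succ)) • n = n) (_ : (GV π).d n = 0) (_ : n1 ∈ (GV π).gr (k + 1))
    (hn1j : op (we (ob π 0 b.castSucc)) • n1 = n1)
    (_ : op (wth (hC π).toTh (ob π 0 b.succ) (ob π 0 b.castSucc) (hPo π 0 b) (hAo π 0 b)) • n =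
      (GV π).d n1) :
    ∃ n' ∈ (GV π).gr (k + 1), op (we (ob π 0 b.succ)) • n' = n' ∧ ∃ n1' ∈ (GV π).gr (k + 2),
      op (we (ob π 0 b.castSucc)) • n1' = n1' ∧ n = (GV π).d n' ∧
      n1 = op (wth (hC π).toTh (ob π 0 b.succ) (ob π 0 b.castSucc) (hPo π 0 b) (hAo π 0 b)) • n' +
        (GV π).d n1' := by
  refine ⟨0, Submodule.zero_mem _, smul_zero _, 0, Submodule.zero_mem _, smul_zero _, ?_, ?_⟩
  · rw [g0 π b.succ n hni, map_zero]
  · rw [g0 π b.castSucc n1 hn1j, smul_zero, map_zero, add_zero]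

variable {Y : RCells (WR π).dga}

/-- **base at the columns `(0, b)`** -/
theorem base_r (r : RRes Y (DR (V2 π))) (b : Fin 4) :
    Ac (Sc Y (selfLB (WR π)) ((WR π).P (ob π 0 b)) ((WR π).A (ob π 0 b))) :=
  base0 r fun _ n _ hni _ => ⟨0, Submodule.zero_mem _, smul_zero _, by
    rw [g0 π b n hni, map_zero]⟩

/-- **base for the cone of `h` at `(i, b)`** -/
theorem base_c (r : RRes Y (DR (V2 π))) (i : Fin 2) (b : Fin 3) :
    Ac (Sc Y ((selfLB (WR π)).cone (hC π)) ((WR π).P (ob π i b.castSucc))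
      ((WR π).A (ob π i b.castSucc))) := by
  rcases (show i = 0 ∨ i = 1 by omega) with rfl | rfl
  · exact baseC (hC π) r (hPo π 0 b) (hAo π 0 b) (g0c π b)
  · exact baseC (hC π) r (hPo π 1 b) (hAo π 1 b) (g1 π b)

end Crest.Agent.R186.ColG790
end

-- ▼ part R186/HMc_510
section

/-!
Row 186, half (A) (helper510): `HM` from the acyclicity of `DV_{-2} ⊗ XL` alone: 790's bases and
439's `Dat` through 921's column induction and 977's plug.
-/

set_option autoImplicit false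
set_option linter.style.haveILetI false
set_option linter.unusedSectionVars false

noncomputable section

namespace Crest.Agent.R186.HMc510

open Hat827 Win810 DefsQ830 Frame515 Res255 RW171 V2c510 V2p510 V2q510 KHc302 WL221 TB143 Col921
open ColAd977 EndF448 EndP448 EndV448 FinV988

variable {K : Type} [Field K] (π : Par K) (s : ℕ)

/-- the columns `(1, b)` of `Y ⊗ M` -/
theorem col1 {Y : RCells (WR π).dga} (r : RRes Y (DR (V2 π))) (b : Fin 4) :
    Ac (Sc Y (ColM790.MB π s) 1 ((b : ℕ) : ℤ)) :=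
  (ColE439.dat π s).ac1 (ColG790.base_r π r b)

/-- the columns `(0, b)` of the cone of `h` on `Y ⊗ M` -/
theorem col0 {Y : RCells (WR π).dga} (r : RRes Y (DR (V2 π))) (b : Fin 3) :
    Ac (Sc Y ((ColM790.MB π s).cone (hCe π)) 0 ((b : ℕ) : ℤ)) :=
  ((ColE439.dat π s).cone (hCe π)).ac0 (fun _ => Int.natCast_nonneg _) (ColG790.base_c π r 0 b)
    (ColG790.base_c π r 1 b)

/-- **`HB` of `Y ⊗ M` for `Y → DV`** -/
theorem hb (hs : 5 ≤ s) {Y : RCells (WR π).dga} (r : RRes Y (DR (V2 π))) (n : ℤ) :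
    VT339.HB (wdatG π s (two_le hs) (three_le s hs)) (tQ Y (extG π s hs).M) n :=
  hb_MW π s (two_le hs) (three_le s hs) Y (col1 π s r) (col0 π s r) n

/-- **`HM` from its single input** -/
theorem HM_of_P (hs : 5 ≤ s) (hP : Ac (tG (A := Gam π s hs) (DVs π s hs) (XL π s hs))) :
    HM π s hs :=
  HMj510.HM_of_HB π s hs hP fun _ R _ _ n => hb π s hs R n

end Crest.Agent.R186.HMc510
end
end

-- ▼ part R186/ExR_807
section

/-!
Row 186, half (A), 306's short road (#34919), leaf EXr (helper807): the sixteen RIGHT cells of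
`D V_{-2} = e_(0,3) L / (E L)` with values in the homology `Y` of a dg left `L`-module.

* `RY K g` : rows `Y i b` (`i = 0, 1`, `b = 0, .., 3`), operators `x j : Y 0 b → Y 1 b`,
  `d j : Y 1 b → Y 0 (b+1)`, `h`, and `w j i : Y 1 b → Y 1 (b+1)` (the element `d_j x_i`),
  with the relations of `R'` and `r x_j = D z_j = 0`;
* `pi0`, `pb` : position of the right cells; `T a b` : the coefficient of the cell `a` in the
  differential of the cell `b`, first letter split off (positive letters act by `0`);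
* `exactR`, `exactZ` : the complex `φ ↦ (∑ b, T a b (φ b))_a` is exact at every level as soon as
  `S0 = (t - h)/(g-1)` is bijective on `Y 0 b` (`b < 3`) and `Th = g (t - g⁻¹ h)/(g-1)` on `Y 1 b`
  (`b < 2`); `S0_bij`, `Th_bij` give both from the bijectivity of `t - h`, `t - g⁻¹ h`.
-/

set_option autoImplicit false

namespace Crest.Agent.R186.ExR807

open Crest.Agent.R186.PBW128 (E)
open Crest.Agent.R186.Cells221 (Cell cdeg)

/-- the rows of a module over the window of `R'` killed by the positive letters and by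
`r x_j = D z_j` -/
structure RY (K : Type) [Field K] (g : K) where
  Y : Fin 2 → ℕ → Type
  [grp : ∀ i b, AddCommGroup (Y i b)]
  [mod : ∀ i b, Module K (Y i b)]
  x : Fin 2 → ∀ b, Y 0 b →ₗ[K] Y 1 b
  d : Fin 2 → ∀ b, Y 1 b →ₗ[K] Y 0 (b + 1)
  h : ∀ i b, Y i b →ₗ[K] Y i (b + 1)
  /-- `w j i` = the element `d_j x_i` on `Y 1` -/
  w : Fin 2 → Fin 2 → ∀ b, Y 1 b →ₗ[K] Y 1 (b + 1)
  r00 : ∀ b, b < 3 → ∀ y, x 0 (b + 1) (d 0 b y) = h 1 b y + g • w 0 0 b y
  r01 : ∀ b, b < 3 → ∀ y, x 0 (b + 1) (d 1 b y) = g • w 1 0 b y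
  r10 : ∀ b, b < 3 → ∀ y, x 1 (b + 1) (d 0 b y) = w 0 1 b y
  r11 : ∀ b, b < 3 → ∀ y, x 1 (b + 1) (d 1 b y) = h 1 b y + g • w 1 1 b y + (g - 1) • w 0 0 b y
  k0 : ∀ b, b < 3 → ∀ y, w 0 0 b (x 1 b y) = w 0 1 b (x 0 b y)
  k1 : ∀ b, b < 3 → ∀ y, w 1 0 b (x 1 b y) = w 1 1 b (x 0 b y)
  hw : ∀ j i b, b < 2 → ∀ y, w j i (b + 1) (h 1 b y) = h 1 (b + 1) (w j i b y)
  /-- `r x_j = 0` -/
  q : ∀ j b, b < 2 → ∀ y, d 1 (b + 1) (w 0 j b y) + g • d 0 (b + 1) (w 1 j b y) = 0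

attribute [instance] RY.grp RY.mod

namespace RY

variable {K : Type} [Field K] {g : K} (M : RY K g)

/-- `(t - h)/(g-1) = d_0 x_0 + d_1 x_1` on `Y 0` -/
def S0 (b : ℕ) : M.Y 0 b →ₗ[K] M.Y 0 (b + 1) := M.d 0 b ∘ₗ M.x 0 b + M.d 1 b ∘ₗ M.x 1 b

/-- `g (t - g⁻¹ h)/(g-1) = h + g (d_0 x_0 + d_1 x_1)` on `Y 1` -/
def Th (b : ℕ) : M.Y 1 b →ₗ[K] M.Y 1 (b + 1) := M.h 1 b + g • (M.w 0 0 b + M.w 1 1 b)

/-- `t` on `Y 0` -/
def t0 (b : ℕ) : M.Y 0 b →ₗ[K] M.Y 0 (b + 1) := M.h 0 b + (g - 1) • M.S0 b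

/-- `t` on `Y 1` -/
def t1 (b : ℕ) : M.Y 1 b →ₗ[K] M.Y 1 (b + 1) := M.h 1 b + (g - 1) • (M.w 0 0 b + M.w 1 1 b)

variable {M}

theorem S0_apply (b : ℕ) (y : M.Y 0 b) :
    M.S0 b y = M.d 0 b (M.x 0 b y) + M.d 1 b (M.x 1 b y) := rfl

theorem Th_apply (b : ℕ) (y : M.Y 1 b) :
    M.Th b y = M.h 1 b y + g • (M.w 0 0 b y + M.w 1 1 b y) := rfl





section char2

variable (two : (2 : K) = 0)
include two

theorem add_self (i : Fin 2) (b : ℕ) (y : M.Y i b) : y + y = 0 := by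
  rw [← two_smul K, two, zero_smul]

theorem eq_of_add {i : Fin 2} {b : ℕ} {y z : M.Y i b} (h : y + z = 0) : y = z := by
  have h2 := add_self two i b z
  calc y = y + z + z := by rw [add_assoc, h2, add_zero]
    _ = z := by rw [h, zero_add]

/-- `d_j Th = S0 d_j` -/
theorem d_Th (j : Fin 2) (b : ℕ) (hb : b < 2) (y : M.Y 1 b) :
    M.d j (b + 1) (M.Th b y) = M.S0 (b + 1) (M.d j b y) := by
  have e0 := eq_of_add two (M.q 0 b hb y)
  have e1 := eq_of_add two (M.q 1 b hb y)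
  have hj : j = 0 ∨ j = 1 := by fin_cases j <;> simp
  have h2 : (g - 1 : K) = g + 1 := by
    rw [sub_eq_add_neg, neg_eq_of_add_eq_zero_right (show (1 : K) + 1 = 0 by rw [one_add_one_eq_two, two])]
  rcases hj with rfl | rfl
  · rw [S0_apply, M.r00 b (by omega), M.r10 b (by omega), Th_apply]
    simp only [map_add, map_smul, smul_add]
    rw [e1, ← add_assoc]
  · rw [S0_apply, M.r01 b (by omega), M.r11 b (by omega), Th_apply, h2]
    simp only [map_add, map_smul, smul_add, add_smul, one_smul]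
    rw [e0]
    have h3 := add_self two 0 _ (g • M.d 0 (b + 1) (M.w 1 0 b y))
    have h4 := h3
    rw [← e0] at h3
    rw [← e0]
    calc _ = M.d 1 (b + 1) (M.h 1 b y) + (g • M.d 1 (b + 1) (M.w 0 0 b y) +
        g • M.d 1 (b + 1) (M.w 1 1 b y)) + (M.d 1 (b + 1) (M.w 0 0 b y) +
          M.d 1 (b + 1) (M.w 0 0 b y)) := by rw [h3, add_zero]
      _ = _ := by abel

/-- `Th x_j = x_j S0` -/
theorem Th_x (j : Fin 2) (b : ℕ) (hb : b < 3) (y : M.Y 0 b) :
    M.Th b (M.x j b y) = M.x j (b + 1) (M.S0 b y) := by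
  have hj : j = 0 ∨ j = 1 := by fin_cases j <;> simp
  rcases hj with rfl | rfl
  · rw [S0_apply, map_add, M.r00 b hb, M.r01 b hb, Th_apply, M.k1 b hb]
    simp only [smul_add]
    abel
  · rw [S0_apply, map_add, M.r10 b hb, M.r11 b hb, Th_apply, ← M.k0 b hb]
    simp only [smul_add, sub_smul, one_smul]
    abel

theorem Th_h (b : ℕ) (hb : b < 2) (y : M.Y 1 b) :
    M.Th (b + 1) (M.h 1 b y) = M.h 1 (b + 1) (M.Th b y) := by
  rw [Th_apply, Th_apply, M.hw _ _ b hb, M.hw _ _ b hb]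
  simp only [map_add, map_smul]

/-- `Th` commutes with the elements `d_j x_i` -/
theorem w_Th (hg : g ≠ 0) (j i : Fin 2) (b : ℕ) (hb : b < 2) (y : M.Y 1 b) :
    M.w j i (b + 1) (M.Th b y) = M.Th (b + 1) (M.w j i b y) := by
  have hj : j = 0 ∨ j = 1 := by fin_cases j <;> simp
  have hi : i = 0 ∨ i = 1 := by fin_cases i <;> simp
  have key : ∀ a c : Fin 2, M.x a (b + 1 + 1) (M.d c (b + 1) (M.Th b y)) =
      M.Th (b + 1) (M.x a (b + 1) (M.d c b y)) := by
    intro a c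
    rw [d_Th two c b hb, Th_x two a (b + 1) (by omega)]
  have can : ∀ {u v : M.Y 1 (b + 1 + 1)}, g • u = g • v → u = v := by
    intro u v h
    have := congrArg (fun z => g⁻¹ • z) h
    simpa [smul_smul, hg] using this
  have w00 : M.w 0 0 (b + 1) (M.Th b y) = M.Th (b + 1) (M.w 0 0 b y) := by
    apply can
    have h1 := key 0 0
    rw [M.r00 (b + 1) (by omega), M.r00 b (by omega), map_add, Th_h two b hb, map_smul] at h1
    exact add_left_cancel h1
  rcases hj with rfl | rfl <;> rcases hi with rfl | rfl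
  · exact w00
  · have h1 := key 1 0
    rwa [M.r10 (b + 1) (by omega), M.r10 b (by omega)] at h1
  · apply can
    have h1 := key 0 1
    rwa [M.r01 (b + 1) (by omega), M.r01 b (by omega), map_smul] at h1
  · apply can
    have h1 := key 1 1
    rw [M.r11 (b + 1) (by omega), M.r11 b (by omega), map_add, map_add, Th_h two b hb, map_smul,
      map_smul, w00] at h1
    exact add_left_cancel (add_right_cancel h1)

/-! ### components -/

/-- `x_0 (d_0 a + d_1 b) + g³ (d_1 x_0) (g⁻² b) + g² (d_1 x_1) (g⁻¹ a) = Th a` -/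
theorem I1a (hg : g ≠ 0) (b : ℕ) (hb : b < 3) (a c : M.Y 1 b) :
    M.x 0 (b + 1) (M.d 0 b a + M.d 1 b c) +
      (g ^ 3 • M.w 1 0 b ((g ^ 2)⁻¹ • c) + g ^ 2 • M.w 1 1 b (g⁻¹ • a)) = M.Th b a := by
  rw [map_add, M.r00 b hb, M.r01 b hb, Th_apply, map_smul, map_smul]
  generalize M.w 1 0 b c = u
  generalize M.w 1 1 b a = v
  generalize M.w 0 0 b a = w
  generalize M.h 1 b a = t
  linear_combination (norm := (match_scalars <;> field_simp <;> ring)) (g * 1) • two • u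

theorem I1b (hg : g ≠ 0) (b : ℕ) (hb : b < 3) (a c : M.Y 1 b) :
    M.x 1 (b + 1) (M.d 0 b a + M.d 1 b c) +
      (g ^ 2 • M.w 0 0 b ((g ^ 2)⁻¹ • c) + g • M.w 0 1 b (g⁻¹ • a)) = M.Th b c := by
  rw [map_add, M.r10 b hb, M.r11 b hb, Th_apply, map_smul, map_smul]
  generalize M.w 0 1 b a = u
  generalize M.w 1 1 b c = v
  generalize M.w 0 0 b c = w
  generalize M.h 1 b c = t
  linear_combination (norm := (match_scalars <;> field_simp <;> ring)) (1 : K) • two • u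

theorem I2a (hg : g ≠ 0) (b : ℕ) (hb : b < 3) (z0 z1 : M.Y 1 b) :
    g • M.x 1 (b + 1) (M.d 0 b ((g ^ 2)⁻¹ • z1) + M.d 1 b (g⁻¹ • z0)) +
      (g ^ 2)⁻¹ • (g ^ 2 • M.w 0 0 b z0 + g • M.w 0 1 b z1) = M.Th b z0 := by
  rw [map_add, M.r10 b hb, M.r11 b hb, Th_apply]
  simp only [map_smul]
  generalize M.w 0 1 b z1 = u
  generalize M.w 1 1 b z0 = v
  generalize M.w 0 0 b z0 = w
  generalize M.h 1 b z0 = t
  linear_combination (norm := (match_scalars <;> field_simp <;> ring)) g⁻¹ • two • u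

theorem I2b (hg : g ≠ 0) (b : ℕ) (hb : b < 3) (z0 z1 : M.Y 1 b) :
    g ^ 2 • M.x 0 (b + 1) (M.d 0 b ((g ^ 2)⁻¹ • z1) + M.d 1 b (g⁻¹ • z0)) +
      g⁻¹ • (g ^ 3 • M.w 1 0 b z0 + g ^ 2 • M.w 1 1 b z1) = M.Th b z1 := by
  rw [map_add, M.r00 b hb, M.r01 b hb, Th_apply]
  simp only [map_smul]
  generalize M.w 1 0 b z0 = u
  generalize M.w 1 1 b z1 = v
  generalize M.w 0 0 b z1 = w
  generalize M.h 1 b z1 = t
  linear_combination (norm := (match_scalars <;> field_simp <;> ring)) (g ^ 2) • two • u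

/-- last map onto -/
theorem c0 (b : ℕ) (s : Function.Surjective (M.S0 b)) (y : M.Y 0 (b + 1)) :
    ∃ a c : M.Y 1 b, y = M.d 0 b a + M.d 1 b c := by
  obtain ⟨z, rfl⟩ := s y
  exact ⟨_, _, S0_apply b z⟩

/-- `d_0 a + d_1 c = 0` -/
theorem c1 (hg : g ≠ 0) (b : ℕ) (hb : b < 2) (s : Function.Surjective (M.Th b))
    (i : Function.Injective (M.S0 (b + 1))) (a c : M.Y 1 (b + 1))
    (e : M.d 0 (b + 1) a + M.d 1 (b + 1) c = 0) :
    ∃ z0 z1 : M.Y 1 b, a = g ^ 3 • M.w 1 0 b z0 + g ^ 2 • M.w 1 1 b z1 ∧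
      c = g ^ 2 • M.w 0 0 b z0 + g • M.w 0 1 b z1 := by
  obtain ⟨a', rfl⟩ := s a
  obtain ⟨c', rfl⟩ := s c
  rw [d_Th two 0 b hb, d_Th two 1 b hb, ← map_add] at e
  have e' : M.d 0 b a' + M.d 1 b c' = 0 := i (by rw [e, map_zero])
  have h1 := I1a two hg b (by omega) a' c'
  have h2 := I1b two hg b (by omega) a' c'
  rw [e', map_zero, zero_add] at h1 h2
  exact ⟨_, _, h1.symm, h2.symm⟩

/-- cycles at `z`, one step above -/
theorem c2 (hg : g ≠ 0) (b : ℕ) (hb : b < 2) (s : Function.Surjective (M.Th b))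
    (i : Function.Injective (M.Th (b + 1))) (z0 z1 : M.Y 1 (b + 1))
    (e0 : g ^ 3 • M.w 1 0 (b + 1) z0 + g ^ 2 • M.w 1 1 (b + 1) z1 = 0)
    (e1 : g ^ 2 • M.w 0 0 (b + 1) z0 + g • M.w 0 1 (b + 1) z1 = 0) :
    ∃ y : M.Y 0 (b + 1), z0 = g • M.x 1 (b + 1) y ∧ z1 = g ^ 2 • M.x 0 (b + 1) y := by
  obtain ⟨a, rfl⟩ := s z0
  obtain ⟨c, rfl⟩ := s z1
  rw [w_Th two hg 1 0 b hb, w_Th two hg 1 1 b hb] at e0
  rw [w_Th two hg 0 0 b hb, w_Th two hg 0 1 b hb] at e1
  have h0 : g ^ 3 • M.w 1 0 b a + g ^ 2 • M.w 1 1 b c = 0 := i (by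
    rw [map_add, LinearMap.map_smul (M.Th (b + 1)), LinearMap.map_smul (M.Th (b + 1)), e0, map_zero])
  have h1 : g ^ 2 • M.w 0 0 b a + g • M.w 0 1 b c = 0 := i (by
    rw [map_add, LinearMap.map_smul (M.Th (b + 1)), LinearMap.map_smul (M.Th (b + 1)), e1, map_zero])
  have h2 := I2a two hg b (by omega) a c
  have h3 := I2b two hg b (by omega) a c
  rw [h1, smul_zero, add_zero] at h2
  rw [h0, smul_zero, add_zero] at h3
  exact ⟨_, h2.symm, h3.symm⟩

/-- `x_0 y = x_1 y = 0` -/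
theorem c3 (hg : g ≠ 0) (b : ℕ) (i : Function.Injective (M.S0 b)) (y : M.Y 0 b)
    (e1 : g • M.x 1 b y = 0) (e0 : g ^ 2 • M.x 0 b y = 0) : y = 0 := by
  have h1 : M.x 1 b y = 0 := (smul_eq_zero.1 e1).resolve_left hg
  have h0 : M.x 0 b y = 0 := (smul_eq_zero.1 e0).resolve_left (pow_ne_zero 2 hg)
  apply i
  rw [S0_apply, h1, h0, map_zero, map_zero, map_zero, add_zero]

/-- cycles at `g_j` (first position) -/
theorem c4 (hg : g ≠ 0) (b : ℕ) (hb : b < 3) (s : Function.Surjective (M.S0 b))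
    (i : Function.Injective (M.Th b)) (z0 z1 : M.Y 1 b)
    (e0 : g ^ 3 • M.w 1 0 b z0 + g ^ 2 • M.w 1 1 b z1 = 0)
    (e1 : g ^ 2 • M.w 0 0 b z0 + g • M.w 0 1 b z1 = 0) :
    ∃ y : M.Y 0 b, z0 = g • M.x 1 b y ∧ z1 = g ^ 2 • M.x 0 b y := by
  have h2 := I2a two hg b (by omega) z0 z1
  have h3 := I2b two hg b (by omega) z0 z1
  rw [e1, smul_zero, add_zero] at h2
  rw [e0, smul_zero, add_zero] at h3
  obtain ⟨y, hy⟩ := s (M.d 0 b ((g ^ 2)⁻¹ • z1) + M.d 1 b (g⁻¹ • z0))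
  rw [← hy, ← Th_x two 1 b hb, ← map_smul] at h2
  rw [← hy, ← Th_x two 0 b hb, ← map_smul] at h3
  exact ⟨y, (i h2).symm, (i h3).symm⟩

/-- `t + h = (g-1) S0` on `Y 0` -/
theorem t0_add (b : ℕ) (y : M.Y 0 b) : M.t0 b y + M.h 0 b y = (g - 1) • M.S0 b y := by
  have h := add_self two 0 b.succ (M.h 0 b y)
  calc M.t0 b y + M.h 0 b y = M.h 0 b y + M.h 0 b y + (g - 1) • M.S0 b y := by
        simp only [t0, LinearMap.add_apply, LinearMap.smul_apply]; abel
    _ = _ := by rw [show M.h 0 b y + M.h 0 b y = 0 from h, zero_add]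

theorem uv_surj (hg1 : g ≠ 1) (b : ℕ) (s : Function.Surjective (M.S0 b)) (y : M.Y 0 (b + 1)) :
    ∃ v : M.Y 0 b, y = M.t0 b v + M.h 0 b v := by
  obtain ⟨z, hz⟩ := s y
  have h1 : (g - 1) ≠ 0 := sub_ne_zero.2 hg1
  refine ⟨(g - 1)⁻¹ • z, ?_⟩
  rw [t0_add two, map_smul, smul_smul, mul_inv_cancel₀ h1, one_smul, hz]

theorem uv_inj (hg1 : g ≠ 1) (b : ℕ) (i : Function.Injective (M.S0 b)) (v : M.Y 0 b)
    (e : M.t0 b v + M.h 0 b v = 0) : v = 0 := by
  have h1 : (g - 1) ≠ 0 := sub_ne_zero.2 hg1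
  rw [t0_add two] at e
  exact i (by rw [(smul_eq_zero.1 e).resolve_left h1, map_zero])

end char2

/-! ### table -/

end RY

/-- row (`0` or `1`) of the right cell -/
def pi0 : Cell → Fin 2
  | some (.d _) => 1
  | some (.z _) => 1
  | some (.e _) => 1
  | some (.gj _) => 1
  | _ => 0

/-- position in the row -/
def pb : Cell → ℕ
  | none => 3
  | some (.d _) => 2
  | some .f => 2
  | some (.z _) => 1
  | some .zc => 1
  | some (.u s) => 2 - s.val
  | some (.e _) => 1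
  | some (.gj _) => 0
  | some .gc => 0
  | some (.v s) => 1 - s.val

theorem forall_cell {P : Cell → Prop} (h1 : P none) (h2 : P (some (.d 0))) (h3 : P (some (.d 1)))
    (h4 : P (some .f)) (h5 : P (some (.z 0))) (h6 : P (some (.z 1))) (h7 : P (some .zc))
    (h8 : P (some (.u 0))) (h9 : P (some (.u 1))) (h10 : P (some (.e 0))) (h11 : P (some (.e 1)))
    (h12 : P (some (.gj 0))) (h13 : P (some (.gj 1))) (h14 : P (some .gc))
    (h15 : P (some (.v 0))) (h16 : P (some (.v 1))) : ∀ a, P a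
  | none => h1
  | some (.d 0) => h2
  | some (.d 1) => h3
  | some .f => h4
  | some (.z 0) => h5
  | some (.z 1) => h6
  | some .zc => h7
  | some (.u 0) => h8
  | some (.u 1) => h9
  | some (.e 0) => h10
  | some (.e 1) => h11
  | some (.gj 0) => h12
  | some (.gj 1) => h13
  | some .gc => h14
  | some (.v 0) => h15
  | some (.v 1) => h16

theorem sum_cell {A : Type} [AddCommMonoid A] (F : Cell → A) :
    ∑ b, F b = F none + F (some (.d 0)) + F (some (.d 1)) + F (some .f) + F (some (.z 0)) +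
      F (some (.z 1)) + F (some .zc) + F (some (.u 0)) + F (some (.u 1)) + F (some (.e 0)) +
      F (some (.e 1)) + F (some (.gj 0)) + F (some (.gj 1)) + F (some .gc) + F (some (.v 0)) +
      F (some (.v 1)) := by
  have h : (Finset.univ : Finset Cell) = {none, some (.d 0), some (.d 1), some .f, some (.z 0),
      some (.z 1), some .zc, some (.u 0), some (.u 1), some (.e 0), some (.e 1), some (.gj 0),
      some (.gj 1), some .gc, some (.v 0), some (.v 1)} := by decide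
  rw [h]
  repeat rw [Finset.sum_insert (by decide)]
  rw [Finset.sum_singleton]
  simp only [add_assoc]

namespace RY

variable {K : Type} [Field K] {g : K} (M : RY K g)

/-- the table: `T a b` = coefficient of the cell `a` in the differential of the cell `b` -/
noncomputable def T : ∀ a b : Cell, M.Y (pi0 b) (pb b) →ₗ[K] M.Y (pi0 a) (pb a)
  | none, some (.d 0) => M.d 0 2
  | none, some (.d 1) => M.d 1 2
  | some (.d 0), some (.z 0) => g ^ 3 • M.w 1 0 1
  | some (.d 0), some (.z 1) => g ^ 2 • M.w 1 1 1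
  | some (.d 1), some (.z 0) => g ^ 2 • M.w 0 0 1
  | some (.d 1), some (.z 1) => g • M.w 0 1 1
  | some .f, some .zc => M.h 0 1
  | some (.z 1), some .zc => g ^ 2 • M.x 0 1
  | some (.z 0), some .zc => g • M.x 1 1
  | some .f, some (.e 0) => M.d 0 1
  | some .f, some (.e 1) => M.d 1 1
  | some (.e 0), some (.gj 0) => g ^ 3 • M.w 1 0 0
  | some (.e 0), some (.gj 1) => g ^ 2 • M.w 1 1 0
  | some (.e 1), some (.gj 0) => g ^ 2 • M.w 0 0 0
  | some (.e 1), some (.gj 1) => g • M.w 0 1 0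
  | some (.gj 1), some .gc => g ^ 2 • M.x 0 0
  | some (.gj 0), some .gc => g • M.x 1 0
  | some (.u 0), some (.v 0) => M.t0 1 + M.h 0 1
  | some (.u 1), some (.v 1) => M.t0 0 + M.h 0 0
  | _, _ => 0

theorem row_none (φ : ∀ a, M.Y (pi0 a) (pb a)) : ∑ b, M.T none b (φ b) = M.d 0 2 (φ (some (.d 0))) + M.d 1 2 (φ (some (.d 1))) := by
  rw [sum_cell]
  have h : 0 + M.d 0 2 (φ (some (.d 0))) + M.d 1 2 (φ (some (.d 1))) + 0 + 0 + 0 + 0 + 0 + 0 + 0 + 0 + 0 + 0 + 0 + 0 + 0 = (M.d 0 2 (φ (some (.d 0))) + M.d 1 2 (φ (some (.d 1))) : M.Y (pi0 none) (pb none)) := by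
    simp only [zero_add, add_zero]
  exact h

theorem row_d0 (φ : ∀ a, M.Y (pi0 a) (pb a)) : ∑ b, M.T (some (.d 0)) b (φ b) = g ^ 3 • M.w 1 0 1 (φ (some (.z 0))) + g ^ 2 • M.w 1 1 1 (φ (some (.z 1))) := by
  rw [sum_cell]
  have h : 0 + 0 + 0 + 0 + g ^ 3 • M.w 1 0 1 (φ (some (.z 0))) + g ^ 2 • M.w 1 1 1 (φ (some (.z 1))) + 0 + 0 + 0 + 0 + 0 + 0 + 0 + 0 + 0 + 0 = (g ^ 3 • M.w 1 0 1 (φ (some (.z 0))) + g ^ 2 • M.w 1 1 1 (φ (some (.z 1))) : M.Y (pi0 (some (.d 0))) (pb (some (.d 0)))) := by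
    simp only [zero_add, add_zero]
  exact h

theorem row_d1 (φ : ∀ a, M.Y (pi0 a) (pb a)) : ∑ b, M.T (some (.d 1)) b (φ b) = g ^ 2 • M.w 0 0 1 (φ (some (.z 0))) + g • M.w 0 1 1 (φ (some (.z 1))) := by
  rw [sum_cell]
  have h : 0 + 0 + 0 + 0 + g ^ 2 • M.w 0 0 1 (φ (some (.z 0))) + g • M.w 0 1 1 (φ (some (.z 1))) + 0 + 0 + 0 + 0 + 0 + 0 + 0 + 0 + 0 + 0 = (g ^ 2 • M.w 0 0 1 (φ (some (.z 0))) + g • M.w 0 1 1 (φ (some (.z 1))) : M.Y (pi0 (some (.d 1))) (pb (some (.d 1)))) := by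
    simp only [zero_add, add_zero]
  exact h

theorem row_f (φ : ∀ a, M.Y (pi0 a) (pb a)) : ∑ b, M.T (some .f) b (φ b) = M.h 0 1 (φ (some .zc)) + M.d 0 1 (φ (some (.e 0))) + M.d 1 1 (φ (some (.e 1))) := by
  rw [sum_cell]
  have h : 0 + 0 + 0 + 0 + 0 + 0 + M.h 0 1 (φ (some .zc)) + 0 + 0 + M.d 0 1 (φ (some (.e 0))) + M.d 1 1 (φ (some (.e 1))) + 0 + 0 + 0 + 0 + 0 = (M.h 0 1 (φ (some .zc)) + M.d 0 1 (φ (some (.e 0))) + M.d 1 1 (φ (some (.e 1))) : M.Y (pi0 (some .f)) (pb (some .f))) := by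
    simp only [zero_add, add_zero]
  exact h

theorem row_z0 (φ : ∀ a, M.Y (pi0 a) (pb a)) : ∑ b, M.T (some (.z 0)) b (φ b) = g • M.x 1 1 (φ (some .zc)) := by
  rw [sum_cell]
  have h : 0 + 0 + 0 + 0 + 0 + 0 + g • M.x 1 1 (φ (some .zc)) + 0 + 0 + 0 + 0 + 0 + 0 + 0 + 0 + 0 = (g • M.x 1 1 (φ (some .zc)) : M.Y (pi0 (some (.z 0))) (pb (some (.z 0)))) := by
    simp only [zero_add, add_zero]
  exact h

theorem row_z1 (φ : ∀ a, M.Y (pi0 a) (pb a)) : ∑ b, M.T (some (.z 1)) b (φ b) = g ^ 2 • M.x 0 1 (φ (some .zc)) := by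
  rw [sum_cell]
  have h : 0 + 0 + 0 + 0 + 0 + 0 + g ^ 2 • M.x 0 1 (φ (some .zc)) + 0 + 0 + 0 + 0 + 0 + 0 + 0 + 0 + 0 = (g ^ 2 • M.x 0 1 (φ (some .zc)) : M.Y (pi0 (some (.z 1))) (pb (some (.z 1)))) := by
    simp only [zero_add, add_zero]
  exact h

theorem row_zc (φ : ∀ a, M.Y (pi0 a) (pb a)) : ∑ b, M.T (some .zc) b (φ b) = 0 := by
  rw [sum_cell]
  have h : 0 + 0 + 0 + 0 + 0 + 0 + 0 + 0 + 0 + 0 + 0 + 0 + 0 + 0 + 0 + 0 = (0 : M.Y (pi0 (some .zc)) (pb (some .zc))) := by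
    simp only [zero_add, add_zero]
  exact h

theorem row_u0 (φ : ∀ a, M.Y (pi0 a) (pb a)) : ∑ b, M.T (some (.u 0)) b (φ b) = (M.t0 1 (φ (some (.v 0))) + M.h 0 1 (φ (some (.v 0)))) := by
  rw [sum_cell]
  have h : 0 + 0 + 0 + 0 + 0 + 0 + 0 + 0 + 0 + 0 + 0 + 0 + 0 + 0 + (M.t0 1 (φ (some (.v 0))) + M.h 0 1 (φ (some (.v 0)))) + 0 = ((M.t0 1 (φ (some (.v 0))) + M.h 0 1 (φ (some (.v 0)))) : M.Y (pi0 (some (.u 0))) (pb (some (.u 0)))) := by
    simp only [zero_add, add_zero]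
  exact h

theorem row_u1 (φ : ∀ a, M.Y (pi0 a) (pb a)) : ∑ b, M.T (some (.u 1)) b (φ b) = (M.t0 0 (φ (some (.v 1))) + M.h 0 0 (φ (some (.v 1)))) := by
  rw [sum_cell]
  have h : 0 + 0 + 0 + 0 + 0 + 0 + 0 + 0 + 0 + 0 + 0 + 0 + 0 + 0 + 0 + (M.t0 0 (φ (some (.v 1))) + M.h 0 0 (φ (some (.v 1)))) = ((M.t0 0 (φ (some (.v 1))) + M.h 0 0 (φ (some (.v 1)))) : M.Y (pi0 (some (.u 1))) (pb (some (.u 1)))) := by
    simp only [zero_add, add_zero]
  exact h

theorem row_e0 (φ : ∀ a, M.Y (pi0 a) (pb a)) : ∑ b, M.T (some (.e 0)) b (φ b) = g ^ 3 • M.w 1 0 0 (φ (some (.gj 0))) + g ^ 2 • M.w 1 1 0 (φ (some (.gj 1))) := by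
  rw [sum_cell]
  have h : 0 + 0 + 0 + 0 + 0 + 0 + 0 + 0 + 0 + 0 + 0 + g ^ 3 • M.w 1 0 0 (φ (some (.gj 0))) + g ^ 2 • M.w 1 1 0 (φ (some (.gj 1))) + 0 + 0 + 0 = (g ^ 3 • M.w 1 0 0 (φ (some (.gj 0))) + g ^ 2 • M.w 1 1 0 (φ (some (.gj 1))) : M.Y (pi0 (some (.e 0))) (pb (some (.e 0)))) := by
    simp only [zero_add, add_zero]
  exact h

theorem row_e1 (φ : ∀ a, M.Y (pi0 a) (pb a)) : ∑ b, M.T (some (.e 1)) b (φ b) = g ^ 2 • M.w 0 0 0 (φ (some (.gj 0))) + g • M.w 0 1 0 (φ (some (.gj 1))) := by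
  rw [sum_cell]
  have h : 0 + 0 + 0 + 0 + 0 + 0 + 0 + 0 + 0 + 0 + 0 + g ^ 2 • M.w 0 0 0 (φ (some (.gj 0))) + g • M.w 0 1 0 (φ (some (.gj 1))) + 0 + 0 + 0 = (g ^ 2 • M.w 0 0 0 (φ (some (.gj 0))) + g • M.w 0 1 0 (φ (some (.gj 1))) : M.Y (pi0 (some (.e 1))) (pb (some (.e 1)))) := by
    simp only [zero_add, add_zero]
  exact h

theorem row_g0 (φ : ∀ a, M.Y (pi0 a) (pb a)) : ∑ b, M.T (some (.gj 0)) b (φ b) = g • M.x 1 0 (φ (some .gc)) := by
  rw [sum_cell]
  have h : 0 + 0 + 0 + 0 + 0 + 0 + 0 + 0 + 0 + 0 + 0 + 0 + 0 + g • M.x 1 0 (φ (some .gc)) + 0 + 0 = (g • M.x 1 0 (φ (some .gc)) : M.Y (pi0 (some (.gj 0))) (pb (some (.gj 0)))) := by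
    simp only [zero_add, add_zero]
  exact h

theorem row_g1 (φ : ∀ a, M.Y (pi0 a) (pb a)) : ∑ b, M.T (some (.gj 1)) b (φ b) = g ^ 2 • M.x 0 0 (φ (some .gc)) := by
  rw [sum_cell]
  have h : 0 + 0 + 0 + 0 + 0 + 0 + 0 + 0 + 0 + 0 + 0 + 0 + 0 + g ^ 2 • M.x 0 0 (φ (some .gc)) + 0 + 0 = (g ^ 2 • M.x 0 0 (φ (some .gc)) : M.Y (pi0 (some (.gj 1))) (pb (some (.gj 1)))) := by
    simp only [zero_add, add_zero]
  exact h

theorem row_gc (φ : ∀ a, M.Y (pi0 a) (pb a)) : ∑ b, M.T (some .gc) b (φ b) = 0 := by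
  rw [sum_cell]
  have h : 0 + 0 + 0 + 0 + 0 + 0 + 0 + 0 + 0 + 0 + 0 + 0 + 0 + 0 + 0 + 0 = (0 : M.Y (pi0 (some .gc)) (pb (some .gc))) := by
    simp only [zero_add, add_zero]
  exact h

theorem row_v0 (φ : ∀ a, M.Y (pi0 a) (pb a)) : ∑ b, M.T (some (.v 0)) b (φ b) = 0 := by
  rw [sum_cell]
  have h : 0 + 0 + 0 + 0 + 0 + 0 + 0 + 0 + 0 + 0 + 0 + 0 + 0 + 0 + 0 + 0 = (0 : M.Y (pi0 (some (.v 0))) (pb (some (.v 0)))) := by
    simp only [zero_add, add_zero]
  exact h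

theorem row_v1 (φ : ∀ a, M.Y (pi0 a) (pb a)) : ∑ b, M.T (some (.v 1)) b (φ b) = 0 := by
  rw [sum_cell]
  have h : 0 + 0 + 0 + 0 + 0 + 0 + 0 + 0 + 0 + 0 + 0 + 0 + 0 + 0 + 0 + 0 = (0 : M.Y (pi0 (some (.v 1))) (pb (some (.v 1)))) := by
    simp only [zero_add, add_zero]
  exact h

variable {M}

/-- a family on the cells -/
def mkC (n : M.Y 0 3) (d0 d1 : M.Y 1 2) (f : M.Y 0 2) (z0 z1 : M.Y 1 1) (zc : M.Y 0 1)
    (u0 : M.Y 0 2) (u1 : M.Y 0 1) (e0 e1 : M.Y 1 1) (g0 g1 : M.Y 1 0) (gc : M.Y 0 0)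
    (v0 : M.Y 0 1) (v1 : M.Y 0 0) : ∀ a : Cell, M.Y (pi0 a) (pb a)
  | none => n
  | some (.d 0) => d0
  | some (.d 1) => d1
  | some .f => f
  | some (.z 0) => z0
  | some (.z 1) => z1
  | some .zc => zc
  | some (.u 0) => u0
  | some (.u 1) => u1
  | some (.e 0) => e0
  | some (.e 1) => e1
  | some (.gj 0) => g0
  | some (.gj 1) => g1
  | some .gc => gc
  | some (.v 0) => v0
  | some (.v 1) => v1

variable (two : (2 : K) = 0) (hg : g ≠ 0) (hg1 : g ≠ 1)
  (hS : ∀ b, b < 3 → Function.Bijective (M.S0 b)) (hT : ∀ b, b < 2 → Function.Bijective (M.Th b))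

include two hg hg1 hS hT

/-- **EXr**: the sixteen right cells of `D V_(-2)` with values in `Y` are exact at every level -/
theorem exactR (k : ℕ) (φ : ∀ a : Cell, M.Y (pi0 a) (pb a)) (h0 : ∀ a, cdeg a ≠ k → φ a = 0)
    (hc : ∀ a, cdeg a + 1 = k → ∑ b, M.T a b (φ b) = 0) :
    ∃ ψ : ∀ a : Cell, M.Y (pi0 a) (pb a), (∀ a, cdeg a ≠ k + 1 → ψ a = 0) ∧
      ∀ a, cdeg a = k → φ a = ∑ b, M.T a b (ψ b) := by
  rcases k with _ | _ | _ | _ | _ | _ | k
  · -- level 0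
    obtain ⟨a, c, e⟩ := c0 two 2 (hS 2 (by omega)).2 (φ none)
    refine ⟨mkC 0 a c 0 0 0 0 0 0 0 0 0 0 0 0 0, ?_, ?_⟩
    · refine forall_cell ?_ ?_ ?_ ?_ ?_ ?_ ?_ ?_ ?_ ?_ ?_ ?_ ?_ ?_ ?_ ?_ <;> intro h <;>
        first | rfl | exact absurd rfl h
    · refine forall_cell ?_ ?_ ?_ ?_ ?_ ?_ ?_ ?_ ?_ ?_ ?_ ?_ ?_ ?_ ?_ ?_ <;> intro h <;>
        first | exact absurd h (by decide) | skip
      rw [row_none]
      exact e
  · -- level 1
    have e := hc none rfl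
    rw [row_none] at e
    obtain ⟨a, c, e1, e2⟩ := c1 two hg 1 (by omega) (hT 1 (by omega)).2 (hS 2 (by omega)).1 _ _ e
    refine ⟨mkC 0 0 0 0 a c 0 0 0 0 0 0 0 0 0 0, ?_, ?_⟩
    · refine forall_cell ?_ ?_ ?_ ?_ ?_ ?_ ?_ ?_ ?_ ?_ ?_ ?_ ?_ ?_ ?_ ?_ <;> intro h <;>
        first | rfl | exact absurd rfl h
    · refine forall_cell ?_ ?_ ?_ ?_ ?_ ?_ ?_ ?_ ?_ ?_ ?_ ?_ ?_ ?_ ?_ ?_ <;> intro h <;>
        first | exact absurd h (by decide) | skip
      · rw [row_d0]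
        exact e1
      · rw [row_d1]
        exact e2
  · -- level 2
    have e0 := hc (some (.d 0)) rfl
    have e1 := hc (some (.d 1)) rfl
    rw [row_d0] at e0
    rw [row_d1] at e1
    obtain ⟨y, y0, y1⟩ := c2 two hg 0 (by omega) (hT 0 (by omega)).2 (hT 1 (by omega)).1 _ _ e0 e1
    obtain ⟨f, hf⟩ : ∃ f : M.Y 0 2, φ (some .f) = f := ⟨_, rfl⟩
    obtain ⟨a, c, e2⟩ := c0 two 1 (hS 1 (by omega)).2 (f - M.h 0 1 y)
    obtain ⟨v, e3⟩ := uv_surj two hg1 1 (hS 1 (by omega)).2 (φ (some (.u 0)))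
    refine ⟨mkC 0 0 0 0 0 0 y 0 0 a c 0 0 0 v 0, ?_, ?_⟩
    · refine forall_cell ?_ ?_ ?_ ?_ ?_ ?_ ?_ ?_ ?_ ?_ ?_ ?_ ?_ ?_ ?_ ?_ <;> intro h <;>
        first | rfl | exact absurd rfl h
    · refine forall_cell ?_ ?_ ?_ ?_ ?_ ?_ ?_ ?_ ?_ ?_ ?_ ?_ ?_ ?_ ?_ ?_ <;> intro h <;>
        first | exact absurd h (by decide) | skip
      · rw [row_f]
        have e4 : f = M.h 0 1 y + (M.d 0 1 a + M.d 1 1 c) := by
          rw [← e2]; exact (add_sub_cancel _ _).symm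
        rw [← add_assoc] at e4
        exact hf.trans e4
      · rw [row_z0]
        exact y0
      · rw [row_z1]
        exact y1
      · rw [row_u0]
        exact e3
  · -- level 3
    have ef := hc (some .f) rfl
    have e0 := hc (some (.z 0)) rfl
    have e1 := hc (some (.z 1)) rfl
    have eu := hc (some (.u 0)) rfl
    rw [row_f] at ef
    rw [row_z0] at e0
    rw [row_z1] at e1
    rw [row_u0] at eu
    have hz := c3 two hg 1 (hS 1 (by omega)).1 _ e0 e1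
    have hv := uv_inj two hg1 1 (hS 1 (by omega)).1 _ eu
    rw [hz, map_zero, zero_add] at ef
    obtain ⟨a, c, e2, e3⟩ := c1 two hg 0 (by omega) (hT 0 (by omega)).2 (hS 1 (by omega)).1 _ _ ef
    obtain ⟨v, e4⟩ := uv_surj two hg1 0 (hS 0 (by omega)).2 (φ (some (.u 1)))
    refine ⟨mkC 0 0 0 0 0 0 0 0 0 0 0 a c 0 0 v, ?_, ?_⟩
    · refine forall_cell ?_ ?_ ?_ ?_ ?_ ?_ ?_ ?_ ?_ ?_ ?_ ?_ ?_ ?_ ?_ ?_ <;> intro h <;>
        first | rfl | exact absurd rfl h
    · refine forall_cell ?_ ?_ ?_ ?_ ?_ ?_ ?_ ?_ ?_ ?_ ?_ ?_ ?_ ?_ ?_ ?_ <;> intro h <;>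
        first | exact absurd h (by decide) | skip
      · rw [row_zc]
        exact hz
      · rw [row_u1]
        exact e4
      · rw [row_e0]
        exact e2
      · rw [row_e1]
        exact e3
      · rw [row_v0]
        exact hv
  · -- level 4
    have e0 := hc (some (.e 0)) rfl
    have e1 := hc (some (.e 1)) rfl
    have eu := hc (some (.u 1)) rfl
    rw [row_e0] at e0
    rw [row_e1] at e1
    rw [row_u1] at eu
    have hv := uv_inj two hg1 0 (hS 0 (by omega)).1 _ eu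
    obtain ⟨y, y0, y1⟩ := c4 two hg 0 (by omega) (hS 0 (by omega)).2 (hT 0 (by omega)).1 _ _ e0 e1
    refine ⟨mkC 0 0 0 0 0 0 0 0 0 0 0 0 0 y 0 0, ?_, ?_⟩
    · refine forall_cell ?_ ?_ ?_ ?_ ?_ ?_ ?_ ?_ ?_ ?_ ?_ ?_ ?_ ?_ ?_ ?_ <;> intro h <;>
        first | rfl | exact absurd rfl h
    · refine forall_cell ?_ ?_ ?_ ?_ ?_ ?_ ?_ ?_ ?_ ?_ ?_ ?_ ?_ ?_ ?_ ?_ <;> intro h <;>
        first | exact absurd h (by decide) | skip
      · rw [row_g0]
        exact y0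
      · rw [row_g1]
        exact y1
      · rw [row_v1]
        exact hv
  · -- level 5
    have e0 := hc (some (.gj 0)) rfl
    have e1 := hc (some (.gj 1)) rfl
    rw [row_g0] at e0
    rw [row_g1] at e1
    have hz := c3 two hg 0 (hS 0 (by omega)).1 _ e0 e1
    refine ⟨fun _ => 0, fun _ _ => rfl, ?_⟩
    refine forall_cell ?_ ?_ ?_ ?_ ?_ ?_ ?_ ?_ ?_ ?_ ?_ ?_ ?_ ?_ ?_ ?_ <;> intro h <;>
      first | exact absurd h (by decide) | skip
    rw [row_gc]
    exact hz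
  · refine ⟨fun _ => 0, fun _ _ => rfl, ?_⟩
    refine forall_cell ?_ ?_ ?_ ?_ ?_ ?_ ?_ ?_ ?_ ?_ ?_ ?_ ?_ ?_ ?_ ?_ <;> intro h <;>
      simp [cdeg] at h <;> omega

/-- the same in the shape of `Zig498.TF.ex_of_H` with `s l = - cdeg l` -/
theorem exactZ (C : ∀ a b : Cell, M.Y (pi0 b) (pb b) →ₗ[K] M.Y (pi0 a) (pb a))
    (hC : ∀ a b, C a b = M.T a b) (m : ℤ) (φ : ∀ a : Cell, M.Y (pi0 a) (pb a))
    (h0 : ∀ a, -(cdeg a : ℤ) ≠ m → φ a = 0)
    (hc : ∀ a, -(cdeg a : ℤ) = m + 1 → ∑ b, C a b (φ b) = 0) :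
    ∃ ψ : ∀ a : Cell, M.Y (pi0 a) (pb a), (∀ a, -(cdeg a : ℤ) + 1 ≠ m → ψ a = 0) ∧
      ∀ a, -(cdeg a : ℤ) = m → φ a = ∑ b, C a b (ψ b) := by
  simp only [hC] at hc ⊢
  rcases le_or_gt m 0 with hm | hm
  · obtain ⟨k, rfl⟩ : ∃ k : ℕ, m = -(k : ℤ) := ⟨m.toNat + (-m).toNat, by omega⟩
    obtain ⟨ψ, h1, h2⟩ := exactR two hg hg1 hS hT k φ (fun a ha => h0 a (by omega))
      (fun a ha => hc a (by omega))
    exact ⟨ψ, fun a ha => h1 a (by omega), fun a ha => h2 a (by omega)⟩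
  · exact ⟨fun _ => 0, fun _ _ => rfl, fun a ha => by omega⟩

end RY

end Crest.Agent.R186.ExR807
end

-- ▼ part R186/RX_625
section

/-!
Row 186 (A), short road, right cells (helper625): `tot S ⊗ X` (171's `RW171.tot`) as a twisted
family `Zig498.TF`, and its acyclicity for the sixteen right cells from the bijectivity of
`θ_(-2) = t + h`, `θ_(-1) = t + g⁻¹ h` on the homology of the rows (807's `exactZ`).
-/

set_option autoImplicit false
set_option linter.style.haveILetI false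
set_option linter.unusedSectionVars false
set_option linter.unusedSimpArgs false

namespace Crest.Agent.R186.RX625

open Hat827 Win810 KHev302 Frame515 MulOpposite Adapt186 HB362 Zig498 RW171

variable {K : Type} [Field K] {w : WD K} {E : CE w}

section family

variable (S : RS E) (X : LCells w.dga)

theorem m_zero {c c' : S.κ} (h : S.r c' ≤ S.r c) : S.m c c' = 0 := by
  have h1 := S.m_mem c c'
  rw [E.pb_neg _ _ _ (by omega)] at h1
  exact (Submodule.mem_bot K).1 h1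

theorem mcR (c c' : S.κ) (x : X.ι →₀ Row E (S.p c') (S.a c')) :
    dU E _ _ (LU E (S.m c c') (m_EB S c c') x) + LU E (S.m c c') (m_EB S c c')
      (dU E _ _ x) + ∑ c'', LU E (S.m c c'') (m_EB S c c'')
        (LU E (S.m c'' c') (m_EB S c'' c') x) = 0 := by
  have h1 : ∀ c'', LU E (S.m c c'') (m_EB S c c'') (LU E (S.m c'' c') (m_EB S c'' c') x) =
      LU E (S.m c c'' * S.m c'' c') (mul_EB (m_EB S c'' c') (m_EB S c c'')) x :=
    fun c'' => LU_LU _ _ _ x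
  rw [LU_d, add_assoc (LU E (E.DB (S.m c c')) _ x), U_two, add_zero, Finset.sum_congr rfl
    fun c'' _ => h1 c'', LU_sum, LU_add]
  exact LU_zero _ (S.mc c c') x

/-- **`tot S ⊗ X` as a twisted family over the cells of `S`** -/
noncomputable def TFR : TF K where
  Cl := S.κ
  s c := -(S.r c)
  U c := U E X (S.p c) (S.a c)
  c c c' := LU E (S.m c c') (m_EB S c c')
  c_zero c c' h := LinearMap.ext fun u => LU_zero _ (m_zero S (by omega)) u
  c_mem c c' k x hx := by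
    have h := LU_mem (X := X) (m_EB S c c') (S.m_mem c c') hx
    rwa [show k + (S.r c' - S.r c - 1) = k + -(S.r c) - -(S.r c') - 1 by ring] at h
  mc c c' x := mcR S X c c' x

variable {S X}

/-- **acyclicity of `tot S ⊗ X` from the family** -/
theorem tot_ac (h : Ac (TFR S X).cx) : Ac (tG (tot S) X) := by
  intro k u hu hd
  have hu' := (mem_TX_iff S).1 hu
  have h1 : ∀ c, dU E _ _ (PT S X c u) +
      ∑ c', LU E (S.m c c') (m_EB S c c') (PT S X c' u) = 0 := fun c => by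
    have h2 : dT S X u = 0 := hd
    rw [← PT_d, h2, map_zero]
  obtain ⟨v, hv, hdv⟩ := h k (fun c => PT S X c u) hu' (funext h1)
  obtain ⟨y, hy⟩ := PT_surj S (X := X) v
  refine ⟨y, (mem_TX_iff S).2 fun c => ?_, PT_ext S fun c => ?_⟩
  · rw [hy c]
    exact hv c
  · refine (PT_d S c y).trans ?_
    simp only [hy]
    exact congrFun hdv c

end family

end Crest.Agent.R186.RX625
end

-- ▼ part R186/RY_625
section

/-!
Row 186 (A), short road, right cells (helper625): the homology of the rows `(0, b)`, `(1, b)` as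
807's `RY`, and the acyclicity of `tot S ⊗ X` for the sixteen right cells.
-/

set_option autoImplicit false
set_option linter.style.haveILetI false
set_option linter.unusedSectionVars false
set_option linter.unusedSimpArgs false

namespace Crest.Agent.R186.RX625

open Hat827 Win810 KHev302 Frame515 MulOpposite Adapt186 HB362 Zig498 RW171 JTR322 FamU654 ExR807
open Crest.Agent.R186.Cells221 (Cell cdeg)
open Crest.Agent.R186.PBW128 (E)

variable {K : Type} [Field K] {w : WD K}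

/-- the letters used by the right cells -/
structure RLt (E : CE w) (g : K) where
  x : Fin 2 → E.B
  d : Fin 2 → E.B
  z : Fin 2 → E.B
  h : E.B
  x_mem : ∀ j, x j ∈ E.pb 1 0 0
  d_mem : ∀ j, d j ∈ E.pb (-1) 1 0
  z_mem : ∀ j, z j ∈ E.pb (-1) 2 1
  h_mem : h ∈ E.pb 0 1 0
  Dx : ∀ j, E.DB (x j) = 0
  Dd : ∀ j, E.DB (d j) = 0
  Dh : E.DB h = 0
  r00 : x 0 * d 0 = h + g • (d 0 * x 0)
  r01 : x 0 * d 1 = g • (d 1 * x 0)
  r10 : x 1 * d 0 = d 0 * x 1
  r11 : x 1 * d 1 = h + g • (d 1 * x 1) + (g - 1) • (d 0 * x 0)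
  xx : x 0 * x 1 = x 1 * x 0
  xh : ∀ j, x j * h = h * x j
  dh : ∀ j, d j * h = h * d j
  q : ∀ j, d 1 * (d 0 * x j) + g • (d 0 * (d 1 * x j)) = E.DB (z j)

variable {E : CE w}

theorem pbc {P A C P' A' C' : ℤ} {b : E.B} (h : b ∈ E.pb P A C) (e1 : P' = P) (e2 : A' = A)
    (e3 : C' = C) : b ∈ E.pb P' A' C' := by
  subst e1 e2 e3
  exact h

section

variable {X : LCells w.dga}

/-- left multiplication by a cycle of degree zero, on homology -/
noncomputable def lH {p a p' a' : ℤ} (b : E.B) (hb : b ∈ E.pb (p' - p) (a' - a) 0)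
    (hD : E.DB b = 0) (n : ℤ) : HH (U E X p a) n →ₗ[K] HH (U E X p' a') n :=
  Hm (LUh E X b hb hD).f (HOK.of_hom n _)

theorem rep_lH {p a p' a' : ℤ} {b : E.B} (hb : b ∈ E.pb (p' - p) (a' - a) 0)
    (hD : E.DB b = 0) {n : ℤ} {ζ : HH (U E X p a) n} {u : (U E X p a).X} (h : IsRep ζ u) :
    IsRep (lH b hb hD n ζ) (LU E b (CE.pb_le _ _ _ hb) u) := h.map _ _

/-- values -/
def uv {p a : ℤ} (u : (U E X p a).X) (σ : X.ι) (j : w.Ob) : E.B :=
  ((show X.ι →₀ Row E p a from u) σ).1 j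

theorem rep_zero {Y : GC K} {n : ℤ} : IsRep (0 : HH Y n) 0 :=
  ⟨Submodule.zero_mem _, map_zero _, rfl⟩

end

namespace RLt

variable {g : K} (L : RLt E g)

theorem mx (j : Fin 2) (b : ℕ) : L.x j ∈ E.pb ((((1 : Fin 2).val : ℕ) : ℤ) -
    (((0 : Fin 2).val : ℕ) : ℤ)) ((b : ℤ) - b) 0 :=
  pbc (L.x_mem j) rfl (by ring) rfl

theorem md (j : Fin 2) (b : ℕ) : L.d j ∈ E.pb ((((0 : Fin 2).val : ℕ) : ℤ) -
    (((1 : Fin 2).val : ℕ) : ℤ)) (((b + 1 : ℕ) : ℤ) - b) 0 :=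
  pbc (L.d_mem j) rfl (by push_cast; ring) rfl

theorem mh (i : Fin 2) (b : ℕ) : L.h ∈ E.pb (((i.val : ℕ) : ℤ) -
    ((i.val : ℕ) : ℤ)) (((b + 1 : ℕ) : ℤ) - b) 0 :=
  pbc L.h_mem (by ring) (by push_cast; ring) rfl

theorem dx_mem (j i : Fin 2) : L.d j * L.x i ∈ E.pb 0 1 0 :=
  pbc (E.pb_mul (L.d_mem j) (L.x_mem i)) (by norm_num) (by norm_num) (by norm_num)

theorem mw (j i : Fin 2) (k : Fin 2) (b : ℕ) : L.d j * L.x i ∈ E.pb (((k.val : ℕ) : ℤ) -
    ((k.val : ℕ) : ℤ)) (((b + 1 : ℕ) : ℤ) - b) 0 :=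
  pbc (L.dx_mem j i) (by ring) (by push_cast; ring) rfl

theorem Dw (j i : Fin 2) : E.DB (L.d j * L.x i) = 0 := by
  rw [E.DB_mul, L.Dx, L.Dd, mul_zero, zero_mul, add_zero]

variable (X : LCells w.dga)

/-- **the homology of the rows `0`, `1` as 807's `RY`** -/
noncomputable def ry (n : ℤ) : RY K g where
  Y i b := HH (U E X ((i.val : ℕ) : ℤ) (b : ℤ)) n
  x j b := lH (L.x j) (L.mx j b) (L.Dx j) n
  d j b := lH (L.d j) (L.md j b) (L.Dd j) n
  h i b := lH L.h (L.mh i b) L.Dh n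
  w j i b := lH (L.d j * L.x i) (L.mw j i 1 b) (L.Dw j i) n
  r00 b _ y := by
    obtain ⟨u, hu⟩ := IsRep.ex y
    refine (rep_lH _ _ (rep_lH _ _ hu)).eq' ((rep_lH _ _ hu).add ((rep_lH _ _ hu).smul g)) ?_
    refine U_ext fun σ j => ?_
    change L.x 0 * (L.d 0 * uv u σ j) = L.h * uv u σ j + g • (L.d 0 * L.x 0 * uv u σ j)
    rw [← mul_assoc, L.r00, add_mul, smul_mul_assoc]
  r01 b _ y := by
    obtain ⟨u, hu⟩ := IsRep.ex y
    refine (rep_lH _ _ (rep_lH _ _ hu)).eq' ((rep_lH _ _ hu).smul g) ?_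
    refine U_ext fun σ j => ?_
    change L.x 0 * (L.d 1 * uv u σ j) = g • (L.d 1 * L.x 0 * uv u σ j)
    rw [← mul_assoc, L.r01, smul_mul_assoc]
  r10 b _ y := by
    obtain ⟨u, hu⟩ := IsRep.ex y
    refine (rep_lH _ _ (rep_lH _ _ hu)).eq' (rep_lH _ _ hu) ?_
    refine U_ext fun σ j => ?_
    change L.x 1 * (L.d 0 * uv u σ j) = L.d 0 * L.x 1 * uv u σ j
    rw [← mul_assoc, L.r10]
  r11 b _ y := by
    obtain ⟨u, hu⟩ := IsRep.ex y
    refine (rep_lH _ _ (rep_lH _ _ hu)).eq' (((rep_lH _ _ hu).add ((rep_lH _ _ hu).smul g)).add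
      ((rep_lH _ _ hu).smul (g - 1))) ?_
    refine U_ext fun σ j => ?_
    change L.x 1 * (L.d 1 * uv u σ j) = L.h * uv u σ j + g • (L.d 1 * L.x 1 * uv u σ j) +
      (g - 1) • (L.d 0 * L.x 0 * uv u σ j)
    rw [← mul_assoc, L.r11, add_mul, add_mul, smul_mul_assoc, smul_mul_assoc]
  k0 b _ y := by
    obtain ⟨u, hu⟩ := IsRep.ex y
    refine (rep_lH _ _ (rep_lH _ _ hu)).eq' (rep_lH _ _ (rep_lH _ _ hu)) ?_
    refine U_ext fun σ j => ?_
    change L.d 0 * L.x 0 * (L.x 1 * uv u σ j) = L.d 0 * L.x 1 * (L.x 0 * uv u σ j)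
    rw [← mul_assoc, ← mul_assoc, mul_assoc (L.d 0), mul_assoc (L.d 0), L.xx]
    try simp only [mul_assoc]
  k1 b _ y := by
    obtain ⟨u, hu⟩ := IsRep.ex y
    refine (rep_lH _ _ (rep_lH _ _ hu)).eq' (rep_lH _ _ (rep_lH _ _ hu)) ?_
    refine U_ext fun σ j => ?_
    change L.d 1 * L.x 0 * (L.x 1 * uv u σ j) = L.d 1 * L.x 1 * (L.x 0 * uv u σ j)
    rw [← mul_assoc, ← mul_assoc, mul_assoc (L.d 1), mul_assoc (L.d 1), L.xx]
    try simp only [mul_assoc]
  hw j' i' b _ y := by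
    obtain ⟨u, hu⟩ := IsRep.ex y
    refine (rep_lH _ _ (rep_lH _ _ hu)).eq' (rep_lH _ _ (rep_lH _ _ hu)) ?_
    refine U_ext fun σ j => ?_
    change L.d j' * L.x i' * (L.h * uv u σ j) = L.h * (L.d j' * L.x i' * uv u σ j)
    rw [← mul_assoc, ← mul_assoc L.h, mul_assoc (L.d j') (L.x i'), L.xh, ← mul_assoc (L.d j'),
      L.dh, mul_assoc L.h]
  q j' b _ y := by
    obtain ⟨u, hu⟩ := IsRep.ex y
    obtain ⟨hun, hud, -⟩ := id hu
    have hz : L.z j' ∈ E.pb ((((0 : Fin 2).val : ℕ) : ℤ) - (((1 : Fin 2).val : ℕ) : ℤ))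
        (((b + 1 + 1 : ℕ) : ℤ) - b) 1 :=
      pbc (L.z_mem j') rfl (by push_cast; ring) rfl
    refine ((rep_lH _ _ (rep_lH _ _ hu)).add ((rep_lH _ _ (rep_lH _ _ hu)).smul g)).eq rep_zero
      ⟨LU E (L.z j') (CE.pb_le _ _ _ hz) u, LU_mem _ hz hun, ?_⟩
    rw [zero_add]
    refine Eq.trans ?_ (LU_d (E := E) (X := X) (L.z j') (CE.pb_le _ _ _ hz) u).symm
    have h2 : dU E _ _ u = 0 := hud
    rw [h2, map_zero, add_zero]
    refine U_ext fun σ j => ?_
    change L.d 1 * (L.d 0 * L.x j' * uv u σ j) + g • (L.d 0 * (L.d 1 * L.x j' * uv u σ j)) =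
      E.DB (L.z j') * uv u σ j
    rw [← L.q, add_mul, smul_mul_assoc]
    simp only [mul_assoc]

/-! ### the table -/

/-- `t = h + (g - 1) (d_0 x_0 + d_1 x_1)` -/
noncomputable def t : E.B := L.h + (g - 1) • (L.d 0 * L.x 0 + L.d 1 * L.x 1)

/-- the entries of the right table between adjacent levels -/
noncomputable def tab : Cell → Cell → E.B
  | none, some (.d 0) => L.d 0
  | none, some (.d 1) => L.d 1
  | some (.d 0), some (.z 0) => g ^ 3 • (L.d 1 * L.x 0)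
  | some (.d 0), some (.z 1) => g ^ 2 • (L.d 1 * L.x 1)
  | some (.d 1), some (.z 0) => g ^ 2 • (L.d 0 * L.x 0)
  | some (.d 1), some (.z 1) => g • (L.d 0 * L.x 1)
  | some .f, some .zc => L.h
  | some (.z 1), some .zc => g ^ 2 • L.x 0
  | some (.z 0), some .zc => g • L.x 1
  | some .f, some (.e 0) => L.d 0
  | some .f, some (.e 1) => L.d 1
  | some (.e 0), some (.gj 0) => g ^ 3 • (L.d 1 * L.x 0)
  | some (.e 0), some (.gj 1) => g ^ 2 • (L.d 1 * L.x 1)
  | some (.e 1), some (.gj 0) => g ^ 2 • (L.d 0 * L.x 0)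
  | some (.e 1), some (.gj 1) => g • (L.d 0 * L.x 1)
  | some (.gj 1), some .gc => g ^ 2 • L.x 0
  | some (.gj 0), some .gc => g • L.x 1
  | some (.u 0), some (.v 0) => L.t + L.h
  | some (.u 1), some (.v 1) => L.t + L.h
  | _, _ => 0

/-- the matrix of the sixteen right cells, given up to its adjacent entries -/
structure RTb where
  m : Cell → Cell → E.B
  m_mem : ∀ c c', m c c' ∈ E.pb ((((pi0 c).val : ℕ) : ℤ) - (((pi0 c').val : ℕ) : ℤ))
    ((pb c : ℤ) - pb c') ((cdeg c' : ℤ) - cdeg c - 1)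
  mc : ∀ c c', E.DB (m c c') + ∑ c'', m c c'' * m c'' c' = 0
  tb : ∀ a b, cdeg b = cdeg a + 1 → m a b = L.tab a b

variable {L} (T : L.RTb)

/-- the system of right cells -/
noncomputable def RTb.S : RS E where
  κ := Cell
  p c := (((pi0 c).val : ℕ) : ℤ)
  a c := (pb c : ℤ)
  r c := (cdeg c : ℤ)
  m := T.m
  m_mem := T.m_mem
  mc := T.mc

variable {X}


theorem tab_EB (T : L.RTb) (a b : Cell) (h : cdeg b = cdeg a + 1) : L.tab a b ∈
    E.EB ((((pi0 a).val : ℕ) : ℤ) - (((pi0 b).val : ℕ) : ℤ)) ((pb a : ℤ) - pb b) := by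
  rw [← T.tb a b h]
  exact CE.pb_le _ _ _ (T.m_mem a b)

theorem T_zero (n : ℤ) : ∀ a b : Cell, cdeg b ≠ cdeg a + 1 → (L.ry X n).T a b = 0 := by
  refine forall_cell ?_ ?_ ?_ ?_ ?_ ?_ ?_ ?_ ?_ ?_ ?_ ?_ ?_ ?_ ?_ ?_ <;>
  (refine forall_cell ?_ ?_ ?_ ?_ ?_ ?_ ?_ ?_ ?_ ?_ ?_ ?_ ?_ ?_ ?_ ?_ <;> intro h <;>
    first | rfl | exact absurd rfl h)

theorem rep_of_eq {Y : GC K} {n : ℤ} {ζ : HH Y n} {x x' : Y.X} (h : IsRep ζ x) (e : x = x') :
    IsRep ζ x' := e ▸ h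

theorem rep_smul {p a p' a' n : ℤ} {c : K} {b : E.B} (hb : b ∈ E.pb (p' - p) (a' - a) 0)
    (hD : E.DB b = 0) {y : HH (U E X p a) n} {u : (U E X p a).X} (hu : IsRep y u)
    (h : c • b ∈ E.EB (p' - p) (a' - a)) : IsRep (c • lH b hb hD n y) (LU E (c • b) h u) := by
  refine rep_of_eq ((rep_lH hb hD hu).smul c) (U_ext fun σ j => ?_)
  change c • (b * uv u σ j) = (c • b) * uv u σ j
  rw [smul_mul_assoc]

theorem rep_uv (n : ℤ) (b : ℕ) (y : HH (U E X (((0 : Fin 2).val : ℕ) : ℤ) (b : ℤ)) n)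
    (u : (U E X (((0 : Fin 2).val : ℕ) : ℤ) (b : ℤ)).X) (hu : IsRep y u)
    (h : L.t + L.h ∈ E.EB ((((0 : Fin 2).val : ℕ) : ℤ) - (((0 : Fin 2).val : ℕ) : ℤ))
      (((b + 1 : ℕ) : ℤ) - b)) :
    IsRep (((L.ry X n).t0 b + (L.ry X n).h 0 b) y) (LU E (L.t + L.h) h u) := by
  have h1 : IsRep ((L.ry X n).h 0 b y) _ := rep_lH (L.mh 0 b) L.Dh hu
  have h2 : ∀ j, IsRep ((L.ry X n).d j b ((L.ry X n).x j b y)) _ := fun j =>
    rep_lH (L.md j b) (L.Dd j) (rep_lH (L.mx j b) (L.Dx j) hu)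
  refine rep_of_eq ((h1.add (((h2 0).add (h2 1)).smul (g - 1))).add h1) (U_ext fun σ j => ?_)
  change L.h * uv u σ j + (g - 1) • (L.d 0 * (L.x 0 * uv u σ j) + L.d 1 * (L.x 1 * uv u σ j)) +
    L.h * uv u σ j = (L.h + (g - 1) • (L.d 0 * L.x 0 + L.d 1 * L.x 1) + L.h) * uv u σ j
  rw [add_mul, add_mul, smul_mul_assoc, add_mul, mul_assoc, mul_assoc]

/-- the entry `(a, b)` of 807's table is induced by the entry of `tab` -/
structure RepE (L : RLt E g) (X : LCells w.dga) (n : ℤ) (a b : Cell) : Prop where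
  rep : ∀ (h : L.tab a b ∈ E.EB ((((pi0 a).val : ℕ) : ℤ) - (((pi0 b).val : ℕ) : ℤ))
      ((pb a : ℤ) - pb b)) (y : HH (U E X (((pi0 b).val : ℕ) : ℤ) (pb b)) n)
      (u : (U E X (((pi0 b).val : ℕ) : ℤ) (pb b)).X), IsRep y u →
      IsRep ((L.ry X n).T a b y) (LU E (L.tab a b) h u)

/-- the nonzero entries -/
def nz : Cell → Cell → Bool
  | none, some (.d _) => true
  | some (.d _), some (.z _) => true
  | some .f, some .zc => true
  | some (.z _), some .zc => true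
  | some .f, some (.e _) => true
  | some (.e _), some (.gj _) => true
  | some (.gj _), some .gc => true
  | some (.u i), some (.v j) => if i = j then true else false
  | _, _ => false

theorem E01 (n : ℤ) : RepE L X n none (some (.d 0)) := ⟨fun _ _ _ hu => rep_lH _ _ hu⟩
theorem E02 (n : ℤ) : RepE L X n none (some (.d 1)) := ⟨fun _ _ _ hu => rep_lH _ _ hu⟩

theorem E03 (n : ℤ) : RepE L X n (some (.d 0)) (some (.z 0)) := ⟨fun h _ _ hu => rep_smul _ _ hu h⟩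
theorem E04 (n : ℤ) : RepE L X n (some (.d 0)) (some (.z 1)) := ⟨fun h _ _ hu => rep_smul _ _ hu h⟩
theorem E05 (n : ℤ) : RepE L X n (some (.d 1)) (some (.z 0)) := ⟨fun h _ _ hu => rep_smul _ _ hu h⟩
theorem E06 (n : ℤ) : RepE L X n (some (.d 1)) (some (.z 1)) := ⟨fun h _ _ hu => rep_smul _ _ hu h⟩
theorem E07 (n : ℤ) : RepE L X n (some (.e 0)) (some (.gj 0)) := ⟨fun h _ _ hu => rep_smul _ _ hu h⟩
theorem E08 (n : ℤ) : RepE L X n (some (.e 0)) (some (.gj 1)) := ⟨fun h _ _ hu => rep_smul _ _ hu h⟩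
theorem E09 (n : ℤ) : RepE L X n (some (.e 1)) (some (.gj 0)) := ⟨fun h _ _ hu => rep_smul _ _ hu h⟩
theorem E10 (n : ℤ) : RepE L X n (some (.e 1)) (some (.gj 1)) := ⟨fun h _ _ hu => rep_smul _ _ hu h⟩
theorem E11 (n : ℤ) : RepE L X n (some .f) (some .zc) := ⟨fun _ _ _ hu => rep_lH _ _ hu⟩
theorem E12 (n : ℤ) : RepE L X n (some (.z 0)) (some .zc) := ⟨fun h _ _ hu => rep_smul _ _ hu h⟩
theorem E13 (n : ℤ) : RepE L X n (some (.z 1)) (some .zc) := ⟨fun h _ _ hu => rep_smul _ _ hu h⟩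
theorem E14 (n : ℤ) : RepE L X n (some (.gj 0)) (some .gc) := ⟨fun h _ _ hu => rep_smul _ _ hu h⟩
theorem E15 (n : ℤ) : RepE L X n (some (.gj 1)) (some .gc) := ⟨fun h _ _ hu => rep_smul _ _ hu h⟩
theorem E16 (n : ℤ) : RepE L X n (some .f) (some (.e 0)) := ⟨fun _ _ _ hu => rep_lH _ _ hu⟩
theorem E17 (n : ℤ) : RepE L X n (some .f) (some (.e 1)) := ⟨fun _ _ _ hu => rep_lH _ _ hu⟩
theorem E18 (n : ℤ) : RepE L X n (some (.u 0)) (some (.v 0)) := ⟨fun h y u hu => rep_uv n _ y u hu h⟩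
theorem E19 (n : ℤ) : RepE L X n (some (.u 1)) (some (.v 1)) := ⟨fun h y u hu => rep_uv n _ y u hu h⟩

theorem nz_rep (n : ℤ) : ∀ a b : Cell, nz a b = true → RepE L X n a b := by
  have e01 := E01 (L := L) (X := X) n
  have e02 := E02 (L := L) (X := X) n
  have e03 := E03 (L := L) (X := X) n
  have e04 := E04 (L := L) (X := X) n
  have e05 := E05 (L := L) (X := X) n
  have e06 := E06 (L := L) (X := X) n
  have e07 := E07 (L := L) (X := X) n
  have e08 := E08 (L := L) (X := X) n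
  have e09 := E09 (L := L) (X := X) n
  have e10 := E10 (L := L) (X := X) n
  have e11 := E11 (L := L) (X := X) n
  have e12 := E12 (L := L) (X := X) n
  have e13 := E13 (L := L) (X := X) n
  have e14 := E14 (L := L) (X := X) n
  have e15 := E15 (L := L) (X := X) n
  have e16 := E16 (L := L) (X := X) n
  have e17 := E17 (L := L) (X := X) n
  have e18 := E18 (L := L) (X := X) n
  have e19 := E19 (L := L) (X := X) n
  refine forall_cell ?_ ?_ ?_ ?_ ?_ ?_ ?_ ?_ ?_ ?_ ?_ ?_ ?_ ?_ ?_ ?_ <;>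
  (refine forall_cell ?_ ?_ ?_ ?_ ?_ ?_ ?_ ?_ ?_ ?_ ?_ ?_ ?_ ?_ ?_ ?_ <;> intro h <;>
    first
    | exact absurd h (by decide)
    | assumption)

theorem nz_zero (n : ℤ) : ∀ a b : Cell, nz a b = false →
    (L.ry X n).T a b = 0 ∧ L.tab a b = 0 := by
  refine forall_cell ?_ ?_ ?_ ?_ ?_ ?_ ?_ ?_ ?_ ?_ ?_ ?_ ?_ ?_ ?_ ?_ <;>
  (refine forall_cell ?_ ?_ ?_ ?_ ?_ ?_ ?_ ?_ ?_ ?_ ?_ ?_ ?_ ?_ ?_ ?_ <;> intro h <;>
    first
    | exact absurd h (by decide)
    | exact ⟨rfl, rfl⟩)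

theorem T_rep (n : ℤ) (a b : Cell) : RepE L X n a b := by
  cases h : nz a b with
  | true => exact nz_rep n a b h
  | false =>
    obtain ⟨h1, h2⟩ := nz_zero (L := L) (X := X) n a b h
    refine ⟨fun h y u _ => ?_⟩
    rw [h1]
    exact rep_of_eq rep_zero (LU_zero h h2 u).symm

/-- the coefficients on homology are 807's table -/
theorem hc_eq (n : ℤ) (a b : Cell) : (TFR T.S X).hc n a b = (L.ry X n).T a b := by
  by_cases h : cdeg b = cdeg a + 1
  · have hs : (TFR T.S X).s a = (TFR T.S X).s b + 1 := by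
      change -(cdeg a : ℤ) = -(cdeg b : ℤ) + 1
      omega
    rw [TF.hc_of _ hs]
    refine LinearMap.ext fun y => ?_
    obtain ⟨u, hu⟩ := IsRep.ex y
    have h1 := hu.map _ ((TFR T.S X).c_ok hs n)
    have h2 := (T_rep (L := L) (X := X) n a b).rep (tab_EB T a b h) y u hu
    refine h1.eq' h2 ?_
    exact LU_ext _ _ (T.tb a b h) u
  · rw [T_zero n a b h]
    refine TF.hc_not _ ?_ n
    change -(cdeg a : ℤ) ≠ -(cdeg b : ℤ) + 1
    omega

/-- **acyclicity of `tot S ⊗ X` for the sixteen right cells**, from 807's bijectivity hypotheses -/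
theorem rtot_ac (two : (2 : K) = 0) (hg : g ≠ 0) (hg1 : g ≠ 1)
    (hS : ∀ n b, b < 3 → Function.Bijective ((L.ry X n).S0 b))
    (hT : ∀ n b, b < 2 → Function.Bijective ((L.ry X n).Th b)) : Ac (tG (tot T.S) X) := by
  refine tot_ac (TF.ac_of_H _ fun m n ζ h0 h1 => ?_)
  exact RY.exactZ (M := L.ry X n) two hg hg1 (hS n) (hT n) ((TFR T.S X).hc n) (hc_eq T n) m ζ h0 h1

end RLt

end Crest.Agent.R186.RX625
end

-- ▼ part R186/RZ_625
section

/-!
Row 186 (A), short road, right cells (helper625): the letters of `R'` as `RX625.RLt`, 982's table as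
`RLt.RTb`, and `Ac (tG (DVs π s hs) (XL π s hs))`.
-/

set_option autoImplicit false
set_option linter.style.haveILetI false
set_option linter.unusedSectionVars false

noncomputable section

namespace Crest.Agent.R186.RZ625

open Hat827 Win810 Frame515 HB362 Zig498 RW171 JTR322 FamU654 ExR807 RX625
open Crest.Agent.R186.DefsQ830 Crest.Agent.R186.PBW128 Crest.Agent.R186.SM890
open Crest.Agent.R186.WL221 Crest.Agent.R186.Cells221 Crest.Agent.R186.KHc302
open Crest.Agent.R186.LtR654 Crest.Agent.R186.RS982 Crest.Agent.R186.Der580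
open Crest.Agent.R186.DefsQ830.Gen

variable {K : Type} [Field K] (π : Par K)

theorem D_z (j : Fin 2) : D π (X π (z j)) = π.c j • (X π (d 1) * (X π (d 0) * X π (x j)) +
    π.g • (X π (d 0) * (X π (d 1) * X π (x j)))) := by
  have two := π.two
  have cp : CharP K 2 := CharTwo.of_one_ne_zero_of_two_eq_zero one_ne_zero two
  have g0 := π.g0
  rw [D_X]
  revert j
  fin2 <;> (simp only [dGen, rF, map_mul, map_add, map_smul, mk_L]; idR)

theorem c_ne (j : Fin 2) : π.c j ≠ 0 := by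
  unfold Par.c
  split_ifs
  · exact pow_ne_zero 2 π.g0
  · exact π.g0

theorem DLz (j : Fin 2) : WL221.DL π ((π.c j)⁻¹ • zL π j) =
    dL π 1 * (dL π 0 * xL π j) + π.g • (dL π 0 * (dL π 1 * xL π j)) := by
  have h := congrArg (prL π) (D_z π j)
  rw [← DL_prL] at h
  rw [map_smul]
  change (π.c j)⁻¹ • WL221.DL π (prL π (X π (z j))) = _
  rw [h]
  simp only [map_add, map_mul, map_smul, smul_smul]
  rw [inv_mul_cancel₀ (c_ne π j), one_smul]
  rfl

variable (s : ℕ) (hs : 5 ≤ s)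

/-- the letters of `R'` -/
def rlt : RLt (Er π s hs) π.g where
  x := xL π
  d := dL π
  z j := (π.c j)⁻¹ • zL π j
  h := hL π
  x_mem j := prL_mem (x_pcZ π j)
  d_mem j := prL_mem (d_pcZ π j)
  z_mem j := Submodule.smul_mem _ _ (prL_mem (z_pcZ π j))
  h_mem := prL_mem (h_pcZ π)
  Dx _ := DX π _ rfl
  Dd _ := DX π _ rfl
  Dh := DX π _ rfl
  r00 := by
    have h := congrArg (prL π) (r_x0d0 π)
    simp only [map_add, map_mul, map_smul] at h
    exact h
  r01 := by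
    have h := congrArg (prL π) (r_x0d1 π)
    simp only [map_mul, map_smul] at h
    exact h
  r10 := by
    have h := congrArg (prL π) (r_x1d0 π)
    simp only [map_mul] at h
    exact h
  r11 := by
    have h := congrArg (prL π) (r_x1d1 π)
    simp only [map_add, map_mul, map_smul] at h
    exact h
  xx := by
    have h := congrArg (prL π) (r_xx π)
    simp only [map_mul] at h
    exact h.symm
  xh := xh_L π
  dh j := (hd_L π j).symm
  q j := (DLz π j).symm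

/-! ### positions and table -/

open C2b362 (cA)

theorem posP : (fun c : Cell => -cP c) = fun c => (((pi0 c).val : ℕ) : ℤ) := by
  funext c
  revert c
  exact forall_cell rfl rfl rfl rfl rfl rfl rfl rfl rfl rfl rfl rfl rfl rfl rfl rfl

theorem posA : (fun c : Cell => 3 - cA c) = fun c => (pb c : ℤ) := by
  funext c
  revert c
  exact forall_cell rfl rfl rfl rfl rfl rfl rfl rfl rfl rfl rfl rfl rfl rfl rfl rfl

theorem tL_eq : (rlt π s hs).t = tL π := (ht0_L π).symm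

theorem c0_eq : π.c 0 = π.g ^ 2 := rfl

theorem c1_eq : π.c 1 = π.g := rfl

theorem nz_tab : ∀ a b : Cell, RLt.nz a b = false → ZZH380.tab b a = false := by
  refine forall_cell ?_ ?_ ?_ ?_ ?_ ?_ ?_ ?_ ?_ ?_ ?_ ?_ ?_ ?_ ?_ ?_ <;>
  (refine forall_cell ?_ ?_ ?_ ?_ ?_ ?_ ?_ ?_ ?_ ?_ ?_ ?_ ?_ ?_ ?_ ?_ <;> intro h <;>
    first
    | exact absurd h (by decide)
    | rfl)

/-- entry `(a, b)` of the table in the letters -/
structure TbE (a b : Cell) : Prop where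
  eq : rm π a b = (rlt π s hs).tab a b

theorem F01 : TbE π s hs none (some (.d 0)) := ⟨rfl⟩
theorem F02 : TbE π s hs none (some (.d 1)) := ⟨rfl⟩
theorem F03 : TbE π s hs (some (.d 0)) (some (.z 0)) := ⟨by
  rw [rm_d0z, c0_eq, show π.g ^ 2 * π.g = π.g ^ 3 by ring]; rfl⟩
theorem F04 : TbE π s hs (some (.d 0)) (some (.z 1)) := ⟨by
  rw [rm_d0z, c1_eq, show π.g * π.g = π.g ^ 2 by ring]; rfl⟩
theorem F05 : TbE π s hs (some (.d 1)) (some (.z 0)) := ⟨by rw [rm_d1z, c0_eq]; rfl⟩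
theorem F06 : TbE π s hs (some (.d 1)) (some (.z 1)) := ⟨by rw [rm_d1z, c1_eq]; rfl⟩
theorem F07 : TbE π s hs (some (.e 0)) (some (.gj 0)) := ⟨by
  rw [rm_e0g, c0_eq, show π.g ^ 2 * π.g = π.g ^ 3 by ring]; rfl⟩
theorem F08 : TbE π s hs (some (.e 0)) (some (.gj 1)) := ⟨by
  rw [rm_e0g, c1_eq, show π.g * π.g = π.g ^ 2 by ring]; rfl⟩
theorem F09 : TbE π s hs (some (.e 1)) (some (.gj 0)) := ⟨by rw [rm_e1g, c0_eq]; rfl⟩
theorem F10 : TbE π s hs (some (.e 1)) (some (.gj 1)) := ⟨by rw [rm_e1g, c1_eq]; rfl⟩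
theorem F11 : TbE π s hs (some .f) (some .zc) := ⟨rfl⟩
theorem F12 : TbE π s hs (some (.z 0)) (some .zc) := ⟨by rw [rm_z0zc, c1_eq]; rfl⟩
theorem F13 : TbE π s hs (some (.z 1)) (some .zc) := ⟨by rw [rm_z1zc, c0_eq]; rfl⟩
theorem F14 : TbE π s hs (some (.gj 0)) (some .gc) := ⟨by rw [rm_g0gc, c1_eq]; rfl⟩
theorem F15 : TbE π s hs (some (.gj 1)) (some .gc) := ⟨by rw [rm_g1gc, c0_eq]; rfl⟩
theorem F16 : TbE π s hs (some .f) (some (.e 0)) := ⟨rfl⟩
theorem F17 : TbE π s hs (some .f) (some (.e 1)) := ⟨rfl⟩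
theorem F18 : TbE π s hs (some (.u 0)) (some (.v 0)) := ⟨by
  rw [rm_uv, ← tL_eq π s hs]; rfl⟩
theorem F19 : TbE π s hs (some (.u 1)) (some (.v 1)) := ⟨by
  rw [rm_uv, ← tL_eq π s hs]; rfl⟩

theorem nz_tb : ∀ a b : Cell, RLt.nz a b = true → TbE π s hs a b := by
  have e01 := F01 π s hs
  have e02 := F02 π s hs
  have e03 := F03 π s hs
  have e04 := F04 π s hs
  have e05 := F05 π s hs
  have e06 := F06 π s hs
  have e07 := F07 π s hs
  have e08 := F08 π s hs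
  have e09 := F09 π s hs
  have e10 := F10 π s hs
  have e11 := F11 π s hs
  have e12 := F12 π s hs
  have e13 := F13 π s hs
  have e14 := F14 π s hs
  have e15 := F15 π s hs
  have e16 := F16 π s hs
  have e17 := F17 π s hs
  have e18 := F18 π s hs
  have e19 := F19 π s hs
  refine forall_cell ?_ ?_ ?_ ?_ ?_ ?_ ?_ ?_ ?_ ?_ ?_ ?_ ?_ ?_ ?_ ?_ <;>
  (refine forall_cell ?_ ?_ ?_ ?_ ?_ ?_ ?_ ?_ ?_ ?_ ?_ ?_ ?_ ?_ ?_ ?_ <;> intro h <;>
    first
    | exact absurd h (by decide)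
    | assumption)

theorem tab_zero : ∀ a b : Cell, RLt.nz a b = false → (rlt π s hs).tab a b = 0 := by
  refine forall_cell ?_ ?_ ?_ ?_ ?_ ?_ ?_ ?_ ?_ ?_ ?_ ?_ ?_ ?_ ?_ ?_ <;>
  (refine forall_cell ?_ ?_ ?_ ?_ ?_ ?_ ?_ ?_ ?_ ?_ ?_ ?_ ?_ ?_ ?_ ?_ <;> intro h <;>
    first
    | exact absurd h (by decide)
    | rfl)

theorem rm_tab (a b : Cell) (h : cdeg b = cdeg a + 1) : rm π a b = (rlt π s hs).tab a b := by
  cases h1 : RLt.nz a b with
  | true => exact (nz_tb π s hs a b h1).eq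
  | false => exact (rm_zero π a b h (nz_tab a b h1)).trans (tab_zero π s hs a b h1).symm

/-- the sixteen right cells -/
def rtb : (rlt π s hs).RTb where
  m := rm π
  m_mem c c' := by
    have h := rm_mem π c c'
    rwa [congrFun posP c, congrFun posP c', congrFun posA c, congrFun posA c'] at h
  mc := rm_mc π
  tb := rm_tab π s hs

theorem RS_eq {w : WD K} {E : KHev302.CE w} {κ : Type} [Fintype κ] {p p' a a' : κ → ℤ} {r : κ → ℤ}
    {m : κ → κ → E.B} (hp : p = p') (ha : a = a') (h1) (h2) (h3) (h4) :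
    (⟨κ, p, a, r, m, h1, h3⟩ : RS E) = ⟨κ, p', a', r, m, h2, h4⟩ := by
  subst hp ha
  rfl

theorem RSc_eq : RSc π s hs = (rtb π s hs).S := RS_eq posP posA _ _ _ _

/-! ### the thetas -/

theorem bij_of_smul {A B : Type} [AddCommGroup A] [Module K A] [AddCommGroup B] [Module K B]
    {f h : A →ₗ[K] B} {c : K} (hc : c ≠ 0) (hf : ∀ y, f y = c • h y)
    (hb : Function.Bijective f) : Function.Bijective h := by
  constructor
  · intro y y' e
    exact hb.1 (by rw [hf, hf, e])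
  · intro y
    obtain ⟨z, hz⟩ := hb.2 (c • y)
    refine ⟨z, ?_⟩
    rw [hf] at hz
    have := congrArg (fun y => c⁻¹ • y) hz
    simpa only [smul_smul, inv_mul_cancel₀ hc, one_smul] using this

theorem th2_eq : tL π + (1 : K) • LtR654.hL π = (π.g - 1) • (dL π 0 * xL π 0 + dL π 1 * xL π 1) := by
  rw [one_smul, ht0_L]
  have h := RL_two π (LtR654.hL π)
  calc _ = LtR654.hL π + LtR654.hL π + (π.g - 1) • (dL π 0 * xL π 0 + dL π 1 * xL π 1) := by abel
    _ = _ := by rw [h, zero_add]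

theorem th1_eq : tL π + π.g⁻¹ • LtR654.hL π = (π.g⁻¹ * (π.g - 1)) •
    (LtR654.hL π + π.g • (dL π 0 * xL π 0 + dL π 1 * xL π 1)) := by
  have g0 := π.g0
  have two := π.two
  rw [ht0_L]
  generalize dL π 0 * xL π 0 + dL π 1 * xL π 1 = v
  generalize LtR654.hL π = u
  linear_combination (norm := (match_scalars <;> field_simp <;> ring)) (π.g⁻¹ * 1) • two • u

theorem aux2 (v : RL π) : (tL π + (1 : K) • LtR654.hL π) * v =
    (π.g - 1) • (dL π 0 * (xL π 0 * v) + dL π 1 * (xL π 1 * v)) := by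
  rw [th2_eq, smul_mul_assoc, add_mul, mul_assoc, mul_assoc]

theorem aux1 (v : RL π) : (tL π + π.g⁻¹ • LtR654.hL π) * v = (π.g⁻¹ * (π.g - 1)) •
    (LtR654.hL π * v + π.g • (dL π 0 * xL π 0 * v + dL π 1 * xL π 1 * v)) := by
  rw [th1_eq, smul_mul_assoc, add_mul, smul_mul_assoc, add_mul]

variable (X : LCells (WG π s (two_le hs)).dga)

theorem S0_eq (n : ℤ) (b : ℕ) (h : QI ((TRq461.TL π s hs X).thH 1 0 b)) :
    Function.Bijective (((rlt π s hs).ry X n).S0 b) := by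
  have hb := bijective_of_QI h n
  refine bij_of_smul (c := π.g - 1) (sub_ne_zero.2 fun h => π.gn 1 one_pos (by rw [pow_one, h]))
    (fun y => ?_) hb
  obtain ⟨u, hu⟩ := IsRep.ex y
  have h1 := hu.map _ (HOK.of_hom n ((TRq461.TL π s hs X).thH 1 0 b))
  have h2 : ∀ j, IsRep (((rlt π s hs).ry X n).d j b (((rlt π s hs).ry X n).x j b y)) _ := fun j =>
    rep_lH ((rlt π s hs).md j b) ((rlt π s hs).Dd j)
      (rep_lH ((rlt π s hs).mx j b) ((rlt π s hs).Dx j) hu)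
  refine h1.eq' (((h2 0).add (h2 1)).smul (π.g - 1)) (U_ext fun σ j => ?_)
  exact aux2 π (uv u σ j)

theorem Th_eq (n : ℤ) (b : ℕ) (h : QI ((TRq461.TL π s hs X).thH π.g⁻¹ 1 b)) :
    Function.Bijective (((rlt π s hs).ry X n).Th b) := by
  have hb := bijective_of_QI h n
  refine bij_of_smul (c := π.g⁻¹ * (π.g - 1)) (mul_ne_zero (inv_ne_zero π.g0)
    (sub_ne_zero.2 fun h => π.gn 1 one_pos (by rw [pow_one, h]))) (fun y => ?_) hb
  obtain ⟨u, hu⟩ := IsRep.ex y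
  have h1 := hu.map _ (HOK.of_hom n ((TRq461.TL π s hs X).thH π.g⁻¹ 1 b))
  have h2 : ∀ j i, IsRep (((rlt π s hs).ry X n).w j i b y) _ := fun j i =>
    rep_lH ((rlt π s hs).mw j i 1 b) ((rlt π s hs).Dw j i) hu
  have h3 : IsRep (((rlt π s hs).ry X n).h 1 b y) _ :=
    rep_lH ((rlt π s hs).mh 1 b) (rlt π s hs).Dh hu
  refine h1.eq' ((h3.add (((h2 0 0).add (h2 1 1)).smul π.g)).smul (π.g⁻¹ * (π.g - 1)))
    (U_ext fun σ j => ?_)
  exact aux1 π (uv u σ j)

/-- **acyclicity of the sixteen right cells** from `theta_(-2)` on row `0`, `theta_(-1)` on row `1` -/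
theorem ac_tot (h0 : ∀ b, b < 3 → QI ((TRq461.TL π s hs X).thH 1 0 b))
    (h1 : ∀ b, b < 2 → QI ((TRq461.TL π s hs X).thH π.g⁻¹ 1 b)) :
    Ac (tG (tot (RSc π s hs)) X) := by
  rw [RSc_eq]
  exact RLt.rtot_ac (rtb π s hs) π.two π.g0 (fun h => π.gn 1 one_pos (by rw [pow_one, h]))
    (fun n b hb => S0_eq π s hs X n b (h0 b hb)) (fun n b hb => Th_eq π s hs X n b (h1 b hb))

/-- **`tot (RSc) ⊗ XL` is acyclic** -/
theorem tot_XL : Ac (tG (tot (RSc π s hs)) (EndV448.XL π s hs)) :=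
  ac_tot π s hs _ (fun _ hb => TRq461.q0 π s hs hb) (fun _ hb => TRq461.q1 π s hs (by omega))

/-- **`DV_{-2} ⊗ XL` is acyclic** -/
theorem DVs_XL : Ac (tG (DVs π s hs) (EndV448.XL π s hs)) := (dvs_ac π s hs _).1 (tot_XL π s hs)

end Crest.Agent.R186.RZ625
end
end

-- ▼ part R186/C1c_328
section

/-!
Row 186 (A), leaf A.C1 (helper328): the Koszul data `Kz` of `tL` and `(beta)`, 611's literal `Beta`.
-/

set_option autoImplicit false
set_option linter.unusedSectionVars false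
set_option linter.style.haveILetI false

noncomputable section

open MulOpposite

namespace Crest.Agent.R186.C1c328

open Hat827 Hat827.DGA Frame515 Res255 C1x134 FinV988 C1P611 C1b328 C1Q611
open DefsQ830 PBW128 Der580 Win810 WL221 C2b44 C2b362 KOS296 Kos374 Core890 SM890 WBM163

variable {K : Type} [Field K] (π : Par K)

/-! ### Koszul in `R'` -/

theorem mem_pz {P A C : ℤ} {r : RL π} : r ∈ pcL π P A C ↔ r.1 ∈ pz π P A C := by
  rw [mem_pcL, pcZ_eq_pz]

/-- `x_c` in `R'` -/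
def xL (c : Fin 2) : RL π := ⟨X π (.x c), kill_x π c⟩

theorem xL_val (c : Fin 2) : (xL π c : R π) = X π (.x c) := rfl

theorem xL_mem (c : Fin 2) : xL π c ∈ pcL π 1 0 0 := by
  rw [mem_pcL]
  change X π (.x c) ∈ pcZ π 1 0 0
  rw [pcZ_of π ⟨le_rfl, le_rfl⟩]
  have := PBW128.X_mem_pc π (.x c)
  exact this

theorem xL_D (c : Fin 2) : DL π (xL π c) = 0 := by
  rw [DL_apply, xL_val]
  have : D π (X π (.x c)) = 0 := by
    rcases fin2 c with rfl | rfl <;> simp [D_X, dGen]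
  rw [this, map_zero]

theorem xL_comm : xL π 1 * xL π 0 = xL π 0 * xL π 1 := Subtype.ext (rxx π).symm

variable {π}

theorem rinj (c : Fin 2) {a : RL π} (h : a * xL π c = 0) : a = 0 :=
  Subtype.ext (xr_inj π c (congrArg Subtype.val h))

theorem linj (c : Fin 2) {a : RL π} (h : xL π c * a = 0) : a = 0 :=
  Subtype.ext (xl_inj π c (congrArg Subtype.val h))

theorem twoL (a : RL π) : a + a = 0 := (WL π).two a

theorem eq_of_add {a b : RL π} (h : a + b = 0) : a = b := by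
  rw [← add_zero a, ← twoL b, ← add_assoc, h, zero_add]

theorem rker {P A C : ℤ} {a b : RL π} (ha : a ∈ pcL π P A C) (h : b * xL π 0 + a * xL π 1 = 0) :
    ∃ c ∈ pcL π (P - 1) A C, a = c * xL π 0 ∧ b = c * xL π 1 := by
  obtain ⟨c, hc, hk, e1, e2⟩ := kr_ker π ((mem_pz π).1 ha) a.2
    (congrArg Subtype.val (eq_of_add h)).symm
  exact ⟨⟨c, hk⟩, (mem_pz π).2 hc, Subtype.ext e1, Subtype.ext e2⟩

theorem rsur {P A C : ℤ} (hP : 1 ≤ P) {r : RL π} (hr : r ∈ pcL π P A C) :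
    ∃ a ∈ pcL π (P - 1) A C, ∃ b ∈ pcL π (P - 1) A C, r = a * xL π 0 + b * xL π 1 := by
  obtain ⟨a, ha, b, hb, hka, hkb, e⟩ := kr_sur π hP ((mem_pz π).1 hr) r.2
  exact ⟨⟨a, hka⟩, (mem_pz π).2 ha, ⟨b, hkb⟩, (mem_pz π).2 hb, Subtype.ext e⟩

theorem lker {P A C : ℤ} {a b : RL π} (ha : a ∈ pcL π P A C) (h : xL π 1 * a + xL π 0 * b = 0) :
    ∃ c ∈ pcL π (P - 1) A C, a = xL π 0 * c ∧ b = xL π 1 * c := by
  obtain ⟨c, hc, e1, e2⟩ := xl_kerZ π ((mem_pz π).1 ha)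
    (congrArg Subtype.val (eq_of_add h))
  refine ⟨prL π c, prL_mem ((pcZ_eq_pz π _ _ _).symm ▸ hc), Subtype.ext ?_, Subtype.ext ?_⟩
  · have := congrArg (kill π) e1
    rwa [map_mul, kill_x, kill_val] at this
  · have := congrArg (kill π) e2
    rwa [map_mul, kill_x, kill_val] at this

theorem lsur {P A C : ℤ} (hP : 1 ≤ P) {r : RL π} (hr : r ∈ pcL π P A C) :
    ∃ a ∈ pcL π (P - 1) A C, ∃ b ∈ pcL π (P - 1) A C, r = xL π 0 * a + xL π 1 * b := by
  obtain ⟨a, ha, b, hb, e⟩ := xl_surZ π hP ((mem_pz π).1 hr)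
  refine ⟨prL π a, prL_mem ((pcZ_eq_pz π _ _ _).symm ▸ ha), prL π b,
    prL_mem ((pcZ_eq_pz π _ _ _).symm ▸ hb), Subtype.ext ?_⟩
  have := congrArg (kill π) e
  rwa [map_add, map_mul, map_mul, kill_x, kill_x, kill_val] at this

/-! ### matrices -/

/-- matrices -/
abbrev Mx (π : Par K) : Type := Ob → Ob → RL π

/-- the product -/
def mu (f g : Mx π) : Mx π := fun i j => ∑ l, f i l * g l j

/-- band matrices -/
def bd (p q : Fin 2) (y : RL π) : Mx π := fun i j => if i.1 = p ∧ j.1 = q ∧ i.2 = j.2 then y else 0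

theorem mu_bd (f : Mx π) (p q : Fin 2) (y : RL π) (i j : Ob) :
    mu f (bd p q y) i j = if j.1 = q then f i (p, j.2) * y else 0 := by
  unfold mu
  rw [Finset.sum_eq_single (p, j.2)]
  · unfold bd
    by_cases h : j.1 = q
    · rw [if_pos ⟨rfl, h, rfl⟩, if_pos h]
    · rw [if_neg (fun h' => h h'.2.1), if_neg h, mul_zero]
  · intro l _ hl
    unfold bd
    rw [if_neg, mul_zero]
    rintro ⟨h1, h2, h3⟩
    exact hl (Prod.ext h1 h3)
  · intro h
    exact absurd (Finset.mem_univ _) h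

theorem bd_mu (f : Mx π) (p q : Fin 2) (y : RL π) (i j : Ob) :
    mu (bd p q y) f i j = if i.1 = p then y * f (q, i.2) j else 0 := by
  unfold mu
  rw [Finset.sum_eq_single (q, i.2)]
  · unfold bd
    by_cases h : i.1 = p
    · rw [if_pos ⟨h, rfl, rfl⟩, if_pos h]
    · rw [if_neg (fun h' => h h'.1), if_neg h, zero_mul]
  · intro l _ hl
    unfold bd
    rw [if_neg, zero_mul]
    rintro ⟨h1, h2, h3⟩
    exact hl (Prod.ext h2 h3.symm)
  · intro h
    exact absurd (Finset.mem_univ _) h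

/-- degrees in `L` -/
def gA (k : ℤ) (f : Mx π) : Prop :=
  ∀ i j : Ob, f i j ∈ pcL π ((i.1.val : ℤ) - j.1.val) ((i.2.val : ℤ) - j.2.val) k

/-- degrees in `tL` -/
def gT (s : ℕ) (k : ℤ) (f : Mx π) : Prop :=
  ∀ i j : Ob, f i j ∈ pcL π ((i.1.val : ℤ) - j.1.val + 1) ((i.2.val : ℤ) - j.2.val) (k - s)

/-- columns -/
def col (q : Fin 2) (g : Ob → Fin 4 → RL π) : Mx π := fun i j => if j.1 = q then g i j.2 else 0

/-- rows -/
def row (p : Fin 2) (g : Fin 4 → Ob → RL π) : Mx π := fun i j => if i.1 = p then g i.2 j else 0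

theorem col_fix (q : Fin 2) (g : Ob → Fin 4 → RL π) : mu (col q g) (bd q q 1) = col q g := by
  funext i j
  rw [mu_bd]
  unfold col
  by_cases h : j.1 = q
  · rw [if_pos h, if_pos h, if_pos rfl, mul_one]
  · rw [if_neg h, if_neg h]

theorem row_fix (p : Fin 2) (g : Fin 4 → Ob → RL π) : mu (bd p p 1) (row p g) = row p g := by
  funext i j
  rw [bd_mu]
  unfold row
  by_cases h : i.1 = p
  · rw [if_pos h, if_pos h, if_pos rfl, one_mul]
  · rw [if_neg h, if_neg h]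

theorem fix_col {q : Fin 2} {f : Mx π} (h : mu f (bd q q 1) = f) {i j : Ob} (hj : j.1 ≠ q) :
    f i j = 0 := by
  rw [← h, mu_bd, if_neg hj]

theorem fix_row {p : Fin 2} {f : Mx π} (h : mu (bd p p 1) f = f) {i j : Ob} (hi : i.1 ≠ p) :
    f i j = 0 := by
  rw [← h, bd_mu, if_neg hi]

theorem ob_eq {j : Ob} {q : Fin 2} (h : j.1 = q) : (q, j.2) = j := Prod.ext h.symm rfl


/-! ### the Koszul statements for matrices -/

theorem v1 : ((1 : Fin 2).val : ℤ) = 1 := rfl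
theorem v0 : ((0 : Fin 2).val : ℤ) = 0 := rfl



theorem z10 : ¬ ((1 : Fin 2) = 0) := by decide
theorem z01 : ¬ ((0 : Fin 2) = 1) := by decide

theorem gcast {P P' A A' C C' : ℤ} {r : RL π} (h : r ∈ pcL π P A C) (hP : P = P') (hA : A = A')
    (hC : C = C') : r ∈ pcL π P' A' C' := by
  subst hP hA hC
  exact h

theorem gA_col {k : ℤ} {q : Fin 2} {g : Ob → Fin 4 → RL π}
    (h : ∀ (i : Ob) (b : Fin 4), g i b ∈ pcL π ((i.1.val : ℤ) - q.val) ((i.2.val : ℤ) - b.val) k) :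
    gA k (col q g) := by
  intro i j
  unfold col
  by_cases hj : j.1 = q
  · rw [if_pos hj, hj]
    exact h i j.2
  · rw [if_neg hj]
    exact Submodule.zero_mem _

theorem gA_row {k : ℤ} {p : Fin 2} {g : Fin 4 → Ob → RL π}
    (h : ∀ (b : Fin 4) (j : Ob), g b j ∈ pcL π ((p.val : ℤ) - j.1.val) ((b.val : ℤ) - j.2.val) k) :
    gA k (row p g) := by
  intro i j
  unfold row
  by_cases hi : i.1 = p
  · rw [if_pos hi, hi]
    exact h i.2 j
  · rw [if_neg hi]
    exact Submodule.zero_mem _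

theorem gT_row {s : ℕ} {k : ℤ} {p : Fin 2} {g : Fin 4 → Ob → RL π}
    (h : ∀ (b : Fin 4) (j : Ob),
      g b j ∈ pcL π ((p.val : ℤ) - j.1.val + 1) ((b.val : ℤ) - j.2.val) (k - s)) :
    gT s k (row p g) := by
  intro i j
  unfold row
  by_cases hi : i.1 = p
  · rw [if_pos hi, hi]
    exact h i.2 j
  · rw [if_neg hi]
    exact Submodule.zero_mem _

theorem cI' {z : Mx π} (h1 : mu z (bd 1 1 1) = z) (h : mu z (bd 1 0 (xL π 1)) = 0) : z = 0 := by
  funext i j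
  by_cases hj : j.1 = 1
  · have h2 := congrFun (congrFun h i) (0, j.2)
    rw [mu_bd, if_pos rfl, ob_eq hj] at h2
    exact rinj 1 h2
  · exact fix_col h1 hj

theorem cE' {k : ℤ} {u0 u1 : Mx π} (g1 : gA k u1)
    (h0 : mu u0 (bd 0 0 1) = u0) (h1 : mu u1 (bd 0 0 1) = u1)
    (h : mu u0 (bd 0 0 (xL π 0)) + mu u1 (bd 0 0 (xL π 1)) = 0) :
    ∃ z : Mx π, gA k z ∧ mu z (bd 1 1 1) = z ∧ u0 = mu z (bd 1 0 (xL π 1)) ∧
      u1 = mu z (bd 1 0 (xL π 0)) := by
  have key : ∀ (i : Ob) (b : Fin 4), ∃ c ∈ pcL π ((i.1.val : ℤ) - (1 : Fin 2).val)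
      ((i.2.val : ℤ) - b.val) k, u1 i (0, b) = c * xL π 0 ∧ u0 i (0, b) = c * xL π 1 := by
    intro i b
    have h2 := congrFun (congrFun h i) (0, b)
    change mu u0 (bd 0 0 (xL π 0)) i (0, b) + mu u1 (bd 0 0 (xL π 1)) i (0, b) = 0 at h2
    rw [mu_bd, mu_bd, if_pos rfl, if_pos rfl] at h2
    obtain ⟨c, hc, e1, e2⟩ := rker (g1 i (0, b)) h2
    refine ⟨c, gcast hc ?_ rfl rfl, e1, e2⟩
    rw [v1]
    change (i.1.val : ℤ) - ((0 : Fin 2).val : ℤ) - 1 = _
    rw [v0]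
    ring
  choose c hc e1 e2 using key
  refine ⟨col 1 c, gA_col hc, col_fix 1 c, ?_, ?_⟩
  · funext i j
    rw [mu_bd]
    by_cases hj : j.1 = 0
    · rw [if_pos hj]
      unfold col
      rw [if_pos rfl, ← e2, ob_eq hj]
    · rw [if_neg hj, fix_col h0 hj]
  · funext i j
    rw [mu_bd]
    by_cases hj : j.1 = 0
    · rw [if_pos hj]
      unfold col
      rw [if_pos rfl, ← e1, ob_eq hj]
    · rw [if_neg hj, fix_col h1 hj]

theorem cS' {s : ℕ} {k : ℤ} {x : Mx π} (g : gT s (k + s) x) (h : mu x (bd 0 0 1) = x) :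
    ∃ u0 u1 : Mx π, gA k u0 ∧ gA k u1 ∧ mu u0 (bd 0 0 1) = u0 ∧ mu u1 (bd 0 0 1) = u1 ∧
      x = mu u0 (bd 0 0 (xL π 0)) + mu u1 (bd 0 0 (xL π 1)) := by
  have key : ∀ (i : Ob) (b : Fin 4), ∃ a c : RL π,
      a ∈ pcL π ((i.1.val : ℤ) - (0 : Fin 2).val) ((i.2.val : ℤ) - b.val) k ∧
      c ∈ pcL π ((i.1.val : ℤ) - (0 : Fin 2).val) ((i.2.val : ℤ) - b.val) k ∧
      x i (0, b) = a * xL π 0 + c * xL π 1 := by
    intro i b
    obtain ⟨a, ha, c, hc, e⟩ := rsur (P := (i.1.val : ℤ) - (0 : Fin 2).val + 1) (by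
      rw [v0]
      omega) (g i (0, b))
    exact ⟨a, c, gcast ha (by ring) rfl (by ring), gcast hc (by ring) rfl (by ring), e⟩
  choose a c ha hc e using key
  refine ⟨col 0 a, col 0 c, gA_col ha, gA_col hc, col_fix 0 a, col_fix 0 c, ?_⟩
  funext i j
  change x i j = mu (col 0 a) (bd 0 0 (xL π 0)) i j + mu (col 0 c) (bd 0 0 (xL π 1)) i j
  rw [mu_bd, mu_bd]
  by_cases hj : j.1 = 0
  · rw [if_pos hj, if_pos hj]
    unfold col
    rw [if_pos rfl, if_pos rfl, ← e, ob_eq hj]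
  · rw [if_neg hj, if_neg hj, fix_col h hj, add_zero]

theorem rI' {r : Mx π} (h1 : mu (bd 0 0 1) r = r) (h : mu (bd 0 0 (xL π 0)) r = 0) : r = 0 := by
  funext i j
  by_cases hi : i.1 = 0
  · have h2 := congrFun (congrFun h i) j
    rw [bd_mu, if_pos hi, ob_eq hi] at h2
    exact linj 0 h2
  · exact fix_row h1 hi

theorem rE' {s : ℕ} {m : ℤ} {w0 w1 : Mx π} (g0 : gT s m w0)
    (h0 : mu (bd 0 0 1) w0 = w0) (h1 : mu (bd 0 0 1) w1 = w1)
    (h : mu (bd 1 0 (xL π 1)) w0 + mu (bd 1 0 (xL π 0)) w1 = 0) :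
    ∃ r : Mx π, gA (m - s) r ∧ mu (bd 0 0 1) r = r ∧ w0 = mu (bd 0 0 (xL π 0)) r ∧
      w1 = mu (bd 0 0 (xL π 1)) r := by
  have key : ∀ (b : Fin 4) (j : Ob), ∃ c ∈ pcL π (((0 : Fin 2).val : ℤ) - j.1.val)
      ((b.val : ℤ) - j.2.val) (m - s), w0 (0, b) j = xL π 0 * c ∧ w1 (0, b) j = xL π 1 * c := by
    intro b j
    have h2 := congrFun (congrFun h (1, b)) j
    change mu (bd 1 0 (xL π 1)) w0 (1, b) j + mu (bd 1 0 (xL π 0)) w1 (1, b) j = 0 at h2
    rw [bd_mu, bd_mu, if_pos rfl, if_pos rfl] at h2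
    obtain ⟨c, hc, e1, e2⟩ := lker (g0 (0, b) j) h2
    exact ⟨c, gcast hc (by ring) rfl rfl, e1, e2⟩
  choose c hc e1 e2 using key
  refine ⟨row 0 c, gA_row hc, row_fix 0 c, ?_, ?_⟩
  · funext i j
    rw [bd_mu]
    by_cases hi : i.1 = 0
    · rw [if_pos hi]
      unfold row
      rw [if_pos rfl, ← e1, ob_eq hi]
    · rw [if_neg hi, fix_row h0 hi]
  · funext i j
    rw [bd_mu]
    by_cases hi : i.1 = 0
    · rw [if_pos hi]
      unfold row
      rw [if_pos rfl, ← e2, ob_eq hi]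
    · rw [if_neg hi, fix_row h1 hi]

theorem rS' {s : ℕ} {m : ℤ} {w : Mx π} (g : gT s m w) (h : mu (bd 1 1 1) w = w) :
    ∃ w0 w1 : Mx π, gT s m w0 ∧ gT s m w1 ∧ mu (bd 0 0 1) w0 = w0 ∧ mu (bd 0 0 1) w1 = w1 ∧
      w = mu (bd 1 0 (xL π 1)) w0 + mu (bd 1 0 (xL π 0)) w1 := by
  have key : ∀ (b : Fin 4) (j : Ob), ∃ a c : RL π,
      a ∈ pcL π (((0 : Fin 2).val : ℤ) - j.1.val + 1) ((b.val : ℤ) - j.2.val) (m - s) ∧
      c ∈ pcL π (((0 : Fin 2).val : ℤ) - j.1.val + 1) ((b.val : ℤ) - j.2.val) (m - s) ∧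
      w (1, b) j = xL π 0 * a + xL π 1 * c := by
    intro b j
    have hj : j.1.val < 2 := j.1.isLt
    obtain ⟨a, ha, c, hc, e⟩ := lsur (P := ((1 : Fin 2).val : ℤ) - j.1.val + 1) (by
      rw [v1]
      omega) (g (1, b) j)
    refine ⟨a, c, gcast ha ?_ rfl rfl, gcast hc ?_ rfl rfl, e⟩
    · rw [v1, v0]
      ring
    · rw [v1, v0]
      ring
  choose a c ha hc e using key
  refine ⟨row 0 c, row 0 a, gT_row hc, gT_row ha, row_fix 0 c, row_fix 0 a, ?_⟩
  funext i j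
  change w i j = mu (bd 1 0 (xL π 1)) (row 0 c) i j + mu (bd 1 0 (xL π 0)) (row 0 a) i j
  rw [bd_mu, bd_mu]
  by_cases hi : i.1 = 1
  · rw [if_pos hi, if_pos hi]
    unfold row
    rw [if_pos rfl, if_pos rfl, add_comm, ← e, ob_eq hi]
  · rw [if_neg hi, if_neg hi, fix_row h hi, add_zero]

theorem uX' {s : ℕ} {k : ℤ} {x : Mx π} (g : gT s (k + s) x) (h : mu x (bd 1 1 1) = x) :
    ∃ u : Mx π, gA k u ∧ mu u (bd 0 0 1) = u ∧ x = mu u (bd 0 1 1) := by
  refine ⟨col 0 fun i b => x i (1, b), gA_col fun i b => ?_, col_fix 0 _, ?_⟩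
  · refine gcast (g i (1, b)) ?_ rfl (by ring)
    change (i.1.val : ℤ) - ((1 : Fin 2).val : ℤ) + 1 = _
    rw [v1, v0]
    ring
  · funext i j
    rw [mu_bd]
    by_cases hj : j.1 = 1
    · rw [if_pos hj]
      unfold col
      rw [if_pos rfl, mul_one]
      exact congrArg (x i) (ob_eq hj).symm
    · rw [if_neg hj, fix_col h hj]

theorem uI' {u : Mx π} (h1 : mu u (bd 0 0 1) = u) (h : mu u (bd 0 1 1) = 0) : u = 0 := by
  funext i j
  by_cases hj : j.1 = 0
  · have h2 := congrFun (congrFun h i) (1, j.2)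
    rw [mu_bd, if_pos rfl, ob_eq hj, mul_one] at h2
    exact h2
  · exact fix_col h1 hj

theorem uW' {s : ℕ} {m : ℤ} {w : Mx π} (g : gT s m w) (h : mu (bd 0 0 1) w = w) :
    ∃ r : Mx π, gA (m - s) r ∧ mu (bd 1 1 1) r = r ∧ w = mu (bd 0 1 1) r := by
  refine ⟨row 1 fun b j => w (0, b) j, gA_row fun b j => ?_, row_fix 1 _, ?_⟩
  · refine gcast (g (0, b) j) ?_ rfl rfl
    change ((0 : Fin 2).val : ℤ) - (j.1.val : ℤ) + 1 = _
    rw [v1, v0]
    ring
  · funext i j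
    rw [bd_mu]
    by_cases hi : i.1 = 0
    · rw [if_pos hi]
      unfold row
      rw [if_pos rfl, one_mul]
      exact congrFun (congrArg w (ob_eq hi).symm) j
    · rw [if_neg hi, fix_row h hi]

theorem uJ' {r : Mx π} (h1 : mu (bd 1 1 1) r = r) (h : mu (bd 0 1 1) r = 0) : r = 0 := by
  funext i j
  by_cases hi : i.1 = 1
  · have h2 := congrFun (congrFun h (0, i.2)) j
    rw [bd_mu, if_pos rfl, one_mul] at h2
    change r (1, i.2) j = 0 at h2
    rwa [ob_eq hi] at h2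
  · exact fix_row h1 hi

theorem bd_bd (p q r : Fin 2) (y z : RL π) : mu (bd p q y) (bd q r z) = bd p r (y * z) := by
  funext i j
  rw [bd_mu]
  unfold bd
  by_cases h1 : i.1 = p
  · rw [if_pos h1]
    by_cases h2 : j.1 = r ∧ i.2 = j.2
    · rw [if_pos ⟨rfl, h2⟩, if_pos ⟨h1, h2⟩]
    · rw [if_neg (fun h => h2 h.2), if_neg (fun h => h2 h.2), mul_zero]
  · rw [if_neg h1, if_neg (fun h => h1 h.1)]

theorem gA_bd (p q : Fin 2) {y : RL π} {k : ℤ} (h : y ∈ pcL π ((p.val : ℤ) - q.val) 0 k) :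
    gA k (bd p q y) := by
  intro i j
  unfold bd
  by_cases h1 : i.1 = p ∧ j.1 = q ∧ i.2 = j.2
  · rw [if_pos h1, h1.1, h1.2.1, h1.2.2]
    exact gcast h rfl (by ring) rfl
  · rw [if_neg h1]
    exact Submodule.zero_mem _

theorem gT_bd (s : ℕ) (p q : Fin 2) {y : RL π} (h : y ∈ pcL π ((p.val : ℤ) - q.val + 1) 0 0) :
    gT s s (bd p q y) := by
  intro i j
  unfold bd
  by_cases h1 : i.1 = p ∧ j.1 = q ∧ i.2 = j.2
  · rw [if_pos h1, h1.1, h1.2.1, h1.2.2]
    exact gcast h rfl (by ring) (by ring)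
  · rw [if_neg h1]
    exact Submodule.zero_mem _

theorem bd_add : bd 0 0 (1 : RL π) + bd 1 1 1 = fun i j => if i = j then 1 else 0 := by
  funext i j
  change bd 0 0 (1 : RL π) i j + bd 1 1 1 i j = _
  unfold bd
  by_cases h : i = j
  · subst h
    rw [if_pos rfl]
    rcases fin2 i.1 with h1 | h1
    · rw [if_pos ⟨h1, h1, rfl⟩, if_neg (fun h => z01 (h1.symm.trans h.1)), add_zero]
    · rw [if_neg (fun h => z10 (h1.symm.trans h.1)), if_pos ⟨h1, h1, rfl⟩, zero_add]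
  · rw [if_neg h, if_neg, if_neg, add_zero]
    · rintro ⟨h1, h2, h3⟩
      exact h (Prod.ext (h1.trans h2.symm) h3)
    · rintro ⟨h1, h2, h3⟩
      exact h (Prod.ext (h1.trans h2.symm) h3)


/-! ### the instance -/

section inst

variable (s : ℕ)

/-- entries of elements of `L` -/
def cA (z : (WL π).dga.C) : Mx π := fun i j => (show (WL π).Win from z).1 i j

/-- entries of elements of `tL` -/
def cT {s : ℕ} (z : (tLW π s).X) : Mx π := fun i j => (show Xs (tLT π s) from z).1 i j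

theorem cA_ext {a b : (WL π).dga.C} (h : cA a = cA b) : a = b :=
  Subtype.ext (Matrix.ext fun i j => congrFun (congrFun h i) j)

theorem cT_ext {a b : (tLW π s).X} (h : cT a = cT b) : a = b :=
  Subtype.ext (funext fun i => funext fun j => congrFun (congrFun h i) j)

theorem cA_mul (a b : (WL π).dga.C) : cA (a * b) = mu (cA a) (cA b) := by
  funext i j
  exact Matrix.mul_apply

theorem cT_smul (a : (WL π).dga.C) (z : (tLW π s).X) : cT (a • z) = mu (cA a) (cT z) := rfl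

theorem cT_op (a : (WL π).dga.C) (z : (tLW π s).X) : cT (op a • z) = mu (cT z) (cA a) := rfl

theorem cA_add (a b : (WL π).dga.C) : cA (a + b) = cA a + cA b := rfl
theorem cT_add (a b : (tLW π s).X) : cT (a + b) = cT a + cT b := rfl
theorem cT_zero : cT (0 : (tLW π s).X) = 0 := rfl

theorem cA_one : cA (1 : (WL π).dga.C) = fun i j => if i = j then 1 else 0 := by
  funext i j
  exact Matrix.one_apply

/-- elements of `L` from entries -/
def mA {k : ℤ} (f : Mx π) (h : gA k f) : (WL π).dga.C :=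
  (⟨Matrix.of f, fun i j => WD.q_le (w := WL π) i j k (h i j)⟩ : (WL π).Win)

theorem cA_mA {k : ℤ} (f : Mx π) (h : gA k f) : cA (mA f h) = f := rfl

theorem mA_mem {k : ℤ} (f : Mx π) (h : gA k f) : mA f h ∈ (WL π).dga.G k := h

theorem gA_of {k : ℤ} {z : (WL π).dga.C} (h : z ∈ (WL π).dga.G k) : gA k (cA z) := h

/-- elements of `tL` from entries -/
def mT {k : ℤ} (f : Mx π) (h : gT s k f) : (tLW π s).X :=
  (⟨f, fun i j => q_le_E (tLT π s) i j k ((le_of_eq (q_tLT π s i j k).symm) (h i j))⟩ :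
    Xs (tLT π s))

theorem cT_mT {k : ℤ} (f : Mx π) (h : gT s k f) : cT (mT s f h) = f := rfl

theorem mT_mem {k : ℤ} (f : Mx π) (h : gT s k f) : mT s f h ∈ (tLW π s).gr k := mem_grtL.2 h

theorem gT_of {k : ℤ} {z : (tLW π s).X} (h : z ∈ (tLW π s).gr k) : gT s k (cT z) :=
  mem_grtL.1 h

theorem d_mT {k : ℤ} (p q : Fin 2) {y : RL π} (h : gT s k (bd p q y)) (hy : DL π y = 0) :
    (tLW π s).d (mT s (bd p q y) h) = 0 := by
  refine cT_ext s ?_
  funext i j
  change DL π (bd p q y i j) = 0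
  unfold bd
  by_cases h1 : i.1 = p ∧ j.1 = q ∧ i.2 = j.2
  · rw [if_pos h1, hy]
  · rw [if_neg h1, map_zero]

theorem DL_one : DL π (1 : RL π) = 0 := by
  have h := DL_mul (1 : RL π) 1
  rw [mul_one, mul_one, one_mul] at h
  have h2 : DL π (1 : RL π) + DL π 1 = DL π 1 + 0 := by rw [add_zero]; exact h.symm
  exact add_left_cancel h2

theorem one0 : gA 0 (bd 0 0 (1 : RL π)) := gA_bd 0 0 (gcast pcL_one (by ring) rfl rfl)
theorem one1 : gA 0 (bd 1 1 (1 : RL π)) := gA_bd 1 1 (gcast pcL_one (by ring) rfl rfl)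
theorem x10 (c : Fin 2) : gA 0 (bd 1 0 (xL π c)) := gA_bd 1 0 (gcast (xL_mem π c) (by
  rw [v1, v0]
  ring) rfl rfl)
theorem t00 (c : Fin 2) : gT s s (bd 0 0 (xL π c)) := gT_bd s 0 0 (gcast (xL_mem π c) (by
  ring) rfl rfl)
theorem u01 : gT s s (bd 0 1 (1 : RL π)) := gT_bd s 0 1 (gcast pcL_one (by
  rw [v1, v0]
  ring) rfl rfl)

variable (π)

/-- **the Koszul data of `tL`** -/
def kz : Kz (WL π).dga (tLW π s) where
  s := s
  E0 := mA _ one0
  E1 := mA _ one1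
  E0_mem := mA_mem _ one0
  E1_mem := mA_mem _ one1
  E00 := cA_ext (by rw [cA_mul, cA_mA, bd_bd, mul_one])
  E11 := cA_ext (by rw [cA_mul, cA_mA, bd_bd, mul_one])
  E_add := cA_ext (by rw [cA_add, cA_mA, cA_mA, bd_add, cA_one])
  X0 := mA _ (x10 0)
  X1 := mA _ (x10 1)
  X0_mem := mA_mem _ (x10 0)
  X1_mem := mA_mem _ (x10 1)
  E1X0 := cA_ext (by rw [cA_mul, cA_mA, cA_mA, bd_bd, one_mul])
  E1X1 := cA_ext (by rw [cA_mul, cA_mA, cA_mA, bd_bd, one_mul])
  X0E0 := cA_ext (by rw [cA_mul, cA_mA, cA_mA, bd_bd, mul_one])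
  X1E0 := cA_ext (by rw [cA_mul, cA_mA, cA_mA, bd_bd, mul_one])
  T0 := mT s _ (t00 s 0)
  T1 := mT s _ (t00 s 1)
  T0_mem := mT_mem s _ (t00 s 0)
  T1_mem := mT_mem s _ (t00 s 1)
  dT0 := d_mT s 0 0 _ (xL_D π 0)
  dT1 := d_mT s 0 0 _ (xL_D π 1)
  E0T0 := cT_ext s (by rw [cT_smul, cA_mA, cT_mT, bd_bd, one_mul])
  E0T1 := cT_ext s (by rw [cT_smul, cA_mA, cT_mT, bd_bd, one_mul])
  T0E0 := cT_ext s (by rw [cT_op, cA_mA, cT_mT, bd_bd, mul_one])
  T1E0 := cT_ext s (by rw [cT_op, cA_mA, cT_mT, bd_bd, mul_one])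
  U := mT s _ (u01 s)
  U_mem := mT_mem s _ (u01 s)
  dU := d_mT s 0 1 _ DL_one
  E0U := cT_ext s (by rw [cT_smul, cA_mA, cT_mT, bd_bd, one_mul])
  UE1 := cT_ext s (by rw [cT_op, cA_mA, cT_mT, bd_bd, mul_one])
  comm := cT_ext s (by
    rw [cT_add, cT_smul, cT_smul, cA_mA, cA_mA, cT_mT, cT_mT, bd_bd, bd_bd, xL_comm, cT_zero]
    funext i j
    exact twoL _)
  cI {k z} hz h1 h := cA_ext (cI' (by
    have := congrArg cA h1
    rwa [cA_mul, cA_mA] at this) (by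
    have := congrArg cA h
    rwa [cA_mul, cA_mA] at this))
  cE {k u0 u1} g0 g1 h0 h1 h := by
    obtain ⟨z, hz, e1, e2, e3⟩ := cE' (gA_of g1)
      (show mu (cA u0) (bd 0 0 1) = cA u0 by
        have := congrArg cA h0
        rwa [cA_mul, cA_mA] at this)
      (show mu (cA u1) (bd 0 0 1) = cA u1 by
        have := congrArg cA h1
        rwa [cA_mul, cA_mA] at this)
      (by
        have := congrArg cT h
        rwa [cT_add, cT_smul, cT_smul, cT_mT, cT_mT, cT_zero] at this)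
    refine ⟨mA z hz, mA_mem z hz, cA_ext ?_, cA_ext ?_, cA_ext ?_⟩
    · rw [cA_mul, cA_mA, cA_mA, e1]
    · rw [cA_mul, cA_mA, cA_mA, e2]
    · rw [cA_mul, cA_mA, cA_mA, e3]
  cS {k x} g h := by
    obtain ⟨u0, u1, g0, g1, e0, e1, e⟩ := cS' (s := s) (k := k) (gT_of s g)
      (show mu (cT x) (bd 0 0 1) = cT x by
        have := congrArg cT h
        rwa [cT_op, cA_mA] at this)
    refine ⟨mA u0 g0, mA_mem u0 g0, mA u1 g1, mA_mem u1 g1, cA_ext ?_, cA_ext ?_, cT_ext s ?_⟩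
    · rw [cA_mul, cA_mA, cA_mA, e0]
    · rw [cA_mul, cA_mA, cA_mA, e1]
    · rw [cT_add, cT_smul, cT_smul, cA_mA, cA_mA, cT_mT, cT_mT, e]
  rI {k r} g h1 h := cA_ext (rI' (by
    have := congrArg cA h1
    rwa [cA_mul, cA_mA] at this) (by
    have := congrArg cT h
    rwa [cT_op, cT_mT, cT_zero] at this))
  rE {m w0 w1} g0 g1 h0 h1 h := by
    obtain ⟨r, hr, e1, e2, e3⟩ := rE' (gT_of s g0)
      (show mu (bd 0 0 1) (cT w0) = cT w0 by
        have := congrArg cT h0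
        rwa [cT_smul, cA_mA] at this)
      (show mu (bd 0 0 1) (cT w1) = cT w1 by
        have := congrArg cT h1
        rwa [cT_smul, cA_mA] at this)
      (by
        have := congrArg cT h
        rwa [cT_add, cT_smul, cT_smul, cA_mA, cA_mA, cT_zero] at this)
    refine ⟨mA r hr, mA_mem r hr, cA_ext ?_, cT_ext s ?_, cT_ext s ?_⟩
    · rw [cA_mul, cA_mA, cA_mA, e1]
    · rw [cT_op, cT_mT, cA_mA, e2]
    · rw [cT_op, cT_mT, cA_mA, e3]
  rS {m w} g h := by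
    obtain ⟨w0, w1, g0, g1, e0, e1, e⟩ := rS' (gT_of s g)
      (show mu (bd 1 1 1) (cT w) = cT w by
        have := congrArg cT h
        rwa [cT_smul, cA_mA] at this)
    refine ⟨mT s w0 g0, mT_mem s w0 g0, mT s w1 g1, mT_mem s w1 g1, cT_ext s ?_, cT_ext s ?_,
      cT_ext s ?_⟩
    · rw [cT_smul, cA_mA, cT_mT, e0]
    · rw [cT_smul, cA_mA, cT_mT, e1]
    · rw [cT_add, cT_smul, cT_smul, cA_mA, cA_mA, cT_mT, cT_mT, e]
  uX {k x} g h := by
    obtain ⟨u, gu, e1, e2⟩ := uX' (s := s) (k := k) (gT_of s g)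
      (show mu (cT x) (bd 1 1 1) = cT x by
        have := congrArg cT h
        rwa [cT_op, cA_mA] at this)
    refine ⟨mA u gu, mA_mem u gu, cA_ext ?_, cT_ext s ?_⟩
    · rw [cA_mul, cA_mA, cA_mA, e1]
    · rw [cT_smul, cA_mA, cT_mT, e2]
  uI {k u} g h1 h := cA_ext (uI' (by
    have := congrArg cA h1
    rwa [cA_mul, cA_mA] at this) (by
    have := congrArg cT h
    rwa [cT_smul, cT_mT, cT_zero] at this))
  uW {m w} g h := by
    obtain ⟨r, gr, e1, e2⟩ := uW' (gT_of s g)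
      (show mu (bd 0 0 1) (cT w) = cT w by
        have := congrArg cT h
        rwa [cT_smul, cA_mA] at this)
    refine ⟨mA r gr, mA_mem r gr, cA_ext ?_, cT_ext s ?_⟩
    · rw [cA_mul, cA_mA, cA_mA, e1]
    · rw [cT_op, cT_mT, cA_mA, e2]
  uJ {k r} g h1 h := cA_ext (uJ' (by
    have := congrArg cA h1
    rwa [cA_mul, cA_mA] at this) (by
    have := congrArg cT h
    rwa [cT_op, cT_mT, cT_zero] at this))

end inst

/-! ### `(beta)` -/

section fin

variable (π) (s : ℕ) {Y : RCells (WL π).dga} (R : RRes Y (DtL π s))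

/-- the functionals -/
def fn : Fn Y (tLW π s) where
  lo := R.lo
  v σ := vf (tLW π s) R.toRAug σ
  v_d σ x := by
    have h := congrArg (dev (tLW π s).toLM x) (R.v_d σ)
    rw [dev_d, map_sum] at h
    exact h

end fin

end Crest.Agent.R186.C1c328
end
end

-- ▼ part R186/NulB_700

/-!
Row 186, half (A), last line (helper700): the null pair over `k0`.
`HM` = HMc_510 (510) + RZ_625 (625); `PH` = Hfin_654 (654); `HD` = HDz_186 (186) + C1c_328 (328).
-/

set_option autoImplicit false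

namespace Crest.Agent.R186.NulB700

open Crest.Agent.R186 EndC560 SM890 WL221

/-- (M) : the hom complex is homotopy bounded -/
theorem hm : EndF448.HM TopA226.par0 5 h55 :=
  HMc510.HM_of_P TopA226.par0 5 h55 (RZ625.DVs_XL TopA226.par0 5 h55)

theorem nul : Nonempty (Spine700.Null.{0, 0} Spine700.k0) :=
  NulA700.nul_of hm (C1c328.kz TopA226.par0 5)

end Crest.Agent.R186.NulB700
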