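import Crest.Agent.R186.Kdef_448
import Crest.Agent.R186.KR_355
import Crest.Agent.R186.KRJ_823
import Crest.Agent.R186.N0B_341
import Crest.Agent.R186.NullV_275

-- ▼ part R186/KPv0_448
section

/-!
Row 186, S0281, base, leaf B281.K0, `s = 0` (helper448): the resolution
`0 → K₃ → K₂ → K₁ → K₀ → E g 0 n → 0` on 580's projectives with the maps of Kdef_448.
-/

set_option autoImplicit false
set_option linter.unusedSectionVars false

open Matrix

noncomputable section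

namespace Crest.Agent.R186.B281

namespace K448

open KN FamX823 KR

variable {K : Type} [Field K] {g : K} {s : ℤ}

/-- the halves of a column -/
def hc {N : Type} (e : Fin 2) (p : Col N) : Fin 7 → N := if e = 0 then p.1 else p.2

/-! ### rows of `WPv` -/

theorem rO_WPv0 (hg : Gen g) (e : Fin 2) (i : Fin 7) (p : (TV hg s 0).W s) :
    rO 0 e i ((WPv hg s 0 p : Pv g s 0) : A g s) = hc e p.1 i := by
  fin_cases e
  · exact (emb hg s 0).πι (p.1.1 i)
  · exact (emb hg s 0).πι (p.1.2 i)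

theorem rO_WPv1 (hg : Gen g) (e : Fin 2) (i : Fin 7) (p : (TV hg s 1).W s) :
    rO 1 e i ((WPv hg s 1 p : Pv g s 1) : A g s) = hc e p.1 i := by
  fin_cases e
  · exact (emb hg s 1).πι (p.1.1 i)
  · exact (emb hg s 1).πι (p.1.2 i)

theorem rO_WPv2 (hg : Gen g) (e : Fin 2) (i : Fin 7) (p : (TV hg s 2).W s) :
    rO 2 e i ((WPv hg s 2 p : Pv g s 2) : A g s) = hc e p.1 i := by
  fin_cases e
  · exact (emb hg s 2).πι (p.1.1 i)
  · exact (emb hg s 2).πι (p.1.2 i)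

theorem rK_WPv3 (hg : Gen g) (e : Fin 2) (i : Fin 7) (p : (TV hg s 3).W s) :
    rK 3 4 e i ((WPv hg s 3 p : Pv g s 3) : A g s) = hc e p.1 i := by
  fin_cases e
  · exact (emb hg s 3).πι (p.1.1 i)
  · exact (emb hg s 3).πι (p.1.2 i)

theorem rK_WPv4 (hg : Gen g) (e : Fin 2) (i : Fin 7) (p : (TV hg s 4).W s) :
    rK 5 6 e i ((WPv hg s 4 p : Pv g s 4) : A g s) = hc e p.1 i := by
  fin_cases e
  · exact (emb hg s 4).πι (p.1.1 i)
  · exact (emb hg s 4).πι (p.1.2 i)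

/-! ### equality by rows -/

theorem Pv_ext (v : Fin 5) {x y : Pv g s v}
    (h : ∀ (e : Fin 2) (i j : Fin 7), blk j = v → hf e (x : A g s) i j = hf e (y : A g s) i j) :
    x = y := by
  apply Subtype.ext
  apply A_ext'
  intro e i j
  by_cases hj : blk j = v
  · exact h e i j hj
  · have hx := mem_Pv.1 x.2 i j hj
    have hy := mem_Pv.1 y.2 i j hj
    fin_cases e
    · exact hx.1.trans hy.1.symm
    · exact hx.2.trans hy.2.symm

theorem Pv_ext0 {x y : Pv g s 0} (h : ∀ e i, rO 0 e i (x : A g s) = rO 0 e i (y : A g s)) :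
    x = y := by
  refine Pv_ext 0 fun e i j hj => ?_
  have : j = 0 := by revert hj; revert j; decide
  subst this
  exact h e i

theorem Pv_ext1 {x y : Pv g s 1} (h : ∀ e i, rO 1 e i (x : A g s) = rO 1 e i (y : A g s)) :
    x = y := by
  refine Pv_ext 1 fun e i j hj => ?_
  have : j = 1 := by revert hj; revert j; decide
  subst this
  exact h e i

theorem Pv_ext3 {x y : Pv g s 3} (h : ∀ e i, rK 3 4 e i (x : A g s) = rK 3 4 e i (y : A g s)) :
    x = y := by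
  refine Pv_ext 3 fun e i j hj => ?_
  have : j = 3 ∨ j = 4 := by revert hj; revert j; decide
  rcases this with rfl | rfl
  · exact congrFun (h e i) 0
  · exact congrFun (h e i) 1

theorem Pv_ext4 {x y : Pv g s 4} (h : ∀ e i, rK 5 6 e i (x : A g s) = rK 5 6 e i (y : A g s)) :
    x = y := by
  refine Pv_ext 4 fun e i j hj => ?_
  have : j = 5 ∨ j = 6 := by revert hj; revert j; decide
  rcases this with rfl | rfl
  · exact congrFun (h e i) 0
  · exact congrFun (h e i) 1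

/-! ### the equivalences -/

/-- powers of an equivalence -/
def piC {R M N : Type} [Ring R] [AddCommGroup M] [Module R M] [AddCommGroup N] [Module R N]
    (ι : Type) (e : M ≃ₗ[R] N) : (ι → M) ≃ₗ[R] (ι → N) := LinearEquiv.piCongrRight fun _ => e

/-- `W (TV^ι) ≃ Pv^ι` -/
def eP (hg : Gen g) (s : ℤ) (v : Fin 5) (ι : Type) :
    (pi (TV hg s v) ι).W s ≃ₗ[A g s] (ι → Pv g s v) :=
  (piW (TV hg s v) ι s).trans (piC ι (WPv hg s v))

/-- `W (TV^(ι × κ)) ≃ Pv^(ι × κ)` -/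
def ePP (hg : Gen g) (s : ℤ) (v : Fin 5) (ι κ : Type) :
    (pi (pi (TV hg s v) ι) κ).W s ≃ₗ[A g s] (κ → ι → Pv g s v) :=
  (piW (pi (TV hg s v) ι) κ s).trans (piC κ (eP hg s v ι))

/-- `K₀` -/
def e0 (hg : Gen g) (n : ℕ) : (G0 hg n).W 0 ≃ₗ[A g 0] (Fin (n + 1) → Pv g 0 0) :=
  eP hg 0 0 (Fin (n + 1))

/-- `K₁` -/
def e1 (hg : Gen g) (n : ℕ) : (G1 hg n).W 0 ≃ₗ[A g 0] (Fin 2 → Fin (n + 1) → Pv g 0 3) :=
  ePP hg 0 3 (Fin (n + 1)) (Fin 2)

/-- `K₂` -/
def e2 (hg : Gen g) (n : ℕ) : (G2 hg n).W 0 ≃ₗ[A g 0] T2 g n :=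
  (prodW (pi (TV hg 0 4) (Fin (n + 2))) (pi (pi (TV hg 0 1) (Fin n)) (Fin 2)) 0).trans
    (LinearEquiv.prodCongr (eP hg 0 4 (Fin (n + 2))) (ePP hg 0 1 (Fin n) (Fin 2)))

/-- `K₃` -/
def e3 (hg : Gen g) (n : ℕ) : (G3 hg n).W 0 ≃ₗ[A g 0] (Fin (n + 1) → Pv g 0 2) :=
  eP hg 0 2 (Fin (n + 1))

/-! ### rows of the equivalences -/

theorem hc_pi {F : Fam g} {ι : Type} (p : (pi F ι).W s) (j : ι) (e : Fin 2) (i : Fin 7) :
    hc e (piW F ι s p j).1 i = (show ι → F.N from hc e p.1 i) j := by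
  fin_cases e <;> rfl

theorem hc_prod1 {F G : Fam g} (p : (prod F G).W s) (e : Fin 2) (i : Fin 7) :
    hc e (prodW F G s p).1.1 i = (show F.N × G.N from hc e p.1 i).1 := by
  fin_cases e <;> rfl

theorem hc_prod2 {F G : Fam g} (p : (prod F G).W s) (e : Fin 2) (i : Fin 7) :
    hc e (prodW F G s p).2.1 i = (show F.N × G.N from hc e p.1 i).2 := by
  fin_cases e <;> rfl

theorem hc_W {F G : Fam g} (φ : F.Hom G) (p : F.W s) (e : Fin 2) (i : Fin 7) :
    hc e (φ.W s p).1 i = φ.f (hc e p.1 i) := by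
  fin_cases e <;> rfl

/-- the row of a tuple in `K₀` -/
theorem row_e0 (hg : Gen g) (n : ℕ) (p : (G0 hg n).W 0) (e : Fin 2) (i : Fin 7)
    (j : Fin (n + 1)) :
    rO 0 e i ((e0 hg n p j : Pv g 0 0) : A g 0) =
      (show Fin (n + 1) → Op K from hc e p.1 i) j :=
  (rO_WPv0 hg e i _).trans (hc_pi p j e i)

theorem row_e1 (hg : Gen g) (n : ℕ) (p : (G1 hg n).W 0) (e : Fin 2) (i : Fin 7) (t : Fin 2)
    (j : Fin (n + 1)) :
    rK 3 4 e i ((e1 hg n p t j : Pv g 0 3) : A g 0) =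
      (show Fin 2 → Fin (n + 1) → Fin 2 → Op K from hc e p.1 i) t j :=
  (rK_WPv3 hg e i _).trans ((hc_pi (F := TV hg 0 3)
    (piW (pi (TV hg 0 3) (Fin (n + 1))) (Fin 2) 0 p t) j e i).trans
    (congrFun (hc_pi (F := pi (TV hg 0 3) (Fin (n + 1))) p t e i) j))

theorem row_e2 (hg : Gen g) (n : ℕ) (p : (G2 hg n).W 0) (e : Fin 2) (i : Fin 7)
    (j : Fin (n + 2)) :
    rK 5 6 e i (((e2 hg n p).1 j : Pv g 0 4) : A g 0) =
      (show (Fin (n + 2) → Fin 2 → Op K) × (Fin 2 → Fin n → Op K) from hc e p.1 i).1 j :=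
  (rK_WPv4 hg e i _).trans ((hc_pi (F := TV hg 0 4) (prodW (pi (TV hg 0 4) (Fin (n + 2)))
    (pi (pi (TV hg 0 1) (Fin n)) (Fin 2)) 0 p).1 j e i).trans
    (congrFun (hc_prod1 (F := pi (TV hg 0 4) (Fin (n + 2)))
      (G := pi (pi (TV hg 0 1) (Fin n)) (Fin 2)) p e i) j))

theorem row_e2' (hg : Gen g) (n : ℕ) (p : (G2 hg n).W 0) (e : Fin 2) (i : Fin 7) (t : Fin 2)
    (j : Fin n) :
    rO 1 e i (((e2 hg n p).2 t j : Pv g 0 1) : A g 0) =
      (show (Fin (n + 2) → Fin 2 → Op K) × (Fin 2 → Fin n → Op K) from hc e p.1 i).2 t j :=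
  (rO_WPv1 hg e i _).trans ((hc_pi (F := TV hg 0 1) (piW (pi (TV hg 0 1) (Fin n)) (Fin 2) 0
    (prodW (pi (TV hg 0 4) (Fin (n + 2))) (pi (pi (TV hg 0 1) (Fin n)) (Fin 2)) 0 p).2 t)
      j e i).trans
    ((congrFun (hc_pi (F := pi (TV hg 0 1) (Fin n)) (prodW (pi (TV hg 0 4) (Fin (n + 2)))
      (pi (pi (TV hg 0 1) (Fin n)) (Fin 2)) 0 p).2 t e i) j).trans
      (congrFun (congrFun (hc_prod2 (F := pi (TV hg 0 4) (Fin (n + 2)))
        (G := pi (pi (TV hg 0 1) (Fin n)) (Fin 2)) p e i) t) j)))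

theorem row_e3 (hg : Gen g) (n : ℕ) (p : (G3 hg n).W 0) (e : Fin 2) (i : Fin 7)
    (j : Fin (n + 1)) :
    rO 2 e i ((e3 hg n p j : Pv g 0 2) : A g 0) =
      (show Fin (n + 1) → Op K from hc e p.1 i) j :=
  (rO_WPv2 hg e i _).trans (hc_pi p j e i)

/-! ### the maps commute with the equivalences -/

theorem comm1 (hg : Gen g) (n : ℕ) (p : (G1 hg n).W 0) :
    d1 g n (e1 hg n p) = e0 hg n ((g1 hg n).W 0 p) := by
  funext j
  apply Pv_ext0
  intro e i
  rw [d1_row, row_e0]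
  have h1 : (fun t k => rK 3 4 e i ((e1 hg n p t k : Pv g 0 3) : A g 0)) =
      (show Fin 2 → Fin (n + 1) → Fin 2 → Op K from hc e p.1 i) :=
    funext fun t => funext fun k => row_e1 hg n p e i t k
  rw [h1]
  exact congrFun (hc_W (g1 hg n) p e i).symm j

theorem comm2 (hg : Gen g) (n : ℕ) (p : (G2 hg n).W 0) :
    d2 hg n (e2 hg n p) = e1 hg n ((g2 hg n).W 0 p) := by
  funext t j
  apply Pv_ext3
  intro e i
  have h1 : row2 n e i (e2 hg n p) =
      (show (Fin (n + 2) → Fin 2 → Op K) × (Fin 2 → Fin n → Op K) from hc e p.1 i) :=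
    Prod.ext (funext fun k => row_e2 hg n p e i k)
      (funext fun t => funext fun k => row_e2' hg n p e i t k)
  have h2 := congrFun (congrFun (row_d2 hg n (e2 hg n p) e i) t) j
  rw [h1] at h2
  exact h2.trans ((congrFun (congrFun (hc_W (g2 hg n) p e i).symm t) j).trans
    (row_e1 hg n _ e i t j).symm)

theorem comm3 (hg : Gen g) (n : ℕ) (p : (G3 hg n).W 0) :
    d3 hg n (e3 hg n p) = e2 hg n ((g3 hg n).W 0 p) := by
  have h1 : ∀ (e : Fin 2) (i : Fin 7), (fun k => rO 2 e i ((e3 hg n p k : Pv g 0 2) : A g 0)) =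
      (show Fin (n + 1) → Op K from hc e p.1 i) := fun e i =>
    funext fun k => row_e3 hg n p e i k
  have h2 : ∀ (e : Fin 2) (i : Fin 7), row2 n e i (d3 hg n (e3 hg n p)) =
      (show (Fin (n + 2) → Fin 2 → Op K) × (Fin 2 → Fin n → Op K) from
        hc e ((g3 hg n).W 0 p).1 i) := fun e i => by
    rw [row2_d3, h1]
    exact (hc_W (g3 hg n) p e i).symm
  refine Prod.ext ?_ ?_
  · funext j
    apply Pv_ext4
    intro e i
    exact (congrFun (congrArg Prod.fst (h2 e i)) j).trans (row_e2 hg n _ e i j).symm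
  · funext t j
    apply Pv_ext1
    intro e i
    exact (congrFun (congrFun (congrArg Prod.snd (h2 e i)) t) j).trans
      (row_e2' hg n _ e i t j).symm

/-! ### the augmentation -/

/-- **the augmentation `K₀ → E g 0 n`** -/
def ε (hg : Gen g) (n : ℕ) : (Fin (n + 1) → Pv g 0 0) →ₗ[A g 0] E g 0 n :=
  toE hg le_rfl (ge hg n) ∘ₗ (e0 hg n).symm.toLinearMap

theorem commε (hg : Gen g) (n : ℕ) (p : (G0 hg n).W 0) :
    ε hg n (e0 hg n p) = VfW hg n le_rfl ((ge hg n).W 0 p) := by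
  show toE hg le_rfl (ge hg n) ((e0 hg n).symm (e0 hg n p)) = _
  rw [LinearEquiv.symm_apply_apply]
  rfl



/-! ### **the resolution** -/

instance projT2 (g : K) (n : ℕ) : Module.Projective (A g 0) (T2 g n) := by
  unfold T2
  infer_instance

/-- **`0 → K₃ → K₂ → K₁ → K₀ → E g 0 n → 0`** -/
def mres0 (hg : Gen g) (n : ℕ) : NullChain538.MRes (A g 0) (E g 0 n) :=
  (KRJ823.res0 hg n).mresOf hg (VfW hg n le_rfl) (e0 hg n) (e1 hg n) (e2 hg n) (e3 hg n)
    (ε hg n) (d1 g n) (d2 hg n) (d3 hg n) (commε hg n) (comm1 hg n) (comm2 hg n) (comm3 hg n)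

end K448

end Crest.Agent.R186.B281
end
end

-- ▼ part R186/N0C_341
section

/-!
Row 186 (S0281), helper341, leaf B281.N0: 448's `d3` has the entries `D3E`.
-/

set_option autoImplicit false
set_option linter.unusedSectionVars false

open Finset Matrix

namespace Crest.Agent.R186.B281

namespace N341

variable {K : Type} [Field K] {g : K}

/-- the sequence of a generator -/
noncomputable def dl (K : Type) [Field K] (j : ℕ) (a : ℕ) : Op K := if a = j then 1 else 0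

theorem sh_dl (j a : ℕ) : KN.sh (dl K j) a = if a = j + 1 then 1 else 0 := by
  cases a with
  | zero => rw [if_neg (by omega)]; rfl
  | succ a =>
    show dl K j a = _
    unfold dl
    by_cases h : a = j
    · rw [if_pos h, if_pos (by omega)]
    · rw [if_neg h, if_neg (by omega)]

theorem coe_single (n : ℕ) (j k : Fin (n + 1)) (e : Fin 2) (p q : Fin 7) :
    K448.hf e (((Pi.single j (Pgen g 0 2) : Fin (n + 1) → Pv g 0 2) k : Pv g 0 2) : A g 0) p q =
      if k = j then K448.hf e (eps g 0 2) p q else 0 := by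
  by_cases h : k = j
  · subst h
    rw [Pi.single_eq_same, if_pos rfl]
    rfl
  · rw [Pi.single_eq_of_ne h, if_neg h]
    exact congrFun (congrFun (K448.hf_z e) p) q

theorem idp22 : (idp K 2 : Mat K) 2 2 = 1 := by
  rw [idp, Matrix.diagonal_apply_eq, if_pos (by decide)]

/-- the row of a generator, first half -/
theorem row_gen0 (n : ℕ) (j : Fin (n + 1)) :
    KN.ez (fun k => K448.rO 2 0 2
      (((Pi.single j (Pgen g 0 2) : Fin (n + 1) → Pv g 0 2) k : Pv g 0 2) : A g 0)) =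
      dl K (j : ℕ) := by
  funext a
  unfold KN.ez dl
  split_ifs with h h' h'
  · refine (coe_single n j ⟨a, h⟩ 0 2 2).trans ?_
    rw [if_pos (Fin.ext h'), K448.hf_zero, eps_fst, idp22]
  · refine (coe_single n j ⟨a, h⟩ 0 2 2).trans ?_
    rw [if_neg fun h2 => h' (congrArg Fin.val h2)]
  · exact absurd (h' ▸ j.2) h
  · rfl

/-- the row of a generator, second half -/
theorem row_gen1 (n : ℕ) (j : Fin (n + 1)) (i : Fin 7) :
    (fun k => K448.rO 2 1 i
      (((Pi.single j (Pgen g 0 2) : Fin (n + 1) → Pv g 0 2) k : Pv g 0 2) : A g 0)) = 0 := by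
  funext k
  refine (coe_single n j k 1 i 2).trans ?_
  rw [K448.hf_one, eps_snd]
  split_ifs <;> rfl

theorem d3w_dl (n j i : ℕ) (T0 T1 : Op K) (h : (X 1 : Op K) * T0 = X 0 * T1) :
    KN.d3w g n (dl K j) i 0 * T0 + KN.d3w g n (dl K j) i 1 * T1 =
      (if i = j + 1 then T0 else 0) - (if i = j then T1 else 0) := by
  have hs : ∀ c : Op K, KN.syz c 0 * T0 + KN.syz c 1 * T1 = 0 := fun c => by
    show c * X 1 * T0 + -(c * X 0) * T1 = 0
    rw [neg_mul, mul_assoc, mul_assoc, h, add_neg_cancel]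
  have hm : (if i = j + 1 then (1 : Op K) else 0) * T0 = if i = j + 1 then T0 else 0 := by
    split_ifs
    · exact one_mul _
    · exact zero_mul _
  have hm' : (dl K j i : Op K) * T1 = if i = j then T1 else 0 := by
    unfold dl
    split_ifs
    · exact one_mul _
    · exact zero_mul _
  have hi : ∀ (p : Prop) [Decidable p] (r : Fin 2 → Op K) (t : Fin 2),
      (if p then r else 0 : Fin 2 → Op K) t = if p then r t else 0 := by
    intro p _ r t
    split_ifs <;> rfl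
  have e0 : KN.d3w g n (dl K j) i 0 = (if i = j + 1 then (1 : Op K) else 0) -
      (cq g (n + 1 - i : ℕ))⁻¹ • KN.syz (dl K j i * D g 0) 0 -
      (if i = n + 1 then (cq g (n + 1 : ℕ))⁻¹ • KN.syz (dl K j n * D g 1) 0 else 0) := by
    rw [← sh_dl]
    unfold KN.d3w
    rw [Pi.sub_apply, Pi.sub_apply, hi]
    rfl
  have e1 : KN.d3w g n (dl K j) i 1 = - dl K j i -
      (cq g (n + 1 - i : ℕ))⁻¹ • KN.syz (dl K j i * D g 0) 1 -
      (if i = n + 1 then (cq g (n + 1 : ℕ))⁻¹ • KN.syz (dl K j n * D g 1) 1 else 0) := by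
    unfold KN.d3w
    rw [Pi.sub_apply, Pi.sub_apply, hi]
    rfl
  rw [e0, e1, sub_mul, sub_mul, sub_mul, sub_mul, hm, neg_mul, hm', smul_mul_assoc, smul_mul_assoc]
  have f1 := hs (dl K j i * D g 0)
  have f2 : (if i = n + 1 then (cq g (n + 1 : ℕ))⁻¹ • KN.syz (dl K j n * D g 1) 0 else 0) * T0 +
      (if i = n + 1 then (cq g (n + 1 : ℕ))⁻¹ • KN.syz (dl K j n * D g 1) 1 else 0) * T1 = 0 := by
    split_ifs
    · rw [smul_mul_assoc, smul_mul_assoc, ← smul_add, hs, smul_zero]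
    · rw [zero_mul, zero_mul, add_zero]
  have f1' : (cq g (n + 1 - i : ℕ))⁻¹ • (KN.syz (dl K j i * D g 0) 0 * T0) +
      (cq g (n + 1 - i : ℕ))⁻¹ • (KN.syz (dl K j i * D g 0) 1 * T1) = 0 := by
    rw [← smul_add, f1, smul_zero]
  have f3 := eq_neg_of_add_eq_zero_left f1'
  have f4 := eq_neg_of_add_eq_zero_left f2
  rw [f3, f4]
  abel

theorem d3h0_dl (hg : Gen g) (j i : ℕ) : KN.d3h0 g (dl K j) i =
    if j = i + 1 then cq g (j : ℕ) • (1 : Op K) - X 1 * D g 1 else 0 := by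
  unfold KN.d3h0 dl
  by_cases h : j = i + 1
  · subst h
    rw [if_pos rfl, if_pos rfl, one_mul, X_D_self hg, sub_smul, one_smul]
    abel
  · rw [if_neg h, if_neg (Ne.symm h), zero_mul, zero_mul, smul_zero, smul_zero, sub_zero]

theorem d3h1_dl (n j i : ℕ) (hi : i < n) : KN.d3h1 g n (dl K j) i =
    (if j = i + 1 then D g 0 * X 1 else 0) -
      (if j = i then cq g ((n : ℤ) - (i : ℕ)) • (1 : Op K) else 0) := by
  unfold KN.d3h1 dl
  congr 1
  · by_cases h : j = i + 1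
    · rw [if_pos h, if_pos h.symm, one_mul]
    · rw [if_neg h, if_neg (Ne.symm h), zero_mul, zero_mul]
  · by_cases h : j = i
    · rw [if_pos h, if_pos h.symm, Nat.cast_sub hi.le]
    · rw [if_neg h, if_neg (Ne.symm h), smul_zero]

theorem D3_zero (n : ℕ) : KN.D3 g n 0 = 0 := map_zero _

theorem gK0 (hg : Gen g) (n : ℕ) (j : Fin (n + 1)) (i : Fin (n + 2)) :
    K448.rK 5 6 0 2 ((K448.d3 hg n (Pi.single j (Pgen g 0 2))).1 i : A g 0) =
      KN.d3w g n (dl K j) i := by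
  have h1 := K448.d3_row hg n (Pi.single j (Pgen g 0 2)) 0 2 i
  refine h1.trans ?_
  rw [← row_gen0]
  rfl

theorem gO0 (hg : Gen g) (n : ℕ) (j : Fin (n + 1)) (i : Fin n) :
    K448.rO 1 0 2 ((K448.d3 hg n (Pi.single j (Pgen g 0 2))).2 0 i : A g 0) =
      KN.d3h0 g (dl K j) i := by
  have h1 := K448.d3_rowh0 hg n (Pi.single j (Pgen g 0 2)) 0 2 i
  refine h1.trans ?_
  rw [← row_gen0]
  rfl

theorem gO1 (hg : Gen g) (n : ℕ) (j : Fin (n + 1)) (i : Fin n) :
    K448.rO 1 0 2 ((K448.d3 hg n (Pi.single j (Pgen g 0 2))).2 1 i : A g 0) =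
      KN.d3h1 g n (dl K j) i := by
  have h1 := K448.d3_rowh1 hg n (Pi.single j (Pgen g 0 2)) 0 2 i
  refine h1.trans ?_
  rw [← row_gen0]
  rfl

theorem sK (hg : Gen g) (n : ℕ) (j : Fin (n + 1)) (i : Fin (n + 2)) (a : Fin 7) :
    K448.rK 5 6 1 a ((K448.d3 hg n (Pi.single j (Pgen g 0 2))).1 i : A g 0) = 0 := by
  have h1 := K448.d3_row hg n (Pi.single j (Pgen g 0 2)) 1 a i
  refine h1.trans ?_
  rw [row_gen1, D3_zero]
  rfl

theorem sO0 (hg : Gen g) (n : ℕ) (j : Fin (n + 1)) (i : Fin n) (a : Fin 7) :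
    K448.rO 1 1 a ((K448.d3 hg n (Pi.single j (Pgen g 0 2))).2 0 i : A g 0) = 0 := by
  have h1 := K448.d3_rowh0 hg n (Pi.single j (Pgen g 0 2)) 1 a i
  refine h1.trans ?_
  rw [row_gen1, D3_zero]
  rfl

theorem sO1 (hg : Gen g) (n : ℕ) (j : Fin (n + 1)) (i : Fin n) (a : Fin 7) :
    K448.rO 1 1 a ((K448.d3 hg n (Pi.single j (Pgen g 0 2))).2 1 i : A g 0) = 0 := by
  have h1 := K448.d3_rowh1 hg n (Pi.single j (Pgen g 0 2)) 1 a i
  refine h1.trans ?_
  rw [row_gen1, D3_zero]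
  rfl

theorem blk4 (b : Fin 7) (hb : blk b = 4) : b = 5 ∨ b = 6 := by revert b; decide

theorem blk1 (b : Fin 7) (hb : blk b = 1) : b = 1 := by revert b; decide

theorem sD (hg : Gen g) (n : ℕ) (j : Fin (n + 1)) (i : Fin (n + 2)) :
    (dD (K448.d3 hg n) j i).1.snd = 0 := by
  funext a b
  by_cases hb : blk b = 4
  · have h1 := sK hg n j i a
    rcases blk4 b hb with rfl | rfl
    · exact congrFun h1 0
    · exact congrFun h1 1
  · exact (mem_Pv.1 ((K448.d3 hg n (Pi.single j (Pgen g 0 2))).1 i).2 a b hb).2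

theorem sOO (hg : Gen g) (n : ℕ) (j : Fin (n + 1)) (l : Fin 2) (i : Fin n) :
    (dO (K448.d3 hg n) j l i).1.snd = 0 := by
  funext a b
  by_cases hb : blk b = 1
  · have hb' := blk1 b hb
    subst hb'
    have hl : l = 0 ∨ l = 1 := by revert l; decide
    rcases hl with rfl | rfl
    · exact sO0 hg n j i a
    · exact sO1 hg n j i a
  · exact (mem_Pv.1 ((K448.d3 hg n (Pi.single j (Pgen g 0 2))).2 l i).2 a b hb).2

theorem kKd (hg : Gen g) (n : ℕ) (j : Fin (n + 1)) (i : Fin (n + 2)) (T0 T1 : Op K)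
    (hT : (X 1 : Op K) * T0 = X 0 * T1) :
    (dD (K448.d3 hg n) j i).1.fst 2 5 * T0 + (dD (K448.d3 hg n) j i).1.fst 2 6 * T1 =
      (if (i : ℕ) = j + 1 then T0 else 0) - (if (i : ℕ) = j then T1 else 0) := by
  have h1 := gK0 hg n j i
  have h2 := d3w_dl (g := g) n j i T0 T1 hT
  have a0 : (dD (K448.d3 hg n) j i).1.fst 2 5 = KN.d3w g n (dl K j) i 0 := congrFun h1 0
  have a1 : (dD (K448.d3 hg n) j i).1.fst 2 6 = KN.d3w g n (dl K j) i 1 := congrFun h1 1
  rw [a0, a1]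
  exact h2

theorem D3E_d3 (hg : Gen g) (n : ℕ) : D3E g n (dD (K448.d3 hg n)) (dO (K448.d3 hg n)) where
  mK j i := ((K448.d3 hg n (Pi.single j (Pgen g 0 2))).1 i).2
  mO j l i := ((K448.d3 hg n (Pi.single j (Pgen g 0 2))).2 l i).2
  kS := sD hg n
  kK := kKd hg n
  oS := sOO hg n
  o0 j i := (gO0 hg n j i).trans (d3h0_dl hg (j : ℕ) (i : ℕ))
  o1 j i := (gO1 hg n j i).trans (d3h1_dl (g := g) n (j : ℕ) (i : ℕ) i.2)

end N341

end Crest.Agent.R186.B281
end

-- ▼ part R186/Null0_341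

/-!
Row 186 (S0281), helper341, leaf B281.N0: `Ext_A^q (V 0, A) = 0`, `s = 0`: the joint.
-/

set_option autoImplicit false
set_option linter.unusedSectionVars false

namespace Crest.Agent.R186.B281

namespace N341

open NullChain538 ExtRes700 NullV275

variable {K : Type} [Field K] {g : K}

instance finT2 (g : K) (n : ℕ) : Module.Finite (A g 0) (K448.T2 g n) := by
  unfold K448.T2
  infer_instance

/-- the resolution `K(n)` -/
noncomputable def rs0 (hg : Gen g) (n : ℕ) : Rs (A g 0) (E g 0 n) (Fin (n + 1) → Pv g 0 0)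
    (Fin 2 → Fin (n + 1) → Pv g 0 3) (K448.T2 g n) (Fin (n + 1) → Pv g 0 2) where
  e := K448.ε hg n
  d1 := K448.d1 g n
  d2 := K448.d2 hg n
  d3 := K448.d3 hg n
  surj := (K448.mres0 hg n).surj
  ex0 := (K448.mres0 hg n).ex0
  ex1 := (K448.mres0 hg n).ex1
  ex2 := (K448.mres0 hg n).ex2
  inj := (K448.mres0 hg n).inj

set_option maxHeartbeats 4000000 in
/-- **the joint, `s = 0`** -/
theorem null0_of (hg : Gen g) {κ : Type} (Q : κ → Type) [∀ j, AddCommGroup (Q j)]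
    [∀ j, Module (A g 0) (Q j)]
    (hQ : ∀ j (n : ℕ) q, E0 (A g 0) (E g 0 n) (Q j) q)
    (dev : ∀ (X : Type) [AddCommGroup X] [Module (A g 0) X] (q : ℕ),
      (∀ j q', E0 (A g 0) X (Q j) q') → E0 (A g 0) X (Pv g 0 2) q → E0 (A g 0) X (A g 0) q)
    (j1 : κ) (π1 : Pv g 0 1 →ₗ[A g 0] Q j1) (ρπ : Function.Exact (EVA538.ρh hg 0) π1)
    (π1s : Function.Surjective π1) (q : ℕ) : E0 (A g 0) (V g 0 0) (A g 0) q :=
  nullV hg 0 (rs0 hg) Q hQ dev
    (fun _ f _ => H0_col2 f)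
    (fun _ f _ => ⟨0, (H1_col2 f).symm ▸ LinearMap.zero_comp _⟩)
    (fun n f hf => ⟨0, (H2_col2 (K448.d3 hg n) (D3E_d3 hg n) f hf).symm ▸ LinearMap.zero_comp _⟩)
    (fun n f hf => k2_col2 (K448.d3 hg n) (D3E_d3 hg n) f hf)
    (fun n h => c1_col1 (K448.d3 hg n) (D3E_d3 hg n) h) j1 π1 ρπ π1s q

end N341

end Crest.Agent.R186.B281
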