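import Crest.Agent.R186.Inst_823
import Crest.Agent.R186.B281W_128
import Crest.Agent.R186.FilPBW_633
import Mathlib
import Crest.Agent.R186.N0A_341
import Crest.Agent.R186.NullAbs_341

-- ▼ part R186/Null1a_275
section

/-!
Row 186, S0281, leaf B281.N1 (helper275), part a: entries of `A g 1` in the column `O(-2)`,
coefficient formulas, elements of `A g 1` supported in one column.
-/

set_option autoImplicit false

open Matrix

noncomputable section

namespace Crest.Agent.R186.N1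

open B281

variable {K : Type} [Field K] {g : K}

/-! ### small pieces of `Fil` -/

theorem fil00 {T : Op K} (h : T ∈ Fil g 0 0) : ∃ c : K, T = c • (1 : Op K) := by
  induction h using Submodule.span_induction with
  | mem x hx =>
    obtain ⟨a, b, h1, h2, rfl⟩ := hx
    obtain ⟨a1, a2⟩ := a
    obtain ⟨b1, b2⟩ := b
    simp only at h1 h2
    obtain rfl : b1 = 0 := by omega
    obtain rfl : b2 = 0 := by omega
    obtain rfl : a1 = 0 := by omega
    obtain rfl : a2 = 0 := by omega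
    exact ⟨1, by simp [mon]⟩
  | zero => exact ⟨0, by simp⟩
  | add x y _ _ hx hy =>
    obtain ⟨c, rfl⟩ := hx
    obtain ⟨d, rfl⟩ := hy
    exact ⟨c + d, (add_smul _ _ _).symm⟩
  | smul a x _ hx =>
    obtain ⟨c, rfl⟩ := hx
    exact ⟨a * c, (mul_smul _ _ _).symm⟩

theorem fil01 {T : Op K} (h : T ∈ Fil g 0 1) : ∃ p q : K, T = p • (X 0 : Op K) + q • (X 1 : Op K) := by
  induction h using Submodule.span_induction with
  | mem x hx =>
    obtain ⟨a, b, h1, h2, rfl⟩ := hx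
    obtain ⟨a1, a2⟩ := a
    obtain ⟨b1, b2⟩ := b
    simp only at h1 h2
    obtain rfl : b1 = 0 := by omega
    obtain rfl : b2 = 0 := by omega
    have h3 : (a1 = 1 ∧ a2 = 0) ∨ (a1 = 0 ∧ a2 = 1) := by omega
    rcases h3 with ⟨rfl, rfl⟩ | ⟨rfl, rfl⟩
    · exact ⟨1, 0, by simp [mon]⟩
    · exact ⟨0, 1, by simp [mon]⟩
  | zero => exact ⟨0, 0, by simp⟩
  | add x y _ _ hx hy =>
    obtain ⟨c, c', rfl⟩ := hx
    obtain ⟨d, d', rfl⟩ := hy
    exact ⟨c + d, c' + d', by rw [add_smul, add_smul]; abel⟩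
  | smul a x _ hx =>
    obtain ⟨c, c', rfl⟩ := hx
    exact ⟨a * c, a * c', by rw [smul_add, mul_smul, mul_smul]⟩

/-! ### coefficients -/







/-- comparison of degree one operators -/
theorem X_indep {p q p' q' : K} (h : p • (X 0 : Op K) + q • X 1 = p' • (X 0 : Op K) + q' • X 1) :
    p = p' ∧ q = q' := by
  have h1 := LinearMap.congr_fun h (Finsupp.single 0 1)
  simp only [LinearMap.add_apply, LinearMap.smul_apply, X_single] at h1
  constructor
  · have := DFunLike.congr_fun h1 (1, 0)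
    simpa [ev] using this
  · have := DFunLike.congr_fun h1 (0, 1)
    simpa [ev] using this

theorem X_indep0 {p q : K} (h : p • (X 0 : Op K) + q • X 1 = 0) : p = 0 ∧ q = 0 :=
  X_indep (p' := 0) (q' := 0) (by rw [h]; simp)

theorem kos0 {c c' : K} (h : (X 1 : Op K) * (c • (1 : Op K)) = X 0 * (c' • (1 : Op K))) :
    c = 0 ∧ c' = 0 := by
  rw [mul_smul_comm, mul_one, mul_smul_comm, mul_one] at h
  have := X_indep (p := 0) (q := c) (p' := c') (q' := 0) (by simpa using h)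
  exact ⟨this.2, this.1.symm⟩

theorem kos1 {p q p' q' : K} (h : (X 1 : Op K) * (p • (X 0 : Op K) + q • (X 1 : Op K)) =
    X 0 * (p' • (X 0 : Op K) + q' • (X 1 : Op K))) : q = 0 ∧ p' = 0 ∧ p = q' := by
  have h1 := LinearMap.congr_fun h (Finsupp.single 0 1)
  simp only [Module.End.mul_apply, LinearMap.add_apply, LinearMap.smul_apply, X_single, map_add,
    map_smul] at h1
  refine ⟨?_, ?_, ?_⟩
  · have := DFunLike.congr_fun h1 (0, 2)
    simpa [ev] using this
  · have := DFunLike.congr_fun h1 (2, 0)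
    simpa [ev] using this.symm
  · have := DFunLike.congr_fun h1 (1, 1)
    simpa [ev] using this

/-! ### the column `O(-2)` of `A g 1` -/

theorem vecMul7 (v : Fin 7 → Op K) (M : Mat K) (j : Fin 7) :
    (v ᵥ* M) j = v 0 * M 0 j + v 1 * M 1 j + v 2 * M 2 j + v 3 * M 3 j + v 4 * M 4 j +
      v 5 * M 5 j + v 6 * M 6 j := by
  simp only [Matrix.vecMul, dotProduct, Fin.sum_univ_seven]

/-- the entries of the column `O(-2)` -/
structure Col2 (g : K) (e : ℤ) (M : Mat K) : Prop where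
  c0 : M 0 2 = 0
  c1 : M 1 2 = 0
  c2 : M 2 2 ∈ Fil g 0 e
  c3 : M 3 2 ∈ Fil g 0 e
  c4 : M 4 2 ∈ Fil g 0 e
  c34 : X 1 * M 3 2 = X 0 * M 4 2
  c5 : M 5 2 ∈ Fil g 0 e
  c6 : M 6 2 ∈ Fil g 0 e
  c56 : X 1 * M 5 2 = X 0 * M 6 2

theorem col2 {e : ℤ} {M : Mat K} (hM : Pres g 1 e M) : Col2 g e M := by
  have h1 : ∀ k : ℤ, 0 ≤ k → (1 : Op K) ∈ Fil g k 0 := fun k hk => one_mem_Fil g hk
  have hX : ∀ (i : Fin 2) (k : ℤ), 0 ≤ k → (X i : Op K) ∈ Fil g k 1 :=
    fun i k hk => X_mem_Fil g i hk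
  have ho : ∀ (c : ℕ) (hc : c < 3), M ⟨c, by omega⟩ 2 ∈ Fil g ((c : ℤ) - 2) e := by
    intro c hc
    have h2 := (hM c 0 _ (single_mem (g := g) 1 c 0 1 c hc (h1 _ (by omega)))).2.2.1
    rw [Matrix.single_one_vecMul, zero_add] at h2
    exact h2
  have hc : (X 1 : Op K) * X 0 + (-(X 0 : Op K)) * X 1 = 0 := by
    rw [neg_mul, X_comm 0 1, add_neg_cancel]
  have r1 : ∀ (k P : ℤ) (a b : Op K), a ∈ Fil g (k - 1) P → b ∈ Fil g (k - 1) P →
      a * X 0 + b * X 1 ∈ Fil g (k - 1 - 1) (P + 1) →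
        a * M 3 2 + b * M 4 2 ∈ Fil g (k - 2) (P + e) := by
    intro k P a b ha hb hab
    have h2 := (hM k P _ (row_mem1 (g := g) 1 k P a b ha hb hab)).2.2.1
    rw [vecMul7] at h2
    simpa using h2
  have r2 : ∀ (k P : ℤ) (a b : Op K), a ∈ Fil g k P → b ∈ Fil g k P →
      a * X 0 + b * X 1 ∈ Fil g (k - 2) (P + 1) →
        a * M 5 2 + b * M 6 2 ∈ Fil g (k - 2) (P + e) := by
    intro k P a b ha hb hab
    have h2 := (hM k P _ (row_mem2 (g := g) 1 k P a b ha hb hab)).2.2.1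
    rw [vecMul7] at h2
    simpa using h2
  refine ⟨?_, ?_, ?_, ?_, ?_, ?_, ?_, ?_, ?_⟩
  · have := ho 0 (by norm_num)
    rw [Fil_neg g (by norm_num) e] at this
    exact (Submodule.mem_bot K).1 this
  · have := ho 1 (by norm_num)
    rw [Fil_neg g (by norm_num) e] at this
    exact (Submodule.mem_bot K).1 this
  · simpa using ho 2 (by norm_num)
  · have := r1 2 0 1 0 (h1 _ (by norm_num)) (zero_mem _)
      (by rw [one_mul, zero_mul, add_zero]; exact hX 0 _ (by norm_num))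
    simpa using this
  · have := r1 2 0 0 1 (zero_mem _) (h1 _ (by norm_num))
      (by rw [one_mul, zero_mul, zero_add (X 1 : Op K)]; exact hX 1 _ (by norm_num))
    simpa using this
  · have := r1 1 1 (X 1) (-(X 0 : Op K)) (hX 1 _ (by norm_num)) (neg_mem (hX 0 _ (by norm_num)))
      (by rw [hc]; exact zero_mem _)
    rw [Fil_neg g (by norm_num) (1 + e), Submodule.mem_bot, neg_mul] at this
    exact add_neg_eq_zero.1 this
  · have := r2 2 0 1 0 (h1 _ (by norm_num)) (zero_mem _)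
      (by rw [one_mul, zero_mul, add_zero]; exact hX 0 _ (by norm_num))
    simpa using this
  · have := r2 2 0 0 1 (zero_mem _) (h1 _ (by norm_num))
      (by rw [one_mul, zero_mul, zero_add (X 1 : Op K)]; exact hX 1 _ (by norm_num))
    simpa using this
  · have := r2 0 1 (X 1) (-(X 0 : Op K)) (hX 1 _ (by norm_num)) (neg_mem (hX 0 _ (by norm_num)))
      (by rw [hc]; exact zero_mem _)
    rw [Fil_neg g (by norm_num) (1 + e), Submodule.mem_bot, neg_mul] at this
    exact add_neg_eq_zero.1 this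

/-- rows `3, 4` (and `5, 6`) of the column, degree `0` -/
theorem Col2.z0 {M : Mat K} (h : Col2 g 0 M) : M 3 2 = 0 ∧ M 4 2 = 0 ∧ M 5 2 = 0 ∧ M 6 2 = 0 := by
  obtain ⟨a, ha⟩ := fil00 h.c3
  obtain ⟨b, hb⟩ := fil00 h.c4
  obtain ⟨c, hc⟩ := fil00 h.c5
  obtain ⟨d, hd⟩ := fil00 h.c6
  have h1 := h.c34
  have h2 := h.c56
  rw [ha, hb] at h1
  rw [hc, hd] at h2
  obtain ⟨rfl, rfl⟩ := kos0 h1
  obtain ⟨rfl, rfl⟩ := kos0 h2
  simp [ha, hb, hc, hd]

/-- rows `3, 4` of the column, degree `1` -/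
theorem Col2.z34 {M : Mat K} (h : Col2 g 1 M) : ∃ c : K, M 3 2 = c • (X 0 : Op K) ∧
    M 4 2 = c • (X 1 : Op K) := by
  obtain ⟨a, a', ha⟩ := fil01 h.c3
  obtain ⟨b, b', hb⟩ := fil01 h.c4
  have h1 := h.c34
  rw [ha, hb] at h1
  obtain ⟨rfl, rfl, rfl⟩ := kos1 h1
  exact ⟨a, by simp [ha], by simp [hb]⟩


/-! ### elements supported in one column -/

/-- the matrix with column `j` equal to `c` -/
def colm (c : Fin 7 → Op K) (j : Fin 7) : Mat K := Matrix.of fun i j' => if j' = j then c i else 0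

theorem colm_apply (c : Fin 7 → Op K) (j i j' : Fin 7) :
    colm c j i j' = if j' = j then c i else 0 := rfl

theorem colm_same (c : Fin 7 → Op K) (j i : Fin 7) : colm c j i j = c i := if_pos rfl

theorem vecMul_colm (v c : Fin 7 → Op K) (j j' : Fin 7) :
    (v ᵥ* colm c j) j' = if j' = j then ∑ i, v i * c i else 0 := by
  simp only [Matrix.vecMul, dotProduct, colm_apply]
  split_ifs
  · rfl
  · simp

theorem pres_col2 {e : ℤ} {c : Fin 7 → Op K}
    (h : ∀ k P : ℤ, ∀ v ∈ Lat g 1 k P, ∑ i, v i * c i ∈ Fil g (k - 2) (P + e)) :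
    Pres g 1 e (colm c 2) := by
  intro k P v hv
  have h1 := h k P v hv
  refine ⟨?_, ?_, ?_, ⟨?_, ?_, ?_⟩, ?_, ?_, ?_⟩ <;> simp [vecMul_colm, h1]









theorem pres_c3 (c : K) : Pres g 1 1 (colm (![0, 0, 0, c • X 0, c • X 1, 0, 0]) 2) := by
  refine pres_col2 fun k P v hv => ?_
  rw [Fin.sum_univ_seven]
  have h1 := Submodule.smul_mem _ c hv.2.2.2.1.2.2
  simpa [mul_smul_comm, sub_sub, ← smul_add] using h1

theorem pres_c4 (c : K) : Pres g 1 1 (colm (![0, 0, 0, 0, 0, c • X 0, c • X 1]) 2) := by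
  refine pres_col2 fun k P v hv => ?_
  rw [Fin.sum_univ_seven]
  have h1 := Submodule.smul_mem _ c hv.2.2.2.2.2.2
  simpa [mul_smul_comm, ← smul_add] using h1



end Crest.Agent.R186.N1
end
end

-- ▼ part R186/Col1_113
section

/-!
# Row 186, S0281 base, nullness block for `s = 1` (helper113): the column `O(-2)`

The complex `Hom_A(K'(n), A e_2)` in coordinates (index `j` = exponent of `x1`, `lam m = c_m`):

* `C^1` : `ζ_j`, `j < n` (the map `(a,b) ⊗ u ↦ ζ(u) (a x0 + b x1)` on `K₂ ⊗ [n-1]`);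
* `C^2` : `Z^e_j`, `e = 0, 1`, `j ≤ n` (the same on `K₁' ⊗ [n]²`), `Z^e(v) = -ζ(d_e v)`;
* `C^3` : `e ⊗ v ↦ e (α(v) + β0(v) x0 + β1(v) x1)` on `O(-2) ⊗ [n]`, `α = 0`,
  `β0(v) = -Z^0(d1 x1 v) + Z^1(d0 x1 v)`, `β1(v) = Z^0(d1 x0 v) - Z^1(d0 x0 v)`.

Exactness at `C^1`, `C^2`, and the image of `C^2 → C^3`.
-/

set_option autoImplicit false

namespace Crest.Agent.R186.Col113

variable {K : Type*} [Field K] (lam : ℕ → K) (n : ℕ)

/-- `Z^e(v) = -ζ(d_e v)` -/
def zz (ζ : ℕ → K) (e : Fin 2) (j : ℕ) : K :=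
  if e = 0 then -(lam (n - j) * ζ j) else -(lam j * ζ (j - 1))

/-- the coefficient of `x0` -/
def be0 (Z : Fin 2 → ℕ → K) (j : ℕ) : K := -(lam (j + 1) * Z 0 j) + lam (n - j) * Z 1 (j + 1)

/-- the coefficient of `x1` -/
def be1 (Z : Fin 2 → ℕ → K) (j : ℕ) : K := lam j * Z 0 (j - 1) - lam (n + 1 - j) * Z 1 j

variable {lam n}

theorem zz0 (ζ : ℕ → K) (j : ℕ) : zz lam n ζ 0 j = -(lam (n - j) * ζ j) := rfl

theorem zz1 (ζ : ℕ → K) (j : ℕ) : zz lam n ζ 1 j = -(lam j * ζ (j - 1)) := rfl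

/-- the relation between the two coefficients -/
theorem be_add (Z : Fin 2 → ℕ → K) {j : ℕ} (hj : j < n) :
    be0 lam n Z j + be1 lam n Z (j + 1) = 0 := by
  simp only [be0, be1, Nat.add_sub_cancel, show n + 1 - (j + 1) = n - j by omega]
  ring


/-- exactness at `C^1` -/
theorem inj (hlam : ∀ m, 0 < m → m ≤ n + 1 → lam m ≠ 0) (ζ : ℕ → K)
    (h : ∀ j ≤ n, zz lam n ζ 0 j = 0) : ∀ j < n, ζ j = 0 := by
  intro j hj
  have h1 := h j hj.le
  rw [zz0, neg_eq_zero] at h1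
  exact (mul_eq_zero.mp h1).resolve_left (hlam _ (by omega) (by omega))

/-- exactness at `C^2` -/
theorem mid (hlam : ∀ m, 0 < m → m ≤ n + 1 → lam m ≠ 0) (h0 : lam 0 = 0)
    (Z : Fin 2 → ℕ → K) (h : ∀ j ≤ n, be0 lam n Z j = 0 ∧ be1 lam n Z j = 0) :
    ∃ ζ : ℕ → K, ∀ e, ∀ j ≤ n, Z e j = zz lam n ζ e j := by
  have hZ0 : Z 0 n = 0 := by
    have h1 := (h n le_rfl).1
    rw [be0, Nat.sub_self, h0, zero_mul, add_zero, neg_eq_zero] at h1
    exact (mul_eq_zero.mp h1).resolve_left (hlam _ (by omega) le_rfl)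
  have hZ1 : Z 1 0 = 0 := by
    have h1 := (h 0 (Nat.zero_le _)).2
    rw [be1, h0, zero_mul, zero_sub, neg_eq_zero, Nat.sub_zero] at h1
    exact (mul_eq_zero.mp h1).resolve_left (hlam _ (by omega) le_rfl)
  refine ⟨fun j => -((lam (n - j))⁻¹ * Z 0 j), ?_⟩
  intro e j hj
  fin_cases e
  · simp only [Fin.zero_eta, Fin.isValue]
    rw [zz0]
    rcases Nat.lt_or_ge j n with hlt | hge
    · have hl : lam (n - j) ≠ 0 := hlam _ (by omega) (by omega)
      field_simp
    · obtain rfl : j = n := by omega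
      rw [hZ0, Nat.sub_self, h0]
      ring
  · simp only [Fin.mk_one, Fin.isValue]
    rw [zz1]
    rcases j with _ | j
    · rw [hZ1, h0]
      ring
    · have h1 := (h j (by omega)).1
      rw [be0] at h1
      have hl : lam (n - j) ≠ 0 := hlam _ (by omega) (by omega)
      rw [Nat.add_sub_cancel]
      have h2 : lam (n - j) * Z 1 (j + 1) = lam (j + 1) * Z 0 j := by linear_combination h1
      field_simp
      linear_combination h2

/-- the image of `C^2 → C^3` -/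
theorem ev_iff (hlam : ∀ m, 0 < m → m ≤ n + 1 → lam m ≠ 0) (h0 : lam 0 = 0) (b0 b1 : ℕ → K) :
    (∃ Z : Fin 2 → ℕ → K, ∀ j ≤ n, b0 j = be0 lam n Z j ∧ b1 j = be1 lam n Z j) ↔
      ∀ j < n, b0 j + b1 (j + 1) = 0 := by
  constructor
  · rintro ⟨Z, hZ⟩ j hj
    rw [(hZ j hj.le).1, (hZ (j + 1) (by omega)).2, be_add Z hj]
  · intro h
    refine ⟨fun e j => if e = 0 then -((lam (j + 1))⁻¹ * b0 j) else
      (if j = 0 then -((lam (n + 1))⁻¹ * b1 0) else 0), ?_⟩
    intro j hj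
    have hl : lam (j + 1) ≠ 0 := hlam _ (by omega) (by omega)
    have hn : lam (n + 1) ≠ 0 := hlam _ (by omega) le_rfl
    constructor
    · simp only [be0, if_true, one_ne_zero, if_false, Fin.isValue, Nat.succ_ne_zero, mul_zero,
        add_zero]
      field_simp
    · rcases j with _ | j
      · simp only [be1, if_true, one_ne_zero, if_false, Fin.isValue, h0, Nat.sub_zero]
        field_simp
        ring
      · have hl' : lam (j + 1) ≠ 0 := hlam _ (by omega) (by omega)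
        simp only [be1, if_true, one_ne_zero, if_false, Fin.isValue, Nat.succ_ne_zero, mul_zero,
          sub_zero, Nat.add_sub_cancel]
        have h1 := h j (by omega)
        field_simp
        linear_combination h1

end Crest.Agent.R186.Col113
end

-- ▼ part R186/Null1b_275

/-!
Row 186 (S0281), helper275, leaf B281.N1: the column `O(-2)` of `Hom (K'(n), A)`, `s = 1`,
on the level of `A g 1`, for any maps `d2`, `d3` given by their entries at the generators.
-/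

set_option autoImplicit false
set_option linter.unusedSectionVars false

open Finset Matrix

namespace Crest.Agent.R186.B281

namespace Null275

variable {K : Type} [Field K] {g : K} {s : ℤ}

/-! ### entries -/

/-- an entry of the first matrix -/
def fE (g : K) (s : ℤ) (i j : Fin 7) : A g s →ₗ[K] Op K where
  toFun x := x.1.fst i j
  map_add' _ _ := rfl
  map_smul' _ _ := rfl

/-- an entry of the second matrix -/
def sE (g : K) (s : ℤ) (i j : Fin 7) : A g s →ₗ[K] Op K where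
  toFun x := x.1.snd i j
  map_add' _ _ := rfl
  map_smul' _ _ := rfl

theorem fst_sum {ι : Type} (t : Finset ι) (f : ι → A g s) (i j : Fin 7) :
    (∑ b ∈ t, f b).1.fst i j = ∑ b ∈ t, (f b).1.fst i j := map_sum (fE g s i j) f t

theorem snd_sum {ι : Type} (t : Finset ι) (f : ι → A g s) (i j : Fin 7) :
    (∑ b ∈ t, f b).1.snd i j = ∑ b ∈ t, (f b).1.snd i j := map_sum (sE g s i j) f t

theorem fst_mul7 (x y : A g s) (i j : Fin 7) : (x * y).1.fst i j =
    x.1.fst i 0 * y.1.fst 0 j + x.1.fst i 1 * y.1.fst 1 j + x.1.fst i 2 * y.1.fst 2 j +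
    x.1.fst i 3 * y.1.fst 3 j + x.1.fst i 4 * y.1.fst 4 j + x.1.fst i 5 * y.1.fst 5 j +
    x.1.fst i 6 * y.1.fst 6 j := by
  rw [fst_mulA, Matrix.mul_apply, Fin.sum_univ_seven]

theorem snd_mul7 (x y : A g s) (i j : Fin 7) : (x * y).1.snd i j =
    (x.1.fst i 0 * y.1.snd 0 j + x.1.fst i 1 * y.1.snd 1 j + x.1.fst i 2 * y.1.snd 2 j +
    x.1.fst i 3 * y.1.snd 3 j + x.1.fst i 4 * y.1.snd 4 j + x.1.fst i 5 * y.1.snd 5 j +
    x.1.fst i 6 * y.1.snd 6 j) +
    (x.1.snd i 0 * y.1.fst 0 j + x.1.snd i 1 * y.1.fst 1 j + x.1.snd i 2 * y.1.fst 2 j +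
    x.1.snd i 3 * y.1.fst 3 j + x.1.snd i 4 * y.1.fst 4 j + x.1.snd i 5 * y.1.fst 5 j +
    x.1.snd i 6 * y.1.fst 6 j) := by
  rw [snd_mulA, Matrix.add_apply, Matrix.mul_apply, Matrix.mul_apply, Fin.sum_univ_seven,
    Fin.sum_univ_seven]

section P3
variable {x : A g s} (hx : x ∈ Pv g s 3) (y : A g s) (i j : Fin 7)
include hx

theorem z3 (k : Fin 7) (h : blk k ≠ 3) : x.1.fst i k = 0 ∧ x.1.snd i k = 0 := mem_Pv.1 hx i k h

theorem fst_P3 : (x * y).1.fst i j = x.1.fst i 3 * y.1.fst 3 j + x.1.fst i 4 * y.1.fst 4 j := by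
  rw [fst_mul7, (z3 hx i 0 (by decide)).1, (z3 hx i 1 (by decide)).1, (z3 hx i 2 (by decide)).1,
    (z3 hx i 5 (by decide)).1, (z3 hx i 6 (by decide)).1]
  simp only [zero_mul, zero_add, add_zero]

theorem snd_P3 : (x * y).1.snd i j = (x.1.fst i 3 * y.1.snd 3 j + x.1.fst i 4 * y.1.snd 4 j) +
    (x.1.snd i 3 * y.1.fst 3 j + x.1.snd i 4 * y.1.fst 4 j) := by
  rw [snd_mul7, (z3 hx i 0 (by decide)).1, (z3 hx i 1 (by decide)).1, (z3 hx i 2 (by decide)).1,
    (z3 hx i 5 (by decide)).1, (z3 hx i 6 (by decide)).1, (z3 hx i 0 (by decide)).2,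
    (z3 hx i 1 (by decide)).2, (z3 hx i 2 (by decide)).2, (z3 hx i 5 (by decide)).2,
    (z3 hx i 6 (by decide)).2]
  simp only [zero_mul, zero_add, add_zero]

end P3

section P4
variable {x : A g s} (hx : x ∈ Pv g s 4) (y : A g s) (i j : Fin 7)
include hx

theorem z4 (k : Fin 7) (h : blk k ≠ 4) : x.1.fst i k = 0 ∧ x.1.snd i k = 0 := mem_Pv.1 hx i k h

theorem fst_P4 : (x * y).1.fst i j = x.1.fst i 5 * y.1.fst 5 j + x.1.fst i 6 * y.1.fst 6 j := by
  rw [fst_mul7, (z4 hx i 0 (by decide)).1, (z4 hx i 1 (by decide)).1, (z4 hx i 2 (by decide)).1,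
    (z4 hx i 3 (by decide)).1, (z4 hx i 4 (by decide)).1]
  simp only [zero_mul, zero_add, add_zero]

theorem snd_P4 : (x * y).1.snd i j = (x.1.fst i 5 * y.1.snd 5 j + x.1.fst i 6 * y.1.snd 6 j) +
    (x.1.snd i 5 * y.1.fst 5 j + x.1.snd i 6 * y.1.fst 6 j) := by
  rw [snd_mul7, (z4 hx i 0 (by decide)).1, (z4 hx i 1 (by decide)).1, (z4 hx i 2 (by decide)).1,
    (z4 hx i 3 (by decide)).1, (z4 hx i 4 (by decide)).1, (z4 hx i 0 (by decide)).2,
    (z4 hx i 1 (by decide)).2, (z4 hx i 2 (by decide)).2, (z4 hx i 3 (by decide)).2,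
    (z4 hx i 4 (by decide)).2]
  simp only [zero_mul, zero_add, add_zero]

end P4

/-! ### values of maps out of the projectives -/

theorem hom_val {v w : Fin 5} (φ : Pv g s v →ₗ[A g s] Pv g s w) (x : Pv g s v) :
    ((φ x : Pv g s w) : A g s) = (x : A g s) * ((φ (Pgen g s v) : Pv g s w) : A g s) := by
  have h : (x : A g s) • Pgen g s v = x := Dev580.smul_gen (eps_idem g s v) x
  have h2 : φ x = (x : A g s) • φ (Pgen g s v) := by rw [← map_smul, h]
  rw [h2]
  rfl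

theorem pi_val {v w : Fin 5} {m : ℕ} (φ : (Fin m → Pv g s v) →ₗ[A g s] Pv g s w)
    (x : Fin m → Pv g s v) : ((φ x : Pv g s w) : A g s) =
      ∑ b, (x b : A g s) * ((φ (Pi.single b (Pgen g s v)) : Pv g s w) : A g s) := by
  have h : x = ∑ b, Pi.single b (x b) := (Finset.univ_sum_single x).symm
  conv_lhs => rw [h, map_sum]
  rw [AddSubmonoidClass.coe_finsetSum]
  exact Finset.sum_congr rfl fun b _ =>
    hom_val (φ ∘ₗ LinearMap.single (A g s) (fun _ : Fin m => Pv g s v) b) (x b)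

theorem pi2_val {v w : Fin 5} {m : ℕ} (φ : (Fin 2 → Fin m → Pv g s v) →ₗ[A g s] Pv g s w)
    (x : Fin 2 → Fin m → Pv g s v) : ((φ x : Pv g s w) : A g s) =
      ∑ l, ∑ b, (x l b : A g s) *
        ((φ (Pi.single l (Pi.single b (Pgen g s v))) : Pv g s w) : A g s) := by
  have h : x = ∑ l, Pi.single l (x l) := (Finset.univ_sum_single x).symm
  conv_lhs => rw [h, map_sum]
  rw [AddSubmonoidClass.coe_finsetSum]
  exact Finset.sum_congr rfl fun l _ =>
    pi_val (φ ∘ₗ LinearMap.single (A g s) (fun _ : Fin 2 => Fin m → Pv g s v) l) (x l)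

theorem eps_pi {v w : Fin 5} {m : ℕ} (φ : (Fin m → Pv g s v) →ₗ[A g s] Pv g s w) (b : Fin m) :
    eps g s v * ((φ (Pi.single b (Pgen g s v)) : Pv g s w) : A g s) =
      ((φ (Pi.single b (Pgen g s v)) : Pv g s w) : A g s) :=
  congrArg Subtype.val
    (N341.eps_val (φ ∘ₗ LinearMap.single (A g s) (fun _ : Fin m => Pv g s v) b))


end Null275

end Crest.Agent.R186.B281
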