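import Crest.Agent.R186.Tau_890
import Crest.Agent.R186.WinR_810

-- ▼ part R186/SMa_890
section

/-!
Row 186, half (A) (helper890), part 3: the right action on `M_0 = R'' (x)_W DW`:
`(s · o_q) · r = (s * tau_q r) · o_q`.
-/

set_option autoImplicit false
set_option linter.unusedSimpArgs false

noncomputable section

namespace Crest.Agent.R186.SM890

open DefsQ830 DefsQ830.Gen PBW128

variable {K : Type} [Field K]

/-- length -/
def nq : Wb → ℕ
  | .one => 0
  | .y _ => 1
  | .yb _ => 1
  | .pi => 2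

/-- character against `u 0` -/
def bq (π : Par K) : Wb → K
  | .one => 1
  | .y _ => π.p
  | .yb s => if s = 0 then π.q1 else π.q2
  | .pi => π.p * π.p

theorem bq_ne (π : Par K) (q : Wb) : bq π q ≠ 0 := by
  have p0 := π.p0
  have q10 := π.q10
  have q20 := π.q20
  cases q <;> simp only [bq] <;> (try split) <;> simp [p0, q10, q20]

theorem c_ne (π : Par K) (i : Fin 2) : π.c i ≠ 0 := by
  rcases fin2 i with rfl | rfl <;> simp [Par.c, π.g0]

/-- the point of the torus belonging to `o_q` -/
def Tq (π : Par K) (q : Wb) : Tor K where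
  a0 := π.c 0 ^ nq q
  a1 := π.c 1 ^ nq q
  b := (bq π q)⁻¹
  h0 := pow_ne_zero _ (c_ne π 0)
  h1 := pow_ne_zero _ (c_ne π 1)
  hb := inv_ne_zero (bq_ne π q)

/-- target of `wq q1 · o_q` -/
def tW : Wb → Wb → Wb
  | .one, q => q
  | .y s, q => dt (.y s) q
  | .yb s, q => dt (.yb s) q
  | .pi, q => dt (.y 0) (dt (.y 1) q)

/-- coefficient of `wq q1 · o_q` -/
def cW (π : Par K) : Wb → Wb → K
  | .one, _ => 1
  | .y s, q => dk π (.y s) q
  | .yb s, q => dk π (.yb s) q
  | .pi, q => dk π (.y 1) q * dk π (.y 0) (dt (.y 1) q)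

theorem sc_nil (π : Par K) (a : Y) : sc π a 0 0 [] = 1 := by simp [sc]

theorem repM_wq (π : Par K) (q1 q : Wb) :
    repM π (wq π q1) (oo K q) = cW π q1 q • oo K (tW q1 q) := by
  cases q1 with
  | one => simp [wq_one, cW, tW]
  | y s => rw [wq_y, show X π (.y s) = X π (Y.y s).toGen from rfl, repM_Y, oo, opD_bv, sc_nil, one_mul]; rfl
  | yb s =>
    rw [wq_yb, show X π (.yb s) = X π (Y.yb s).toGen from rfl, repM_Y, oo, opD_bv, sc_nil, one_mul]; rfl
  | pi =>
    rw [wq_pi, map_mul, Module.End.mul_apply, show X π (.y 1) = X π (Y.y 1).toGen from rfl,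
      show X π (.y 0) = X π (Y.y 0).toGen from rfl, repM_Y, repM_Y, oo, opD_bv, sc_nil, one_mul,
      map_smul, opD_bv, sc_nil, one_mul, smul_smul]
    rfl

/-- `Y` as element of `Wb` -/
def yw : Y → Wb
  | .y s => .y s
  | .yb s => .yb s

theorem wq_yw (π : Par K) (a : Y) : wq π (yw a) = X π a.toGen := by
  cases a with
  | y s => exact wq_y π s
  | yb s => exact wq_yb π s

/-- the bimodule identity on `DW` -/
theorem tab (π : Par K) (q1 q : Wb) (a : Y) :
    (tw (Tq π q) a.toGen * wkr π q1 a * cW π (wtr q1 a) q = 0 ∧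
      cW π q1 q * tw (Tq π (tW q1 q)) a.toGen * cW π (yw a) (tW q1 q) = 0) ∨
    (tw (Tq π q) a.toGen * wkr π q1 a * cW π (wtr q1 a) q =
      cW π q1 q * tw (Tq π (tW q1 q)) a.toGen * cW π (yw a) (tW q1 q) ∧
      tW (wtr q1 a) q = tW (yw a) (tW q1 q)) := by
  have p0 := π.p0
  have q10 := π.q10
  have q20 := π.q20
  have h10 : (1 : Fin 2) ≠ 0 := by decide
  have h01 : (0 : Fin 2) ≠ 1 := by decide
  rcases q1 with _ | s | s | _ <;> rcases q with _ | s' | s' | _ <;> rcases a with s'' | s'' <;>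
    (try rcases fin2 s with rfl | rfl) <;> (try rcases fin2 s' with rfl | rfl) <;>
    rcases fin2 s'' with rfl | rfl <;>
    first
    | (left; constructor <;> simp [tw, Tq, wkr, wtr, cW, tW, dk, dt, yw, bq, Y.toGen, sg, h10, h01]; done)
    | (right; refine ⟨?_, rfl⟩;
       simp [tw, Tq, wkr, wtr, cW, tW, dk, dt, yw, bq, Y.toGen, sg, h10, h01, p0, q10, q20]; done)
    | (right; refine ⟨?_, rfl⟩;
       simp [tw, Tq, wkr, wtr, cW, tW, dk, dt, yw, bq, Y.toGen, sg, h10, h01, p0, q10, q20]; field_simp; done)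

end Crest.Agent.R186.SM890
end
private theorem rz_4ca83e4d5f : type_of% @_root_.Crest.Agent.R186.SM890.bq.eq_1 := @_root_.Crest.Agent.R186.SM890.bq.eq_1 -- L27
private theorem rz_e16923ae8e : type_of% @_root_.Crest.Agent.R186.SM890.cW.eq_1 := @_root_.Crest.Agent.R186.SM890.cW.eq_1 -- L59
private theorem rz_12ed004b36 : type_of% @_root_.Crest.Agent.R186.SM890.nq.eq_1 := @_root_.Crest.Agent.R186.SM890.nq.eq_1 -- L20
private theorem rz_f502020f02 : type_of% @_root_.Crest.Agent.R186.SM890.tW.eq_1 := @_root_.Crest.Agent.R186.SM890.tW.eq_1 -- L52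
private theorem rz_6cd5483d41 : type_of% @_root_.Crest.Agent.R186.SM890.yw.eq_1 := @_root_.Crest.Agent.R186.SM890.yw.eq_1 -- L81
end

-- ▼ part R186/SMb_890
section

/-!
Row 186, half (A) (helper890), part 4: the right action `rho` and the differential `dM` on
`M_0 = R'' (x)_W DW`.
-/

set_option autoImplicit false
set_option linter.unusedSimpArgs false

noncomputable section

namespace Crest.Agent.R186.SM890

open DefsQ830 DefsQ830.Gen PBW128

variable {K : Type} [Field K]

theorem tw_chiq (π : Par K) (q : Wb) (l : E) : tw (Tq π q) l.toGen * chiq π q l = 1 := by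
  have p0 := π.p0
  have q10 := π.q10
  have q20 := π.q20
  have hg := π.g0
  have h10 : (1 : Fin 2) ≠ 0 := by decide
  rcases q with _ | s | s | _ <;> rcases l with j | _ | j | _ | j | j | j | _ | j <;>
    (try rcases fin2 s with rfl | rfl) <;> (try rcases fin2 j with rfl | rfl) <;>
    simp [tw, Tq, chiq, chi, nq, bq, E.toGen, sg, h10, Par.c, Par.cz, Par.ch, Par.chiy, Par.chiyb,
      p0, q10, q20, hg, sq] <;>
    field_simp

theorem wq_x (π : Par K) (q : Wb) (i : Fin 2) :
    tw (Tq π q) (.x i) • (wq π q * X π (.x i)) = X π (.x i) * wq π q := by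
  have hc := c_ne π i
  have ht : tw (Tq π q) (.x i) = π.c i ^ nq q := by
    rcases fin2 i with rfl | rfl <;> simp [tw, Tq]
  rw [ht]
  cases q with
  | one => simp [wq_one, nq]
  | y s =>
    rw [wq_y, show X π (.y s) = X π (Y.y s).toGen from rfl, rY, smul_smul]
    simp [nq, hc]
  | yb s =>
    rw [wq_yb, show X π (.yb s) = X π (Y.yb s).toGen from rfl, rY, smul_smul]
    simp [nq, hc]
  | pi =>
    rw [wq_pi, mul_assoc, show X π (.y 1) = X π (Y.y 1).toGen from rfl,
      show X π (.y 0) = X π (Y.y 0).toGen from rfl, rY, mul_smul_comm, ← mul_assoc, rY,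
      smul_mul_assoc, smul_smul, smul_smul, mul_assoc]
    simp only [nq]
    rw [show π.c i ^ 2 * ((π.c i)⁻¹ * (π.c i)⁻¹) = 1 by field_simp, one_smul, mul_assoc]

/-- letters outside `W` -/
def nonW : Gen → Bool
  | .y _ => false
  | .yb _ => false
  | _ => true

theorem wq_nonW (π : Par K) (q : Wb) (a : Gen) (ha : nonW a = true) :
    tw (Tq π q) a • (wq π q * X π a) = X π a * wq π q := by
  have hE : ∀ l : E, tw (Tq π q) l.toGen • (wq π q * X π l.toGen) = X π l.toGen * wq π q := by
    intro l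
    rw [wq_mul_X, smul_smul, tw_chiq, one_smul]
  cases a with
  | x i => exact wq_x π q i
  | h =>
    simp only [tw, one_smul]
    exact ((comm_h_wd π q.word).eq).symm
  | y s => simp [nonW] at ha
  | yb s => simp [nonW] at ha
  | d j => exact hE (.d j)
  | f => exact hE .f
  | z j => exact hE (.z j)
  | zc => exact hE .zc
  | u s => exact hE (.u s)
  | e j => exact hE (.e j)
  | gj j => exact hE (.gj j)
  | gc => exact hE .gc
  | v s => exact hE (.v s)

theorem cW_mul (π : Par K) (q1 q : Wb) :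
    cW π q1 q = 0 ∨ (nq q = nq q1 + nq (tW q1 q) ∧ bq π q = bq π q1 * bq π (tW q1 q)) := by
  have h10 : (1 : Fin 2) ≠ 0 := by decide
  have h01 : (0 : Fin 2) ≠ 1 := by decide
  rcases q1 with _ | s | s | _ <;> rcases q with _ | s' | s' | _ <;>
    (try rcases fin2 s with rfl | rfl) <;> (try rcases fin2 s' with rfl | rfl) <;>
    first
    | (left; simp [cW, dk, dt, h10, h01]; done)
    | (right; simp [nq, bq, tW, dt, h10, h01]; done)

theorem tw_mul (π : Par K) (q1 q q2 : Wb) (h1 : nq q = nq q1 + nq q2)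
    (h2 : bq π q = bq π q1 * bq π q2) (a : Gen) :
    tw (Tq π q) a = tw (Tq π q1) a * tw (Tq π q2) a := by
  cases a <;> simp only [tw, Tq, h1, h2, pow_add, sg, mul_inv, mul_one, inv_inv] <;>
    (try split) <;> simp

theorem P1 (π : Par K) (w : List Gen) (q1 q : Wb) :
    repM π (wq π q1 * tau π (Tq π q) (wd π w)) (oo K q) =
      cW π q1 q • repM π (tau π (Tq π (tW q1 q)) (wd π w)) (oo K (tW q1 q)) := by
  induction w generalizing q1 q with
  | nil =>
    have e : wd π [] = 1 := rfl
    rw [e, map_one, map_one, mul_one, repM_wq, map_one, Module.End.one_apply]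
  | cons a w ih =>
    have e : wd π (a :: w) = X π a * wd π w := by simp [wd]
    rw [e, map_mul (tau π (Tq π q)), map_mul (tau π (Tq π (tW q1 q))), tau_X, tau_X]
    by_cases ha : nonW a = true
    · -- letters outside `W`
      have key : wq π q1 * (tw (Tq π q) a • X π a * tau π (Tq π q) (wd π w)) =
          (tw (Tq π q) a * (tw (Tq π q1) a)⁻¹) •
            (X π a * (wq π q1 * tau π (Tq π q) (wd π w))) := by
        rw [← mul_assoc (X π a), ← wq_nonW π q1 a ha]
        have hne := tw_ne (Tq π q1) a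
        simp only [smul_mul_assoc, mul_smul_comm, smul_smul]
        rw [mul_assoc (tw (Tq π q) a), inv_mul_cancel₀ hne, mul_one, mul_assoc]
      rw [key, map_smul, LinearMap.smul_apply, map_mul, Module.End.mul_apply, ih, map_smul,
        smul_smul, smul_mul_assoc, map_smul, LinearMap.smul_apply, map_mul, Module.End.mul_apply,
        smul_smul]
      rcases cW_mul π q1 q with h0 | ⟨h1, h2⟩
      · rw [h0, mul_zero, zero_mul, zero_smul]
      · congr 1
        rw [tw_mul π q1 q _ h1 h2 a]
        have := tw_ne (Tq π q1) a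
        field_simp
    · -- letters of `W`
      obtain ⟨a, rfl⟩ : ∃ b : Y, a = b.toGen := by
        cases a with
        | y s => exact ⟨.y s, rfl⟩
        | yb s => exact ⟨.yb s, rfl⟩
        | _ => exact absurd rfl ha
      have key : wq π q1 * (tw (Tq π q) a.toGen • X π a.toGen * tau π (Tq π q) (wd π w)) =
          (tw (Tq π q) a.toGen * wkr π q1 a) •
            (wq π (wtr q1 a) * tau π (Tq π q) (wd π w)) := by
        rw [smul_mul_assoc, mul_smul_comm, ← mul_assoc, wq_mul_Y, smul_mul_assoc, smul_smul]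
      rw [key, map_smul, LinearMap.smul_apply, ih, smul_smul, smul_mul_assoc, map_smul,
        LinearMap.smul_apply, ← wq_yw, ih, smul_smul, smul_smul]
      rcases tab π q1 q a with ⟨h1, h2⟩ | ⟨h1, h2⟩
      · rw [h1, h2, zero_smul, zero_smul]
      · rw [h1, h2]

/-- linear functionals in `r` agreeing on words agree -/
theorem wd_ext (π : Par K) {M : Type*} [AddCommMonoid M] [Module K M] {φ ψ : R π →ₗ[K] M}
    (h : ∀ w, φ (wd π w) = ψ (wd π w)) : φ = ψ := by
  have h1 : φ ∘ₗ Psi π = ψ ∘ₗ Psi π := by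
    apply ext_bv
    intro i j k w q
    rw [LinearMap.comp_apply, LinearMap.comp_apply]
    have : Psi π (bv K i j k w q) = wd π (nw (i, j, k, w, q)) := by
      rw [wd_nw]
      simp [Psi, bv]
    rw [this]
    exact h _
  ext r
  have := LinearMap.congr_fun h1 (ev π r)
  rwa [LinearMap.comp_apply, LinearMap.comp_apply, Psi_ev] at this

/-- `repM (_ ) n` as a linear map -/
def evM (π : Par K) (n : N K) : R π →ₗ[K] N K where
  toFun r := repM π r n
  map_add' a b := by rw [map_add, LinearMap.add_apply]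
  map_smul' c a := by rw [map_smul, LinearMap.smul_apply, RingHom.id_apply]

@[simp] theorem evM_apply (π : Par K) (n : N K) (r : R π) : evM π n r = repM π r n := rfl

theorem P2 (π : Par K) (r : R π) (q1 q : Wb) :
    repM π (wq π q1 * tau π (Tq π q) r) (oo K q) =
      cW π q1 q • repM π (tau π (Tq π (tW q1 q)) r) (oo K (tW q1 q)) := by
  have h : (evM π (oo K q)) ∘ₗ (LinearMap.mulLeft K (wq π q1)) ∘ₗ (tau π (Tq π q)).toLinearMap =
      cW π q1 q • ((evM π (oo K (tW q1 q))) ∘ₗ (tau π (Tq π (tW q1 q))).toLinearMap) := by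
    apply wd_ext
    intro w
    exact P1 π w q1 q
  exact LinearMap.congr_fun h r

/-- the right action -/
def rho (π : Par K) : R π →ₗ[K] (N K →ₗ[K] N K) where
  toFun r := Finsupp.linearCombination K (fun ν : Ix =>
    repM π (nf1 π ν.1 ν.2.1 ν.2.2.1 ν.2.2.2.1 * tau π (Tq π ν.2.2.2.2) r) (oo K ν.2.2.2.2))
  map_add' a b := by
    apply ext_bv
    intro i j k w q
    simp [bv, mul_add]
  map_smul' c a := by
    apply ext_bv
    intro i j k w q
    simp [bv]

theorem rho_bv (π : Par K) (r : R π) (i j k : ℕ) (w : List E) (q : Wb) :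
    rho π r (bv K i j k w q) = repM π (nf1 π i j k w * tau π (Tq π q) r) (oo K q) := by
  simp [rho, bv]

/-- linear maps on `R''` agree if they agree on `nf1 * wq` -/
theorem nf_ext (π : Par K) {M : Type*} [AddCommMonoid M] [Module K M] {φ ψ : R π →ₗ[K] M}
    (h : ∀ i j k w q, φ (nf1 π i j k w * wq π q) = ψ (nf1 π i j k w * wq π q)) : φ = ψ := by
  have h1 : φ ∘ₗ Psi π = ψ ∘ₗ Psi π := by
    apply ext_bv
    intro i j k w q
    rw [LinearMap.comp_apply, LinearMap.comp_apply]
    have : Psi π (bv K i j k w q) = nf1 π i j k w * wq π q := by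
      rw [← nf_eq]
      simp [Psi, bv]
    rw [this]
    exact h _ _ _ _ _
  ext r
  have := LinearMap.congr_fun h1 (ev π r)
  rwa [LinearMap.comp_apply, LinearMap.comp_apply, Psi_ev] at this

theorem repM_nf (π : Par K) (i j k : ℕ) (w : List E) (q1 q : Wb) :
    repM π (nf1 π i j k w * wq π q1) (oo K q) = cW π q1 q • bv K i j k w (tW q1 q) := by
  rw [map_mul, Module.End.mul_apply, repM_wq, map_smul, repM_nf1]

/-- **(s o_q) r = (s tau_q(r)) o_q** -/
theorem rho_repM (π : Par K) (s r : R π) (q : Wb) :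
    rho π r (repM π s (oo K q)) = repM π (s * tau π (Tq π q) r) (oo K q) := by
  have h : (rho π r) ∘ₗ (evM π (oo K q)) =
      (evM π (oo K q)) ∘ₗ (LinearMap.mulRight K (tau π (Tq π q) r)) := by
    apply nf_ext π
    intro i j k w q1
    show rho π r (repM π (nf1 π i j k w * wq π q1) (oo K q)) =
      repM π (nf1 π i j k w * wq π q1 * tau π (Tq π q) r) (oo K q)
    rw [repM_nf, map_smul, rho_bv, mul_assoc, map_mul (repM π) (nf1 π i j k w) (wq π q1 * _),
      Module.End.mul_apply, P2, map_smul, map_mul, Module.End.mul_apply]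
  exact LinearMap.congr_fun h s

/-- linear maps on `M_0` agree if they agree on the `s · o_q` -/
theorem so_ext (π : Par K) {M : Type*} [AddCommMonoid M] [Module K M] {φ ψ : N K →ₗ[K] M}
    (h : ∀ s q, φ (repM π s (oo K q)) = ψ (repM π s (oo K q))) : φ = ψ := by
  apply ext_bv
  intro i j k w q
  have := h (nf1 π i j k w) q
  rwa [repM_nf1] at this

theorem rho_one (π : Par K) (n : N K) : rho π 1 n = n := by
  have h : rho π 1 = LinearMap.id := by
    apply so_ext π
    intro s q
    rw [rho_repM, map_one, mul_one, LinearMap.id_apply]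
  rw [h, LinearMap.id_apply]

theorem rho_mul (π : Par K) (r s : R π) (n : N K) : rho π (r * s) n = rho π s (rho π r n) := by
  have h : rho π (r * s) = (rho π s) ∘ₗ (rho π r) := by
    apply so_ext π
    intro a q
    rw [LinearMap.comp_apply, rho_repM, rho_repM, rho_repM, map_mul (tau π (Tq π q)), mul_assoc]
  rw [h, LinearMap.comp_apply]

theorem repM_repM (π : Par K) (s a : R π) (n : N K) : repM π s (repM π a n) = repM π (s * a) n := by
  rw [map_mul, Module.End.mul_apply]

theorem rho_comm (π : Par K) (r s : R π) (n : N K) :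
    repM π s (rho π r n) = rho π r (repM π s n) := by
  have h : (repM π s) ∘ₗ (rho π r) = (rho π r) ∘ₗ (repM π s) := by
    apply so_ext π
    intro a q
    rw [LinearMap.comp_apply, LinearMap.comp_apply, rho_repM, repM_repM, repM_repM, rho_repM,
      mul_assoc]
  exact LinearMap.congr_fun h n

/-! ### the differential -/

theorem D_wq (π : Par K) (q : Wb) : Der580.D π (wq π q) = 0 := by
  cases q with
  | one => rw [wq_one]; exact Der580.D_one π
  | y s => rw [wq_y, Der580.D_X]; simp [dGen]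
  | yb s => rw [wq_yb, Der580.D_X]; simp [dGen]
  | pi => rw [wq_pi, Der580.D_mul, Der580.D_X, Der580.D_X]; simp [dGen]

/-- the differential of `M_0` -/
def dM (π : Par K) : N K →ₗ[K] N K :=
  Finsupp.linearCombination K (fun ν : Ix =>
    repM π (Der580.D π (nf1 π ν.1 ν.2.1 ν.2.2.1 ν.2.2.2.1)) (oo K ν.2.2.2.2))

theorem dM_bv (π : Par K) (i j k : ℕ) (w : List E) (q : Wb) :
    dM π (bv K i j k w q) = repM π (Der580.D π (nf1 π i j k w)) (oo K q) := by
  simp [dM, bv]

/-- **d (s o_q) = (D s) o_q** -/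
theorem dM_repM (π : Par K) (s : R π) (q : Wb) :
    dM π (repM π s (oo K q)) = repM π (Der580.D π s) (oo K q) := by
  have h : (dM π) ∘ₗ (evM π (oo K q)) = (evM π (oo K q)) ∘ₗ (Der580.D π) := by
    apply nf_ext π
    intro i j k w q1
    show dM π (repM π (nf1 π i j k w * wq π q1) (oo K q)) =
      repM π (Der580.D π (nf1 π i j k w * wq π q1)) (oo K q)
    rw [repM_nf, map_smul, dM_bv, Der580.D_mul, D_wq, mul_zero, add_zero, map_mul,
      Module.End.mul_apply, repM_wq, map_smul]
  exact LinearMap.congr_fun h s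

theorem dM_left (π : Par K) (s : R π) (n : N K) :
    dM π (repM π s n) = repM π (Der580.D π s) n + repM π s (dM π n) := by
  have h : (dM π) ∘ₗ (repM π s) = repM π (Der580.D π s) + (repM π s) ∘ₗ (dM π) := by
    apply so_ext π
    intro a q
    rw [LinearMap.comp_apply, LinearMap.add_apply, LinearMap.comp_apply, dM_repM,
      repM_repM, repM_repM, repM_repM, dM_repM, Der580.D_mul, map_add, LinearMap.add_apply]
  exact LinearMap.congr_fun h n

theorem dM_right (π : Par K) (r : R π) (n : N K) :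
    dM π (rho π r n) = rho π r (dM π n) + rho π (Der580.D π r) n := by
  have h : (dM π) ∘ₗ (rho π r) = (rho π r) ∘ₗ (dM π) + rho π (Der580.D π r) := by
    apply so_ext π
    intro a q
    rw [LinearMap.comp_apply, LinearMap.add_apply, LinearMap.comp_apply, dM_repM, rho_repM,
      dM_repM, rho_repM, rho_repM, Der580.D_mul, map_add, LinearMap.add_apply, tau_D]
  exact LinearMap.congr_fun h n

theorem dM_dM (π : Par K) (n : N K) : dM π (dM π n) = 0 := by
  have h : (dM π) ∘ₗ (dM π) = 0 := by
    apply so_ext π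
    intro a q
    rw [LinearMap.comp_apply, dM_repM, dM_repM, Der580.D_D, map_zero, LinearMap.zero_apply,
      LinearMap.zero_apply]
  exact LinearMap.congr_fun h n

end Crest.Agent.R186.SM890
end
private theorem rz_667e5b081d : type_of% @_root_.Crest.Agent.R186.SM890.nonW.eq_1 := @_root_.Crest.Agent.R186.SM890.nonW.eq_1 -- L53
end

-- ▼ part R186/SM_890

/-!
Row 186, half (A) (helper890), part 5: the strict tri-graded dg algebra `S = R'' (+) M`,
`M = (R'' (x)_W DW) kappa`, `kappa : (P, A, C) = (-1, 0, s)`, as `TrivSqZeroExt (R π) (MM π)`, and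
its window data `WS π s : Win810.WD K` (`2 ≤ s`).
-/

set_option autoImplicit false
set_option linter.unusedSimpArgs false

noncomputable section

namespace Crest.Agent.R186.SM890

open DefsQ830 DefsQ830.Gen PBW128 Win810

variable {K : Type} [Field K]

/-- the bimodule `M_0` -/
def MM (_π : Par K) : Type := N K

instance (π : Par K) : AddCommGroup (MM π) := inferInstanceAs (AddCommGroup (N K))
instance (π : Par K) : Module K (MM π) := inferInstanceAs (Module K (N K))

instance instL (π : Par K) : Module (R π) (MM π) where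
  smul r m := repM π r m
  one_smul m := by
    show repM π 1 m = m
    rw [map_one]; rfl
  mul_smul r s m := by
    show repM π (r * s) m = repM π r (repM π s m)
    rw [repM_repM]
  smul_zero r := map_zero (repM π r)
  smul_add r m n := map_add (repM π r) m n
  add_smul r s m := by
    show repM π (r + s) m = repM π r m + repM π s m
    rw [map_add]; rfl
  zero_smul m := by
    show repM π 0 m = 0
    rw [map_zero]; rfl

instance instR (π : Par K) : Module (R π)ᵐᵒᵖ (MM π) where
  smul r m := rho π r.unop m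
  one_smul m := rho_one π m
  mul_smul r s m := rho_mul π s.unop r.unop m
  smul_zero r := map_zero (rho π r.unop)
  smul_add r m n := map_add (rho π r.unop) m n
  add_smul r s m := by
    show rho π (r.unop + s.unop) m = rho π r.unop m + rho π s.unop m
    rw [map_add]; rfl
  zero_smul m := by
    show rho π 0 m = 0
    rw [map_zero]; rfl


instance (π : Par K) : SMulCommClass (R π) (R π)ᵐᵒᵖ (MM π) where
  smul_comm r s m := rho_comm π s.unop r m

instance (π : Par K) : IsScalarTower K (R π) (MM π) where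
  smul_assoc c r m := by
    show repM π (c • r) m = c • repM π r m
    rw [map_smul]; rfl

instance (π : Par K) : IsScalarTower K (R π)ᵐᵒᵖ (MM π) where
  smul_assoc c r m := by
    show rho π (c • r.unop) m = c • rho π r.unop m
    rw [map_smul]; rfl

/-- **the algebra `S = R'' (+) M`** -/
abbrev SA (π : Par K) : Type := TrivSqZeroExt (R π) (MM π)

theorem MM_two (π : Par K) (m : MM π) : m + m = 0 := by
  have h1 : m + m = (2 : K) • m := by rw [two_smul]
  rw [h1, π.two, zero_smul]

/-- the differential of `M` -/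
def dMM (π : Par K) : MM π →ₗ[K] MM π := dM π

/-- the differential of `S` -/
def DS (π : Par K) : SA π →ₗ[K] SA π where
  toFun x := (Der580.D π x.fst, dMM π x.snd)
  map_add' x y := by
    apply TrivSqZeroExt.ext
    · exact map_add (Der580.D π) _ _
    · exact map_add (dMM π) _ _
  map_smul' c x := by
    apply TrivSqZeroExt.ext
    · exact map_smul (Der580.D π) _ _
    · exact map_smul (dMM π) _ _

theorem DS_fst (π : Par K) (x : SA π) : (DS π x).fst = Der580.D π x.fst := rfl
theorem DS_snd (π : Par K) (x : SA π) : (DS π x).snd = dMM π x.snd := rfl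

theorem dMM_left (π : Par K) (r : R π) (m : MM π) :
    dMM π (r • m) = Der580.D π r • m + r • dMM π m := dM_left π r m

theorem dMM_right (π : Par K) (r : R π) (m : MM π) :
    dMM π (MulOpposite.op r • m) = MulOpposite.op r • dMM π m + MulOpposite.op (Der580.D π r) • m :=
  dM_right π r m

theorem DS_mul (π : Par K) (x y : SA π) : DS π (x * y) = DS π x * y + x * DS π y := by
  apply TrivSqZeroExt.ext
  · rw [DS_fst, TrivSqZeroExt.fst_mul, Der580.D_mul, TrivSqZeroExt.fst_add,
      TrivSqZeroExt.fst_mul, TrivSqZeroExt.fst_mul, DS_fst, DS_fst]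
  · rw [DS_snd, TrivSqZeroExt.snd_mul, map_add, dMM_left, dMM_right, TrivSqZeroExt.snd_add,
      TrivSqZeroExt.snd_mul, TrivSqZeroExt.snd_mul, DS_fst, DS_fst, DS_snd, DS_snd]
    abel

theorem DS_DS (π : Par K) (x : SA π) : DS π (DS π x) = 0 := by
  apply TrivSqZeroExt.ext
  · exact Der580.D_D π _
  · exact dM_dM π _

/-! ### degrees -/

theorem tau_wd (π : Par K) (t : Tor K) (w : List Gen) :
    tau π t (wd π w) = (w.map (tw t)).prod • wd π w := by
  induction w with
  | nil => simp [wd]
  | cons a w ih =>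
    have e : wd π (a :: w) = X π a * wd π w := by simp [wd]
    rw [e, map_mul, ih, tau_X, smul_mul_assoc, mul_smul_comm, smul_smul, List.map_cons,
      List.prod_cons]

theorem tau_pc (π : Par K) (t : Tor K) {P : ℤ} {A C : ℕ} {r : R π} (hr : r ∈ pc π P A C) :
    tau π t r ∈ pc π P A C := by
  have h : pc π P A C ≤ (pc π P A C).comap (tau π t).toLinearMap := by
    apply Submodule.span_le.2
    rintro a ⟨w, h1, h2, h3, rfl⟩
    show tau π t (wd π w) ∈ pc π P A C
    rw [tau_wd]
    exact Submodule.smul_mem _ _ (Submodule.subset_span ⟨w, h1, h2, h3, rfl⟩)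
  exact h hr

theorem tau_pcZ (π : Par K) (t : Tor K) {P A C : ℤ} {r : R π} (hr : r ∈ pcZ π P A C) :
    tau π t r ∈ pcZ π P A C := by
  rcases pcZ_cases π hr with rfl | ⟨A1, C1, rfl, rfl, h⟩
  · rw [map_zero]; exact Submodule.zero_mem _
  · rw [pcZ_nat]
    exact tau_pc π t h

theorem pcZ_big (π : Par K) {P A C : ℤ} (h : 2 * A + 2 < C) : pcZ π P A C = ⊥ := by
  by_cases h1 : 0 ≤ A ∧ 0 ≤ C
  · rw [pcZ_of π h1]
    apply pc_big
    omega
  · exact pcZ_neg π (by omega)

/-- `s ↦ s · o_q` -/
def oM (π : Par K) (q : Wb) : R π →ₗ[K] MM π := evM π (oo K q)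

theorem oM_apply (π : Par K) (q : Wb) (r : R π) : oM π q r = repM π r (oo K q) := rfl

theorem smul_oM (π : Par K) (q : Wb) (r t : R π) : r • oM π q t = oM π q (r * t) :=
  repM_repM π r t _

theorem op_smul_oM (π : Par K) (q : Wb) (r t : R π) :
    MulOpposite.op r • oM π q t = oM π q (t * tau π (Tq π q) r) := rho_repM π t r q

theorem dMM_oM (π : Par K) (q : Wb) (t : R π) : dMM π (oM π q t) = oM π q (Der580.D π t) :=
  dM_repM π t q

/-- pieces of `M`, `kappa` of degree `(-1, 0, s)` -/
def pcM (π : Par K) (s : ℕ) (P A C : ℤ) : Submodule K (MM π) :=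
  ⨆ q : Wb, (pcZ π (P + 1) A (C - s + wC q.word)).map (oM π q)

theorem mem_pcM (π : Par K) (s : ℕ) {P A C C' : ℤ} {t : R π} (q : Wb) (ht : t ∈ pcZ π (P + 1) A C')
    (hC : C' = C - s + wC q.word) : oM π q t ∈ pcM π s P A C := by
  subst hC
  exact Submodule.mem_iSup_of_mem q (Submodule.mem_map_of_mem ht)

theorem pcM_ind (π : Par K) (s : ℕ) {P A C : ℤ} {Q : Submodule K (MM π)}
    (h : ∀ (q : Wb) (t : R π), t ∈ pcZ π (P + 1) A (C - s + wC q.word) → oM π q t ∈ Q) :
    pcM π s P A C ≤ Q := by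
  refine iSup_le fun q => ?_
  rintro _ ⟨t, ht, rfl⟩
  exact h q t ht

theorem pcM_left (π : Par K) (s : ℕ) {P A C P' A' C' : ℤ} {r : R π} {m : MM π}
    (hr : r ∈ pcZ π P A C) (hm : m ∈ pcM π s P' A' C') :
    r • m ∈ pcM π s (P + P') (A + A') (C + C') := by
  have h : pcM π s P' A' C' ≤ (pcM π s (P + P') (A + A') (C + C')).comap
      ((Module.toModuleEnd K (S := R π) (MM π)) r) := by
    apply pcM_ind
    intro q t ht
    show r • oM π q t ∈ pcM π s (P + P') (A + A') (C + C')
    rw [smul_oM]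
    refine mem_pcM π s q (C' := C + (C' - s + wC q.word)) ?_ (by ring)
    have := pcZ_mul π hr ht
    rwa [show P + (P' + 1) = P + P' + 1 by ring] at this
  exact h hm

theorem pcM_right (π : Par K) (s : ℕ) {P A C P' A' C' : ℤ} {r : R π} {m : MM π}
    (hm : m ∈ pcM π s P A C) (hr : r ∈ pcZ π P' A' C') :
    MulOpposite.op r • m ∈ pcM π s (P + P') (A + A') (C + C') := by
  have h : pcM π s P A C ≤ (pcM π s (P + P') (A + A') (C + C')).comap (rho π r) := by
    apply pcM_ind
    intro q t ht
    show MulOpposite.op r • oM π q t ∈ pcM π s (P + P') (A + A') (C + C')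
    rw [op_smul_oM]
    refine mem_pcM π s q (C' := C - s + wC q.word + C') ?_ (by ring)
    have := pcZ_mul π ht (tau_pcZ π (Tq π q) hr)
    rwa [show P + 1 + P' = P + P' + 1 by ring] at this
  exact h hm

theorem pcM_D (π : Par K) (s : ℕ) {P A C : ℤ} {m : MM π} (hm : m ∈ pcM π s P A C) :
    dMM π m ∈ pcM π s P A (C - 1) := by
  have h : pcM π s P A C ≤ (pcM π s P A (C - 1)).comap (dMM π) := by
    apply pcM_ind
    intro q t ht
    show dMM π (oM π q t) ∈ pcM π s P A (C - 1)
    rw [dMM_oM]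
    exact mem_pcM π s q (pcZ_D π ht) (by ring)
  exact h hm

theorem pcM_bot (π : Par K) (s : ℕ) {P A C : ℤ}
    (h : ∀ q : Wb, pcZ π (P + 1) A (C - s + wC q.word) = ⊥) : pcM π s P A C = ⊥ := by
  rw [eq_bot_iff]
  apply pcM_ind
  intro q t ht
  rw [h q] at ht
  rw [(Submodule.mem_bot K).1 ht, map_zero]
  exact Submodule.zero_mem _

instance finM (π : Par K) (s : ℕ) (P A C : ℤ) : Module.Finite K (pcM π s P A C) := by
  unfold pcM
  infer_instance

/-- pieces of `S` -/
def pcS (π : Par K) (s : ℕ) (P A C : ℤ) : Submodule K (SA π) where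
  carrier := {x | x.fst ∈ pcZ π P A C ∧ x.snd ∈ pcM π s P A C}
  add_mem' := by
    rintro x y ⟨h1, h2⟩ ⟨h3, h4⟩
    exact ⟨Submodule.add_mem _ h1 h3, Submodule.add_mem _ h2 h4⟩
  zero_mem' := ⟨Submodule.zero_mem _, Submodule.zero_mem _⟩
  smul_mem' := by
    rintro c x ⟨h1, h2⟩
    exact ⟨Submodule.smul_mem _ c h1, Submodule.smul_mem _ c h2⟩


theorem inl_mem (π : Par K) (s : ℕ) {P A C : ℤ} {r : R π} (h : r ∈ pcZ π P A C) :
    (TrivSqZeroExt.inl r : SA π) ∈ pcS π s P A C := ⟨h, Submodule.zero_mem _⟩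

theorem inr_mem (π : Par K) (s : ℕ) {P A C : ℤ} {m : MM π} (h : m ∈ pcM π s P A C) :
    (TrivSqZeroExt.inr m : SA π) ∈ pcS π s P A C := ⟨Submodule.zero_mem _, h⟩

theorem pcS_mul (π : Par K) (s : ℕ) {P A C P' A' C' : ℤ} {x y : SA π} (hx : x ∈ pcS π s P A C)
    (hy : y ∈ pcS π s P' A' C') : x * y ∈ pcS π s (P + P') (A + A') (C + C') := by
  refine ⟨?_, ?_⟩
  · rw [TrivSqZeroExt.fst_mul]
    exact pcZ_mul π hx.1 hy.1
  · rw [TrivSqZeroExt.snd_mul]
    exact Submodule.add_mem _ (pcM_left π s hx.1 hy.2) (pcM_right π s hx.2 hy.1)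

theorem pcS_bot (π : Par K) (s : ℕ) {P A C : ℤ} (h1 : pcZ π P A C = ⊥) (h2 : pcM π s P A C = ⊥) :
    pcS π s P A C = ⊥ := by
  rw [eq_bot_iff]
  rintro x ⟨hx, hy⟩
  rw [h1] at hx
  rw [h2] at hy
  rw [Submodule.mem_bot]
  exact TrivSqZeroExt.ext ((Submodule.mem_bot K).1 hx) ((Submodule.mem_bot K).1 hy)

/-- `K`-linear inclusions -/
def inlK (π : Par K) : R π →ₗ[K] SA π where
  toFun r := TrivSqZeroExt.inl r
  map_add' a b := TrivSqZeroExt.inl_add _ a b
  map_smul' c a := TrivSqZeroExt.inl_smul _ c a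

def inrK (π : Par K) : MM π →ₗ[K] SA π where
  toFun m := TrivSqZeroExt.inr m
  map_add' a b := TrivSqZeroExt.inr_add _ a b
  map_smul' c a := TrivSqZeroExt.inr_smul _ c a

theorem pcS_eq (π : Par K) (s : ℕ) (P A C : ℤ) :
    pcS π s P A C = (pcZ π P A C).map (inlK π) ⊔ (pcM π s P A C).map (inrK π) := by
  apply le_antisymm
  · rintro x ⟨h1, h2⟩
    have : x = inlK π x.fst + inrK π x.snd := (TrivSqZeroExt.inl_fst_add_inr_snd_eq x).symm
    rw [this]
    exact Submodule.add_mem_sup (Submodule.mem_map_of_mem h1) (Submodule.mem_map_of_mem h2)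
  · apply sup_le
    · rintro _ ⟨r, hr, rfl⟩
      exact inl_mem π s hr
    · rintro _ ⟨m, hm, rfl⟩
      exact inr_mem π s hm

instance finS (π : Par K) (s : ℕ) (P A C : ℤ) : Module.Finite K (pcS π s P A C) := by
  rw [pcS_eq]
  infer_instance

/-- **window data of `S = R'' (+) M`**, `kappa` in degree `-s`, `2 ≤ s` -/
def WS (π : Par K) (s : ℕ) (hs : 2 ≤ s) : WD K where
  S := SA π
  two x := TrivSqZeroExt.ext (Der580.add_self π _) (MM_two π _)
  pc := pcS π s
  one_mem := ⟨pcZ_one π, Submodule.zero_mem _⟩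
  mul_mem := pcS_mul π s
  D := DS π
  D_mul := DS_mul π
  D_D := DS_DS π
  D_mem h := ⟨pcZ_D π h.1, pcM_D π s h.2⟩
  Ob := DefsQ830.Ob
  P o := (o.1.val : ℤ)
  A o := (o.2.val : ℤ)
  N := 8 + s
  neg i j C hC := by
    apply pcS_bot
    · exact pcZ_neg π (Or.inr hC)
    · apply pcM_bot
      intro q
      have := wC_word_le q
      exact pcZ_neg π (Or.inr (by omega))
  big i j C hC := by
    have hi := i.2.2
    have hj := j.2.2
    push_cast at hC
    apply pcS_bot
    · apply pcZ_big
      omega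
    · apply pcM_bot
      intro q
      apply pcZ_big
      omega
  fin i j C := inferInstance

/-- the strict dg algebra `Gamma` -/
def Gam (π : Par K) (s : ℕ) (hs : 2 ≤ s) : Hat827.DGA K := (WS π s hs).dga

end Crest.Agent.R186.SM890
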