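import Crest.Agent.R186.PBWr_128
import Crest.Agent.R186.Der_580

-- ▼ part R186/MRep_890
section

/-!
Row 186, half (A) (helper890), part 1: the left `R''`-module `M_0 = R'' (x)_W DW` of 307 #26324 in
coordinates. Basis `bv i j k w q` = `x_0^i x_1^j h^k w o_q`, `q : Wb` (the dual basis of `W`).
`repM π : R π →ₐ[K] Module.End K (N K)`.
-/

set_option autoImplicit false

noncomputable section

namespace Crest.Agent.R186.SM890

open Crest.Agent.R186.DefsQ830 Crest.Agent.R186.PBW128

variable {K : Type} [Field K]

/-- target of the left action `y · o_q` -/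
def dt : Y → Wb → Wb
  | .y 0, .pi => .y 1
  | .y 1, .pi => .y 0
  | _, _ => .one

/-- coefficient of the left action `y · o_q` -/
def dk (π : Par K) : Y → Wb → K
  | .y 0, .pi => π.p
  | .y 1, .pi => 1
  | .y s, .y t => if s = t then 1 else 0
  | .yb s, .yb t => if s = t then 1 else 0
  | _, _ => 0

/-- left action of a `W`-letter -/
def opD (π : Par K) (a : Y) : N K →ₗ[K] N K :=
  Finsupp.linearCombination K (fun ν : Ix =>
    (sc π a ν.1 ν.2.1 ν.2.2.2.1 * dk π a ν.2.2.2.2) •
      bv K ν.1 ν.2.1 ν.2.2.1 ν.2.2.2.1 (dt a ν.2.2.2.2))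

@[simp] theorem opD_bv (π : Par K) (a : Y) (i j k : ℕ) (w : List E) (q : Wb) :
    opD π a (bv K i j k w q) = (sc π a i j w * dk π a q) • bv K i j k w (dt a q) := by
  simp [opD, bv]

theorem DX0 (π : Par K) (a : Y) (n : N K) :
    opD π a (opX0 K n) = (π.c 0)⁻¹ • opX0 K (opD π a n) := by
  have : (opD π a) ∘ₗ (opX0 K) = (π.c 0)⁻¹ • ((opX0 K) ∘ₗ (opD π a)) := by
    apply ext_bv
    intro i j k w q
    simp only [LinearMap.comp_apply, LinearMap.smul_apply, opX0_bv, opD_bv, map_smul, smul_smul, sc]
    congr 1
    ring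
  exact LinearMap.congr_fun this n

theorem DX1 (π : Par K) (a : Y) (n : N K) :
    opD π a (opX1 K n) = (π.c 1)⁻¹ • opX1 K (opD π a n) := by
  have : (opD π a) ∘ₗ (opX1 K) = (π.c 1)⁻¹ • ((opX1 K) ∘ₗ (opD π a)) := by
    apply ext_bv
    intro i j k w q
    simp only [LinearMap.comp_apply, LinearMap.smul_apply, opX1_bv, opD_bv, map_smul, smul_smul, sc]
    congr 1
    ring
  exact LinearMap.congr_fun this n

theorem DH (π : Par K) (a : Y) (n : N K) : opD π a (opH K n) = opH K (opD π a n) := by
  have : (opD π a) ∘ₗ (opH K) = (opH K) ∘ₗ (opD π a) := by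
    apply ext_bv
    intro i j k w q
    simp only [LinearMap.comp_apply, opH_bv, opD_bv, map_smul]
  exact LinearMap.congr_fun this n

theorem DA1 (π : Par K) (a : Y) (k : ℕ) (w : List E) (q : Wb) (j i : ℕ) (l : E) :
    opD π a (A1 π k w q j i l) = (chi π a l * (sc π a i j w * dk π a q)) • A1 π k w (dt a q) j i l := by
  induction i generalizing l with
  | zero =>
    show opD π a (A0 π k w q j l) = (chi π a l * (sc π a 0 j w * dk π a q)) • A0 π k w (dt a q) j l
    induction j generalizing l with
    | zero =>
      simp only [A0, opD_bv, sc, pow_zero, List.map_cons, List.prod_cons]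
      congr 1
      ring
    | succ j ih =>
      simp only [A0, map_add, map_smul, DX1, DX0, ih, smul_add, smul_smul, opD_bv, sc, pow_zero, pow_succ,
        one_mul]
      have h2 := k2 π a l
      have h3 := k3 π a l
      congr 1
      · congr 1
        · congr 1; ring
        · congr 1
          linear_combination (-(π.c 1)⁻¹ ^ j * (w.map (chi π a)).prod * dk π a q) * h2
      · congr 1
        linear_combination (-(π.c 1)⁻¹ ^ j * (w.map (chi π a)).prod * dk π a q) * h3
  | succ i ih =>
    simp only [A1, map_add, map_smul, DX0, ih, smul_add, smul_smul, opD_bv, sc, pow_succ]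
    have h1 := k1 π a l
    congr 1
    · congr 1; ring
    · congr 1
      linear_combination (-(π.c 0)⁻¹ ^ i * (π.c 1)⁻¹ ^ j * (w.map (chi π a)).prod * dk π a q) * h1

theorem DL (π : Par K) (a : Y) (l : E) (n : N K) :
    opD π a (opL π l n) = chi π a l • opL π l (opD π a n) := by
  have : (opD π a) ∘ₗ (opL π l) = chi π a l • ((opL π l) ∘ₗ (opD π a)) := by
    apply ext_bv
    intro i j k w q
    simp only [LinearMap.comp_apply, LinearMap.smul_apply, opL_bv, opD_bv, map_smul, DA1, smul_smul]
  exact LinearMap.congr_fun this n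

/-- operators of the generators on `M_0` -/
def opM (π : Par K) : Gen → Module.End K (N K)
  | .y s => opD π (.y s)
  | .yb s => opD π (.yb s)
  | a => op π a

theorem opM_toGen (π : Par K) (l : E) : opM π l.toGen = opL π l := by cases l <;> rfl

theorem opM_ytoGen (π : Par K) (a : Y) : opM π a.toGen = opD π a := by cases a <;> rfl

theorem XD0 (π : Par K) (a : Y) (n : N K) : opX0 K (opD π a n) = π.c 0 • opD π a (opX0 K n) := by
  have h0 : π.c 0 ≠ 0 := by simp [Par.c, π.g0]
  rw [DX0, smul_smul, mul_inv_cancel₀ h0, one_smul]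

theorem XD1 (π : Par K) (a : Y) (n : N K) : opX1 K (opD π a n) = π.c 1 • opD π a (opX1 K n) := by
  have h0 : π.c 1 ≠ 0 := by simp [Par.c, π.g0]
  rw [DX1, smul_smul, mul_inv_cancel₀ h0, one_smul]

theorem DD0 (π : Par K) (a b : Y) (h : ∀ q, dk π b q * dk π a (dt b q) = 0) (n : N K) :
    opD π a (opD π b n) = 0 := by
  have : (opD π a) ∘ₗ (opD π b) = 0 := by
    apply ext_bv
    intro i j k w q
    simp only [LinearMap.comp_apply, opD_bv, map_smul, smul_smul, LinearMap.zero_apply]
    have := h q
    have h2 : sc π b i j w * dk π b q * (sc π a i j w * dk π a (dt b q)) = 0 := by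
      linear_combination (sc π b i j w * sc π a i j w) * this
    rw [h2, zero_smul]
  exact LinearMap.congr_fun this n

theorem D10 (π : Par K) (n : N K) :
    opD π (.y 1) (opD π (.y 0) n) = π.p • opD π (.y 0) (opD π (.y 1) n) := by
  have : (opD π (.y 1)) ∘ₗ (opD π (.y 0)) = π.p • ((opD π (.y 0)) ∘ₗ (opD π (.y 1))) := by
    apply ext_bv
    intro i j k w q
    simp only [LinearMap.comp_apply, LinearMap.smul_apply, opD_bv, map_smul, smul_smul]
    have hs : sc π (.y 1) i j w = sc π (.y 0) i j w := rfl
    rw [hs]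
    cases q with
    | one => simp [dk]
    | y s => rcases fin2 s with rfl | rfl <;> simp [dk, dt]
    | yb s => simp [dk]
    | pi => simp [dk, dt]; ring_nf
  exact LinearMap.congr_fun this n

theorem lift_relM (π : Par K) {a b : F K} (h : Rel π a b) :
    FreeAlgebra.lift K (opM π) a = FreeAlgebra.lift K (opM π) b := by
  have hg := π.g0
  cases h <;> apply LinearMap.ext <;> intro n <;>
    simp only [L, map_mul, map_smul, map_add, FreeAlgebra.lift_ι_apply, Module.End.mul_apply,
      LinearMap.add_apply, LinearMap.smul_apply, map_zero, LinearMap.zero_apply]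
  case xx => exact X0X1 n
  case hc a =>
    cases a with
    | x i => rcases fin2 i with rfl | rfl
             · exact (X0H n).symm
             · exact (X1H n).symm
    | h => rfl
    | y s => exact (DH π _ n).symm
    | yb s => exact (DH π _ n).symm
    | _ => exact (LH π _ n).symm
  case x0d0 =>
    show opX0 K (opL π (.d 0) n) = opH K n + π.g • opL π (.d 0) (opX0 K n)
    rw [LX0]
    simp only [al, th, if_true, smul_add, smul_smul]
    match_scalars <;> field_simp <;> ring
  case x0d1 =>
    show opX0 K (opL π (.d 1) n) = π.g • opL π (.d 1) (opX0 K n)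
    exact XL0 π _ _ (by simp [al, hg]) (by simp [th]) n
  case x1d0 =>
    show opX1 K (opL π (.d 0) n) = opL π (.d 0) (opX1 K n)
    have := XL1 π (.d 0) 1 (by simp [be]) (by simp [ga]) (by simp [et]) n
    rw [this, one_smul]
  case x1d1 =>
    show opX1 K (opL π (.d 1) n) = opH K n + π.g • opL π (.d 1) (opX1 K n)
      + (π.g - 1) • opL π (.d 0) (opX0 K n)
    rw [LX0, LX1]
    have h10 : (1 : Fin 2) ≠ 0 := by decide
    simp only [al, th, be, ga, et, PBW128.mt, h10, if_true, if_false, smul_add, smul_smul]
    match_scalars <;> field_simp <;> ring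
  case xf i =>
    rcases fin2 i with rfl | rfl
    · exact XL0 π .f _ (by simp [al, Par.c, hg]) (by simp [th]) n
    · exact XL1 π .f _ (by simp [be, Par.c, hg]) (by simp [ga]) (by simp [et]) n
  case xz i j =>
    rcases fin2 i with rfl | rfl
    · exact XL0 π (.z j) _ (by simp [al, Par.c, hg]) (by simp [th]) n
    · exact XL1 π (.z j) _ (by simp [be, Par.c, hg]) (by simp [ga]) (by simp [et]) n
  case xzc i =>
    rcases fin2 i with rfl | rfl
    · exact XL0 π .zc _ (by simp [al, Par.c, hg]) (by simp [th]) n
    · exact XL1 π .zc _ (by simp [be, Par.c, hg]) (by simp [ga]) (by simp [et]) n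
  case xu i t =>
    rcases fin2 i with rfl | rfl
    · exact XL0 π (.u t) _ (by simp [al, Par.c, hg]) (by simp [th]) n
    · exact XL1 π (.u t) _ (by simp [be, Par.c, hg]) (by simp [ga]) (by simp [et]) n
  case x0e j => exact XL0 π (.e j) _ (by simp [al, hg]) (by simp [th]) n
  case x1e0 => exact XL1 π (.e 0) _ (by simp [be, hg]) (by simp [ga]) (by simp [et]) n
  case x1e1 =>
    show opX1 K (opL π (.e 1) n) = π.g ^ 2 • opL π (.e 1) (opX1 K n)
      + (π.g * (π.g - 1)) • opL π (.e 0) (opX0 K n)
    rw [LX0, LX1]
    have h10 : (1 : Fin 2) ≠ 0 := by decide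
    simp only [al, th, be, ga, et, PBW128.mt, h10, if_false, smul_add, smul_smul, zero_smul, add_zero]
    match_scalars <;> field_simp <;> ring
  case xgj i j =>
    rcases fin2 i with rfl | rfl
    · exact XL0 π (.gj j) _ (by simp [al, Par.c, hg, ← pow_mul]) (by simp [th]) n
    · exact XL1 π (.gj j) _ (by simp [be, Par.c, hg]) (by simp [ga]) (by simp [et]) n
  case xgc i =>
    rcases fin2 i with rfl | rfl
    · exact XL0 π .gc _ (by simp [al, Par.c, hg, ← pow_mul]) (by simp [th]) n
    · exact XL1 π .gc _ (by simp [be, Par.c, hg]) (by simp [ga]) (by simp [et]) n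
  case xv i t =>
    rcases fin2 i with rfl | rfl
    · refine XL0 π (.v t) _ ?_ (by simp [th]) n
      simp only [al, Par.c, if_true]; field_simp
    · refine XL1 π (.v t) _ ?_ (by simp [ga]) (by simp [et]) n
      have h10 : (1 : Fin 2) ≠ 0 := by decide
      simp only [be, Par.c, h10, if_false]; field_simp
  case xy i t =>
    rcases fin2 i with rfl | rfl
    · exact XD0 π _ n
    · exact XD1 π _ n
  case xyb i t =>
    rcases fin2 i with rfl | rfl
    · exact XD0 π _ n
    · exact XD1 π _ n
  case yf t => exact (DL π (.y t) .f n).trans (one_smul _ _)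
  case ybf t => exact (DL π (.yb t) .f n).trans (one_smul _ _)
  case yzc t => exact (DL π (.y t) .zc n).trans (one_smul _ _)
  case ybzc t => exact (DL π (.yb t) .zc n).trans (one_smul _ _)
  case ygc t => exact (DL π (.y t) .gc n).trans (one_smul _ _)
  case ybgc t => exact (DL π (.yb t) .gc n).trans (one_smul _ _)
  case yy t =>
    refine DD0 π _ _ ?_ n
    intro q
    rcases fin2 t with rfl | rfl <;> cases q <;> simp [dk, dt]
  case y10 => exact D10 π n
  case yyb t t' =>
    refine DD0 π _ _ ?_ n
    intro q
    cases q <;> simp [dk, dt]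
  case yby t t' =>
    refine DD0 π _ _ ?_ n
    intro q
    rcases fin2 t' with rfl | rfl <;> cases q <;> simp [dk, dt]
  case ybyb t t' =>
    refine DD0 π _ _ ?_ n
    intro q
    cases q <;> simp [dk, dt]
  all_goals first
    | exact DL π _ _ n

/-- the left `R''`-module `M_0` in coordinates -/
def repM (π : Par K) : R π →ₐ[K] Module.End K (N K) :=
  RingQuot.liftAlgHom K ⟨FreeAlgebra.lift K (opM π), fun _ _ h => lift_relM π h⟩

@[simp] theorem repM_mk (π : Par K) (a : F K) : repM π (mk π a) = FreeAlgebra.lift K (opM π) a := by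
  simp [repM, mk]

@[simp] theorem repM_X (π : Par K) (a : Gen) : repM π (X π a) = opM π a := by
  simp [X, L]

theorem repM_x0 (π : Par K) : repM π (X π (.x 0)) = opX0 K := by simp [opM, op]
theorem repM_x1 (π : Par K) : repM π (X π (.x 1)) = opX1 K := by simp [opM, op]
theorem repM_h (π : Par K) : repM π (X π .h) = opH K := by simp [opM, op]
theorem repM_E (π : Par K) (l : E) : repM π (X π l.toGen) = opL π l := by
  rw [repM_X, opM_toGen]
theorem repM_Y (π : Par K) (a : Y) : repM π (X π a.toGen) = opD π a := by
  rw [repM_X, opM_ytoGen]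

variable (K) in
/-- `o_q` -/
def oo (q : Wb) : N K := bv K 0 0 0 [] q

/-- the `W`-free part of a normal element -/
def nf1 (π : Par K) (i j k : ℕ) (w : List E) : R π := nf π (i, j, k, w, .one)

theorem nf1_def (π : Par K) (i j k : ℕ) (w : List E) :
    nf1 π i j k w = X π (.x 0) ^ i * (X π (.x 1) ^ j * (X π .h ^ k * we π w)) := by
  simp [nf1, nf, wq_one, mul_assoc]

theorem nf_eq (π : Par K) (i j k : ℕ) (w : List E) (q : Wb) :
    nf π (i, j, k, w, q) = nf1 π i j k w * wq π q := by
  simp [nf1, nf, wq_one, mul_assoc]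

theorem repM_we (π : Par K) (w : List E) (k : ℕ) (q : Wb) :
    repM π (we π w) (bv K 0 0 0 [] q) = bv K 0 0 0 w q := by
  induction w with
  | nil => simp [we_nil]
  | cons l w ih =>
    rw [we_cons, map_mul, Module.End.mul_apply, ih, repM_E, opL_bv00]


theorem it_X0 (i i' j k : ℕ) (w : List E) (q : Wb) :
    (opX0 K)^[i] (bv K i' j k w q) = bv K (i' + i) j k w q := by
  induction i generalizing i' with
  | zero => rfl
  | succ i ih => rw [Function.iterate_succ_apply, opX0_bv, ih]; congr 1; omega

theorem it_X1 (i j j' k : ℕ) (w : List E) (q : Wb) :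
    (opX1 K)^[j] (bv K i j' k w q) = bv K i (j' + j) k w q := by
  induction j generalizing j' with
  | zero => rfl
  | succ j ih => rw [Function.iterate_succ_apply, opX1_bv, ih]; congr 1; omega

theorem it_H (i j k k' : ℕ) (w : List E) (q : Wb) :
    (opH K)^[k] (bv K i j k' w q) = bv K i j (k' + k) w q := by
  induction k generalizing k' with
  | zero => rfl
  | succ k ih => rw [Function.iterate_succ_apply, opH_bv, ih]; congr 1; omega

/-- basis elements of `M_0` are `nf1 · o_q` -/
theorem repM_nf1 (π : Par K) (i j k : ℕ) (w : List E) (q : Wb) :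
    repM π (nf1 π i j k w) (oo K q) = bv K i j k w q := by
  rw [nf1_def, map_mul, map_mul, map_mul, Module.End.mul_apply, Module.End.mul_apply,
    Module.End.mul_apply, oo, repM_we π w 0 q, map_pow, map_pow, map_pow, repM_x0, repM_x1, repM_h,
    Module.End.pow_apply, Module.End.pow_apply, Module.End.pow_apply, it_H, it_X1, it_X0]
  simp

end Crest.Agent.R186.SM890
end
private theorem rz_3b2d156ba8 : type_of% @_root_.Crest.Agent.R186.SM890.dk.eq_1 := @_root_.Crest.Agent.R186.SM890.dk.eq_1 -- L26
private theorem rz_e30b28f3db : type_of% @_root_.Crest.Agent.R186.SM890.dt.eq_1 := @_root_.Crest.Agent.R186.SM890.dt.eq_1 -- L20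
private theorem rz_8538a163ca : type_of% @_root_.Crest.Agent.R186.SM890.opM.eq_1 := @_root_.Crest.Agent.R186.SM890.opM.eq_1 -- L109
end

-- ▼ part R186/Tau_890

/-!
Row 186, half (A) (helper890), part 2: the diagonal automorphisms `tau` of the dg algebra `R''`
(`o_q · r = tau_q(r) · o_q`), and `tau ∘ D = D ∘ tau`.
-/

set_option autoImplicit false

noncomputable section

namespace Crest.Agent.R186.SM890

open DefsQ830 DefsQ830.Gen Der580

variable {K : Type} [Field K]

variable (K) in
/-- a point of the torus -/
structure Tor where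
  a0 : K
  a1 : K
  b : K
  h0 : a0 ≠ 0
  h1 : a1 ≠ 0
  hb : b ≠ 0

/-- weights of the letters -/
def tw (t : Tor K) : Gen → K
  | .x i => if i = 0 then t.a0 else t.a1
  | .h => 1
  | .d j => if j = 0 then t.a0⁻¹ else t.a1⁻¹
  | .f => 1
  | .z j => if j = 0 then t.a1⁻¹ else t.a0⁻¹
  | .zc => 1
  | .u s => sg t.b s
  | .e j => if j = 0 then t.a0⁻¹ else t.a1⁻¹
  | .gj j => if j = 0 then t.a1⁻¹ else t.a0⁻¹
  | .gc => 1
  | .v s => sg t.b s
  | .y s => sg t.b s
  | .yb s => sg t.b s

theorem tw_ne (t : Tor K) (a : Gen) : tw t a ≠ 0 := by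
  have h0 := t.h0
  have h1 := t.h1
  have hb := t.hb
  cases a <;> simp only [tw, sg] <;> (try split) <;> simp [h0, h1, hb]

/-- scaled letters -/
def tl (π : Par K) (t : Tor K) (a : Gen) : R π := tw t a • X π a

macro "unT" : tactic => `(tactic| simp only [L, map_mul, map_smul, map_add, FreeAlgebra.lift_ι_apply,
    map_zero, tl, tw, if_true, if_false, one_ne_zero, DefsQ830.sg, hs_zero, hs_one])

set_option maxHeartbeats 4000000 in
theorem lift_relT (π : Par K) (t : Tor K) {a b : F K} (hab : Rel π a b) :
    FreeAlgebra.lift K (tl π t) a = FreeAlgebra.lift K (tl π t) b := by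
  have : CharP K 2 := CharTwo.of_one_ne_zero_of_two_eq_zero one_ne_zero π.two
  have g0 := π.g0
  have p0 := π.p0
  have q10 := π.q10
  have q20 := π.q20
  have h0 := t.h0
  have h1 := t.h1
  have hb := t.hb
  cases hab with
  | xx => unT; all_goals (try idR)
  | hc a =>
    simp only [L, map_mul, FreeAlgebra.lift_ι_apply, tl, smul_mul_smul_comm]
    rw [h_comm, mul_comm (tw t h)]
  | x0d0 => unT; all_goals (try idR)
  | x0d1 => unT; all_goals (try idR)
  | x1d0 => unT; all_goals (try idR)
  | x1d1 => unT; all_goals (try idR)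
  | xf i =>
    revert i
    fin2 <;> (unT; all_goals (try idR))
  | xz i j =>
    revert i j
    fin2 <;> (unT; all_goals (try idR))
  | xzc i =>
    revert i
    fin2 <;> (unT; all_goals (try idR))
  | xu i s =>
    revert i s
    fin2 <;> (unT; all_goals (try idR))
  | x0e j =>
    revert j
    fin2 <;> (unT; all_goals (try idR))
  | x1e0 => unT; all_goals (try idR)
  | x1e1 => unT; all_goals (try idR)
  | xgj i j =>
    revert i j
    fin2 <;> (unT; all_goals (try idR))
  | xgc i =>
    revert i
    fin2 <;> (unT; all_goals (try idR))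
  | xv i s =>
    revert i s
    fin2 <;> (unT; all_goals (try idR))
  | xy i s =>
    revert i s
    fin2 <;> (unT; all_goals (try idR))
  | xyb i s =>
    revert i s
    fin2 <;> (unT; all_goals (try idR))
  | yd j s =>
    revert j s
    fin2 <;> (unT; all_goals (try idR))
  | ybd j s =>
    revert j s
    fin2 <;> (unT; all_goals (try idR))
  | ye j s =>
    revert j s
    fin2 <;> (unT; all_goals (try idR))
  | ybe j s =>
    revert j s
    fin2 <;> (unT; all_goals (try idR))
  | yz j s =>
    revert j s
    fin2 <;> (unT; all_goals (try idR))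
  | ybz j s =>
    revert j s
    fin2 <;> (unT; all_goals (try idR))
  | ygj j s =>
    revert j s
    fin2 <;> (unT; all_goals (try idR))
  | ybgj j s =>
    revert j s
    fin2 <;> (unT; all_goals (try idR))
  | yf s =>
    revert s
    fin2 <;> (unT; all_goals (try idR))
  | ybf s =>
    revert s
    fin2 <;> (unT; all_goals (try idR))
  | yzc s =>
    revert s
    fin2 <;> (unT; all_goals (try idR))
  | ybzc s =>
    revert s
    fin2 <;> (unT; all_goals (try idR))
  | ygc s =>
    revert s
    fin2 <;> (unT; all_goals (try idR))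
  | ybgc s =>
    revert s
    fin2 <;> (unT; all_goals (try idR))
  | yu s s' =>
    revert s s'
    fin2 <;> (unT; all_goals (try idR))
  | ybu s s' =>
    revert s s'
    fin2 <;> (unT; all_goals (try idR))
  | yv s s' =>
    revert s s'
    fin2 <;> (unT; all_goals (try idR))
  | ybv s s' =>
    revert s s'
    fin2 <;> (unT; all_goals (try idR))
  | yy s =>
    revert s
    fin2 <;> (unT; all_goals (try idR))
  | y10 => unT; all_goals (try idR)
  | yyb s s' =>
    revert s s'
    fin2 <;> (unT; all_goals (try idR))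
  | yby s s' =>
    revert s s'
    fin2 <;> (unT; all_goals (try idR))
  | ybyb s s' =>
    revert s s'
    fin2 <;> (unT; all_goals (try idR))

/-- the diagonal automorphism -/
def tau (π : Par K) (t : Tor K) : R π →ₐ[K] R π :=
  RingQuot.liftAlgHom K ⟨FreeAlgebra.lift K (tl π t), fun _ _ h => lift_relT π t h⟩

@[simp] theorem tau_mk (π : Par K) (t : Tor K) (a : F K) :
    tau π t (mk π a) = FreeAlgebra.lift K (tl π t) a := by
  simp [tau, mk]

@[simp] theorem tau_X (π : Par K) (t : Tor K) (a : Gen) : tau π t (X π a) = tw t a • X π a := by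
  simp [X, L, tl]

set_option maxHeartbeats 4000000 in
theorem tau_dGen (π : Par K) (t : Tor K) (a : Gen) :
    tau π t (mk π (dGen π a)) = tw t a • mk π (dGen π a) := by
  have : CharP K 2 := CharTwo.of_one_ne_zero_of_two_eq_zero one_ne_zero π.two
  have g0 := π.g0
  have p0 := π.p0
  have q10 := π.q10
  have q20 := π.q20
  have h0 := t.h0
  have h1 := t.h1
  have hb := t.hb
  cases a with
  | x i => simp only [dGen, map_zero, smul_zero]
  | h => simp only [dGen, map_zero, smul_zero]
  | d j => simp only [dGen, map_zero, smul_zero]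
  | f => simp only [dGen, map_zero, smul_zero]
  | y s => simp only [dGen, map_zero, smul_zero]
  | yb s => simp only [dGen, map_zero, smul_zero]
  | zc =>
    simp only [dGen, tF, rF, rhoF, map_mul, map_add, map_smul, mk_L, tau_X, tw, if_true, if_false,
      one_ne_zero, DefsQ830.sg, hs_zero, hs_one]
    all_goals (try idR)
  | gc =>
    simp only [dGen, tF, rF, rhoF, map_mul, map_add, map_smul, mk_L, tau_X, tw, if_true, if_false,
      one_ne_zero, DefsQ830.sg, hs_zero, hs_one]
    all_goals (try idR)
  | z j =>
    revert j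
    fin2 <;> (
      simp only [dGen, tF, rF, rhoF, map_mul, map_add, map_smul, mk_L, tau_X, tw, if_true, if_false,
        one_ne_zero, DefsQ830.sg, hs_zero, hs_one]
      all_goals (try idR))
  | u j =>
    revert j
    fin2 <;> (
      simp only [dGen, tF, rF, rhoF, map_mul, map_add, map_smul, mk_L, tau_X, tw, if_true, if_false,
        one_ne_zero, DefsQ830.sg, hs_zero, hs_one]
      all_goals (try idR))
  | e j =>
    revert j
    fin2 <;> (
      simp only [dGen, tF, rF, rhoF, map_mul, map_add, map_smul, mk_L, tau_X, tw, if_true, if_false,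
        one_ne_zero, DefsQ830.sg, hs_zero, hs_one]
      all_goals (try idR))
  | gj j =>
    revert j
    fin2 <;> (
      simp only [dGen, tF, rF, rhoF, map_mul, map_add, map_smul, mk_L, tau_X, tw, if_true, if_false,
        one_ne_zero, DefsQ830.sg, hs_zero, hs_one]
      all_goals (try idR))
  | v j =>
    revert j
    fin2 <;> (
      simp only [dGen, tF, rF, rhoF, map_mul, map_add, map_smul, mk_L, tau_X, tw, if_true, if_false,
        one_ne_zero, DefsQ830.sg, hs_zero, hs_one]
      all_goals (try idR))

/-- `tau` commutes with the differential -/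
theorem tau_D (π : Par K) (t : Tor K) (r : R π) : tau π t (D π r) = D π (tau π t r) := by
  refine R_ind π (P := fun r => tau π t (D π r) = D π (tau π t r)) (fun c => ?_) (fun a => ?_)
    (fun a b h1 h2 => ?_) (fun a b h1 h2 => ?_) r
  · show tau π t (D π (algebraMap K (R π) c)) = D π (tau π t (algebraMap K (R π) c))
    rw [D_algebraMap, AlgHom.commutes, D_algebraMap, map_zero]
  · show tau π t (D π (X π a)) = D π (tau π t (X π a))
    rw [D_X, tau_dGen, tau_X, map_smul, D_X]
  · show tau π t (D π (a * b)) = D π (tau π t (a * b))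
    rw [D_mul, map_add, map_mul, map_mul, h1, h2, map_mul, D_mul]
  · show tau π t (D π (a + b)) = D π (tau π t (a + b))
    rw [map_add, map_add, h1, h2, map_add, map_add]

end Crest.Agent.R186.SM890
end
private theorem rz_098dd26173 : type_of% @_root_.Crest.Agent.R186.SM890.tw.eq_1 := @_root_.Crest.Agent.R186.SM890.tw.eq_1 -- L30
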