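import Crest.Agent.R186.V2c_510
import Crest.Agent.R186.RW2_171
import Crest.Agent.R186.RW5_171

-- ▼ part R186/V2p_510
section

/-!
Row 186, half (A), leaf (V2) (helper510): the module `DV_{-2}` (171's `Chr.DV`) over `Γ` has the form
asked by 339's `ac_of_win`: `PB (wdatG ..) T.DV`, `One T.DV`.
-/

set_option autoImplicit false
set_option linter.style.haveILetI false
set_option linter.unusedSectionVars false
set_option linter.unusedSimpArgs false
set_option linter.unusedVariables false

noncomputable section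

open MulOpposite

namespace Crest.Agent.R186.V2p510

open Hat827 Hat827.DGA Win810 Res255 KHev302 Frame515 RW171 V2c510

variable {K : Type} [Field K]

/-- `DV` is concentrated in degree `0` -/
theorem one_DV {w : WD K} {E : CE w} {S : RS E} (T : Chr S) : VT339.One T.DV where
  all p := T.mem_gV0 p
  bot k hk p hp := T.gV_ne hk hp

section gen

variable {w0 : WD K} (B : SExt44.BD w0) (L : Lt w0) {E : CE B.ext} {S : RS E} (T : Chr S)

/-- the character on the base algebra -/
def chi (r : w0.S) : K := T.χ (E.p (B.inl r))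

theorem chi_zero : chi B T 0 = 0 := by
  unfold chi
  rw [map_zero, map_zero, map_zero]

theorem chi_one : chi B T 1 = 1 := by
  unfold chi
  rw [map_one, map_one, T.χ_one]

/-- values -/
def val (f : T.Vd) : w0.Ob → K := f.1

variable {B T}

theorem val_ext {f g : T.Vd} (h : ∀ j, val B T f j = val B T g j) : f = g :=
  T.Vd_ext h

variable (hP : ∀ j : w0.Ob, w0.P j = S.p T.o ↔ ¬ L.r1 j)

include hP in
theorem supp (f : T.Vd) (j : w0.Ob) (hj : L.r1 j) : val B T f j = 0 :=
  f.2 j fun h => (hP j).1 h hj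

/-- an element with given values on the row `0` -/
def mk (c : w0.Ob → K) : T.Vd := ⟨fun (j : w0.Ob) => if L.r1 j then 0 else c j, by
  intro j hj
  have h1 : L.r1 (show w0.Ob from j) := by
    by_contra h
    exact hj ((hP j).2 h)
  exact if_pos h1⟩

theorem val_mk (c : w0.Ob → K) (j : w0.Ob) :
    val B T (mk L hP c) j = if L.r1 j then 0 else c j := rfl

/-- the number of a vertex of the row `0` -/
def nb (j : w0.Ob) (hj : ¬ L.r1 j) : Fin 4 := (L.cov j hj).choose

theorem nb_spec (j : w0.Ob) (hj : ¬ L.r1 j) : j = L.o (nb L j hj) := (L.cov j hj).choose_spec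

theorem nb_o (b : Fin 4) : nb L (L.o b) (L.o_r1 b) = b :=
  L.o_inj _ _ (nb_spec L (L.o b) (L.o_r1 b)).symm

/-- coordinates of `DV` -/
def eqv : T.Vd ≃ₗ[K] (Fin 4 → K) where
  toFun f b := val B T f (L.o b)
  map_add' _ _ := rfl
  map_smul' _ _ := rfl
  invFun c := mk L hP fun j => if hj : L.r1 j then 0 else c (nb L j hj)
  left_inv f := by
    refine val_ext fun j => ?_
    rw [val_mk]
    by_cases h : L.r1 j
    · rw [if_pos h]
      exact (supp L hP f j h).symm
    · rw [if_neg h, dif_neg h]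
      exact congrArg (val B T f) (nb_spec L j h).symm
  right_inv c := by
    funext b
    change val B T (mk L hP fun j => if hj : L.r1 j then 0 else c (nb L j hj)) (L.o b) = c b
    rw [val_mk, if_neg (L.o_r1 b), dif_neg (L.o_r1 b), nb_o]

/-- the basis of `DV` -/
def vB : Module.Basis (Fin 4) K T.Vd := Module.Basis.ofEquivFun (eqv L hP)

theorem vB_apply (b : Fin 4) (j : w0.Ob) :
    val B T (vB L hP b) j = if j = L.o b then 1 else 0 := by
  unfold vB
  rw [Module.Basis.coe_ofEquivFun]
  change val B T (mk L hP fun j => if hj : L.r1 j then 0 else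
    (Function.update (0 : Fin 4 → K) b 1) (nb L j hj)) j = _
  rw [val_mk]
  by_cases h : L.r1 j
  · rw [if_pos h, if_neg]
    rintro rfl
    exact L.o_r1 b h
  · rw [if_neg h, dif_neg h]
    by_cases h1 : j = L.o b
    · subst h1
      rw [if_pos rfl, nb_o, Function.update_self]
    · rw [if_neg h1, Function.update_of_ne]
      · rfl
      · intro h2
        exact h1 ((nb_spec L j h).trans (congrArg L.o h2))

theorem val_Rd (m : w0.Win) (f : T.Vd) (j : w0.Ob) :
    val B T (T.Rd (B.inlW m) f) j = ∑ i : w0.Ob, val B T f i * chi B T (m.1 i j) := rfl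

theorem Rd_v (m : w0.Win) (b : Fin 4) (j : w0.Ob) :
    val B T (T.Rd (B.inlW m) (vB L hP b)) j = chi B T (m.1 (L.o b) j) := by
  rw [val_Rd, Finset.sum_eq_single (L.o b)]
  · rw [vB_apply, if_pos rfl, one_mul]
  · intro i _ hi
    rw [vB_apply, if_neg hi, zero_mul]
  · intro h
    exact absurd (Finset.mem_univ _) h

theorem Rd_dg (x : w0.Ob → w0.S) (hx : ∀ o, x o ∈ w0.pc 0 0 0) (p : T.Vd) (j : w0.Ob) :
    val B T (T.Rd (B.inlW (dg x hx)) p) j = val B T p j * chi B T (x j) := by
  rw [val_Rd, Finset.sum_eq_single j]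
  · congr 2
    exact Matrix.diagonal_apply_eq _ _
  · intro i _ hi
    have h1 : (dg x hx).1 i j = 0 := Matrix.diagonal_apply_ne _ hi
    rw [h1, chi_zero, mul_zero]
  · intro h
    exact absurd (Finset.mem_univ _) h

/-- the inclusion as a map of dg algebras -/
def hmI (B : SExt44.BD w0) : Hm w0.dga B.ext.dga where
  f := B.inlW
  mem h := B.inlW_mem h
  D a := B.inlW_D a

theorem ve (b : Fin 4) : T.Rd (B.inlW (WD.e (L.o b))) (vB L hP b) = vB L hP b :=
  val_ext fun j => by
    rw [Rd_v, vB_apply, e_apply]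
    by_cases h : j = L.o b
    · rw [if_pos ⟨rfl, h.symm⟩, if_pos h, chi_one]
    · rw [if_neg (fun h' => h h'.2.symm), if_neg h, chi_zero]

theorem vH (hh : ∀ n : ℕ, chi B T (L.H n) = 1) (b b' : Fin 4) :
    T.Rd (B.inlW (L.hW b b')) (vB L hP b) = (if b' ≤ b then (1 : K) else 0) • vB L hP b' :=
  val_ext fun j => by
    rw [Rd_v]
    change _ = (if b' ≤ b then (1 : K) else 0) * val B T (vB L hP b') j
    rw [vB_apply]
    by_cases hb : b' ≤ b
    · rw [L.hW_apply b b' hb, if_pos hb, one_mul]
      by_cases h : j = L.o b'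
      · rw [if_pos ⟨rfl, h.symm⟩, if_pos h]
        exact hh _
      · rw [if_neg (fun h' => h h'.2.symm), if_neg h, chi_zero]
    · rw [L.hW_zero b b' hb, if_neg hb, zero_mul]
      exact chi_zero B T

/-- **`DV` in the form of `ac_of_win`** -/
def pbGen (onto : ∀ b ∈ B.ext.dga.G 0, ∃ a ∈ w0.dga.G 0, (hmI B).f a = b)
    (hh : ∀ n : ℕ, chi B T (L.H n) = 1)
    (hy : chi B T L.y = 0) : VT339.PB (L.w2.map (hmI B) onto).wdat T.DV where
  v := vB L hP
  v_e b := ve L hP b
  v_H b b' := vH L hP hh b b'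
  p_fs p := val_ext fun j => by
    refine (Rd_dg L.row L.row_mem p j).trans ?_
    change val B T p j * chi B T (L.row j) = 0
    unfold Lt.row
    by_cases h : L.r1 j
    · rw [supp L hP p j h, zero_mul]
    · rw [if_neg h, chi_zero, mul_zero]
  p_y p := val_ext fun j => by
    refine (Rd_dg (fun _ => L.y) (fun _ => L.y_mem) p j).trans ?_
    rw [hy, mul_zero]
    rfl

end gen

section conc

open DefsQ830 DefsQ830.Gen PBW128

variable (π : Par K) (s : ℕ) (hs : 2 ≤ s) {E : CE (SM890.bdM π s hs).ext} {S : RS E} (T : Chr S)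

/-- **`DV_{-2}` over `Γ` in the form of `ac_of_win`** -/
def pbDV (h0 : S.p T.o = 0) (h3 : 3 ≤ s)
    (hh : ∀ n : ℕ, T.χ (E.p ((SM890.bdM π s hs).inl (show R π from X π .h ^ n))) = 1)
    (hy : T.χ (E.p ((SM890.bdM π s hs).inl (X π (.y 0)))) = 0) :
    VT339.PB (wdatG π s hs h3) T.DV :=
  pbGen (B := SM890.bdM π s hs) (T := T) (ltR π) (fun j => by
    rw [h0]
    obtain ⟨i, b⟩ := j
    change (((i : Fin 2) : ℕ) : ℤ) = 0 ↔ ¬ (i : Fin 2) = 1
    rcases PBW128.fin2 i with rfl | rfl
    · simp
    · simp) (onto0 π s hs h3) hh hy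

end conc

end Crest.Agent.R186.V2p510
end
end

-- ▼ part R186/V2q_510

/-!
Row 186, half (A), leaf (V2) (helper510): `PB (wdatG ..) (DVs ..)`, `One (DVs ..)` for the official
`DV_{-2}` of helper171, and `(V2)`: `Ac (G ⊗ X)` from `Ac (DV_{-2} ⊗ X)` and 339's `HB`.
-/

set_option autoImplicit false
set_option linter.style.haveILetI false
set_option linter.unusedSectionVars false

noncomputable section

namespace Crest.Agent.R186.V2q510

open Hat827 Win810 DefsQ830 DefsQ830.Gen PBW128 Frame515 RW171 V2c510 V2p510 KHc302 WL221 CR989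

variable {K : Type} [Field K] (π : Par K) (s : ℕ) (hs : 5 ≤ s)

include hs in
theorem three_le : 3 ≤ s := by omega

/-- **`DV_{-2}` is concentrated in degree `0`** -/
theorem ones : VT339.One (DVs π s hs) := one_DV (chs π s hs)

theorem chis_h (n : ℕ) : (chs π s hs).χ ((CEbr247.ev (KHc302.CEr π s hs)).p
    ((SM890.bdM π s (two_le hs)).inl (show R π from X π .h ^ n))) = 1 := by
  change chi π (C2b44.kill π (X π .h ^ n)) = 1
  rw [chi_kill, chi_hpow]

theorem chis_y : (chs π s hs).χ ((CEbr247.ev (KHc302.CEr π s hs)).p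
    ((SM890.bdM π s (two_le hs)).inl (X π (.y 0)))) = 0 := by
  change chi π (C2b44.kill π (X π (.y 0))) = 0
  rw [C2b44.kill_y, map_zero]

/-- **the form of `DV_{-2}` asked by `ac_of_win`** -/
def pbs : VT339.PB (wdatG π s (two_le hs) (three_le s hs)) (DVs π s hs) :=
  pbDV π s (two_le hs) (chs π s hs) rfl (three_le s hs) (chis_h π s hs) (chis_y π s hs)

/-- **(V2)**: a right `Γ`-module complex whose homology is supported on the row `i = 0` with `h`
bijective gives an acyclic `G ⊗ X` if `DV_{-2} ⊗ X` is acyclic -/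
theorem ac_of_HB {G : RM (SM890.Gm π s (two_le hs))} {X : LCells (SM890.Gm π s (two_le hs))}
    (hP : Ac (tG (A := SM890.Gm π s (two_le hs)) (DVs π s hs) X))
    (h : ∀ n, VT339.HB (wdatG π s (two_le hs) (three_le s hs)) G n) : Ac (tG G X) :=
  VT339.ac_of_win (pbs π s hs) (ones π s hs) hP h

end Crest.Agent.R186.V2q510
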