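import Mathlib
import Crest.Agent.R186.DefsQ_830

-- ▼ part R186/VOp_220
section

/-!
# Row 186, leaf R4 (helper220): the `q`-Weyl operators on `K[x, y]`

`Pol K = (ℕ × ℕ) →₀ K` with basis `mon a b = x^a y^b`.
Operators (LEFT composition): `X0, X1` multiplication, `D0 (x^a y^b) = [a] x^(a-1) y^b`,
`D1 (x^a y^b) = g^a [b] x^a y^(b-1)`, `T0 (x^a y^b) = g^(a+b) x^a y^b`.
-/

set_option autoImplicit false

namespace Crest.Agent.R186.VOp220

open Finset

variable {K : Type*} [Field K] (g : K)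

/-- `[a] = 1 + g + ... + g^(a-1)` -/
def qn (g : K) (a : ℕ) : K := ∑ i ∈ range a, g ^ i

@[simp] lemma qn_zero : qn g 0 = 0 := by simp [qn]

lemma qn_succ (a : ℕ) : qn g (a + 1) = 1 + g * qn g a := by
  unfold qn
  rw [Finset.sum_range_succ', Finset.mul_sum]
  simp only [pow_succ']
  simp [add_comm]

lemma qn_succ' (a : ℕ) : qn g (a + 1) = qn g a + g ^ a := by
  simp [qn, Finset.sum_range_succ]

lemma sub_mul_qn (a : ℕ) : (g - 1) * qn g a = g ^ a - 1 := by
  unfold qn
  rw [mul_comm]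
  exact geom_sum_mul g a


/-- polynomials in two variables (basis `mon a b`) -/
abbrev Pol (K : Type*) [Field K] : Type _ := (ℕ × ℕ) →₀ K

/-- the monomial `x^a y^b` -/
noncomputable def mon (K : Type*) [Field K] (a b : ℕ) : Pol K := Finsupp.single (a, b) 1

/-- the diagonal-shift operator: `x^a y^b ↦ c(a,b) x^(s a) y^(t b)` -/
noncomputable def op (c : ℕ → ℕ → K) (s t : ℕ → ℕ) : Pol K →ₗ[K] Pol K :=
  Finsupp.lsum K (fun p : ℕ × ℕ => (LinearMap.toSpanSingleton K (Pol K) (c p.1 p.2 • mon K (s p.1) (t p.2))))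

@[simp] lemma op_mon (c : ℕ → ℕ → K) (s t : ℕ → ℕ) (a b : ℕ) :
    op c s t (mon K a b) = c a b • mon K (s a) (t b) := by
  simp [op, mon]

lemma ext_mon {M : Type*} [AddCommGroup M] [Module K M] {f h : Pol K →ₗ[K] M}
    (H : ∀ a b, f (mon K a b) = h (mon K a b)) : f = h := by
  refine Finsupp.lhom_ext' fun p => LinearMap.ext_ring ?_
  simpa [mon] using H p.1 p.2

noncomputable def X0 : Pol K →ₗ[K] Pol K := op (fun _ _ => 1) (fun a => a + 1) (fun b => b)
noncomputable def X1 : Pol K →ₗ[K] Pol K := op (fun _ _ => 1) (fun a => a) (fun b => b + 1)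
noncomputable def D0 : Pol K →ₗ[K] Pol K := op (fun a _ => qn g a) (fun a => a - 1) (fun b => b)
noncomputable def D1 : Pol K →ₗ[K] Pol K := op (fun a b => g ^ a * qn g b) (fun a => a) (fun b => b - 1)
noncomputable def T0 : Pol K →ₗ[K] Pol K := op (fun a b => g ^ (a + b)) (fun a => a) (fun b => b)

@[simp] lemma X0_mon (a b : ℕ) : X0 (mon K a b) = mon K (a + 1) b := by simp [X0]
@[simp] lemma X1_mon (a b : ℕ) : X1 (mon K a b) = mon K a (b + 1) := by simp [X1]
@[simp] lemma D0_mon (a b : ℕ) : D0 g (mon K a b) = qn g a • mon K (a - 1) b := by simp [D0]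
@[simp] lemma D1_mon (a b : ℕ) : D1 g (mon K a b) = (g ^ a * qn g b) • mon K a (b - 1) := by simp [D1]
@[simp] lemma T0_mon (a b : ℕ) : T0 g (mon K a b) = g ^ (a + b) • mon K a b := by simp [T0]

/-! ## relations, `LEFT` order -/

lemma rel_x : (X0 : Pol K →ₗ[K] Pol K) * X1 = X1 * X0 := by
  apply ext_mon; intro a b; simp

lemma rel_d0x0 : D0 g * X0 = 1 + g • (X0 * D0 g) := by
  apply ext_mon; intro a b
  rcases a with _ | a
  · simp [qn_succ]
  · simp only [Module.End.mul_apply, X0_mon, D0_mon, LinearMap.add_apply, LinearMap.smul_apply, map_smul,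
      Module.End.one_apply, Nat.add_sub_cancel]
    rw [qn_succ g (a + 1), add_smul, one_smul, mul_smul]

lemma rel_d0x1 : D0 g * X1 = X1 * D0 g := by
  apply ext_mon; intro a b; simp

lemma rel_d1x0 : D1 g * X0 = g • (X0 * D1 g) := by
  apply ext_mon; intro a b
  simp only [Module.End.mul_apply, X0_mon, D1_mon, LinearMap.smul_apply, map_smul, smul_smul]
  congr 1
  ring

lemma e_l (a : ℕ) (c : K) (b : ℕ) : (c * qn g a) • mon K (a - 1 + 1) b = (c * qn g a) • mon K a b := by
  rcases a with _ | a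
  · simp
  · simp

lemma e_r (a : ℕ) (c : K) (b : ℕ) : (c * qn g b) • mon K a (b - 1 + 1) = (c * qn g b) • mon K a b := by
  rcases b with _ | b
  · simp
  · simp

lemma rel_d1x1 : D1 g * X1 = 1 + g • (X1 * D1 g) + (g - 1) • (X0 * D0 g) := by
  apply ext_mon; intro a b
  simp only [Module.End.mul_apply, LinearMap.add_apply, LinearMap.smul_apply, X1_mon, X0_mon, D1_mon, D0_mon,
    map_smul, Module.End.one_apply, Nat.add_sub_cancel, smul_smul, ← mul_assoc]
  rw [e_l, e_r, sub_mul_qn, qn_succ]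
  rw [show mon K a b + (g * g ^ a * qn g b) • mon K a b + (g ^ a - 1) • mon K a b
      = (1 + (g * g ^ a * qn g b) + (g ^ a - 1)) • mon K a b by
    rw [add_smul, add_smul, one_smul]]
  congr 1
  ring

lemma rel_dd : D0 g * D1 g = g • (D1 g * D0 g) := by
  apply ext_mon; intro a b
  rcases a with _ | a
  · simp
  · simp only [Module.End.mul_apply, D0_mon, D1_mon, LinearMap.smul_apply, map_smul, smul_smul,
      Nat.add_sub_cancel]
    congr 1
    ring




/-! ## homogeneous parts -/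

/-- degree `m` part (`m : ℤ`, zero for `m < 0`) -/
def hom (K : Type*) [Field K] (m : ℤ) : Submodule K (Pol K) :=
  Finsupp.supported K K {p : ℕ × ℕ | (p.1 : ℤ) + p.2 = m}

lemma hom_eq_span (m : ℤ) :
    hom K m = Submodule.span K {v | ∃ a b : ℕ, (a : ℤ) + b = m ∧ v = mon K a b} := by
  rw [hom, Finsupp.supported_eq_span_single]
  congr 1
  ext v
  constructor
  · rintro ⟨p, hp, rfl⟩
    exact ⟨p.1, p.2, hp, rfl⟩
  · rintro ⟨a, b, hab, rfl⟩
    exact ⟨(a, b), hab, rfl⟩

lemma mon_mem {a b : ℕ} {m : ℤ} (h : (a : ℤ) + b = m) : mon K a b ∈ hom K m := by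
  rw [hom_eq_span]; exact Submodule.subset_span ⟨a, b, h, rfl⟩

lemma hom_le {m : ℤ} {p : Submodule K (Pol K)} (H : ∀ a b : ℕ, (a : ℤ) + b = m → mon K a b ∈ p) :
    hom K m ≤ p := by
  rw [hom_eq_span, Submodule.span_le]
  rintro v ⟨a, b, hab, rfl⟩
  exact H a b hab

/-- two linear maps agree on the degree `m` part as soon as they agree on monomials of degree `m` -/
lemma eq_on {M : Type*} [AddCommGroup M] [Module K M] {f h : Pol K →ₗ[K] M} {m : ℤ}
    (H : ∀ a b : ℕ, (a : ℤ) + b = m → f (mon K a b) = h (mon K a b)) {v : Pol K} (hv : v ∈ hom K m) :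
    f v = h v := by
  have : hom K m ≤ LinearMap.eqLocus f h := hom_le fun a b hab => H a b hab
  exact this hv

lemma hom_neg {m : ℤ} (hm : m < 0) : hom K m = ⊥ := by
  rw [eq_bot_iff]
  refine hom_le fun a b hab => ?_
  exfalso; omega

/-- `K[x,y]_m` has the monomials `x^i y^(m-i)` as a basis -/
lemma hom_nat (m : ℕ) : hom K (m : ℤ) = Submodule.span K (Set.range fun i : Fin (m + 1) => mon K (i : ℕ) (m - i)) := by
  apply le_antisymm
  · refine hom_le fun a b hab => ?_
    have : a + b = m := by exact_mod_cast hab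
    refine Submodule.subset_span ⟨⟨a, by omega⟩, ?_⟩
    show mon K a (m - a) = mon K a b
    rw [← this, Nat.add_sub_cancel_left]
  · rw [Submodule.span_le]
    rintro v ⟨i, rfl⟩
    apply mon_mem
    have := i.2
    show ((i : ℕ) : ℤ) + ((m - (i : ℕ) : ℕ) : ℤ) = m
    omega

instance hom_fd (m : ℤ) : FiniteDimensional K (hom K m) := by
  rcases lt_or_ge m 0 with hm | hm
  · rw [hom_neg hm]; infer_instance
  · obtain ⟨n, rfl⟩ := Int.eq_ofNat_of_zero_le hm
    rw [hom_nat]
    exact FiniteDimensional.span_of_finite K (Set.finite_range _)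

lemma X0_hom {m : ℤ} {v : Pol K} (hv : v ∈ hom K m) : X0 v ∈ hom K (m + 1) := by
  have : hom K m ≤ (hom K (m + 1)).comap X0 := hom_le fun a b hab => by
    rw [Submodule.mem_comap]
    rw [X0_mon]; apply mon_mem; push_cast; omega
  exact this hv

lemma X1_hom {m : ℤ} {v : Pol K} (hv : v ∈ hom K m) : X1 v ∈ hom K (m + 1) := by
  have : hom K m ≤ (hom K (m + 1)).comap X1 := hom_le fun a b hab => by
    rw [Submodule.mem_comap]
    rw [X1_mon]; apply mon_mem; push_cast; omega
  exact this hv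

lemma D0_hom {m : ℤ} {v : Pol K} (hv : v ∈ hom K m) : D0 g v ∈ hom K (m - 1) := by
  have : hom K m ≤ (hom K (m - 1)).comap (D0 g) := hom_le fun a b hab => by
    rw [Submodule.mem_comap]
    rw [D0_mon]
    rcases a with _ | a
    · simp
    · apply Submodule.smul_mem; apply mon_mem
      simp only [Nat.add_sub_cancel]; push_cast at hab; omega
  exact this hv

lemma D1_hom {m : ℤ} {v : Pol K} (hv : v ∈ hom K m) : D1 g v ∈ hom K (m - 1) := by
  have : hom K m ≤ (hom K (m - 1)).comap (D1 g) := hom_le fun a b hab => by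
    rw [Submodule.mem_comap]
    rw [D1_mon]
    rcases b with _ | b
    · simp
    · apply Submodule.smul_mem; apply mon_mem
      simp only [Nat.add_sub_cancel]; push_cast at hab; omega
  exact this hv


lemma T0_mem {m : ℤ} {v : Pol K} (hv : v ∈ hom K m) : T0 g v ∈ hom K m := by
  have : hom K m ≤ (hom K m).comap (T0 g) := hom_le fun a b hab => by
    rw [Submodule.mem_comap]
    rw [T0_mon]
    exact Submodule.smul_mem _ _ (mon_mem hab)
  exact this hv






/-- division by `x` -/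
noncomputable def S0 : Pol K →ₗ[K] Pol K := op (fun a _ => if a = 0 then 0 else 1) (fun a => a - 1) (fun b => b)
noncomputable def S1 : Pol K →ₗ[K] Pol K := op (fun _ b => if b = 0 then 0 else 1) (fun a => a) (fun b => b - 1)

@[simp] lemma S0_mon (a b : ℕ) : S0 (mon K a b) = (if a = 0 then (0 : K) else 1) • mon K (a - 1) b := by simp [S0]
@[simp] lemma S1_mon (a b : ℕ) : S1 (mon K a b) = (if b = 0 then (0 : K) else 1) • mon K a (b - 1) := by simp [S1]

lemma S0_hom {m : ℤ} {v : Pol K} (hv : v ∈ hom K m) : S0 v ∈ hom K (m - 1) := by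
  have : hom K m ≤ (hom K (m - 1)).comap S0 := hom_le fun a b hab => by
    rw [Submodule.mem_comap]
    rw [S0_mon]
    rcases a with _ | a
    · simp
    · apply Submodule.smul_mem; apply mon_mem
      simp only [Nat.add_sub_cancel]; push_cast at hab; omega
  exact this hv

lemma S1_hom {m : ℤ} {v : Pol K} (hv : v ∈ hom K m) : S1 v ∈ hom K (m - 1) := by
  have : hom K m ≤ (hom K (m - 1)).comap S1 := hom_le fun a b hab => by
    rw [Submodule.mem_comap]
    rw [S1_mon]
    rcases b with _ | b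
    · simp
    · apply Submodule.smul_mem; apply mon_mem
      simp only [Nat.add_sub_cancel]; push_cast at hab; omega
  exact this hv








end Crest.Agent.R186.VOp220
end

-- ▼ part R186/Vmod_220

/-!
# Row 186, leaf R4 (helper220): the modules `V_n` over `R''` (model `DefsQ_830`)

`rep : R π →ₐ[K] Module.End K (Pol K)`: `x_i` multiplication, `h ↦ 1`, `d_j` the `q`-derivations in the
printed (LEFT) convention, all other letters act by `0`.  `V_n (i, b) = hom K (n + i)`.
-/

set_option autoImplicit false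

namespace Crest.Agent.R186.Vmod220

open Crest.Agent.R186.VOp220 Crest.Agent.R186.DefsQ830

variable {K : Type} [Field K] (π : Par K)

/-- the operator of `d_0`: `x^a y^b ↦ -(g⁻¹ + .. + g⁻ᵃ) x^(a-1) y^b` -/
noncomputable def E0 (g : K) : Pol K →ₗ[K] Pol K := (-g⁻¹) • D0 g⁻¹
/-- the operator of `d_1` -/
noncomputable def E1 (g : K) : Pol K →ₗ[K] Pol K := (-(g⁻¹) ^ 2) • D1 g⁻¹

section ops
variable {g : K}

lemma E0_mon (a b : ℕ) : E0 g (mon K a b) = (-(g⁻¹ * qn g⁻¹ a)) • mon K (a - 1) b := by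
  simp [E0, smul_smul]

lemma E1_mon (a b : ℕ) :
    E1 g (mon K a b) = (-((g⁻¹) ^ 2 * ((g⁻¹) ^ a * qn g⁻¹ b))) • mon K a (b - 1) := by
  simp [E1, smul_smul]

lemma r00 (hg : g ≠ 0) : (X0 : Pol K →ₗ[K] Pol K) * E0 g = 1 + g • (E0 g * X0) := by
  have := rel_d0x0 (K := K) g⁻¹
  have h : E0 g * X0 = (-g⁻¹) • (1 : Pol K →ₗ[K] Pol K) + g⁻¹ • (X0 * E0 g) := by
    rw [E0, smul_mul_assoc, this, mul_smul_comm, smul_add, smul_smul, smul_smul]
    congr 2; ring
  rw [h, smul_add, smul_smul, smul_smul, mul_inv_cancel₀ hg, one_smul,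
    show g * -g⁻¹ = (-1 : K) by rw [mul_neg, mul_inv_cancel₀ hg]]
  refine LinearMap.ext fun v => ?_
  simp only [LinearMap.add_apply, LinearMap.smul_apply, Module.End.one_apply, neg_one_smul]
  abel

lemma r01 (hg : g ≠ 0) : (X0 : Pol K →ₗ[K] Pol K) * E1 g = g • (E1 g * X0) := by
  rw [E1, smul_mul_assoc, rel_d1x0, mul_smul_comm, smul_smul, smul_smul]
  congr 1
  field_simp

lemma r10 : (X1 : Pol K →ₗ[K] Pol K) * E0 g = E0 g * X1 := by
  rw [E0, smul_mul_assoc, rel_d0x1, mul_smul_comm]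

lemma r11 (hg : g ≠ 0) :
    (X1 : Pol K →ₗ[K] Pol K) * E1 g = 1 + g • (E1 g * X1) + (g - 1) • (E0 g * X0) := by
  have h0 : E0 g * X0 = (-g⁻¹) • (1 : Pol K →ₗ[K] Pol K) + (-(g⁻¹ * g⁻¹)) • (X0 * D0 g⁻¹) := by
    rw [E0, smul_mul_assoc, rel_d0x0 (K := K) g⁻¹, smul_add, smul_smul]
    congr 2; ring
  have h1 : E1 g * X1 = (-(g⁻¹) ^ 2) • (1 : Pol K →ₗ[K] Pol K)
      + (-(g⁻¹) ^ 2 * g⁻¹) • (X1 * D1 g⁻¹) + (-(g⁻¹) ^ 2 * (g⁻¹ - 1)) • (X0 * D0 g⁻¹) := by
    rw [E1, smul_mul_assoc, rel_d1x1 (K := K) g⁻¹, smul_add, smul_add, smul_smul, smul_smul]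
  rw [h0, h1, E1, mul_smul_comm]
  simp only [smul_add, smul_smul]
  rw [show (1 : Pol K →ₗ[K] Pol K) + ((g * -g⁻¹ ^ 2) • (1 : Pol K →ₗ[K] Pol K)
      + (g * (-g⁻¹ ^ 2 * g⁻¹)) • (X1 * D1 g⁻¹) + (g * (-g⁻¹ ^ 2 * (g⁻¹ - 1))) • (X0 * D0 g⁻¹))
      + (((g - 1) * -g⁻¹) • (1 : Pol K →ₗ[K] Pol K) + ((g - 1) * -(g⁻¹ * g⁻¹)) • (X0 * D0 g⁻¹))
      = (1 + g * -g⁻¹ ^ 2 + (g - 1) * -g⁻¹) • (1 : Pol K →ₗ[K] Pol K)
      + (g * (-g⁻¹ ^ 2 * g⁻¹)) • (X1 * D1 g⁻¹)
      + (g * (-g⁻¹ ^ 2 * (g⁻¹ - 1)) + (g - 1) * -(g⁻¹ * g⁻¹)) • (X0 * D0 g⁻¹) by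
    rw [add_smul, add_smul, add_smul, one_smul]; abel]
  rw [show (1 + g * -g⁻¹ ^ 2 + (g - 1) * -g⁻¹) = (0 : K) by field_simp; ring,
    show (g * (-g⁻¹ ^ 2 * (g⁻¹ - 1)) + (g - 1) * -(g⁻¹ * g⁻¹)) = (0 : K) by field_simp; ring,
    zero_smul, zero_smul, zero_add, add_zero]
  congr 1
  field_simp

lemma rdd (hg : g ≠ 0) : E1 g * E0 g = g • (E0 g * E1 g) := by
  rw [E0, E1, smul_mul_assoc, mul_smul_comm, smul_mul_assoc, mul_smul_comm, rel_dd]
  simp only [smul_smul]
  congr 1
  field_simp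

/-- `t` acts on the degree `m` part by `g^(-(m+2))` -/
lemma t_hom (hg : g ≠ 0) {m : ℕ} {v : Pol K} (hv : v ∈ hom K (m : ℤ)) :
    v + (g - 1) • (E0 g (X0 v) + E1 g (X1 v)) = (g⁻¹) ^ (m + 2) • v := by
  refine eq_on (f := 1 + (g - 1) • (E0 g * X0 + E1 g * X1)) (h := (g⁻¹) ^ (m + 2) • LinearMap.id)
    (fun a b hab => ?_) hv
  have hab' : a + b = m := by exact_mod_cast hab
  simp only [Module.End.mul_apply, LinearMap.add_apply, LinearMap.smul_apply, X1_mon, X0_mon, E1_mon, E0_mon,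
    Module.End.one_apply, LinearMap.id_apply, Nat.add_sub_cancel]
  rw [smul_add, smul_smul, smul_smul]
  have hi : g * g⁻¹ = 1 := mul_inv_cancel₀ hg
  have k0 : (g - 1) * -(g⁻¹ * qn g⁻¹ (a + 1)) = (g⁻¹) ^ (a + 1) - 1 := by
    rw [← sub_mul_qn]; linear_combination (-qn g⁻¹ (a + 1)) * hi
  have k1 : (g - 1) * -((g⁻¹) ^ 2 * ((g⁻¹) ^ a * qn g⁻¹ (b + 1)))
      = (g⁻¹) ^ (a + 1) * ((g⁻¹) ^ (b + 1) - 1) := by
    rw [← sub_mul_qn, pow_succ]; linear_combination (-(g⁻¹ * g⁻¹ ^ a * qn g⁻¹ (b + 1))) * hi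
  rw [k0, k1, show mon K a b + (((g⁻¹) ^ (a + 1) - 1) • mon K a b
      + ((g⁻¹) ^ (a + 1) * ((g⁻¹) ^ (b + 1) - 1)) • mon K a b)
      = (1 + (((g⁻¹) ^ (a + 1) - 1) + ((g⁻¹) ^ (a + 1) * ((g⁻¹) ^ (b + 1) - 1)))) • mon K a b by
    rw [add_smul, one_smul, add_smul]]
  congr 1
  rw [← hab']; ring

lemma E0_hom {m : ℤ} {v : Pol K} (hv : v ∈ hom K m) : E0 g v ∈ hom K (m - 1) :=
  Submodule.smul_mem _ _ (D0_hom _ hv)

lemma E1_hom {m : ℤ} {v : Pol K} (hv : v ∈ hom K m) : E1 g v ∈ hom K (m - 1) :=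
  Submodule.smul_mem _ _ (D1_hom _ hv)






end ops

/-! ## the representation -/

/-- operators of the letters -/
noncomputable def opG (g : K) : Gen → Module.End K (Pol K)
  | .x i => if i = 0 then X0 else X1
  | .h => 1
  | .d j => if j = 0 then E0 g else E1 g
  | _ => 0

/-- lift to the free algebra -/
noncomputable def repF (g : K) : F K →ₐ[K] Module.End K (Pol K) := FreeAlgebra.lift K (opG g)

@[simp] lemma repF_L (g : K) (a : Gen) : repF g (L K a) = opG g a := by
  simp [repF, L]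

lemma repF_rel {a b : F K} (h : Rel π a b) : repF π.g a = repF π.g b := by
  induction h with
  | xx => simp only [map_mul, repF_L, opG]; exact rel_x
  | hc a => simp only [map_mul, repF_L]; simp [opG]
  | x0d0 => simp only [map_mul, map_add, map_smul, repF_L]; simpa [opG] using r00 π.g0
  | x0d1 => simp only [map_mul, map_add, map_smul, repF_L]; simpa [opG] using r01 π.g0
  | x1d0 => simp only [map_mul, map_add, map_smul, repF_L]; simpa [opG] using r10
  | x1d1 => simp only [map_mul, map_add, map_smul, repF_L]; simpa [opG] using r11 π.g0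
  | _ => simp only [map_mul, map_add, map_smul, repF_L, map_zero]; simp [opG]

/-- the representation of `R''` on `K[x, y]` (all `V_n` are this module with shifted grading) -/
noncomputable def rep : R π →ₐ[K] Module.End K (Pol K) :=
  RingQuot.liftAlgHom K ⟨repF π.g, fun _ _ h => repF_rel π h⟩

@[simp] lemma rep_mk (a : F K) : rep π (mk π a) = repF π.g a := by
  simp [rep, mk]

@[simp] lemma rep_X (a : Gen) : rep π (X π a) = opG π.g a := by
  rw [X, rep_mk, repF_L]

lemma rep_x0 : rep π (X π (.x 0)) = X0 := by simp [opG]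
lemma rep_x1 : rep π (X π (.x 1)) = X1 := by simp [opG]
lemma rep_h : rep π (X π .h) = 1 := by simp [opG]
lemma rep_d0 : rep π (X π (.d 0)) = E0 π.g := by simp [opG]
lemma rep_d1 : rep π (X π (.d 1)) = E1 π.g := by simp [opG]

/-- the letters which act by zero -/
def isZ : Gen → Bool
  | .x _ => false
  | .h => false
  | .d _ => false
  | _ => true

lemma opG_isZ (g : K) {a : Gen} (ha : isZ a = true) : opG g a = 0 := by
  cases a <;> first | rfl | simp [isZ] at ha

lemma rep_isZ {a : Gen} (ha : isZ a = true) : rep π (X π a) = 0 := by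
  rw [rep_X, opG_isZ _ ha]

lemma rep_rF : repF π.g (rF π) = 0 := by
  have h := rdd (K := K) π.g0
  have h2 : (2 : K) = 0 := π.two
  simp only [rF, map_add, map_mul, map_smul, repF_L]
  simp only [opG, if_true, if_neg (show ¬ ((1 : Fin 2) = 0) by decide)]
  rw [h, ← two_smul K, h2, zero_smul]

/-- the differential of a letter acts by zero -/
lemma repF_dGen (a : Gen) : repF π.g (dGen π a) = 0 := by
  cases a with
  | z j => simp only [dGen, map_mul, rep_rF, mul_zero]
  | zc => simp only [dGen, map_mul, map_add, map_smul, repF_L]; simp [opG]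
  | e j => simp only [dGen, map_mul, map_add, map_smul, repF_L]; simp [opG]
  | gj j => simp only [dGen, rhoF, map_mul, map_add, map_smul, repF_L]; simp [opG]
  | gc => simp only [dGen, map_mul, map_add, map_smul, repF_L]; simp [opG]
  | u s => simp only [dGen, map_mul, repF_L]; simp [opG]
  | v s => simp only [dGen, map_mul, map_add, map_smul, repF_L]; simp [opG]
  | _ => simp [dGen]

/-- `V` is a dg module with zero differential: `D r` acts by zero for every `r` -/
lemma rep_D {D : R π →ₗ[K] R π} (hD : IsDiff π D) (r : R π) : rep π (D r) = 0 := by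
  have hone : D 1 = 0 := by
    have := hD.leib 1 1
    rw [one_mul, mul_one, one_mul] at this
    simpa using this
  obtain ⟨a, rfl⟩ := RingQuot.mkAlgHom_surjective K (Rel π) r
  induction a using FreeAlgebra.induction with
  | grade0 c =>
    rw [AlgHom.commutes, Algebra.algebraMap_eq_smul_one, map_smul, hone, smul_zero, map_zero]
  | grade1 a =>
    have := hD.gen a
    rw [X, mk, L] at this
    rw [this]
    have e := rep_mk π (dGen π a)
    rw [mk] at e
    rw [e, repF_dGen]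
  | mul a b ha hb =>
    rw [map_mul, hD.leib, map_add, map_mul, map_mul, ha, hb, zero_mul, mul_zero, add_zero]
  | add a b ha hb =>
    rw [map_add, map_add, map_add, ha, hb, add_zero]

/-! ## degrees -/

lemma opG_hom (g : K) (a : Gen) {m : ℤ} {v : Pol K} (hv : v ∈ hom K m) :
    opG g a v ∈ hom K (m + a.dP) := by
  cases a with
  | x i =>
    show (if i = 0 then X0 else X1 : Module.End K (Pol K)) v ∈ hom K (m + 1)
    split_ifs
    · exact X0_hom hv
    · exact X1_hom hv
  | h => show v ∈ hom K (m + 0); rwa [add_zero]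
  | d j =>
    show (if j = 0 then E0 g else E1 g : Module.End K (Pol K)) v ∈ hom K (m + -1)
    split_ifs
    · exact E0_hom hv
    · exact E1_hom hv
  | _ => exact Submodule.zero_mem _

lemma rep_wd (w : List Gen) {m : ℤ} {v : Pol K} (hv : v ∈ hom K m) :
    rep π (wd π w) v ∈ hom K (m + wP w) := by
  induction w with
  | nil => simpa [wd, wP] using hv
  | cons a w ih =>
    have e1 : wd π (a :: w) = X π a * wd π w := by simp [wd]
    have e2 : wP (a :: w) = a.dP + wP w := by simp [wP]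
    rw [e1, map_mul, Module.End.mul_apply, rep_X, e2, show m + (a.dP + wP w) = (m + wP w) + a.dP by ring]
    exact opG_hom _ a ih

/-- `R''_(P,A)` maps degree `m` to degree `m + P` -/
lemma rep_pcB {P : ℤ} {A : ℕ} {r : R π} (hr : r ∈ pcB π P A) {m : ℤ} {v : Pol K} (hv : v ∈ hom K m) :
    rep π r v ∈ hom K (m + P) := by
  have : pcB π P A ≤ (hom K (m + P)).comap
      ((LinearMap.applyₗ (R := K) (M₂ := Pol K) v).comp (rep π).toLinearMap) := by
    rw [pcB, Submodule.span_le]
    rintro r ⟨w, hP, _, rfl⟩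
    rw [← hP]
    exact rep_wd π w hv
  exact this hr

/-- `V_n (i, b) = K[x, y]_(n+i)` -/
abbrev VV (K : Type) [Field K] (n : ℤ) (o : Ob) : Submodule K (Pol K) := hom K (n + (o.1.val : ℤ))

lemma rep_ent {n : ℤ} {o o' : Ob} {r : R π} (hr : r ∈ ent π o' o) {v : Pol K} (hv : v ∈ VV K n o) :
    rep π r v ∈ VV K n o' := by
  unfold ent at hr
  split_ifs at hr with h
  · have := rep_pcB π hr hv
    have e : n + (o.1.val : ℤ) + difP o o' = n + (o'.1.val : ℤ) := by unfold difP; ring
    rwa [e] at this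
  · have : r = 0 := by simpa using hr
    rw [this, map_zero]
    exact Submodule.zero_mem _

/-- action of an entry as a linear map `V_n(o) → V_n(o')` -/
noncomputable def act (n : ℤ) (o' o : Ob) : ent π o' o →ₗ[K] VV K n o →ₗ[K] VV K n o' where
  toFun r := ((rep π r.1).restrict (fun v hv => rep_ent π r.2 hv))
  map_add' r s := by ext v; simp
  map_smul' c r := by ext v; simp

@[simp] lemma act_coe (n : ℤ) (o' o : Ob) (r : ent π o' o) (v : VV K n o) :
    (act π n o' o r v : Pol K) = rep π r.1 v.1 := rfl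


end Crest.Agent.R186.Vmod220
private theorem rz_e8bff013ff : type_of% @_root_.Crest.Agent.R186.Vmod220.isZ.eq_1 := @_root_.Crest.Agent.R186.Vmod220.isZ.eq_1 -- L206
private theorem rz_fec2707a3b : type_of% @_root_.Crest.Agent.R186.Vmod220.opG.eq_1 := @_root_.Crest.Agent.R186.Vmod220.opG.eq_1 -- L167
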