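import Crest.Agent.R186.WinA_810
import Crest.Agent.R186.Hat_827

/-!
Row 186, leaf R3, part 3 (helper810): from graded cells over a tri-graded differential algebra `S`
(all statements about homogeneous elements of `S`, row by row / column by column) to
`Hat827.Cells` of the window algebra, hence to a null pair.
-/

set_option autoImplicit false
set_option linter.style.haveILetI false

namespace Crest.Agent.R186.Win810

open Hat827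

variable {K : Type} [Field K]

open WD WMod

/-- graded cells over `S` -/
structure GCells (w : WD K) (M : WMod w) where
  nt : ∃ (i : w.Ob) (u : M.V), u ∈ M.W i ∧ u ≠ 0
  ι : Type
  s : ι → ℕ
  F : ℕ → Finset ι
  mem_F : ∀ m σ, σ ∈ F m ↔ s σ ≤ m
  o : ι → w.Ob
  c : ι → ι → w.S
  c_mem : ∀ σ τ, c σ τ ∈ w.q (o σ) (o τ) ((s σ : ℤ) - s τ - 1)
  mc : ∀ σ τ, w.D (c σ τ) + ∑ ρ ∈ F (s σ), c σ ρ * c ρ τ = 0
  v : ι → M.V
  v_mem : ∀ σ, v σ ∈ M.W (o σ)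
  v_zero : ∀ σ, s σ ≠ 0 → v σ = 0
  v_aug : ∀ σ, s σ = 1 → ∑ τ ∈ F 0, M.rho (c σ τ) (v τ) = 0
  exR : ∀ (m : ℕ) (i : w.Ob) (x : ι → w.S), (∀ σ, x σ ∈ w.q i (o σ) ((m : ℤ) + 1 - s σ)) →
    (∀ τ, w.D (x τ) + ∑ σ ∈ F (m + 1), x σ * c σ τ = 0) →
    ∃ y : ι → w.S, (∀ σ, y σ ∈ w.q i (o σ) ((m : ℤ) + 2 - s σ)) ∧
      ∀ τ, x τ = w.D (y τ) + ∑ σ ∈ F (m + 2), y σ * c σ τ
  exR0 : ∀ (i : w.Ob) (x : ι → w.S), (∀ σ, x σ ∈ w.q i (o σ) (-(s σ : ℤ))) →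
    ∑ σ ∈ F 0, M.rho (x σ) (v σ) = 0 →
    ∃ y : ι → w.S, (∀ σ, y σ ∈ w.q i (o σ) ((1 : ℤ) - s σ)) ∧
      ∀ τ, x τ = w.D (y τ) + ∑ σ ∈ F 1, y σ * c σ τ
  gen : ∀ (i : w.Ob) (u : M.V), u ∈ M.W i →
    ∃ x : ι → w.S, (∀ σ, x σ ∈ w.q i (o σ) (-(s σ : ℤ))) ∧ ∑ σ ∈ F 0, M.rho (x σ) (v σ) = u
  exV : ∀ (m : ℕ) (φ : ι → M.V), (∀ σ, φ σ ∈ M.W (o σ)) → (∀ σ, s σ ≠ m + 1 → φ σ = 0) →
    (∀ σ, s σ = m + 2 → ∑ τ ∈ F (m + 1), M.rho (c σ τ) (φ τ) = 0) →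
    ∃ ψ : ι → M.V, (∀ σ, ψ σ ∈ M.W (o σ)) ∧ (∀ σ, s σ ≠ m → ψ σ = 0) ∧
      ∀ σ, s σ = m + 1 → φ σ = ∑ τ ∈ F m, M.rho (c σ τ) (ψ τ)
  exC : ∀ (p : ℤ) (j : w.Ob) (φ : ι → w.S), (∀ σ, φ σ ∈ w.q (o σ) j ((s σ : ℤ) - p)) →
    (∀ σ, w.D (φ σ) + ∑ τ ∈ F (s σ), c σ τ * φ τ = 0) →
    ∃ ψ : ι → w.S, (∀ σ, ψ σ ∈ w.q (o σ) j ((s σ : ℤ) - p + 1)) ∧
      ∀ σ, φ σ = w.D (ψ σ) + ∑ τ ∈ F (s σ), c σ τ * ψ τ

namespace GCells

variable {w : WD K} {M : WMod w} (R : GCells w M)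

/-- the attaching elements in the window algebra -/
def cw (σ τ : R.ι) : w.Win := ws (R.o σ) (R.o τ) (R.c σ τ) (q_le _ _ _ (R.c_mem σ τ))

theorem mul_cw_apply (σ τ : R.ι) (x : w.Win) (i l : w.Ob) :
    (x * R.cw σ τ).1 i l = if R.o τ = l then x.1 i (R.o σ) * R.c σ τ else 0 :=
  mul_ws_apply _ _ _ _

theorem cw_mul_apply (σ τ : R.ι) (x : w.Win) (i l : w.Ob) :
    (R.cw σ τ * x).1 i l = if R.o σ = i then R.c σ τ * x.1 (R.o τ) l else 0 :=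
  ws_mul_apply _ _ _ _

theorem sum_apply {κ : Type} (s : Finset κ) (f : κ → w.Win) (i j : w.Ob) :
    (∑ k ∈ s, f k).1 i j = ∑ k ∈ s, (f k).1 i j := by
  classical
  induction s using Finset.induction_on with
  | empty => rfl
  | insert a s ha ih =>
    rw [Finset.sum_insert ha, Finset.sum_insert ha, ← ih]
    rfl

theorem vsum_apply {κ : Type} (s : Finset κ) (f : κ → M.VM) (i : w.Ob) :
    ((∑ k ∈ s, f k : M.VM) i).1 = ∑ k ∈ s, (f k i).1 := by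
  classical
  induction s using Finset.induction_on with
  | empty => rfl
  | insert a s ha ih =>
    rw [Finset.sum_insert ha, Finset.sum_insert ha, ← ih]
    rfl

theorem add_apply (a b : w.Win) (i j : w.Ob) : (a + b).1 i j = a.1 i j + b.1 i j := rfl

theorem cw_smul (σ τ : R.ι) (u : M.VM) (l : w.Ob) :
    ((R.cw σ τ • u : M.VM) l).1 = if R.o σ = l then M.rho (R.c σ τ) (u (R.o τ)).1 else 0 :=
  M.ws_smul _ _ _

theorem rho_sum_col (x : w.Win) (o : w.Ob) (u : M.V) (hu : u ∈ M.W o) (i : w.Ob) :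
    ((x • M.mkV o u hu : M.VM) i).1 = M.rho (x.1 i o) u := by
  rw [WMod.smul_apply, Finset.sum_eq_single o]
  · rw [mkV_apply, if_pos rfl]
  · intro j _ hj
    rw [mkV_apply, if_neg (Ne.symm hj), map_zero]
  · intro h
    exact absurd (Finset.mem_univ _) h


end GCells


end Crest.Agent.R186.Win810
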